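import Mathlib

/-!
Problem-facing definitions for the David–Semmes problem: Ahlfors–David regularity, boundedness of
the truncated Riesz transforms, and uniform rectifiability by Lipschitz images of balls.
-/

noncomputable section

open MeasureTheory Metric Set
open scoped ENNReal NNReal

namespace Vale.Agent.P120

/-- Euclidean space of dimension `d`. -/
abbrev Spc (d : ℕ) := EuclideanSpace ℝ (Fin d)

/-- The kernel `z / |z|^(n+1)`, with value `0` at the origin. -/
def riesz {d : ℕ} (n : ℕ) (z : Spc d) : Spc d := (‖z‖ ^ (n + 1))⁻¹ • z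

/-- The truncated Riesz transform of `f` at `x`. -/
def rieszTrunc {d : ℕ} (n : ℕ) (μ : Measure (Spc d)) (ε : ℝ) (f : Spc d → ℝ) (x : Spc d) :
    Spc d :=
  ∫ y in {y | ε < ‖x - y‖}, f y • riesz n (x - y) ∂μ

/-- `n`-dimensional Ahlfors–David regularity at every point of the support and every scale up to
the diameter of the support, with open balls. -/
def IsADRegular {d : ℕ} (n : ℕ) (μ : Measure (Spc d)) : Prop :=
  ∃ C : ℝ, 1 ≤ C ∧ ∀ x ∈ μ.support, ∀ r : ℝ, 0 < r → ENNReal.ofReal r ≤ ediam μ.support →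
    ENNReal.ofReal (C⁻¹ * r ^ n) ≤ μ (ball x r) ∧ μ (ball x r) ≤ ENNReal.ofReal (C * r ^ n)

/-- Boundedness on `L²(μ)`: the truncated transforms of every real square-integrable function
converge absolutely at almost every point and are bounded in `L²` uniformly in the truncation. -/
def RieszBounded {d : ℕ} (n : ℕ) (μ : Measure (Spc d)) : Prop :=
  ∃ C : ℝ≥0, ∀ f : Spc d → ℝ, MemLp f 2 μ → ∀ ε : ℝ, 0 < ε →
    (∀ᵐ x ∂μ, IntegrableOn (fun y => f y • riesz n (x - y)) {y | ε < ‖x - y‖} μ) ∧
      eLpNorm (rieszTrunc n μ ε f) 2 μ ≤ C * eLpNorm f 2 μ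

/-- Uniform `n`-rectifiability: in every ball centred on the support, a fixed proportion of the
mass lies in a Lipschitz image of a ball of `ℝ^n` of the same radius. -/
def IsUniformlyRectifiable {d : ℕ} (n : ℕ) (μ : Measure (Spc d)) : Prop :=
  ∃ θ : ℝ, 0 < θ ∧ ∃ M : ℝ≥0, ∀ x ∈ μ.support, ∀ r : ℝ, 0 < r →
    ENNReal.ofReal r ≤ ediam μ.support →
    ∃ g : Spc n → Spc d, LipschitzOnWith M g (ball 0 r) ∧
      ENNReal.ofReal (θ * r ^ n) ≤ μ (ball x r ∩ g '' ball 0 r)

end Vale.Agent.P120
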