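import Mathlib
import Vale.Agent.P120.Defs

/-!
Internal vocabulary shared by all modules of the proof.
-/

noncomputable section

open MeasureTheory Metric Set Filter
open scoped ENNReal NNReal RealInnerProductSpace

namespace Vale.Agent.P120

variable {d : ℕ}

/-- upper growth at all points and all scales -/
def UpperReg (n : ℕ) (C : ℝ) (μ : Measure (Spc d)) : Prop :=
  ∀ (x : Spc d) (r : ℝ), 0 < r → μ (ball x r) ≤ ENNReal.ofReal (C * r ^ n)

/-- upper growth at all scales, lower growth on the support up to scale `D` -/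
structure Reg (n : ℕ) (C D : ℝ) (μ : Measure (Spc d)) : Prop where
  one_le : 1 ≤ C
  upper : UpperReg n C μ
  lower : ∀ x ∈ μ.support, ∀ r : ℝ, 0 < r → r ≤ D → ENNReal.ofReal (C⁻¹ * r ^ n) ≤ μ (ball x r)

/-- regular at all scales -/
def RegTop (n : ℕ) (C : ℝ) (μ : Measure (Spc d)) : Prop := ∀ D : ℝ, Reg n C D μ

/-- ramp: `0` on `(-∞,1]`, `1` on `[2,∞)` -/
def ramp (t : ℝ) : ℝ := min 1 (max 0 (t - 1))

/-- cut-off: `1` on `ball a R`, `0` outside `ball a (2R)`, affine in the distance in between -/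
def cut (a : Spc d) (R : ℝ) (x : Spc d) : ℝ := 1 - ramp (dist x a / R)

/-- smoothly truncated bilinear form of the Riesz transform -/
def trBil (n : ℕ) (μ : Measure (Spc d)) (ε : ℝ) (f g : Spc d → ℝ) : Spc d :=
  ∫ p : Spc d × Spc d,
    (f p.1 * g p.2 * ramp (‖p.1 - p.2‖ / ε)) • riesz n (p.1 - p.2) ∂(μ.prod μ)

/-- weak form of `L²`-boundedness, stable under scaling and vague limits -/
def RB (n : ℕ) (C : ℝ) (μ : Measure (Spc d)) : Prop :=
  ∀ ε : ℝ, 0 < ε → ∀ f g : Spc d → ℝ, Continuous f → HasCompactSupport f → Continuous g →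
    HasCompactSupport g →
    ‖trBil n μ ε f g‖ ≤ C * Real.sqrt (∫ x, f x ^ 2 ∂μ) * Real.sqrt (∫ x, g x ^ 2 ∂μ)

/-- truncated antisymmetrised pairing of `R 1` with `φ` -/
def pairL (n : ℕ) (μ : Measure (Spc d)) (L : ℝ) (φ : Spc d → ℝ) : Spc d :=
  (1/2 : ℝ) • ∫ p : Spc d × Spc d,
    (cut 0 L p.1 * cut 0 L p.2 * (φ p.1 - φ p.2)) • riesz n (p.1 - p.2) ∂(μ.prod μ)

/-- pairing of `R 1` with a mean-zero test function -/
def pairing (n : ℕ) (μ : Measure (Spc d)) (φ : Spc d → ℝ) : Spc d :=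
  limUnder atTop (fun L : ℝ => pairL n μ L φ)

/-- fractional energy of order one half -/
def En (n : ℕ) (μ : Measure (Spc d)) (φ : Spc d → ℝ) : ℝ≥0∞ :=
  ∫⁻ p : Spc d × Spc d,
    ENNReal.ofReal ((φ p.1 - φ p.2) ^ 2 / ‖p.1 - p.2‖ ^ (n + 1)) ∂(μ.prod μ)

/-- admissible test functions: Lipschitz, supported in `closedBall x R`, mean zero -/
structure Adm (μ : Measure (Spc d)) (x : Spc d) (R : ℝ) (φ : Spc d → ℝ) : Prop where
  lip : ∃ K : ℝ≥0, LipschitzWith K φ
  supp : tsupport φ ⊆ closedBall x R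
  mean : ∫ y, φ y ∂μ = 0

/-- squared oscillation of `R 1` at the ball `(x,r)`, normalised by the energy -/
def oscSq (n : ℕ) (μ : Measure (Spc d)) (M : ℝ) (x : Spc d) (r : ℝ) : ℝ≥0∞ :=
  ⨆ (φ : Spc d → ℝ) (_ : Adm μ x (M * r) φ),
    ENNReal.ofReal (‖pairing n μ φ‖ ^ 2) / (ENNReal.ofReal (r ^ (n + 1)) * En n μ φ)

/-- every mean-zero test pairing vanishes -/
def Reflectionless (n : ℕ) (μ : Measure (Spc d)) : Prop :=
  ∀ (x : Spc d) (R : ℝ) (φ : Spc d → ℝ), Adm μ x R φ → pairing n μ φ = 0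

/-- translate `a` to the origin and scale `r` to one, normalising the mass -/
def rescale (n : ℕ) (μ : Measure (Spc d)) (a : Spc d) (r : ℝ) : Measure (Spc d) :=
  ENNReal.ofReal ((r ^ n)⁻¹) • μ.map (fun y => r⁻¹ • (y - a))

/-- an affine `n`-plane, by a base point and an orthonormal frame -/
structure Plane (n d : ℕ) where
  base : Spc d
  frame : Fin n → Spc d
  orth : Orthonormal ℝ frame

namespace Plane

variable {n : ℕ}

/-- coordinates of the orthogonal projection -/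
def coord (L : Plane n d) (y : Spc d) : Spc n :=
  WithLp.toLp 2 (fun i => ⟪L.frame i, y - L.base⟫)

/-- the orthogonal deviation from the plane -/
def dev (L : Plane n d) (y : Spc d) : Spc d :=
  (y - L.base) - ∑ i, ⟪L.frame i, y - L.base⟫ • L.frame i

/-- the parametrisation of the plane -/
def param (L : Plane n d) (u : Spc n) : Spc d := L.base + ∑ i, u i • L.frame i

/-- the plane as a set -/
def carrier (L : Plane n d) : Set (Spc d) := range L.param

end Plane

/-- the support in `closedBall x R` is within `δ` of some `n`-plane -/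
def Flat (n : ℕ) (μ : Measure (Spc d)) (x : Spc d) (R δ : ℝ) : Prop :=
  ∃ L : Plane n d, ∀ y ∈ μ.support ∩ closedBall x R, ‖L.dev y‖ ≤ δ

/-- squared deviation of `μ` from a plane in a closed ball -/
def devSq {n : ℕ} (μ : Measure (Spc d)) (L : Plane n d) (x : Spc d) (R : ℝ) : ℝ :=
  ∫ y in closedBall x R, ‖L.dev y‖ ^ 2 ∂μ

/-- normalised squared `L²` flatness of the ball `(x, t)` dilated by `Λ` -/
def betaSq (n : ℕ) (μ : Measure (Spc d)) (Λ : ℝ) (x : Spc d) (t : ℝ) : ℝ :=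
  (⨅ L : Plane n d, devSq μ L x (Λ * t)) / t ^ (n + 2)

/-- the side length at level `k` of a system with unit `ρ` -/
def side (ρ : ℝ) (k : ℕ) : ℝ := ρ / 8 ^ k

/-- nested Borel partitions of the support into cubes of side `ρ / 8^k` -/
structure Cubes (μ : Measure (Spc d)) (ρ : ℝ) where
  X : ℕ → Set (Spc d)
  cell : ℕ → Spc d → Set (Spc d)
  parent : ℕ → Spc d → Spc d
  countable : ∀ k, (X k).Countable
  subset : ∀ k, X k ⊆ μ.support
  sep : ∀ k, ∀ x ∈ X k, ∀ y ∈ X k, x ≠ y → side ρ k ≤ dist x y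
  meas : ∀ k, ∀ z ∈ X k, MeasurableSet (cell k z)
  outer : ∀ k, ∀ z ∈ X k, cell k z ⊆ μ.support ∩ closedBall z (2 * side ρ k)
  inner : ∀ k, ∀ z ∈ X k, μ.support ∩ ball z (side ρ k / 8) ⊆ cell k z
  disj : ∀ k, (X k).PairwiseDisjoint (cell k)
  cover : ∀ k, μ.support ⊆ ⋃ z ∈ X k, cell k z
  parent_mem : ∀ k, ∀ z ∈ X (k + 1), parent k z ∈ X k
  nested : ∀ k, ∀ z ∈ X (k + 1), cell (k + 1) z ⊆ cell k (parent k z)

namespace Cubes

variable {μ : Measure (Spc d)} {ρ : ℝ}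

/-- `q` is a cube lying in the cube `p`, at the same or a finer level -/
def Below (Q : Cubes μ ρ) (q p : ℕ × Spc d) : Prop :=
  p.1 ≤ q.1 ∧ q.2 ∈ Q.X q.1 ∧ Q.cell q.1 q.2 ⊆ Q.cell p.1 p.2

/-- the cubes below `T` with no member of `E` above them -/
def tree (Q : Cubes μ ρ) (T : ℕ × Spc d) (E : Set (ℕ × Spc d)) : Set (ℕ × Spc d) :=
  {q | Q.Below q T ∧ ∀ e ∈ E, ¬ Q.Below q e}

/-- the part of `T` outside all members of `E` -/
def stay (Q : Cubes μ ρ) (T : ℕ × Spc d) (E : Set (ℕ × Spc d)) : Set (Spc d) :=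
  Q.cell T.1 T.2 \ ⋃ e ∈ E, Q.cell e.1 e.2

end Cubes

/-- one half of the fractional Laplacian, as second differences -/
def fracLap {n : ℕ} (h : Spc n → ℝ) (x : Spc n) : ℝ :=
  (1/2 : ℝ) * ∫ z : Spc n, (2 * h x - h (x + z) - h (x - z)) / ‖z‖ ^ (n + 1)

end Vale.Agent.P120
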