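import Mathlib
import Vale.Agent.P120.Core

/-!
Basic facts: the kernel, the cut-offs, and growth integrals.
-/

noncomputable section

open MeasureTheory Metric Set Filter Topology
open scoped ENNReal NNReal RealInnerProductSpace

namespace Vale.Agent.P120

variable {d : ℕ} {n : ℕ}

/-! ### Kernel -/

lemma riesz_zero : riesz n (0 : Spc d) = 0 := by simp [riesz]

lemma riesz_neg (z : Spc d) : riesz n (-z) = -riesz n z := by simp [riesz]

lemma riesz_sub_comm (x y : Spc d) : riesz n (y - x) = -riesz n (x - y) := by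
  rw [← riesz_neg, neg_sub]

lemma norm_riesz_le (z : Spc d) : ‖riesz n z‖ ≤ (‖z‖ ^ n)⁻¹ := by
  rcases eq_or_ne z 0 with rfl | hz
  · simp [riesz]
  · have hz' : 0 < ‖z‖ := norm_pos_iff.mpr hz
    rw [riesz, norm_smul, norm_inv, norm_pow, norm_norm, pow_succ]
    exact le_of_eq (by field_simp)

lemma inner_riesz (v z : Spc d) : ⟪v, riesz n z⟫ = ⟪v, z⟫ / ‖z‖ ^ (n + 1) := by
  rw [riesz, real_inner_smul_right]; ring

lemma riesz_smul {c : ℝ} (hc : 0 < c) (z : Spc d) :
    riesz n (c • z) = (c ^ n)⁻¹ • riesz n z := by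
  rw [riesz, riesz, norm_smul, Real.norm_eq_abs, abs_of_pos hc, mul_pow, smul_smul, smul_smul]
  congr 1
  rw [pow_succ]
  field_simp

@[fun_prop]
lemma measurable_riesz : Measurable (riesz n : Spc d → Spc d) := by
  unfold riesz; fun_prop

lemma continuousAt_riesz {z : Spc d} (hz : z ≠ 0) : ContinuousAt (riesz n) z := by
  unfold riesz
  exact (((continuous_norm.pow _).continuousAt).inv₀ (pow_ne_zero _ (norm_ne_zero_iff.mpr hz))).smul
    continuousAt_id

lemma norm_riesz_sub_le {x y : Spc d} (h : ‖x - y‖ ≤ ‖y‖ / 2) :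
    ‖riesz n x - riesz n y‖ ≤
      (2 ^ (n + 1) + (n + 1) * 3 ^ n * 2 ^ (n + 1) : ℝ) * ‖x - y‖ / ‖y‖ ^ (n + 1) := by
  rcases eq_or_ne y 0 with rfl | hy
  · have : x = 0 := by
      rw [norm_zero, zero_div, sub_zero, norm_le_zero_iff] at h
      exact h
    subst this; simp
  have hb : 0 < ‖y‖ := norm_pos_iff.mpr hy
  have hab : |‖x‖ - ‖y‖| ≤ ‖x - y‖ := abs_norm_sub_norm_le x y
  have ha : ‖y‖ / 2 ≤ ‖x‖ := by linarith [neg_abs_le (‖x‖ - ‖y‖)]
  have ha' : ‖x‖ ≤ 3 * ‖y‖ / 2 := by linarith [le_abs_self (‖x‖ - ‖y‖)]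
  have ha0 : 0 < ‖x‖ := by linarith
  have e : riesz n x - riesz n y = (‖x‖ ^ (n + 1))⁻¹ • (x - y)
      + ((‖x‖ ^ (n + 1))⁻¹ - (‖y‖ ^ (n + 1))⁻¹) • y := by
    simp only [riesz]; module
  rw [e]
  refine (norm_add_le _ _).trans ?_
  rw [norm_smul, norm_smul, add_mul, add_div]
  gcongr ?_ + ?_
  · rw [Real.norm_eq_abs, abs_of_pos (by positivity)]
    calc (‖x‖ ^ (n + 1))⁻¹ * ‖x - y‖ ≤ ((‖y‖ / 2) ^ (n + 1))⁻¹ * ‖x - y‖ := by gcongr
      _ = 2 ^ (n + 1) * ‖x - y‖ / ‖y‖ ^ (n + 1) := by rw [div_pow]; field_simp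
  · have hp := abs_pow_sub_pow_le ‖y‖ ‖x‖ (n + 1)
    rw [abs_of_pos ha0, abs_of_pos hb, Nat.add_sub_cancel] at hp
    have hm : max ‖y‖ ‖x‖ ≤ 3 * ‖y‖ / 2 := max_le (by linarith) ha'
    rw [inv_sub_inv (by positivity) (by positivity), Real.norm_eq_abs, abs_div,
      abs_of_pos (show (0 : ℝ) < ‖x‖ ^ (n + 1) * ‖y‖ ^ (n + 1) by positivity)]
    calc |‖y‖ ^ (n + 1) - ‖x‖ ^ (n + 1)| / (‖x‖ ^ (n + 1) * ‖y‖ ^ (n + 1)) * ‖y‖
        ≤ ‖x - y‖ * ((n + 1 : ℕ) : ℝ) * (3 * ‖y‖ / 2) ^ n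
            / ((‖y‖ / 2) ^ (n + 1) * ‖y‖ ^ (n + 1)) * ‖y‖ := by
          gcongr
          exact hp.trans (by rw [abs_sub_comm ‖y‖ ‖x‖]; gcongr)
      _ = ((n + 1 : ℕ) : ℝ) * (3 / 2) ^ n * 2 ^ (n + 1) * ‖x - y‖ / ‖y‖ ^ (n + 1) := by
          simp only [div_pow, mul_pow, pow_succ]
          field_simp
      _ ≤ (n + 1) * 3 ^ n * 2 ^ (n + 1) * ‖x - y‖ / ‖y‖ ^ (n + 1) := by
          push_cast
          gcongr
          norm_num

/-! ### Cut-offs -/

lemma ramp_nonneg (t : ℝ) : 0 ≤ ramp t := le_min zero_le_one (le_max_left _ _)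
lemma ramp_le_one (t : ℝ) : ramp t ≤ 1 := min_le_left _ _
lemma ramp_eq_zero {t : ℝ} (h : t ≤ 1) : ramp t = 0 := by simp [ramp, h]
lemma ramp_eq_one {t : ℝ} (h : 2 ≤ t) : ramp t = 1 := by
  rw [ramp, max_eq_right (by linarith), min_eq_left (by linarith)]

lemma lipschitz_ramp : LipschitzWith 1 ramp := by
  have h := ((LipschitzWith.id (α := ℝ)).sub (LipschitzWith.const (1 : ℝ)))
  rw [add_zero] at h
  exact (h.const_max 0).const_min 1

@[fun_prop]
lemma continuous_ramp : Continuous ramp := lipschitz_ramp.continuous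

lemma cut_nonneg (a : Spc d) (R : ℝ) (x : Spc d) : 0 ≤ cut a R x := sub_nonneg.mpr (ramp_le_one _)

lemma cut_le_one (a : Spc d) (R : ℝ) (x : Spc d) : cut a R x ≤ 1 := by
  have := ramp_nonneg (dist x a / R); simp only [cut]; linarith

lemma abs_cut_le_one (a : Spc d) (R : ℝ) (x : Spc d) : |cut a R x| ≤ 1 := by
  rw [abs_of_nonneg (cut_nonneg a R x)]; exact cut_le_one a R x

lemma cut_eq_one {a x : Spc d} {R : ℝ} (hR : 0 < R) (h : dist x a ≤ R) : cut a R x = 1 := by
  rw [cut, ramp_eq_zero ((div_le_one hR).mpr h), sub_zero]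

lemma cut_eq_zero {a x : Spc d} {R : ℝ} (hR : 0 < R) (h : 2 * R ≤ dist x a) : cut a R x = 0 := by
  rw [cut, ramp_eq_one ((le_div_iff₀ hR).mpr h), sub_self]

@[fun_prop]
lemma continuous_cut (a : Spc d) (R : ℝ) : Continuous (cut a R) := by
  unfold cut; fun_prop

lemma lipschitz_cut (a : Spc d) {R : ℝ} (hR : 0 < R) :
    LipschitzWith (Real.toNNReal R⁻¹) (cut a R) := by
  refine LipschitzWith.of_dist_le_mul fun x y => ?_
  rw [Real.coe_toNNReal _ (by positivity)]
  calc dist (cut a R x) (cut a R y) = dist (ramp (dist x a / R)) (ramp (dist y a / R)) := by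
        simp only [cut, Real.dist_eq]; rw [← abs_neg]; ring_nf
    _ ≤ (1 : ℝ≥0) * dist (dist x a / R) (dist y a / R) := lipschitz_ramp.dist_le_mul _ _
    _ = |dist x a - dist y a| / R := by
        rw [NNReal.coe_one, one_mul, Real.dist_eq, ← sub_div, abs_div, abs_of_pos hR]
    _ ≤ R⁻¹ * dist x y := by
        rw [inv_mul_eq_div]; gcongr; exact abs_dist_sub_le x y a

lemma tsupport_cut (a : Spc d) {R : ℝ} (hR : 0 < R) : tsupport (cut a R) ⊆ closedBall a (2 * R) :=
  closure_minimal (fun x hx => mem_closedBall.mpr (le_of_not_gt fun h =>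
    hx (cut_eq_zero hR h.le))) isClosed_closedBall

lemma hasCompactSupport_cut (a : Spc d) {R : ℝ} (hR : 0 < R) : HasCompactSupport (cut a R) :=
  IsCompact.of_isClosed_subset (isCompact_closedBall _ _) (isClosed_tsupport _) (tsupport_cut a hR)

lemma cut_smul_add (a : Spc d) {r : ℝ} (hr : 0 < r) (R : ℝ) (u : Spc d) :
    cut a (r * R) (a + r • u) = cut 0 R u := by
  simp [cut, dist_eq_norm, norm_smul, abs_of_pos hr, mul_div_mul_left _ _ hr.ne']

/-! ### Growth -/

variable {C D : ℝ} {μ : Measure (Spc d)}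

lemma UpperReg.closedBall_le (h : UpperReg n C μ) (x : Spc d) {r : ℝ} (hr : 0 < r) :
    μ (closedBall x r) ≤ ENNReal.ofReal (C * 2 ^ n * r ^ n) := by
  refine (measure_mono (closedBall_subset_ball (by linarith : r < 2 * r))).trans ?_
  refine (h x (2 * r) (by linarith)).trans (le_of_eq ?_)
  rw [mul_pow]; ring_nf

lemma UpperReg.nonneg_of_ne_zero (h : UpperReg n C μ) (hμ : μ ≠ 0) : 0 ≤ C := by
  by_contra hC
  push Not at hC
  refine hμ (Measure.measure_univ_eq_zero.mp ?_)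
  have hu : (⋃ k : ℕ, ball (0 : Spc d) (k + 1)) = univ := iUnion_eq_univ_iff.mpr fun y => by
    obtain ⟨k, hk⟩ := exists_nat_gt (dist y 0)
    exact ⟨k, mem_ball.mpr (by linarith)⟩
  rw [← hu]
  exact (measure_iUnion_null_iff (s := fun k : ℕ => ball (0 : Spc d) (k + 1))).mpr fun k => by
    refine le_antisymm ((h 0 _ (by positivity)).trans ?_) zero_le
    simp [ENNReal.ofReal_eq_zero, mul_nonpos_iff, hC.le, (by positivity : (0 : ℝ) ≤ ((k : ℝ) + 1) ^ n)]

lemma UpperReg.singleton (h : UpperReg n C μ) (hn : 1 ≤ n) (x : Spc d) : μ {x} = 0 := by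
  refine le_antisymm (ENNReal.le_of_forall_pos_le_add fun e he _ => ?_) zero_le
  rw [zero_add]
  have ht : Tendsto (fun r : ℝ => C * r ^ n) (𝓝[>] 0) (𝓝 0) := by
    have : Continuous fun r : ℝ => C * r ^ n := by fun_prop
    exact tendsto_nhdsWithin_of_tendsto_nhds (this.tendsto' 0 0 (by simp [zero_pow (by omega : n ≠ 0)]))
  obtain ⟨r, hr1, hr2⟩ := ((ht.eventually (Iio_mem_nhds (show (0 : ℝ) < e from he))).and
    self_mem_nhdsWithin).exists
  refine (measure_mono (singleton_subset_iff.mpr (mem_ball_self hr2))).trans ((h x r hr2).trans ?_)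
  rw [ENNReal.ofReal_le_iff_le_toReal ENNReal.coe_ne_top]
  exact le_of_lt hr1

lemma Reg.nonneg (h : Reg n C D μ) : 0 ≤ C := zero_le_one.trans h.one_le

lemma Reg.ball_real_le (h : Reg n C D μ) (x : Spc d) {r : ℝ} (hr : 0 < r) :
    μ.real (ball x r) ≤ C * r ^ n :=
  ENNReal.toReal_le_of_le_ofReal (mul_nonneg h.nonneg (by positivity)) (h.upper x r hr)

lemma Reg.closedBall_real_le (h : Reg n C D μ) (x : Spc d) {r : ℝ} (hr : 0 < r) :
    μ.real (closedBall x r) ≤ C * 2 ^ n * r ^ n :=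
  ENNReal.toReal_le_of_le_ofReal (mul_nonneg (mul_nonneg h.nonneg (by positivity)) (by positivity))
    (h.upper.closedBall_le x hr)

lemma Reg.le_ball_real [IsLocallyFiniteMeasure μ] (h : Reg n C D μ) {x : Spc d} (hx : x ∈ μ.support)
    {r : ℝ} (hr : 0 < r) (hrD : r ≤ D) : C⁻¹ * r ^ n ≤ μ.real (ball x r) :=
  (ENNReal.ofReal_le_iff_le_toReal measure_ball_lt_top.ne).mp (h.lower x hx r hr hrD)

lemma Reg.mono_D {D' : ℝ} (h : Reg n C D μ) (hD : D' ≤ D) : Reg n C D' μ :=
  ⟨h.one_le, h.upper, fun x hx r hr hrD => h.lower x hx r hr (hrD.trans hD)⟩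

lemma Reg.mono_C {C' : ℝ} (h : Reg n C D μ) (hC : C ≤ C') : Reg n C' D μ := by
  refine ⟨h.one_le.trans hC, fun x r hr => (h.upper x r hr).trans ?_, fun x hx r hr hrD =>
    le_trans ?_ (h.lower x hx r hr hrD)⟩
  · exact ENNReal.ofReal_le_ofReal (by gcongr)
  · exact ENNReal.ofReal_le_ofReal (by gcongr; linarith [h.one_le])

lemma RB.mono {C' : ℝ} (h : RB n C μ) (hC : C ≤ C') : RB n C' μ := fun ε hε f g a b c e =>
  (h ε hε f g a b c e).trans (by gcongr)

/-- the singular potential of order `n - 1` over a small ball -/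
lemma UpperReg.lintegral_near (h : UpperReg n C μ) (hn : 1 ≤ n) (x : Spc d) {r : ℝ} (hr : 0 < r) :
    ∫⁻ y in ball x r, ENNReal.ofReal (((dist y x) ^ (n - 1))⁻¹) ∂μ
      ≤ ENNReal.ofReal (2 ^ n * C * r) := by
  by_cases hμ : μ = 0
  · simp [hμ]
  have hC := h.nonneg_of_ne_zero hμ
  set c : ℕ → ℝ := fun j => ((r / 2 ^ (j + 1)) ^ (n - 1))⁻¹
  have hpt : ∀ y ∈ ball x r \ {x}, ENNReal.ofReal (((dist y x) ^ (n - 1))⁻¹) ≤
      ∑' j : ℕ, (ball x (r / 2 ^ j)).indicator (fun _ => ENNReal.ofReal (c j)) y := by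
    intro y hy
    have hd : 0 < dist y x := dist_pos.mpr hy.2
    obtain ⟨j, hj1, hj2⟩ := exists_nat_pow_near_of_lt_one (x := dist y x / r)
      (div_pos hd hr) ((div_le_one hr).mpr (mem_ball.mp hy.1).le) (show (0:ℝ) < 1/2 by norm_num)
      (by norm_num)
    rcases eq_or_lt_of_le hj2 with heq | hlt
    · cases j with
      | zero =>
        rw [pow_zero] at heq
        exact absurd (mem_ball.mp hy.1) (not_lt.mpr ((one_le_div hr).mp heq.ge))
      | succ i =>
        refine le_trans ?_ (ENNReal.le_tsum i)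
        have he : dist y x = r / 2 ^ (i + 1) := by
          rw [div_eq_iff hr.ne', one_div, inv_pow] at heq
          rw [heq]; ring
        rw [indicator_of_mem (by
          rw [mem_ball, he]
          exact div_lt_div_of_pos_left hr (by positivity) (pow_lt_pow_right₀ one_lt_two (by omega)))]
        rw [he]
    · refine le_trans ?_ (ENNReal.le_tsum j)
      have h1 : r / 2 ^ (j + 1) ≤ dist y x := by
        rw [one_div, inv_pow, lt_div_iff₀ hr, inv_mul_eq_div] at hj1
        exact hj1.le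
      have h2 : dist y x < r / 2 ^ j := by
        rw [one_div, inv_pow, div_lt_iff₀ hr, inv_mul_eq_div] at hlt
        exact hlt
      rw [indicator_of_mem (mem_ball.mpr h2)]
      exact ENNReal.ofReal_le_ofReal (inv_anti₀ (by positivity)
        (pow_le_pow_left₀ (by positivity) h1 _))
  have hae : (ball x r \ {x} : Set (Spc d)) =ᵐ[μ] ball x r :=
    diff_null_ae_eq_self (h.singleton hn x)
  rw [← setLIntegral_congr hae]
  refine (setLIntegral_mono' (measurableSet_ball.diff (measurableSet_singleton x)) hpt).trans ?_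
  refine (setLIntegral_le_lintegral _ _).trans ?_
  rw [lintegral_tsum fun j => (measurable_const.indicator measurableSet_ball).aemeasurable]
  calc ∑' j, ∫⁻ y, (ball x (r / 2 ^ j)).indicator (fun _ => ENNReal.ofReal (c j)) y ∂μ
      ≤ ∑' j : ℕ, ENNReal.ofReal (2 ^ (n - 1) * C * r * (1/2) ^ j) := by
        refine ENNReal.tsum_le_tsum fun j => ?_
        rw [lintegral_indicator_const measurableSet_ball]
        refine (mul_le_mul_right (h x _ (by positivity)) _).trans (le_of_eq ?_)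
        rw [← ENNReal.ofReal_mul (by positivity)]
        congr 1
        simp only [c]
        obtain ⟨m, rfl⟩ : ∃ m, n = m + 1 := ⟨n - 1, by omega⟩
        simp only [Nat.add_sub_cancel, div_pow, pow_succ, mul_pow, one_pow]
        field_simp
    _ = ENNReal.ofReal (2 ^ n * C * r) := by
        rw [← ENNReal.ofReal_tsum_of_nonneg (fun j => by positivity)
          (summable_geometric_two.mul_left _), tsum_mul_left, tsum_geometric_two]
        congr 1
        obtain ⟨m, rfl⟩ : ∃ m, n = m + 1 := ⟨n - 1, by omega⟩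
        simp only [Nat.add_sub_cancel, pow_succ]; ring

/-- the potential of order `n + 1` outside a ball -/
lemma UpperReg.lintegral_far (h : UpperReg n C μ) (x : Spc d) {r : ℝ} (hr : 0 < r) :
    ∫⁻ y in (ball x r)ᶜ, ENNReal.ofReal (((dist y x) ^ (n + 1))⁻¹) ∂μ
      ≤ ENNReal.ofReal (2 ^ (n + 1) * C / r) := by
  by_cases hμ : μ = 0
  · simp [hμ]
  have hC := h.nonneg_of_ne_zero hμ
  set c : ℕ → ℝ := fun j => ((r * 2 ^ j) ^ (n + 1))⁻¹
  have hpt : ∀ y ∈ (ball x r)ᶜ, ENNReal.ofReal (((dist y x) ^ (n + 1))⁻¹) ≤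
      ∑' j : ℕ, (ball x (r * 2 ^ (j + 1))).indicator (fun _ => ENNReal.ofReal (c j)) y := by
    intro y hy
    have hd : r ≤ dist y x := not_lt.mp hy
    obtain ⟨j, hj1, hj2⟩ := exists_nat_pow_near ((one_le_div hr).mpr hd) (one_lt_two (α := ℝ))
    refine le_trans ?_ (ENNReal.le_tsum j)
    rw [le_div_iff₀ hr] at hj1
    rw [div_lt_iff₀ hr] at hj2
    rw [indicator_of_mem (mem_ball.mpr (by linarith))]
    exact ENNReal.ofReal_le_ofReal (inv_anti₀ (by positivity)
        (pow_le_pow_left₀ (by positivity) (by linarith) _))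
  refine (setLIntegral_mono' measurableSet_ball.compl hpt).trans ?_
  refine (setLIntegral_le_lintegral _ _).trans ?_
  rw [lintegral_tsum fun j => (measurable_const.indicator measurableSet_ball).aemeasurable]
  calc ∑' j, ∫⁻ y, (ball x (r * 2 ^ (j + 1))).indicator (fun _ => ENNReal.ofReal (c j)) y ∂μ
      ≤ ∑' j : ℕ, ENNReal.ofReal (2 ^ n * C / r * (1/2) ^ j) := by
        refine ENNReal.tsum_le_tsum fun j => ?_
        rw [lintegral_indicator_const measurableSet_ball]
        refine (mul_le_mul_right (h x _ (by positivity)) _).trans (le_of_eq ?_)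
        rw [← ENNReal.ofReal_mul (by positivity)]
        congr 1
        simp only [c, pow_succ, mul_pow, div_pow, one_pow]
        field_simp
    _ = ENNReal.ofReal (2 ^ (n + 1) * C / r) := by
        rw [← ENNReal.ofReal_tsum_of_nonneg (fun j => by positivity)
          (summable_geometric_two.mul_left _), tsum_mul_left, tsum_geometric_two]
        congr 1
        rw [pow_succ]; ring

end Vale.Agent.P120
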