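import Mathlib
import Vale.Agent.P120.Kernel

/-!
The pairing of `R 1` with a mean-zero test function: windows, the limit, and the error bound.
-/

noncomputable section

open MeasureTheory Metric Set Filter Topology
open scoped ENNReal NNReal RealInnerProductSpace

namespace Vale.Agent.P120

variable {d n : ℕ} {C D : ℝ} {μ : Measure (Spc d)}

/-- the antisymmetrised pairing through a window `w` -/
def pairW (n : ℕ) (μ : Measure (Spc d)) (w φ : Spc d → ℝ) : Spc d :=
  (1/2 : ℝ) • ∫ p : Spc d × Spc d,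
    (w p.1 * w p.2 * (φ p.1 - φ p.2)) • riesz n (p.1 - p.2) ∂(μ.prod μ)

lemma pairL_eq_pairW (L : ℝ) (φ : Spc d → ℝ) : pairL n μ L φ = pairW n μ (cut 0 L) φ := rfl

/-- the bound `‖riesz n‖ * |Δφ| ≤ K * |x-y|^(1-n)` -/
lemma abs_sub_mul_norm_riesz_le (hn : 1 ≤ n) {K : ℝ≥0} {φ : Spc d → ℝ} (hφ : LipschitzWith K φ)
    (x y : Spc d) :
    |φ x - φ y| * ‖riesz n (x - y)‖ ≤ K * ((dist y x) ^ (n - 1))⁻¹ := by
  rcases eq_or_ne x y with rfl | hxy
  · rw [sub_self, sub_self, abs_zero, zero_mul]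
    positivity
  have hd : 0 < dist y x := dist_pos.mpr (Ne.symm hxy)
  obtain ⟨m, rfl⟩ : ∃ m, n = m + 1 := ⟨n - 1, by omega⟩
  calc |φ x - φ y| * ‖riesz (m + 1) (x - y)‖ ≤ K * dist x y * (dist x y ^ (m + 1))⁻¹ := by
        gcongr
        · exact hφ.dist_le_mul x y
        · rw [dist_eq_norm]; exact norm_riesz_le _
    _ = K * ((dist y x) ^ (m + 1 - 1))⁻¹ := by
        rw [dist_comm x y, Nat.add_sub_cancel, pow_succ]; field_simp

lemma lintegral_pot_prod [IsLocallyFiniteMeasure μ] (h : UpperReg n C μ) (hn : 1 ≤ n) (a : Spc d)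
    {R : ℝ} (hR : 0 < R) :
    ∫⁻ p in closedBall a R ×ˢ closedBall a R,
        ENNReal.ofReal (((dist p.2 p.1) ^ (n - 1))⁻¹) ∂(μ.prod μ)
      ≤ ENNReal.ofReal (2 ^ n * C * (3 * R)) * μ (closedBall a R) := by
  rw [← Measure.prod_restrict, lintegral_prod _ (by fun_prop)]
  calc ∫⁻ x in closedBall a R, ∫⁻ y in closedBall a R,
        ENNReal.ofReal (((dist y x) ^ (n - 1))⁻¹) ∂μ ∂μ
      ≤ ∫⁻ _x in closedBall a R, ENNReal.ofReal (2 ^ n * C * (3 * R)) ∂μ := by
        refine setLIntegral_mono' measurableSet_closedBall fun x hx => ?_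
        refine (lintegral_mono_set fun y hy => mem_ball.mpr ?_).trans
          (h.lintegral_near hn x (by linarith))
        have := dist_triangle y a x
        rw [dist_comm a x] at this
        linarith [mem_closedBall.mp hy, mem_closedBall.mp hx]
    _ = _ := setLIntegral_const _ _

lemma integrable_pairKernel [IsLocallyFiniteMeasure μ] (h : UpperReg n C μ) (hn : 1 ≤ n)
    {K : ℝ≥0} {φ : Spc d → ℝ} (hφ : LipschitzWith K φ) {W : Spc d × Spc d → ℝ}
    (hW : Continuous W) {a : Spc d} {R B : ℝ} (hR : 0 < R)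
    (hsupp : ∀ p, p ∉ closedBall a R ×ˢ closedBall a R → W p = 0) (hB : ∀ p, |W p| ≤ B) :
    Integrable (fun p : Spc d × Spc d => (W p * (φ p.1 - φ p.2)) • riesz n (p.1 - p.2))
      (μ.prod μ) := by
  have hφc := hφ.continuous
  have hm : Measurable fun p : Spc d × Spc d =>
      (W p * (φ p.1 - φ p.2)) • riesz n (p.1 - p.2) := by fun_prop
  refine ⟨hm.aestronglyMeasurable, ?_⟩
  have hB0 : 0 ≤ B := (abs_nonneg _).trans (hB (0, 0))
  unfold HasFiniteIntegral
  calc ∫⁻ p, ‖(W p * (φ p.1 - φ p.2)) • riesz n (p.1 - p.2)‖ₑ ∂(μ.prod μ)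
      ≤ ∫⁻ p, (closedBall a R ×ˢ closedBall a R).indicator (fun p =>
          ENNReal.ofReal (B * K) * ENNReal.ofReal (((dist p.2 p.1) ^ (n - 1))⁻¹)) p ∂(μ.prod μ) := by
        refine lintegral_mono fun p => ?_
        by_cases hp : p ∈ closedBall a R ×ˢ closedBall a R
        · rw [indicator_of_mem hp, ← ENNReal.ofReal_mul (by positivity), ← ofReal_norm,
            norm_smul, Real.norm_eq_abs, abs_mul]
          refine ENNReal.ofReal_le_ofReal ?_
          rw [mul_assoc, mul_assoc]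
          exact mul_le_mul (hB p) (abs_sub_mul_norm_riesz_le hn hφ p.1 p.2)
            (by positivity) hB0
        · simp [hsupp p hp]
    _ = ENNReal.ofReal (B * K) * ∫⁻ p in closedBall a R ×ˢ closedBall a R,
          ENNReal.ofReal (((dist p.2 p.1) ^ (n - 1))⁻¹) ∂(μ.prod μ) := by
        rw [lintegral_indicator (measurableSet_closedBall.prod measurableSet_closedBall),
          lintegral_const_mul _ (by fun_prop)]
    _ < ⊤ := by
        refine ENNReal.mul_lt_top ENNReal.ofReal_lt_top (lt_of_le_of_lt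
          (lintegral_pot_prod h hn a hR) ?_)
        exact ENNReal.mul_lt_top ENNReal.ofReal_lt_top measure_closedBall_lt_top

lemma exists_window_radius (a : Spc d) {w : Spc d → ℝ} (hw : HasCompactSupport w) :
    ∃ R, 0 < R ∧ ∀ x ∉ closedBall a R, w x = 0 := by
  obtain ⟨R, hR⟩ := hw.isBounded.subset_closedBall a
  exact ⟨max R 1, by positivity, fun x hx => image_eq_zero_of_notMem_tsupport fun hm =>
    hx (closedBall_subset_closedBall (le_max_left _ _) (hR hm))⟩

/-- For mean zero, the kernel of `φ` decays one order faster. -/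
lemma norm_meanZero_potential [IsLocallyFiniteMeasure μ] {φ : Spc d → ℝ}
    (hφc : Continuous φ) {a : Spc d} {ρ : ℝ}
    (hsupp : tsupport φ ⊆ closedBall a ρ) (hmean : ∫ x, φ x ∂μ = 0)
    {y : Spc d} (hy : 2 * ρ ≤ dist y a) :
    ‖∫ x, φ x • riesz n (x - y) ∂μ‖ ≤
      (2 ^ (n + 1) + (n + 1) * 3 ^ n * 2 ^ (n + 1) : ℝ) * ρ * (∫ x, |φ x| ∂μ)
        / dist y a ^ (n + 1) := by
  have hcs : HasCompactSupport φ :=
    IsCompact.of_isClosed_subset (isCompact_closedBall _ _) (isClosed_tsupport _) hsupp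
  have hint : Integrable φ μ := hφc.integrable_of_hasCompactSupport hcs
  set c : ℝ := 2 ^ (n + 1) + (n + 1) * 3 ^ n * 2 ^ (n + 1)
  set B : ℝ := c * ρ / dist y a ^ (n + 1)
  have hpt : ∀ x, ‖φ x • (riesz n (x - y) - riesz n (a - y))‖ ≤ |φ x| * B := by
    intro x
    by_cases hx : φ x = 0
    · simp [hx]
    have hxd : dist x a ≤ ρ := mem_closedBall.mp (hsupp (subset_tsupport φ hx))
    have hρ : 0 ≤ ρ := dist_nonneg.trans hxd
    have e : (x - y) - (a - y) = x - a := by abel
    rw [norm_smul, Real.norm_eq_abs]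
    refine mul_le_mul_of_nonneg_left ((norm_riesz_sub_le ?_).trans ?_) (abs_nonneg _)
    · rw [e, ← dist_eq_norm, ← dist_eq_norm, dist_comm a y]; linarith
    · rw [e, ← dist_eq_norm, ← dist_eq_norm, dist_comm a y]
      simp only [B, c]
      gcongr
  have hi2 : Integrable (fun x => φ x • riesz n (a - y)) μ := hint.smul_const _
  have hi1 : Integrable (fun x => φ x • (riesz n (x - y) - riesz n (a - y))) μ :=
    (hint.abs.mul_const B).mono' ((hφc.measurable).smul (by fun_prop)).aestronglyMeasurable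
      (Eventually.of_forall hpt)
  have heq : ∫ x, φ x • riesz n (x - y) ∂μ
      = ∫ x, φ x • (riesz n (x - y) - riesz n (a - y)) ∂μ := by
    have h2 : ∫ x, φ x • riesz n (a - y) ∂μ = 0 := by rw [integral_smul_const, hmean, zero_smul]
    calc ∫ x, φ x • riesz n (x - y) ∂μ
        = ∫ x, (φ x • (riesz n (x - y) - riesz n (a - y)) + φ x • riesz n (a - y)) ∂μ := by
          simp [smul_sub]
      _ = _ := by rw [integral_add hi1 hi2, h2, add_zero]
  rw [heq]
  refine (norm_integral_le_of_norm_le (hint.abs.mul_const B) (Eventually.of_forall hpt)).trans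
    (le_of_eq ?_)
  rw [integral_mul_const]
  simp only [B]
  ring

/-- constant of the window-change bound -/
def tailConst (n : ℕ) (C : ℝ) : ℝ :=
  2 * (2 ^ (n + 1) + (n + 1) * 3 ^ n * 2 ^ (n + 1)) * (2 ^ (n + 1) * C)

/-- A window: continuous, compactly supported, with values in `[0,1]`, equal to `1` on
`closedBall a R`. -/
structure IsWindow (a : Spc d) (R : ℝ) (w : Spc d → ℝ) : Prop where
  cont : Continuous w
  cs : HasCompactSupport w
  nonneg : ∀ x, 0 ≤ w x
  le_one : ∀ x, w x ≤ 1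
  eq_one : ∀ x ∈ closedBall a R, w x = 1

lemma isWindow_cut {a b : Spc d} {R L : ℝ} (hL : 0 < L) (h : dist a b + R ≤ L) :
    IsWindow a R (cut b L) where
  cont := continuous_cut b L
  cs := hasCompactSupport_cut b hL
  nonneg := cut_nonneg b L
  le_one := cut_le_one b L
  eq_one x hx := cut_eq_one hL <| by
    linarith [dist_triangle x a b, mem_closedBall.mp hx]

lemma IsWindow.mono {a : Spc d} {R R' : ℝ} {w : Spc d → ℝ} (hw : IsWindow a R w) (h : R' ≤ R) :
    IsWindow a R' w :=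
  ⟨hw.cont, hw.cs, hw.nonneg, hw.le_one,
    fun x hx => hw.eq_one x (closedBall_subset_closedBall h hx)⟩

lemma norm_pairW_sub_le [IsLocallyFiniteMeasure μ] (h : UpperReg n C μ) (hn : 1 ≤ n)
    {K : ℝ≥0} {φ : Spc d → ℝ} (hφ : LipschitzWith K φ) {a : Spc d} {ρ R : ℝ}
    (hsupp : tsupport φ ⊆ closedBall a ρ) (hmean : ∫ x, φ x ∂μ = 0)
    (hρR : 2 * ρ ≤ R) (hR : 0 < R) {w w' : Spc d → ℝ} (hw : IsWindow a R w)
    (hw' : IsWindow a R w') :
    ‖pairW n μ w φ - pairW n μ w' φ‖ ≤ tailConst n C / 2 * ρ * (∫ x, |φ x| ∂μ) / R := by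
  by_cases hμ : μ = 0
  · subst hμ
    simp [pairW]
  by_cases hφ0 : ∀ x, φ x = 0
  · have : ρ * (∫ x, |φ x| ∂μ) = 0 := by simp [hφ0]
    simp only [pairW, hφ0, sub_self, mul_zero, zero_smul, integral_zero, smul_zero,
      norm_zero, abs_zero]
    simp
  push Not at hφ0
  obtain ⟨x0, hx0⟩ := hφ0
  have hρ0 : 0 ≤ ρ := dist_nonneg.trans (mem_closedBall.mp (hsupp (subset_tsupport φ hx0)))
  obtain ⟨R1, hR1, hw0⟩ := exists_window_radius a hw.cs
  obtain ⟨R2, hR2, hw0'⟩ := exists_window_radius a hw'.cs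
  set R3 := max R1 R2 with hR3
  have hR30 : 0 < R3 := lt_max_of_lt_left hR1
  set u : Spc d → ℝ := fun y => w y - w' y with hu
  have hwc := hw.cont
  have hwc' := hw'.cont
  have hφc := hφ.continuous
  set W : Spc d × Spc d → ℝ := fun p => w p.1 * w p.2 - w' p.1 * w' p.2 with hW
  have hz : ∀ p, p ∉ closedBall a R3 ×ˢ closedBall a R3 →
      w p.1 * w p.2 = 0 ∧ w' p.1 * w' p.2 = 0 := by
    intro p hp
    rw [mem_prod, not_and_or] at hp
    rcases hp with hp | hp
    · exact ⟨by rw [hw0 _ fun hm => hp (closedBall_subset_closedBall (le_max_left _ _) hm), zero_mul],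
        by rw [hw0' _ fun hm => hp (closedBall_subset_closedBall (le_max_right _ _) hm), zero_mul]⟩
    · exact ⟨by rw [hw0 _ fun hm => hp (closedBall_subset_closedBall (le_max_left _ _) hm), mul_zero],
        by rw [hw0' _ fun hm => hp (closedBall_subset_closedBall (le_max_right _ _) hm), mul_zero]⟩
  have i1 := integrable_pairKernel (μ := μ) h hn hφ (W := fun p => w p.1 * w p.2) (by fun_prop)
    hR30 (fun p hp => (hz p hp).1) (B := 1) (fun p => by
      rw [abs_of_nonneg (mul_nonneg (hw.nonneg _) (hw.nonneg _))]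
      exact mul_le_one₀ (hw.le_one _) (hw.nonneg _) (hw.le_one _))
  have i2 := integrable_pairKernel (μ := μ) h hn hφ (W := fun p => w' p.1 * w' p.2) (by fun_prop)
    hR30 (fun p hp => (hz p hp).2) (B := 1) (fun p => by
      rw [abs_of_nonneg (mul_nonneg (hw'.nonneg _) (hw'.nonneg _))]
      exact mul_le_one₀ (hw'.le_one _) (hw'.nonneg _) (hw'.le_one _))
  set F : Spc d × Spc d → Spc d := fun p => (φ p.1 * u p.2) • riesz n (p.1 - p.2) with hF
  -- support of `u`
  have hu0 : ∀ y, u y ≠ 0 → R < dist y a ∧ dist y a ≤ R3 := by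
    intro y hy
    constructor
    · by_contra hc
      exact hy (by simp [hu, hw.eq_one y (mem_closedBall.mpr (not_lt.mp hc)),
        hw'.eq_one y (mem_closedBall.mpr (not_lt.mp hc))])
    · by_contra hc
      exact hy (by
        simp [hu, hw0 y fun hm => hc ((mem_closedBall.mp hm).trans (le_max_left _ _)),
          hw0' y fun hm => hc ((mem_closedBall.mp hm).trans (le_max_right _ _))])
  have hu1 : ∀ y, |u y| ≤ 1 := fun y => abs_le.mpr
    ⟨by simp only [hu]; linarith [hw.nonneg y, hw'.le_one y],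
     by simp only [hu]; linarith [hw.le_one y, hw'.nonneg y]⟩
  have hphi1 : ∀ x, φ x ≠ 0 → dist x a ≤ ρ ∧ w x = 1 ∧ w' x = 1 := fun x hx =>
    have hm := mem_closedBall.mp (hsupp (subset_tsupport φ hx))
    ⟨hm, hw.eq_one x (mem_closedBall.mpr (by linarith)),
      hw'.eq_one x (mem_closedBall.mpr (by linarith))⟩
  have hpt : ∀ p : Spc d × Spc d,
      (W p * (φ p.1 - φ p.2)) • riesz n (p.1 - p.2) = F p + F p.swap := by
    intro p
    have e : W p * (φ p.1 - φ p.2) = φ p.1 * u p.2 - φ p.2 * u p.1 := by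
      have a1 : (w p.1 * w p.2 - w' p.1 * w' p.2) * φ p.1 = φ p.1 * u p.2 := by
        by_cases hx : φ p.1 = 0
        · simp [hx]
        · simp only [(hphi1 _ hx).2.1, (hphi1 _ hx).2.2, hu]; ring
      have a2 : (w p.1 * w p.2 - w' p.1 * w' p.2) * φ p.2 = φ p.2 * u p.1 := by
        by_cases hx : φ p.2 = 0
        · simp [hx]
        · simp only [(hphi1 _ hx).2.1, (hphi1 _ hx).2.2, hu]; ring
      simp only [hW, mul_sub]; rw [a1, a2]
    simp only [hF, Prod.fst_swap, Prod.snd_swap, e, riesz_sub_comm p.1 p.2]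
    module
  have hcs : HasCompactSupport φ :=
    IsCompact.of_isClosed_subset (isCompact_closedBall _ _) (isClosed_tsupport _) hsupp
  obtain ⟨Bφ, hBφ⟩ := hφc.bounded_above_of_compact_support hcs
  have hFi : Integrable F (μ.prod μ) := by
    set U := closedBall a ρ ×ˢ closedBall a R3
    have hUfin : (μ.prod μ) U < ⊤ := by
      rw [Measure.prod_prod]
      exact ENNReal.mul_lt_top measure_closedBall_lt_top measure_closedBall_lt_top
    have hgi : Integrable (U.indicator fun _ => Bφ * (((R / 2) ^ n)⁻¹)) (μ.prod μ) :=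
      (integrable_indicator_iff (measurableSet_closedBall.prod measurableSet_closedBall)).mpr
        (integrableOn_const hUfin.ne)
    have hFm : Measurable F := by simp only [hF, hu]; fun_prop
    refine hgi.mono' hFm.aestronglyMeasurable (Eventually.of_forall fun p => ?_)
    by_cases hp : φ p.1 * u p.2 = 0
    · have : 0 ≤ Bφ := (norm_nonneg _).trans (hBφ 0)
      simp only [hF, hp, zero_smul, norm_zero]
      exact indicator_nonneg (fun _ _ => by positivity) p
    · obtain ⟨h1, h2⟩ := mul_ne_zero_iff.mp hp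
      obtain ⟨g1, -, -⟩ := hphi1 _ h1
      obtain ⟨g2, g3⟩ := hu0 _ h2
      rw [indicator_of_mem (show p ∈ U from ⟨mem_closedBall.mpr g1, mem_closedBall.mpr g3⟩),
        hF, norm_smul, Real.norm_eq_abs, abs_mul]
      have hd : R / 2 ≤ ‖p.1 - p.2‖ := by
        rw [← dist_eq_norm]
        linarith [dist_triangle p.2 p.1 a, dist_comm p.2 p.1]
      have hb : 0 ≤ Bφ := (norm_nonneg _).trans (hBφ 0)
      calc |φ p.1| * |u p.2| * ‖riesz n (p.1 - p.2)‖ ≤ Bφ * 1 * ((R / 2) ^ n)⁻¹ := by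
            refine mul_le_mul (mul_le_mul (hBφ _) (hu1 _) (abs_nonneg _) hb) ?_ (norm_nonneg _)
              (by positivity)
            exact (norm_riesz_le _).trans (inv_anti₀ (by positivity)
                (pow_le_pow_left₀ (by positivity) hd _))
        _ = _ := by rw [mul_one]
  have hsub : pairW n μ w φ - pairW n μ w' φ = ∫ p, F p ∂(μ.prod μ) := by
    have hswap : ∫ p, F p.swap ∂(μ.prod μ) = ∫ p, F p ∂(μ.prod μ) := integral_prod_swap F
    simp only [pairW, ← smul_sub]
    rw [← integral_sub i1 i2,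
      integral_congr_ae (Eventually.of_forall fun p => show _ = F p + F p.swap from ?_)]
    · have hs2 : Integrable (fun p : Spc d × Spc d => F p.swap) (μ.prod μ) := hFi.swap
      rw [integral_add hFi hs2, hswap, ← two_smul ℝ, smul_smul]
      norm_num
    · rw [← hpt p]; simp only [hW]; module
  rw [hsub, integral_prod_symm F hFi]
  set A : ℝ := (2 ^ (n + 1) + (n + 1) * 3 ^ n * 2 ^ (n + 1)) * ρ * ∫ x, |φ x| ∂μ with hA
  have hA0 : 0 ≤ A := by
    have : 0 ≤ ∫ x, |φ x| ∂μ := integral_nonneg fun _ => abs_nonneg _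
    positivity
  have hpoint : ∀ y, ‖∫ x, F (x, y) ∂μ‖ₑ ≤ (ball a R)ᶜ.indicator
      (fun y => ENNReal.ofReal A * ENNReal.ofReal ((dist y a ^ (n + 1))⁻¹)) y := by
    intro y
    by_cases hy : u y = 0
    · simp [hF, hy]
    · obtain ⟨g2, -⟩ := hu0 y hy
      have hF' : ∀ x, F (x, y) = u y • (φ x • riesz n (x - y)) := fun x => by
        simp only [hF, smul_smul]; ring_nf
      simp only [hF']
      rw [integral_smul, indicator_of_mem (by simp [g2.le]), ← ENNReal.ofReal_mul hA0, ← ofReal_norm,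
        norm_smul, Real.norm_eq_abs]
      refine ENNReal.ofReal_le_ofReal ?_
      calc |u y| * ‖∫ x, φ x • riesz n (x - y) ∂μ‖
          ≤ 1 * (A / dist y a ^ (n + 1)) := by
            gcongr
            · exact hu1 y
            · exact norm_meanZero_potential hφc hsupp hmean (by linarith)
        _ = A * (dist y a ^ (n + 1))⁻¹ := by rw [one_mul, div_eq_mul_inv]
  have hbound : ∫⁻ y, ‖∫ x, F (x, y) ∂μ‖ₑ ∂μ ≤
      ENNReal.ofReal A * ENNReal.ofReal (2 ^ (n + 1) * C / R) := by
    refine (lintegral_mono hpoint).trans ?_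
    rw [lintegral_indicator measurableSet_ball.compl, lintegral_const_mul _ (by fun_prop)]
    exact mul_le_mul_right (h.lintegral_far a hR) _
  have hC0 : 0 ≤ C := h.nonneg_of_ne_zero hμ
  calc ‖∫ y, ∫ x, F (x, y) ∂μ ∂μ‖ ≤ (∫⁻ y, ‖∫ x, F (x, y) ∂μ‖ₑ ∂μ).toReal := by
        simpa [ofReal_norm] using norm_integral_le_lintegral_norm (μ := μ) fun y => ∫ x, F (x, y) ∂μ
    _ ≤ (ENNReal.ofReal A * ENNReal.ofReal (2 ^ (n + 1) * C / R)).toReal :=
        ENNReal.toReal_mono (ENNReal.mul_ne_top ENNReal.ofReal_ne_top ENNReal.ofReal_ne_top) hbound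
    _ = _ := by
        rw [ENNReal.toReal_mul, ENNReal.toReal_ofReal hA0, ENNReal.toReal_ofReal (by positivity)]
        simp only [hA, tailConst]; ring

lemma tendsto_pairL [IsLocallyFiniteMeasure μ] (h : UpperReg n C μ) (hn : 1 ≤ n) {a : Spc d}
    {ρ : ℝ} {φ : Spc d → ℝ} (hadm : Adm μ a ρ φ) :
    Tendsto (fun L : ℝ => pairL n μ L φ) atTop (𝓝 (pairing n μ φ)) := by
  obtain ⟨K, hK⟩ := hadm.lip
  obtain ⟨r0, hr0, hball⟩ : ∃ r0, 0 < r0 ∧ tsupport φ ⊆ closedBall a r0 :=
    ⟨max ρ 1, by positivity, hadm.supp.trans (closedBall_subset_closedBall (le_max_left _ _))⟩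
  set Cst := tailConst n C / 2 * r0 * ∫ x, |φ x| ∂μ
  refine tendsto_nhds_limUnder (cauchy_map_iff_exists_tendsto.mp ?_)
  rw [Metric.cauchy_iff]
  refine ⟨Filter.map_neBot, fun ε hε => ?_⟩
  obtain ⟨R, hR1, hR2⟩ : ∃ R, max (2 * r0) 1 ≤ R ∧ Cst / R < ε := by
    have : Tendsto (fun R => Cst / R) atTop (𝓝 0) := tendsto_id.const_div_atTop _
    exact ((eventually_ge_atTop _).and (this.eventually (Iio_mem_nhds hε))).exists
  have hRpos : 0 < R := lt_of_lt_of_le one_pos (le_trans (le_max_right _ _) hR1)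
  refine ⟨(fun L : ℝ => pairL n μ L φ) '' Ici (dist a 0 + R), image_mem_map (Ici_mem_atTop _), ?_⟩
  rintro _ ⟨L, hL, rfl⟩ _ ⟨L', hL', rfl⟩
  have hL0 : 0 < L := lt_of_lt_of_le (by positivity) hL
  have hL0' : 0 < L' := lt_of_lt_of_le (by positivity) hL'
  rw [dist_eq_norm]
  exact lt_of_le_of_lt (norm_pairW_sub_le h hn hK hball hadm.mean
    ((le_max_left _ _).trans hR1) hRpos (isWindow_cut hL0 hL) (isWindow_cut hL0' hL')) hR2

/-- Any window that is `1` on a large ball computes the pairing up to `O(ρ/R)`. -/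
lemma norm_pairing_sub_pairW_le [IsLocallyFiniteMeasure μ] (h : UpperReg n C μ) (hn : 1 ≤ n)
    {a : Spc d} {ρ R : ℝ} {φ : Spc d → ℝ} (hadm : Adm μ a ρ φ) (hρR : 2 * ρ ≤ R) (hR : 0 < R)
    {w : Spc d → ℝ} (hw : IsWindow a R w) :
    ‖pairing n μ φ - pairW n μ w φ‖ ≤ tailConst n C / 2 * ρ * (∫ x, |φ x| ∂μ) / R := by
  obtain ⟨K, hK⟩ := hadm.lip
  refine le_of_tendsto ((tendsto_pairL h hn hadm).sub_const _).norm ?_
  filter_upwards [eventually_ge_atTop (dist a 0 + R)] with L hL
  have hL0 : 0 < L := lt_of_lt_of_le (by positivity) hL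
  exact norm_pairW_sub_le h hn hK hadm.supp hadm.mean hρR hR (isWindow_cut hL0 hL) hw

end Vale.Agent.P120
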