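import Mathlib
import Vale.Agent.P120.Pairing

/-!
Consequences of weak boundedness for the pairing, the energy of Lipschitz functions, and
elementary properties of `oscSq`.
-/

noncomputable section

open MeasureTheory Metric Set Filter Topology
open scoped ENNReal NNReal RealInnerProductSpace

namespace Vale.Agent.P120

variable {d n : ℕ} {C D : ℝ} {μ : Measure (Spc d)}

/-- the truncated bilinear integrand is integrable -/
lemma integrable_trBil [IsLocallyFiniteMeasure μ] {ε : ℝ} (hε : 0 < ε) {f g : Spc d → ℝ}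
    (hf : Continuous f) (hf' : HasCompactSupport f) (hg : Continuous g)
    (hg' : HasCompactSupport g) :
    Integrable (fun p : Spc d × Spc d =>
      (f p.1 * g p.2 * ramp (‖p.1 - p.2‖ / ε)) • riesz n (p.1 - p.2)) (μ.prod μ) := by
  have hi : Integrable (fun p : Spc d × Spc d => |f p.1| * |g p.2| * (ε ^ n)⁻¹) (μ.prod μ) :=
    (((hf.integrable_of_hasCompactSupport hf').abs.mul_prod
      (hg.integrable_of_hasCompactSupport hg').abs)).mul_const _
  have hm : Measurable fun p : Spc d × Spc d =>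
      (f p.1 * g p.2 * ramp (‖p.1 - p.2‖ / ε)) • riesz n (p.1 - p.2) := by fun_prop
  refine hi.mono' hm.aestronglyMeasurable (Eventually.of_forall fun p => ?_)
  rw [norm_smul, Real.norm_eq_abs, abs_mul, abs_mul, mul_assoc]
  refine mul_le_mul_of_nonneg_left ?_ (by positivity)
  by_cases hp : ‖p.1 - p.2‖ ≤ ε
  · rw [ramp_eq_zero ((div_le_one hε).mpr hp), abs_zero, zero_mul]; positivity
  · calc |ramp (‖p.1 - p.2‖ / ε)| * ‖riesz n (p.1 - p.2)‖ ≤ 1 * (‖p.1 - p.2‖ ^ n)⁻¹ := by
          refine mul_le_mul ?_ (norm_riesz_le _) (norm_nonneg _) zero_le_one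
          rw [abs_of_nonneg (ramp_nonneg _)]; exact ramp_le_one _
      _ ≤ (ε ^ n)⁻¹ := by
          rw [one_mul]
          exact inv_anti₀ (by positivity) (pow_le_pow_left₀ hε.le (not_le.mp hp).le _)

/-- `pairW` is the limit of the antisymmetrised truncated forms. -/
lemma tendsto_trBil_pairW [IsLocallyFiniteMeasure μ] (h : UpperReg n C μ) (hn : 1 ≤ n) {K : ℝ≥0}
    {φ : Spc d → ℝ} (hφ : LipschitzWith K φ) {w : Spc d → ℝ} (hw : Continuous w)
    (hw' : HasCompactSupport w) :
    Tendsto (fun ε : ℝ => (1/2 : ℝ) • (trBil n μ ε (fun x => w x * φ x) w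
        - trBil n μ ε w (fun x => w x * φ x))) (𝓝[>] 0) (𝓝 (pairW n μ w φ)) := by
  have hφc := hφ.continuous
  obtain ⟨R, hR, hw0⟩ := exists_window_radius (0 : Spc d) hw'
  obtain ⟨B, hB⟩ := hw.bounded_above_of_compact_support hw'
  have hB0 : 0 ≤ B := (norm_nonneg _).trans (hB 0)
  have hint := integrable_pairKernel (μ := μ) h hn hφ (W := fun p => w p.1 * w p.2) (by fun_prop)
    (a := 0) hR
    (fun p hp => by
      rw [mem_prod, not_and_or] at hp
      rcases hp with hp | hp <;> simp [hw0 _ hp])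
    (B := B * B) (fun p => by
      rw [abs_mul]
      exact mul_le_mul (hB _) (hB _) (abs_nonneg _) hB0)
  have key : Tendsto (fun ε : ℝ => ∫ p : Spc d × Spc d,
      ramp (‖p.1 - p.2‖ / ε) • ((w p.1 * w p.2 * (φ p.1 - φ p.2)) • riesz n (p.1 - p.2)) ∂(μ.prod μ))
      (𝓝[>] 0)
      (𝓝 (∫ p : Spc d × Spc d, (w p.1 * w p.2 * (φ p.1 - φ p.2)) • riesz n (p.1 - p.2) ∂(μ.prod μ))) := by
    refine tendsto_integral_filter_of_dominated_convergence _ (Eventually.of_forall fun ε => ?_)
      (Eventually.of_forall fun ε => Eventually.of_forall fun p => ?_) hint.norm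
      (Eventually.of_forall fun p => ?_)
    · have hm : Measurable fun p : Spc d × Spc d => ramp (‖p.1 - p.2‖ / ε) •
        ((w p.1 * w p.2 * (φ p.1 - φ p.2)) • riesz n (p.1 - p.2)) := by fun_prop
      exact hm.aestronglyMeasurable
    · rw [norm_smul, Real.norm_eq_abs, abs_of_nonneg (ramp_nonneg _)]
      exact mul_le_of_le_one_left (norm_nonneg _) (ramp_le_one _)
    · rcases eq_or_ne p.1 p.2 with hp | hp
      · simp [hp]
      · refine tendsto_const_nhds.congr' ?_
        have hd : 0 < ‖p.1 - p.2‖ := norm_pos_iff.mpr (sub_ne_zero.mpr hp)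
        filter_upwards [Ioo_mem_nhdsGT (half_pos hd)] with ε hε
        rw [ramp_eq_one (by rw [le_div_iff₀ hε.1]; linarith [hε.2]), one_smul]
  refine (key.const_smul (1/2 : ℝ)).congr' ?_
  filter_upwards [self_mem_nhdsWithin] with ε hε
  have hwφ : Continuous fun x => w x * φ x := hw.mul hφc
  have hwφ' : HasCompactSupport fun x => w x * φ x := hw'.mul_right
  simp only [trBil]
  rw [← integral_sub (integrable_trBil hε hwφ hwφ' hw hw') (integrable_trBil hε hw hw' hwφ hwφ')]
  congr 1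
  refine integral_congr_ae (Eventually.of_forall fun p => ?_)
  simp only [smul_smul, ← sub_smul]
  congr 1
  ring

/-- `L²`-bound for the pairing through a window. -/
lemma norm_pairW_le_of_RB [IsLocallyFiniteMeasure μ] (h : UpperReg n C μ) (hn : 1 ≤ n) {C₁ : ℝ}
    (hRB : RB n C₁ μ) {K : ℝ≥0} {φ : Spc d → ℝ} (hφ : LipschitzWith K φ) {w : Spc d → ℝ}
    (hw : Continuous w) (hw' : HasCompactSupport w) :
    ‖pairW n μ w φ‖ ≤
      C₁ * Real.sqrt (∫ x, (w x * φ x) ^ 2 ∂μ) * Real.sqrt (∫ x, w x ^ 2 ∂μ) := by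
  have hwφ : Continuous fun x => w x * φ x := hw.mul hφ.continuous
  have hwφ' : HasCompactSupport fun x => w x * φ x := hw'.mul_right
  refine le_of_tendsto (tendsto_trBil_pairW h hn hφ hw hw').norm ?_
  filter_upwards [self_mem_nhdsWithin] with ε hε
  have h1 := hRB ε hε _ _ hwφ hwφ' hw hw'
  have h2 := hRB ε hε _ _ hw hw' hwφ hwφ'
  rw [norm_smul]
  norm_num
  refine le_trans (mul_le_mul_of_nonneg_left (norm_sub_le _ _) (by norm_num)) ?_
  nlinarith [h1, h2]

lemma measurable_En_integrand {φ : Spc d → ℝ} (hφ : Measurable φ) :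
    Measurable fun p : Spc d × Spc d =>
      ENNReal.ofReal ((φ p.1 - φ p.2) ^ 2 / ‖p.1 - p.2‖ ^ (n + 1)) := by fun_prop

/-- the energy of a Lipschitz function supported in a ball -/
lemma En_le_of_lipschitz [IsLocallyFiniteMeasure μ] (h : UpperReg n C μ) (hn : 1 ≤ n) {K : ℝ≥0}
    {φ : Spc d → ℝ} (hφ : LipschitzWith K φ) {a : Spc d} {R : ℝ} (hR : 0 < R)
    (hsupp : tsupport φ ⊆ closedBall a R) :
    En n μ φ ≤ ENNReal.ofReal (2 * (2 ^ n * C + 16 * (2 ^ (n + 1) * C)) * (C * 2 ^ n)
      * (K : ℝ) ^ 2 * R ^ (n + 1)) := by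
  by_cases hμ : μ = 0
  · simp [En, hμ]
  have hC := h.nonneg_of_ne_zero hμ
  by_cases hzero : ∀ x, φ x = 0
  · simp [En, hzero]
  push Not at hzero
  obtain ⟨x0, hx0⟩ := hzero
  haveI : Nontrivial (Spc d) := by
    by_contra hnt
    rw [not_nontrivial_iff_subsingleton] at hnt
    exact hμ (Measure.measure_univ_eq_zero.mp (by
      rw [Set.eq_singleton_iff_unique_mem.mpr ⟨mem_univ (0 : Spc d), fun y _ => Subsingleton.elim y 0⟩]
      exact h.singleton hn 0))
  have hbound : ∀ x, |φ x| ≤ 2 * K * R := by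
    intro x
    by_cases hx : φ x = 0
    · rw [hx, abs_zero]; positivity
    have hxd : dist x a ≤ R := mem_closedBall.mp (hsupp (subset_tsupport φ hx))
    obtain ⟨v, hv⟩ := exists_norm_eq (Spc d) (show 0 ≤ R from hR.le)
    obtain ⟨e, he⟩ : ∃ e, ∀ t : ℝ, 1 < t → φ (a + t • e) = 0 ∧ dist x (a + t • e) ≤ (1 + t) * R := by
      refine ⟨v, fun t ht => ⟨image_eq_zero_of_notMem_tsupport fun hm => ?_, ?_⟩⟩
      · have := mem_closedBall.mp (hsupp hm)
        rw [dist_eq_norm, add_sub_cancel_left, norm_smul, Real.norm_eq_abs, abs_of_pos (by linarith),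
          hv] at this
        nlinarith
      · have := dist_triangle x a (a + t • v)
        rw [dist_eq_norm a, sub_add_cancel_left, norm_neg, norm_smul, Real.norm_eq_abs,
          abs_of_pos (by linarith), hv] at this
        linarith
    have ht : Tendsto (fun t : ℝ => (K : ℝ) * ((1 + t) * R)) (𝓝[>] 1) (𝓝 (2 * K * R)) := by
      have : Continuous fun t : ℝ => (K : ℝ) * ((1 + t) * R) := by fun_prop
      exact tendsto_nhdsWithin_of_tendsto_nhds (this.tendsto' 1 _ (by ring))
    refine ge_of_tendsto ht ?_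
    filter_upwards [self_mem_nhdsWithin] with t ht
    obtain ⟨e1, e2⟩ := he t ht
    have := hφ.dist_le_mul x (a + t • e)
    rw [e1, Real.dist_eq, sub_zero] at this
    exact this.trans (by gcongr)
  set c0 : ℝ := (K : ℝ) ^ 2 * R * (2 ^ n * C + 16 * (2 ^ (n + 1) * C))
  set f : Spc d × Spc d → ℝ≥0∞ := fun p =>
    ENNReal.ofReal ((φ p.1 - φ p.2) ^ 2 / ‖p.1 - p.2‖ ^ (n + 1)) with hfdef
  have hfm : Measurable f := measurable_En_integrand hφ.continuous.measurable
  have inner : ∀ x, ∫⁻ y, f (x, y) ∂μ ≤ ENNReal.ofReal c0 := by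
    intro x
    have s1 : ∫⁻ y in ball x R, f (x, y) ∂μ ≤ ENNReal.ofReal ((K : ℝ) ^ 2 * R * (2 ^ n * C)) := by
      calc ∫⁻ y in ball x R, f (x, y) ∂μ ≤ ∫⁻ y in ball x R,
            ENNReal.ofReal ((K : ℝ) ^ 2) * ENNReal.ofReal (((dist y x) ^ (n - 1))⁻¹) ∂μ := by
            refine setLIntegral_mono' measurableSet_ball fun y _ => ?_
            rw [← ENNReal.ofReal_mul (by positivity)]
            refine ENNReal.ofReal_le_ofReal ?_
            simp only
            rcases eq_or_ne x y with rfl | hxy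
            · simp only [sub_self, norm_zero, ne_eq, OfNat.ofNat_ne_zero, not_false_eq_true,
                zero_pow, zero_div]
              positivity
            have hd : 0 < dist y x := dist_pos.mpr (Ne.symm hxy)
            obtain ⟨m, rfl⟩ : ∃ m, n = m + 1 := ⟨n - 1, by omega⟩
            rw [← dist_eq_norm, dist_comm x y, Nat.add_sub_cancel]
            have hl : |φ x - φ y| ≤ K * dist y x := by
              rw [dist_comm]; exact hφ.dist_le_mul x y
            calc (φ x - φ y) ^ 2 / dist y x ^ (m + 1 + 1)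
                ≤ ((K : ℝ) * dist y x) ^ 2 / dist y x ^ (m + 1 + 1) := by
                  exact div_le_div_of_nonneg_right ((sq_abs _).symm.trans_le (pow_le_pow_left₀ (abs_nonneg _) hl 2)) (by positivity)
              _ = _ := by rw [mul_pow, pow_succ, pow_succ]; field_simp; ring
        _ ≤ ENNReal.ofReal ((K : ℝ) ^ 2) * ENNReal.ofReal (2 ^ n * C * R) := by
            rw [lintegral_const_mul _ (by fun_prop)]
            exact mul_le_mul_right (h.lintegral_near hn x hR) _
        _ = _ := by rw [← ENNReal.ofReal_mul (by positivity)]; ring_nf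
    have s2 : ∫⁻ y in (ball x R)ᶜ, f (x, y) ∂μ
        ≤ ENNReal.ofReal ((K : ℝ) ^ 2 * R * (16 * (2 ^ (n + 1) * C))) := by
      calc ∫⁻ y in (ball x R)ᶜ, f (x, y) ∂μ ≤ ∫⁻ y in (ball x R)ᶜ,
            ENNReal.ofReal ((4 * K * R) ^ 2) * ENNReal.ofReal (((dist y x) ^ (n + 1))⁻¹) ∂μ := by
            refine setLIntegral_mono' measurableSet_ball.compl fun y _ => ?_
            rw [← ENNReal.ofReal_mul (by positivity)]
            refine ENNReal.ofReal_le_ofReal ?_
            simp only
            rw [div_eq_mul_inv, ← dist_eq_norm, dist_comm x y, ← sq_abs]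
            gcongr
            exact (abs_sub _ _).trans (by linarith [hbound x, hbound y])
        _ ≤ ENNReal.ofReal ((4 * K * R) ^ 2) * ENNReal.ofReal (2 ^ (n + 1) * C / R) := by
            rw [lintegral_const_mul _ (by fun_prop)]
            exact mul_le_mul_right (h.lintegral_far x hR) _
        _ = _ := by rw [← ENNReal.ofReal_mul (by positivity)]; congr 1; field_simp; ring
    rw [← lintegral_add_compl _ (measurableSet_ball (x := x) (ε := R))]
    refine (add_le_add s1 s2).trans (le_of_eq ?_)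
    rw [← ENNReal.ofReal_add (by positivity) (by positivity)]
    simp only [c0]; ring_nf
  have hz : ∀ p : Spc d × Spc d, f p ≤ (closedBall a R ×ˢ univ).indicator f p
      + (closedBall a R ×ˢ univ).indicator f p.swap := by
    intro p
    have hsw : f p.swap = f p := by
      simp only [f, Prod.fst_swap, Prod.snd_swap, norm_sub_rev p.2 p.1]
      congr 2; ring
    by_cases h1 : p.1 ∈ closedBall a R
    · rw [indicator_of_mem (show p ∈ closedBall a R ×ˢ (univ : Set (Spc d)) from ⟨h1, mem_univ _⟩)]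
      exact le_self_add
    by_cases h2 : p.2 ∈ closedBall a R
    · rw [indicator_of_mem (show p.swap ∈ closedBall a R ×ˢ (univ : Set (Spc d)) from
        ⟨h2, mem_univ _⟩), hsw]
      exact le_add_self
    have z1 : φ p.1 = 0 := image_eq_zero_of_notMem_tsupport fun hm => h1 (hsupp hm)
    have z2 : φ p.2 = 0 := image_eq_zero_of_notMem_tsupport fun hm => h2 (hsupp hm)
    simp [f, z1, z2]
  have hgm : Measurable ((closedBall a R ×ˢ (univ : Set (Spc d))).indicator f) :=
    hfm.indicator (measurableSet_closedBall.prod MeasurableSet.univ)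
  have hone : ∫⁻ p, (closedBall a R ×ˢ (univ : Set (Spc d))).indicator f p ∂(μ.prod μ)
      ≤ ENNReal.ofReal (c0 * (C * 2 ^ n * R ^ n)) := by
    rw [lintegral_indicator (measurableSet_closedBall.prod MeasurableSet.univ),
      ← Measure.prod_restrict, Measure.restrict_univ, lintegral_prod _ hfm.aemeasurable]
    calc ∫⁻ x in closedBall a R, ∫⁻ y, f (x, y) ∂μ ∂μ
        ≤ ∫⁻ _x in closedBall a R, ENNReal.ofReal c0 ∂μ :=
          lintegral_mono fun x => inner x
      _ ≤ ENNReal.ofReal c0 * ENNReal.ofReal (C * 2 ^ n * R ^ n) := by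
          rw [setLIntegral_const]
          exact mul_le_mul_right (h.closedBall_le a hR) _
      _ = _ := by rw [← ENNReal.ofReal_mul (by positivity)]
  have hswap : ∫⁻ p, (closedBall a R ×ˢ (univ : Set (Spc d))).indicator f p.swap ∂(μ.prod μ)
      = ∫⁻ p, (closedBall a R ×ˢ (univ : Set (Spc d))).indicator f p ∂(μ.prod μ) :=
    lintegral_prod_swap _
  calc En n μ φ = ∫⁻ p, f p ∂(μ.prod μ) := rfl
    _ ≤ _ := lintegral_mono hz
    _ ≤ ENNReal.ofReal (c0 * (C * 2 ^ n * R ^ n)) + ENNReal.ofReal (c0 * (C * 2 ^ n * R ^ n)) := by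
        rw [lintegral_add_left hgm, hswap]
        exact add_le_add hone hone
    _ = _ := by
        rw [← ENNReal.ofReal_add (by positivity) (by positivity)]
        simp only [c0, pow_succ]; ring_nf

lemma En_ne_top [IsLocallyFiniteMeasure μ] (h : UpperReg n C μ) (hn : 1 ≤ n) {a : Spc d} {R : ℝ}
    {φ : Spc d → ℝ} (hadm : Adm μ a R φ) : En n μ φ ≠ ⊤ := by
  obtain ⟨K, hK⟩ := hadm.lip
  exact ((En_le_of_lipschitz h hn hK (R := max R 1) (by positivity)
    (hadm.supp.trans (closedBall_subset_closedBall (le_max_left _ _)))).trans_lt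
      ENNReal.ofReal_lt_top).ne

lemma norm_pairing_sq_le [IsLocallyFiniteMeasure μ] (h : UpperReg n C μ) (hn : 1 ≤ n) {M r δ : ℝ}
    (hr : 0 < r) (hδ : 0 ≤ δ) {x : Spc d} (hosc : oscSq n μ M x r ≤ ENNReal.ofReal δ)
    {φ : Spc d → ℝ} (hadm : Adm μ x (M * r) φ) :
    ‖pairing n μ φ‖ ^ 2 ≤ δ * r ^ (n + 1) * (En n μ φ).toReal := by
  have h1 : ENNReal.ofReal (‖pairing n μ φ‖ ^ 2) / (ENNReal.ofReal (r ^ (n + 1)) * En n μ φ)
      ≤ ENNReal.ofReal δ := le_trans (le_iSup₂_of_le φ hadm le_rfl) hosc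
  have hne := ENNReal.mul_ne_top (ENNReal.ofReal_ne_top (r := r ^ (n + 1))) (En_ne_top h hn hadm)
  rcases eq_or_ne (ENNReal.ofReal (r ^ (n + 1)) * En n μ φ) 0 with h0 | h0
  · rw [h0] at h1
    by_cases hp : ENNReal.ofReal (‖pairing n μ φ‖ ^ 2) = 0
    · exact le_trans (ENNReal.ofReal_eq_zero.mp hp) (by positivity)
    · rw [ENNReal.div_zero hp] at h1
      exact absurd (lt_of_le_of_lt h1 ENNReal.ofReal_lt_top) (lt_irrefl _)
  · rw [ENNReal.div_le_iff h0 hne] at h1
    have h2 := ENNReal.toReal_mono (ENNReal.mul_ne_top ENNReal.ofReal_ne_top hne) h1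
    rw [ENNReal.toReal_ofReal (by positivity), ENNReal.toReal_mul, ENNReal.toReal_mul,
      ENNReal.toReal_ofReal hδ, ENNReal.toReal_ofReal (by positivity)] at h2
    linarith

lemma Adm.mono {x x' : Spc d} {R R' : ℝ} {φ : Spc d → ℝ} (hadm : Adm μ x R φ)
    (hsub : closedBall x R ⊆ closedBall x' R') : Adm μ x' R' φ :=
  ⟨hadm.lip, hadm.supp.trans hsub, hadm.mean⟩

lemma oscSq_le_of_subset {M M' r r' : ℝ} (hr : 0 < r) (hr' : 0 < r') {x x' : Spc d}
    (hsub : closedBall x (M * r) ⊆ closedBall x' (M' * r')) :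
    oscSq n μ M x r ≤ ENNReal.ofReal (r' ^ (n + 1) / r ^ (n + 1)) * oscSq n μ M' x' r' := by
  refine iSup₂_le fun φ hadm => ?_
  refine le_trans ?_ (mul_le_mul_right (le_iSup₂_of_le φ (hadm.mono hsub) le_rfl) _)
  set a := ENNReal.ofReal (r ^ (n + 1))
  set b := ENNReal.ofReal (r' ^ (n + 1))
  have ha0 : a ≠ 0 := by simp only [a]; exact (ENNReal.ofReal_pos.mpr (by positivity)).ne'
  have hb0 : b ≠ 0 := by simp only [b]; exact (ENNReal.ofReal_pos.mpr (by positivity)).ne'
  rw [ENNReal.ofReal_div_of_pos (by positivity), div_eq_mul_inv, div_eq_mul_inv, div_eq_mul_inv,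
    ENNReal.mul_inv (Or.inl ha0) (Or.inl ENNReal.ofReal_ne_top),
    ENNReal.mul_inv (Or.inl hb0) (Or.inl ENNReal.ofReal_ne_top)]
  refine le_of_eq ?_
  set P := ENNReal.ofReal (‖pairing n μ φ‖ ^ 2)
  calc P * (a⁻¹ * (En n μ φ)⁻¹) = (b * b⁻¹) * (a⁻¹ * (P * (En n μ φ)⁻¹)) := by
        rw [ENNReal.mul_inv_cancel hb0 ENNReal.ofReal_ne_top]; ring
    _ = _ := by ring

lemma oscSq_mono_M {M M' r : ℝ} (hr : 0 < r) (hM : M ≤ M') (x : Spc d) :
    oscSq n μ M x r ≤ oscSq n μ M' x r := by
  have := oscSq_le_of_subset (n := n) (μ := μ) hr hr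
    (closedBall_subset_closedBall (x := x) (mul_le_mul_of_nonneg_right hM hr.le))
  rwa [div_self (by positivity), ENNReal.ofReal_one, one_mul] at this

end Vale.Agent.P120
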