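import Mathlib
import Vale.Agent.P120.EnergyBasic

/-!
Behaviour of every notion under translation and scaling.
-/

noncomputable section

open MeasureTheory Metric Set Filter Topology
open scoped ENNReal NNReal RealInnerProductSpace

namespace Vale.Agent.P120

variable {d n : ℕ} {C D : ℝ} {μ : Measure (Spc d)} {a : Spc d} {r : ℝ}

/-- the normalising map `y ↦ r⁻¹ • (y - a)` -/
def zoom (a : Spc d) (r : ℝ) (y : Spc d) : Spc d := r⁻¹ • (y - a)

lemma rescale_eq (n : ℕ) (μ : Measure (Spc d)) (a : Spc d) (r : ℝ) :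
    rescale n μ a r = ENNReal.ofReal ((r ^ n)⁻¹) • μ.map (zoom a r) := rfl

@[fun_prop]
lemma continuous_zoom (a : Spc d) (r : ℝ) : Continuous (zoom a r) := by unfold zoom; fun_prop

lemma add_smul_zoom (hr : r ≠ 0) (y : Spc d) : a + r • zoom a r y = y := by
  rw [zoom, smul_smul, mul_inv_cancel₀ hr, one_smul, add_sub_cancel]

lemma zoom_add_smul (hr : r ≠ 0) (u : Spc d) : zoom a r (a + r • u) = u := by
  rw [zoom, add_sub_cancel_left, smul_smul, inv_mul_cancel₀ hr, one_smul]

lemma zoom_sub (x y : Spc d) : zoom a r x - zoom a r y = r⁻¹ • (x - y) := by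
  simp only [zoom]; module

lemma dist_zoom (hr : 0 < r) (x y : Spc d) : dist (zoom a r x) (zoom a r y) = r⁻¹ * dist x y := by
  rw [dist_eq_norm, zoom_sub, norm_smul, Real.norm_eq_abs, abs_of_pos (inv_pos.mpr hr), dist_eq_norm]

/-- the normalising homeomorphism -/
def zoomHomeo (a : Spc d) {r : ℝ} (hr : r ≠ 0) : Spc d ≃ₜ Spc d where
  toFun := zoom a r
  invFun u := a + r • u
  left_inv := add_smul_zoom hr
  right_inv := zoom_add_smul hr
  continuous_toFun := continuous_zoom a r
  continuous_invFun := by fun_prop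

lemma zoom_preimage_ball (hr : 0 < r) (x : Spc d) (s : ℝ) :
    zoom a r ⁻¹' ball x s = ball (a + r • x) (r * s) := by
  ext y
  have := dist_zoom (a := a) hr y (a + r • x)
  rw [zoom_add_smul hr.ne'] at this
  rw [mem_preimage, mem_ball, mem_ball, this, inv_mul_lt_iff₀ hr]

lemma zoom_preimage_closedBall (hr : 0 < r) (x : Spc d) (s : ℝ) :
    zoom a r ⁻¹' closedBall x s = closedBall (a + r • x) (r * s) := by
  ext y
  have := dist_zoom (a := a) hr y (a + r • x)
  rw [zoom_add_smul hr.ne'] at this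
  rw [mem_preimage, mem_closedBall, mem_closedBall, this, inv_mul_le_iff₀ hr]

lemma rescale_apply (n : ℕ) (μ : Measure (Spc d)) (a : Spc d) {r : ℝ} (hr : r ≠ 0)
    (s : Set (Spc d)) :
    rescale n μ a r s = ENNReal.ofReal ((r ^ n)⁻¹) * μ (zoom a r ⁻¹' s) := by
  rw [rescale_eq, Measure.smul_apply, smul_eq_mul]
  exact congrArg _ ((zoomHomeo a hr).measurableEmbedding.map_apply μ s)

lemma isLocallyFiniteMeasure_rescale [IsLocallyFiniteMeasure μ] (hr : 0 < r) :
    IsLocallyFiniteMeasure (rescale n μ a r) :=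
  ⟨fun x => ⟨ball x 1, ball_mem_nhds x one_pos, by
    rw [rescale_apply n μ a hr.ne', zoom_preimage_ball hr]
    exact ENNReal.mul_lt_top ENNReal.ofReal_lt_top measure_ball_lt_top⟩⟩

lemma mem_support_rescale (hr : 0 < r) (y : Spc d) :
    y ∈ (rescale n μ a r).support ↔ a + r • y ∈ μ.support := by
  have hc : ENNReal.ofReal ((r ^ n)⁻¹) ≠ 0 := (ENNReal.ofReal_pos.mpr (by positivity)).ne'
  rw [(nhds_basis_ball (x := y)).mem_measureSupport,
    (nhds_basis_ball (x := a + r • y)).mem_measureSupport]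
  constructor
  · intro h s hs
    have := h (s / r) (by positivity)
    rw [rescale_apply n μ a hr.ne', zoom_preimage_ball hr, mul_div_cancel₀ s hr.ne'] at this
    exact pos_iff_ne_zero.mpr fun h0 => by simp [h0] at this
  · intro h s hs
    rw [rescale_apply n μ a hr.ne', zoom_preimage_ball hr]
    exact ENNReal.mul_pos hc (h (r * s) (by positivity)).ne'

lemma support_rescale (hr : 0 < r) :
    (rescale n μ a r).support = (fun u => a + r • u) ⁻¹' μ.support :=
  Set.ext fun y => mem_support_rescale hr y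

lemma zero_mem_support_rescale (hr : 0 < r) (ha : a ∈ μ.support) :
    (0 : Spc d) ∈ (rescale n μ a r).support := by
  rw [mem_support_rescale hr, smul_zero, add_zero]; exact ha

lemma Reg.rescale (h : Reg n C D μ) (a : Spc d) (hr : 0 < r) :
    Reg n C (D / r) (rescale n μ a r) := by
  refine ⟨h.one_le, fun x s hs => ?_, fun x hx s hs hsD => ?_⟩
  · rw [rescale_apply n μ a hr.ne', zoom_preimage_ball hr]
    refine (mul_le_mul_right (h.upper _ _ (by positivity)) _).trans (le_of_eq ?_)
    rw [← ENNReal.ofReal_mul (by positivity), mul_pow]; congr 1; field_simp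
  · rw [rescale_apply n μ a hr.ne', zoom_preimage_ball hr]
    rw [mem_support_rescale hr] at hx
    have hrs : r * s ≤ D := by rw [mul_comm]; exact (le_div_iff₀ hr).mp hsD
    refine le_trans (le_of_eq ?_) (mul_le_mul_right (h.lower _ hx _ (by positivity) hrs) _)
    rw [← ENNReal.ofReal_mul (by positivity), mul_pow]; congr 1; field_simp

lemma integral_rescale {E : Type*} [NormedAddCommGroup E] [NormedSpace ℝ E] (hr : 0 < r)
    (f : Spc d → E) :
    ∫ u, f u ∂(rescale n μ a r) = (r ^ n)⁻¹ • ∫ y, f (zoom a r y) ∂μ := by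
  rw [rescale_eq, integral_smul_measure, ENNReal.toReal_ofReal (by positivity)]
  congr 1
  exact (zoomHomeo a hr.ne').measurableEmbedding.integral_map f

lemma prod_rescale [IsLocallyFiniteMeasure μ] (hr : 0 < r) :
    (rescale n μ a r).prod (rescale n μ a r)
      = ENNReal.ofReal ((r ^ n)⁻¹ * (r ^ n)⁻¹) • (μ.prod μ).map (Prod.map (zoom a r) (zoom a r)) := by
  haveI : SFinite (μ.map (zoom a r)) := inferInstance
  rw [rescale_eq, Measure.prod_smul_left, Measure.prod_smul_right, smul_smul,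
    ← ENNReal.ofReal_mul (by positivity),
    Measure.map_prod_map μ μ (continuous_zoom a r).measurable (continuous_zoom a r).measurable]

lemma integral_rescale_prod [IsLocallyFiniteMeasure μ] {E : Type*} [NormedAddCommGroup E]
    [NormedSpace ℝ E] (hr : 0 < r) (f : Spc d × Spc d → E) :
    ∫ p, f p ∂((rescale n μ a r).prod (rescale n μ a r))
      = ((r ^ n)⁻¹ * (r ^ n)⁻¹) • ∫ p, f (zoom a r p.1, zoom a r p.2) ∂(μ.prod μ) := by
  rw [prod_rescale hr, integral_smul_measure, ENNReal.toReal_ofReal (by positivity)]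
  congr 1
  exact ((zoomHomeo a hr.ne').prodCongr (zoomHomeo a hr.ne')).measurableEmbedding.integral_map f

lemma lintegral_rescale_prod [IsLocallyFiniteMeasure μ] (hr : 0 < r) (f : Spc d × Spc d → ℝ≥0∞) :
    ∫⁻ p, f p ∂((rescale n μ a r).prod (rescale n μ a r))
      = ENNReal.ofReal ((r ^ n)⁻¹ * (r ^ n)⁻¹) *
          ∫⁻ p, f (zoom a r p.1, zoom a r p.2) ∂(μ.prod μ) := by
  rw [prod_rescale hr, lintegral_smul_measure, smul_eq_mul]
  congr 1
  exact ((zoomHomeo a hr.ne').prodCongr (zoomHomeo a hr.ne')).measurableEmbedding.lintegral_map f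

lemma riesz_zoom_sub (hr : 0 < r) (x y : Spc d) :
    riesz n (zoom a r x - zoom a r y) = (r ^ n) • riesz n (x - y) := by
  rw [zoom_sub, riesz_smul (inv_pos.mpr hr), inv_pow, inv_inv]

lemma trBil_rescale [IsLocallyFiniteMeasure μ] (hr : 0 < r) (ε : ℝ) (f g : Spc d → ℝ) :
    trBil n (rescale n μ a r) ε f g
      = (r ^ n)⁻¹ • trBil n μ (r * ε) (fun y => f (zoom a r y)) (fun y => g (zoom a r y)) := by
  simp only [trBil, integral_rescale_prod hr]
  rw [← integral_smul, ← integral_smul]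
  refine integral_congr_ae (Eventually.of_forall fun p => ?_)
  simp only [riesz_zoom_sub hr, ← dist_eq_norm, dist_zoom hr, smul_smul]
  congr 1
  rw [show r⁻¹ * dist p.1 p.2 / ε = dist p.1 p.2 / (r * ε) by
    rw [inv_mul_eq_div, div_div]]
  field_simp

lemma RB.rescale [IsLocallyFiniteMeasure μ] (h : RB n C μ) (a : Spc d) (hr : 0 < r) :
    RB n C (rescale n μ a r) := by
  intro ε hε f g hf hf' hg hg'
  have hb := h (r * ε) (by positivity) (fun y => f (zoom a r y)) (fun y => g (zoom a r y))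
    (hf.comp (continuous_zoom a r)) (hf'.comp_homeomorph (zoomHomeo a hr.ne'))
    (hg.comp (continuous_zoom a r)) (hg'.comp_homeomorph (zoomHomeo a hr.ne'))
  simp only [trBil_rescale hr, integral_rescale hr, smul_eq_mul]
  rw [norm_smul, Real.norm_eq_abs, abs_of_pos (show (0 : ℝ) < (r ^ n)⁻¹ by positivity),
    Real.sqrt_mul (by positivity), Real.sqrt_mul (by positivity)]
  refine (mul_le_mul_of_nonneg_left hb (by positivity)).trans (le_of_eq ?_)
  have e : Real.sqrt ((r ^ n)⁻¹) * Real.sqrt ((r ^ n)⁻¹) = (r ^ n)⁻¹ :=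
    Real.mul_self_sqrt (by positivity)
  calc (r ^ n)⁻¹ * (C * Real.sqrt (∫ y, f (zoom a r y) ^ 2 ∂μ) *
        Real.sqrt (∫ y, g (zoom a r y) ^ 2 ∂μ))
      = (Real.sqrt ((r ^ n)⁻¹) * Real.sqrt ((r ^ n)⁻¹)) * (C * Real.sqrt (∫ y, f (zoom a r y) ^ 2 ∂μ) *
        Real.sqrt (∫ y, g (zoom a r y) ^ 2 ∂μ)) := by rw [e]
    _ = _ := by ring

lemma pairW_rescale [IsLocallyFiniteMeasure μ] (hr : 0 < r) (w φ : Spc d → ℝ) :
    pairW n (rescale n μ a r) w φ
      = (r ^ n)⁻¹ • pairW n μ (fun y => w (zoom a r y)) (fun y => φ (zoom a r y)) := by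
  simp only [pairW, integral_rescale_prod hr]
  rw [smul_comm ((r ^ n)⁻¹) (1/2 : ℝ) (_ : Spc d), ← integral_smul ((r ^ n)⁻¹ * (r ^ n)⁻¹),
    ← integral_smul (r ^ n)⁻¹]
  congr 1
  refine integral_congr_ae (Eventually.of_forall fun p => ?_)
  simp only [riesz_zoom_sub hr, smul_smul]
  congr 1
  field_simp

lemma Adm.zoom_pullback [IsLocallyFiniteMeasure μ] (hr : 0 < r) {x : Spc d} {R : ℝ}
    {φ : Spc d → ℝ} (h : Adm (rescale n μ a r) x R φ) :
    Adm μ (a + r • x) (r * R) (fun y => φ (zoom a r y)) := by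
  obtain ⟨K, hK⟩ := h.lip
  refine ⟨⟨K * Real.toNNReal r⁻¹, ?_⟩, ?_, ?_⟩
  · refine hK.comp (LipschitzWith.of_dist_le_mul fun x y => ?_)
    rw [dist_zoom hr, Real.coe_toNNReal _ (by positivity)]
  · refine (tsupport_comp_subset_preimage φ (continuous_zoom a r)).trans ?_
    exact (preimage_mono h.supp).trans (zoom_preimage_closedBall hr x R).subset
  · have := h.mean
    rw [integral_rescale hr, smul_eq_mul, mul_eq_zero] at this
    exact this.resolve_left (by positivity)

lemma Adm.zoom_pushforward [IsLocallyFiniteMeasure μ] (hr : 0 < r) {x : Spc d} {R : ℝ}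
    {φ : Spc d → ℝ} (h : Adm μ (a + r • x) (r * R) φ) :
    Adm (rescale n μ a r) x R (fun u => φ (a + r • u)) := by
  obtain ⟨K, hK⟩ := h.lip
  refine ⟨⟨K * Real.toNNReal r, ?_⟩, ?_, ?_⟩
  · refine hK.comp (LipschitzWith.of_dist_le_mul fun x y => ?_)
    rw [dist_add_left, dist_smul₀, Real.norm_eq_abs, abs_of_pos hr, Real.coe_toNNReal _ hr.le]
  · refine (tsupport_comp_subset_preimage φ (by fun_prop)).trans fun u hu => ?_
    have := h.supp hu
    rw [← zoom_preimage_closedBall hr] at this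
    simpa [zoom_add_smul hr.ne'] using this
  · rw [integral_rescale hr]
    simp only [add_smul_zoom hr.ne', h.mean, smul_zero]

lemma pairing_rescale [IsLocallyFiniteMeasure μ] (h : UpperReg n C μ) (hn : 1 ≤ n) (hr : 0 < r)
    {x : Spc d} {R : ℝ} {φ : Spc d → ℝ} (hadm : Adm (rescale n μ a r) x R φ) :
    pairing n (rescale n μ a r) φ = (r ^ n)⁻¹ • pairing n μ (fun y => φ (zoom a r y)) := by
  haveI := isLocallyFiniteMeasure_rescale (n := n) (μ := μ) (a := a) hr
  have hup : UpperReg n C (rescale n μ a r) := fun z s hs => by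
    rw [rescale_apply n μ a hr.ne', zoom_preimage_ball hr]
    refine (mul_le_mul_right (h _ _ (by positivity)) _).trans (le_of_eq ?_)
    rw [← ENNReal.ofReal_mul (by positivity), mul_pow]; congr 1; field_simp
  have hadm' := hadm.zoom_pullback hr
  refine tendsto_nhds_unique (tendsto_pairL hup hn hadm) ?_
  have hw : ∀ L : ℝ, pairL n (rescale n μ a r) L φ
      = (r ^ n)⁻¹ • pairW n μ (cut a (r * L)) (fun y => φ (zoom a r y)) := fun L => by
    rw [pairL_eq_pairW, pairW_rescale hr]
    congr 2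
    funext y
    rw [← cut_smul_add a hr L, add_smul_zoom hr.ne']
  simp only [hw]
  refine Tendsto.const_smul ?_ _
  set ψ := fun y => φ (zoom a r y)
  set R' := max (r * R) 0
  have hadm'' : Adm μ (a + r • x) R' ψ :=
    hadm'.mono (closedBall_subset_closedBall (le_max_left _ _))
  have hR'0 : 0 ≤ R' := le_max_right _ _
  refine tendsto_iff_norm_sub_tendsto_zero.mpr ?_
  set Cst := tailConst n C / 2 * R' * ∫ y, |ψ y| ∂μ
  have hlim : Tendsto (fun L : ℝ => Cst / (r * L - dist (a + r • x) a)) atTop (𝓝 0) := by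
    refine Tendsto.const_div_atTop ?_ _
    exact tendsto_atTop_add_const_right _ _ (tendsto_id.const_mul_atTop hr)
  refine squeeze_zero' (Eventually.of_forall fun L => norm_nonneg _) ?_ hlim
  filter_upwards [eventually_ge_atTop ((2 * R' + 1 + dist (a + r • x) a) / r)] with L hL
  rw [div_le_iff₀ hr] at hL
  have hRL : 0 < r * L - dist (a + r • x) a := by linarith
  rw [norm_sub_rev]
  refine norm_pairing_sub_pairW_le h hn hadm'' (by linarith) hRL (isWindow_cut ?_ (by linarith))
  linarith [dist_nonneg (x := a + r • x) (y := a)]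

lemma En_rescale [IsLocallyFiniteMeasure μ] (hr : 0 < r) {φ : Spc d → ℝ} :
    En n (rescale n μ a r) φ
      = ENNReal.ofReal ((r ^ n)⁻¹ * (r ^ n)⁻¹ * r ^ (n + 1)) * En n μ (fun y => φ (zoom a r y)) := by
  rw [En, En, lintegral_rescale_prod hr, ENNReal.ofReal_mul (p := (r ^ n)⁻¹ * (r ^ n)⁻¹) (by positivity), mul_assoc]
  congr 1
  rw [← lintegral_const_mul' _ _ ENNReal.ofReal_ne_top]
  refine lintegral_congr fun p => ?_
  rw [← ENNReal.ofReal_mul (by positivity)]
  congr 1
  rw [← dist_eq_norm, ← dist_eq_norm, dist_zoom hr, mul_pow, inv_pow, ← div_div, div_inv_eq_mul]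
  ring

lemma oscSq_rescale [IsLocallyFiniteMeasure μ] (h : UpperReg n C μ) (hn : 1 ≤ n) (hr : 0 < r)
    {M : ℝ} (x : Spc d) {s : ℝ} (hs : 0 < s) :
    oscSq n (rescale n μ a r) M x s = oscSq n μ M (a + r • x) (r * s) := by
  have key : ∀ φ, Adm (rescale n μ a r) x (M * s) φ →
      ENNReal.ofReal (‖pairing n (rescale n μ a r) φ‖ ^ 2)
        / (ENNReal.ofReal (s ^ (n + 1)) * En n (rescale n μ a r) φ)
      = ENNReal.ofReal (‖pairing n μ (fun y => φ (zoom a r y))‖ ^ 2)
        / (ENNReal.ofReal ((r * s) ^ (n + 1)) * En n μ (fun y => φ (zoom a r y))) := by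
    intro φ hadm
    have hk : (0 : ℝ) < (r ^ n)⁻¹ * (r ^ n)⁻¹ := by positivity
    rw [pairing_rescale h hn hr hadm, En_rescale hr, norm_smul, Real.norm_eq_abs, mul_pow, sq_abs,
      ← mul_assoc (ENNReal.ofReal (s ^ (n + 1))), ← ENNReal.ofReal_mul (by positivity),
      show s ^ (n + 1) * ((r ^ n)⁻¹ * (r ^ n)⁻¹ * r ^ (n + 1))
        = ((r ^ n)⁻¹ * (r ^ n)⁻¹) * (r * s) ^ (n + 1) by rw [mul_pow]; ring,
      sq ((r ^ n)⁻¹), ENNReal.ofReal_mul hk.le, ENNReal.ofReal_mul hk.le,
      mul_assoc, ENNReal.mul_div_mul_left _ _ (ENNReal.ofReal_pos.mpr hk).ne' ENNReal.ofReal_ne_top]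
  refine le_antisymm (iSup₂_le fun φ hadm => ?_) (iSup₂_le fun φ hadm => ?_)
  · rw [key φ hadm]
    have h' := hadm.zoom_pullback hr
    rw [show r * (M * s) = M * (r * s) by ring] at h'
    exact le_iSup₂_of_le _ h' le_rfl
  · rw [show M * (r * s) = r * (M * s) by ring] at hadm
    have h' := hadm.zoom_pushforward (n := n) hr
    refine le_iSup₂_of_le _ h' ?_
    rw [key _ h']
    simp only [add_smul_zoom hr.ne', le_refl]

namespace Plane

/-- the plane whose image under the normalising map is `L` -/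
def unzoom (L : Plane n d) (a : Spc d) (r : ℝ) : Plane n d :=
  ⟨a + r • L.base, L.frame, L.orth⟩

lemma dev_unzoom (L : Plane n d) (hr : r ≠ 0) (y : Spc d) :
    (L.unzoom a r).dev y = r • L.dev (zoom a r y) := by
  have e : y - (a + r • L.base) = r • (zoom a r y - L.base) := by
    rw [smul_sub, ← sub_sub, zoom, smul_smul, mul_inv_cancel₀ hr, one_smul]
  simp only [dev, unzoom, e, real_inner_smul_right, ← smul_smul, ← Finset.smul_sum, ← smul_sub]

/-- change of normalisation as a bijection of planes -/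
def unzoomEquiv (a : Spc d) {r : ℝ} (hr : r ≠ 0) : Plane n d ≃ Plane n d where
  toFun L := L.unzoom a r
  invFun L := ⟨zoom a r L.base, L.frame, L.orth⟩
  left_inv L := by cases L; simp [unzoom, zoom_add_smul hr]
  right_inv L := by cases L; simp [unzoom, add_smul_zoom hr]

end Plane

lemma devSq_rescale (hr : 0 < r) (L : Plane n d) (x : Spc d) (R : ℝ) :
    devSq (rescale n μ a r) L x R
      = (r ^ (n + 2))⁻¹ * devSq μ (L.unzoom a r) (a + r • x) (r * R) := by
  simp only [devSq]
  rw [← integral_indicator measurableSet_closedBall, ← integral_indicator measurableSet_closedBall,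
    integral_rescale hr, smul_eq_mul, ← integral_const_mul, ← integral_const_mul]
  refine integral_congr_ae (Eventually.of_forall fun y => ?_)
  simp only [← zoom_preimage_closedBall hr]
  by_cases hy : zoom a r y ∈ closedBall x R
  · rw [indicator_of_mem hy, indicator_of_mem (show y ∈ zoom a r ⁻¹' closedBall x R from hy),
      Plane.dev_unzoom L hr.ne', norm_smul, Real.norm_eq_abs, abs_of_pos hr, mul_pow, pow_add]
    field_simp
  · rw [indicator_of_notMem hy,
      indicator_of_notMem (show y ∉ zoom a r ⁻¹' closedBall x R from hy), mul_zero, mul_zero]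

lemma betaSq_rescale (hr : 0 < r) {Λ : ℝ} (x : Spc d) (s : ℝ) :
    betaSq n (rescale n μ a r) Λ x s = betaSq n μ Λ (a + r • x) (r * s) := by
  simp only [betaSq, devSq_rescale hr]
  have e : r * (Λ * s) = Λ * (r * s) := by ring
  rw [e, ← Real.mul_iInf_of_nonneg (by positivity), mul_pow]
  have hI : (⨅ L : Plane n d, devSq μ (L.unzoom a r) (a + r • x) (Λ * (r * s)))
      = ⨅ L : Plane n d, devSq μ L (a + r • x) (Λ * (r * s)) :=
    (Plane.unzoomEquiv a hr.ne').iInf_congr fun L => rfl
  rw [hI, mul_comm (r ^ (n + 2))⁻¹, mul_div_assoc, inv_eq_one_div, div_div, ← mul_div_assoc,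
    mul_one]

lemma flat_rescale (hr : 0 < r) (x : Spc d) (R δ : ℝ) :
    Flat n (rescale n μ a r) x R δ ↔ Flat n μ (a + r • x) (r * R) (r * δ) := by
  constructor
  · rintro ⟨L, hL⟩
    refine ⟨L.unzoom a r, fun y hy => ?_⟩
    rw [Plane.dev_unzoom L hr.ne', norm_smul, Real.norm_eq_abs, abs_of_pos hr]
    refine mul_le_mul_of_nonneg_left (hL _ ⟨?_, ?_⟩) hr.le
    · rw [mem_support_rescale hr, add_smul_zoom hr.ne']; exact hy.1
    · have := hy.2
      rwa [← zoom_preimage_closedBall hr, mem_preimage] at this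
  · rintro ⟨L, hL⟩
    obtain ⟨L', rfl⟩ := (Plane.unzoomEquiv a hr.ne').surjective L
    refine ⟨L', fun y hy => ?_⟩
    have h2 : a + r • y ∈ closedBall (a + r • x) (r * R) := by
      rw [← zoom_preimage_closedBall hr, mem_preimage, zoom_add_smul hr.ne']; exact hy.2
    have := hL (a + r • y) ⟨(mem_support_rescale hr y).mp hy.1, h2⟩
    change ‖(L'.unzoom a r).dev (a + r • y)‖ ≤ r * δ at this
    rw [Plane.dev_unzoom L' hr.ne', zoom_add_smul hr.ne', norm_smul, Real.norm_eq_abs,
      abs_of_pos hr] at this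
    exact le_of_mul_le_mul_left this hr

end Vale.Agent.P120
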