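import Vale.Agent.P120.Statements
import Vale.Agent.P120.Scaling
import Vale.Agent.P120.EnergyBasic

/-!
Module Abundance: flat balls are found inside every ball, at a comparable scale, from the packing
condition, compactness and the flatness of reflectionless measures.
-/

noncomputable section

open MeasureTheory Metric Set Filter Topology
open scoped ENNReal NNReal

namespace Vale.Agent.P120

namespace Abund

variable {d n : ℕ}

/-- a finite maximal separated subset of a piece of the support -/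
theorem exists_net (A : Set (Spc d)) (hA : Bornology.IsBounded A) {s : ℝ} (hs : 0 < s) :
    ∃ F : Finset (Spc d), (F : Set (Spc d)) ⊆ A ∧
      (∀ a ∈ F, ∀ b ∈ F, a ≠ b → s ≤ dist a b) ∧ A ⊆ ⋃ a ∈ F, ball a s := by
  classical
  obtain ⟨t, ht, hcov⟩ := Metric.totallyBounded_iff.1
    (hA.isCompact_closure.totallyBounded.subset subset_closure) (s / 2) (half_pos hs)
  have hbound : ∀ F : Finset (Spc d), (F : Set (Spc d)) ⊆ A →
      (∀ a ∈ F, ∀ b ∈ F, a ≠ b → s ≤ dist a b) → F.card ≤ ht.toFinset.card := by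
    intro F hFA hsep
    have hm : ∀ a ∈ F, ∃ c ∈ ht.toFinset, a ∈ ball c (s / 2) := fun a ha => by
      simpa using hcov (hFA ha)
    choose! c hc hac using hm
    refine Finset.card_le_card_of_injOn c hc ?_
    intro a ha b hb hab
    by_contra hne
    have h1 := hsep a ha b hb hne
    have h2 := mem_ball.1 (hac a ha)
    have h3 := mem_ball.1 (hac b hb)
    rw [hab] at h2
    linarith [dist_triangle_right a b (c b)]
  let P : ℕ → Prop := fun m => ∃ F : Finset (Spc d), (F : Set (Spc d)) ⊆ A ∧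
    (∀ a ∈ F, ∀ b ∈ F, a ≠ b → s ≤ dist a b) ∧ F.card = m
  obtain ⟨F, hFA, hsep, hcard⟩ := Nat.findGreatest_spec (P := P) (Nat.zero_le ht.toFinset.card)
    ⟨∅, by simp, by simp, rfl⟩
  refine ⟨F, hFA, hsep, fun a ha => ?_⟩
  by_contra hout
  simp only [mem_iUnion, mem_ball, exists_prop, not_exists, not_and, not_lt] at hout
  have haF : a ∉ F := fun h => by
    have := hout a h
    simp at this
    linarith
  have hFA' : ((insert a F : Finset (Spc d)) : Set (Spc d)) ⊆ A := by
    simpa [Set.insert_subset_iff] using ⟨ha, hFA⟩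
  have hsep' : ∀ p ∈ insert a F, ∀ q ∈ insert a F, p ≠ q → s ≤ dist p q := by
    intro p hp q hq hne
    rcases Finset.mem_insert.1 hp with hpa | hpF <;> rcases Finset.mem_insert.1 hq with hqa | hqF
    · exact absurd (hpa.trans hqa.symm) hne
    · rw [hpa]; exact hout q hqF
    · rw [hqa, dist_comm]; exact hout p hpF
    · exact hsep p hpF q hqF hne
  have hle : (insert a F).card ≤ Nat.findGreatest P ht.toFinset.card :=
    Nat.le_findGreatest (hbound _ hFA' hsep') ⟨_, hFA', hsep', rfl⟩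
  rw [Finset.card_insert_of_notMem haF] at hle
  omega

/-- among `L` consecutive levels some ball has small oscillation -/
theorem exists_small_osc (hP : PackingStmt) (hn : 1 ≤ n) (hd : n < d) (C M : ℝ) :
    ∃ L : ℕ, ∀ (μ : Measure (Spc d)) [IsLocallyFiniteMeasure μ] (D : ℝ),
      Reg n C D μ → RB n C μ → ∀ x ∈ μ.support, ∀ ρ : ℝ, 0 < ρ → ρ ≤ D → ∀ j : ℕ, 1 ≤ j →
      ∃ z ∈ μ.support ∩ closedBall x (ρ / 2), ∃ k, j ≤ k ∧ k ≤ j + L ∧
        oscSq n μ M z (side ρ k) ≤ ENNReal.ofReal (1 / (|M| + 1)) := by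
  classical
  obtain ⟨C', hC'⟩ := hP n d hn hd C M
  obtain ⟨L, hL⟩ := exists_nat_gt ((|M| + 1) * C' * C ^ 2)
  refine ⟨L, fun μ _ D hReg hRB x hx ρ hρ hρD j hj => ?_⟩
  have hC : 0 < C := lt_of_lt_of_le one_pos hReg.one_le
  have hside : ∀ k, 0 < side ρ k := fun k => by unfold side; positivity
  have hsle : ∀ k, 1 ≤ k → side ρ k ≤ ρ / 8 := fun k hk => by
    unfold side
    exact div_le_div_of_nonneg_left hρ.le (by norm_num)
      (by simpa using pow_le_pow_right₀ (by norm_num : (1 : ℝ) ≤ 8) hk)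
  by_contra hcon
  push Not at hcon
  set A := μ.support ∩ closedBall x (ρ / 2) with hA
  have hAb : Bornology.IsBounded A := isBounded_closedBall.subset inter_subset_right
  have hnets := fun k => exists_net A hAb (show 0 < side ρ k / 8 by have := hside k; positivity)
  choose F hFA hsep hcov using hnets
  set S : Finset (ℕ × Spc d) :=
    (Finset.Icc j (j + L)).biUnion fun k => (F k).image fun z => (k, z) with hS
  have hmem : ∀ q ∈ S, q.1 ∈ Finset.Icc j (j + L) ∧ q.2 ∈ F q.1 := by
    intro q hq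
    simp only [hS, Finset.mem_biUnion, Finset.mem_image] at hq
    obtain ⟨k, hk, z, hz, rfl⟩ := hq
    exact ⟨hk, hz⟩
  have h1 := hC' μ D hReg hRB x hx ρ hρ hρD S
    (fun q hq => ⟨(hFA _ (hmem q hq).2).1,
      closedBall_subset_closedBall (by linarith) (hFA _ (hmem q hq).2).2⟩)
    (fun q hq q' hq' hlev hne => by
      have h2 : q'.2 ∈ F q.1 := hlev ▸ (hmem q' hq').2
      exact hsep q.1 q.2 (hmem q hq).2 q'.2 h2 fun h => hne (Prod.ext hlev h))
  -- each level carries a fixed proportion of mass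
  have hlev : ∀ k ∈ Finset.Icc j (j + L),
      ENNReal.ofReal (ρ ^ n / C ^ 2) ≤ ∑ z ∈ F k, ENNReal.ofReal (side ρ k ^ n) := by
    intro k hk
    have hk1 : 1 ≤ k := le_trans hj (Finset.mem_Icc.1 hk).1
    have hnull : μ (μ.supportᶜ) = 0 := Measure.measure_compl_support
    have hm : ENNReal.ofReal (C⁻¹ * (ρ / 2) ^ n) ≤ ∑ z ∈ F k, μ (ball z (side ρ k / 8)) :=
      calc ENNReal.ofReal (C⁻¹ * (ρ / 2) ^ n) ≤ μ (ball x (ρ / 2)) :=
            hReg.lower x hx _ (by positivity) (by linarith)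
        _ ≤ μ (A ∪ μ.supportᶜ) := measure_mono fun y hy => by
            by_cases h : y ∈ μ.support
            · exact Or.inl ⟨h, ball_subset_closedBall hy⟩
            · exact Or.inr h
        _ ≤ μ A + μ (μ.supportᶜ) := measure_union_le _ _
        _ = μ A := by rw [hnull, add_zero]
        _ ≤ μ (⋃ z ∈ F k, ball z (side ρ k / 8)) := measure_mono (hcov k)
        _ ≤ _ := measure_biUnion_finset_le _ _
    have hm2 := hm.trans (Finset.sum_le_sum fun z _ =>
      hReg.upper z _ (by have := hside k; positivity))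
    simp only [Finset.sum_const, nsmul_eq_mul, ← ENNReal.ofReal_natCast,
      ← ENNReal.ofReal_mul (Nat.cast_nonneg _)] at hm2 ⊢
    rw [ENNReal.ofReal_le_ofReal_iff (by have := hside k; positivity)] at hm2
    refine ENNReal.ofReal_le_ofReal ?_
    have h8 : (side ρ k / 8) ^ n ≤ side ρ k ^ n * (1 / 2) ^ n := by
      rw [← mul_pow]
      exact pow_le_pow_left₀ (by have := hside k; positivity) (by linarith [hside k]) n
    have h9 : C⁻¹ * (ρ / 2) ^ n ≤ ((F k).card : ℝ) * (C * (side ρ k ^ n * (1 / 2) ^ n)) :=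
      hm2.trans (by gcongr)
    rw [div_pow ρ 2] at h9
    rw [div_le_iff₀ (by positivity)]
    rw [show C⁻¹ * (ρ ^ n / 2 ^ n) = ρ ^ n / C * (1 / 2) ^ n by rw [one_div_pow]; ring,
      show ((F k).card : ℝ) * (C * (side ρ k ^ n * (1 / 2) ^ n)) =
        (F k).card * side ρ k ^ n * C * (1 / 2) ^ n by ring] at h9
    have h10 := le_of_mul_le_mul_right h9 (by positivity)
    rw [div_le_iff₀ hC] at h10
    linarith
  have hlow : ENNReal.ofReal (1 / (|M| + 1)) *
      ((Finset.Icc j (j + L)).card • ENNReal.ofReal (ρ ^ n / C ^ 2)) ≤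
      ∑ q ∈ S, oscSq n μ M q.2 (side ρ q.1) * ENNReal.ofReal (side ρ q.1 ^ n) := by
    rw [← Finset.sum_const]
    refine (mul_le_mul_right (Finset.sum_le_sum hlev) _).trans ?_
    rw [Finset.mul_sum, hS, Finset.sum_biUnion]
    · refine Finset.sum_le_sum fun k hk => ?_
      rw [Finset.sum_image fun a _ b _ h => (Prod.ext_iff.1 h).2, Finset.mul_sum]
      refine Finset.sum_le_sum fun z hz => mul_le_mul_left ?_ _
      exact (hcon z (hFA k hz) k (Finset.mem_Icc.1 hk).1 (Finset.mem_Icc.1 hk).2).le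
    · intro k _ k' _ hne
      simp only [Function.onFun, Finset.disjoint_left, Finset.mem_image]
      rintro q ⟨z, _, rfl⟩ ⟨z', _, h⟩
      exact hne (Prod.ext_iff.1 h).1.symm
  have h2 := hlow.trans h1
  rw [Nat.card_Icc, show j + L + 1 - j = L + 1 by omega, nsmul_eq_mul, ← ENNReal.ofReal_natCast,
    ← ENNReal.ofReal_mul (Nat.cast_nonneg _), ← ENNReal.ofReal_mul (by positivity)] at h2
  have hpos : 0 < 1 / (|M| + 1) * (((L + 1 : ℕ) : ℝ) * (ρ ^ n / C ^ 2)) := by positivity
  by_cases hC'0 : C' * ρ ^ n ≤ 0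
  · rw [ENNReal.ofReal_of_nonpos hC'0, nonpos_iff_eq_zero, ENNReal.ofReal_eq_zero] at h2
    linarith
  rw [ENNReal.ofReal_le_ofReal_iff (le_of_not_ge hC'0)] at h2
  push_cast at h2
  have h3 : 1 / (|M| + 1) * (((L : ℝ) + 1) * (ρ ^ n / C ^ 2)) =
      ((L : ℝ) + 1) / ((|M| + 1) * C ^ 2) * ρ ^ n := by
    field_simp
  rw [h3] at h2
  have h4 := le_of_mul_le_mul_right h2 (by positivity)
  rw [div_le_iff₀ (by positivity)] at h4
  linarith

/-- limits of measures with vanishing oscillation at the unit scale are reflectionless -/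
theorem reflectionless_limit (hn : 1 ≤ n) {C C' : ℝ} {U : Ultrafilter ℕ}
    (hU : (U : Filter ℕ) ≤ atTop) {μ : ℕ → Measure (Spc d)} [∀ j, IsLocallyFiniteMeasure (μ j)]
    {ν : Measure (Spc d)} [IsLocallyFiniteMeasure ν] (hν : RegTop n C' ν) (h0 : (0 : Spc d) ∈ ν.support)
    (hlim : IsLimit n U μ ν) (hup : ∀ j, UpperReg n C (μ j))
    (hosc : ∀ j : ℕ, oscSq n (μ j) (j + 1) 0 1 ≤ ENNReal.ofReal (1 / ((j : ℝ) + 1 + 1))) :
    Reflectionless n ν := by
  intro x R ψ hψ
  set R' := max (dist x 0 + R) 2 with hR'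
  have hsub : closedBall x R ⊆ closedBall 0 R' :=
    closedBall_subset_closedBall' (by linarith [le_max_left (dist x 0 + R) 2])
  have hψ' := hψ.mono hsub
  obtain ⟨Kψ, hKψ⟩ := hψ.lip
  have hψc : HasCompactSupport ψ :=
    (isCompact_closedBall _ _).of_isClosed_subset (isClosed_tsupport _) hψ.supp
  set χ := cut (0 : Spc d) 1 with hχ
  obtain ⟨Kχ, hKχ⟩ : ∃ K : ℝ≥0, LipschitzWith K χ := by
    refine ⟨1, LipschitzWith.of_dist_le_mul fun a b => ?_⟩
    simp only [hχ, cut, ramp, div_one, NNReal.coe_one, one_mul]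
    rw [Real.dist_eq, show (1 - min 1 (max 0 (dist a 0 - 1))) - (1 - min 1 (max 0 (dist b 0 - 1)))
      = min 1 (max 0 (dist b 0 - 1)) - min 1 (max 0 (dist a 0 - 1)) by ring]
    refine (abs_min_sub_min_le_max _ _ _ _).trans ?_
    simp only [sub_self, abs_zero]
    refine max_le dist_nonneg ((abs_max_sub_max_le_max _ _ _ _).trans ?_)
    simp only [sub_self, abs_zero]
    refine max_le dist_nonneg ?_
    rw [show dist b 0 - 1 - (dist a 0 - 1) = dist b 0 - dist a 0 by ring, abs_sub_comm]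
    exact abs_dist_sub_le a b 0
  have hχs : tsupport χ ⊆ closedBall 0 R' := by
    refine closure_minimal (fun y hy => ?_) isClosed_closedBall
    rw [mem_closedBall]
    by_contra hbad
    refine hy ?_
    have h2 : (2 : ℝ) < dist y 0 := lt_of_le_of_lt (le_max_right _ _) (not_le.1 hbad)
    simp only [hχ, cut, ramp, div_one]
    rw [max_eq_right (by linarith), min_eq_left (by linarith), sub_self]
  have hχc : HasCompactSupport χ :=
    (isCompact_closedBall _ _).of_isClosed_subset (isClosed_tsupport _) hχs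
  have hχint : 0 < ∫ y, χ y ∂ν := by
    refine lt_of_lt_of_le (b := ν.real (ball (0 : Spc d) 1)) ?_ ?_
    · refine ENNReal.toReal_pos ((Measure.mem_support_iff_forall _).1 h0 _ (ball_mem_nhds _ one_pos)).ne'
        measure_ball_lt_top.ne
    · rw [← integral_indicator_one measurableSet_ball]
      refine integral_mono ((integrable_indicator_iff measurableSet_ball).2
        (integrableOn_const measure_ball_lt_top.ne)) (hKχ.continuous.integrable_of_hasCompactSupport hχc)
        fun y => ?_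
      have hb : ∀ t : ℝ, 0 ≤ 1 - ramp t := fun t => sub_nonneg.2 (min_le_left _ _)
      refine indicator_apply_le' (fun hy => ?_) (fun _ => hb _)
      refine le_of_eq ?_
      simp only [hχ, cut, ramp, div_one, Pi.one_apply]
      rw [max_eq_left (by linarith [mem_ball.1 hy]), min_eq_right zero_le_one, sub_zero]
  set c := fun j => (∫ y, ψ y ∂(μ j)) / ∫ y, χ y ∂(μ j) with hc
  have hc0 : Tendsto c U (𝓝 0) := by
    have := (hlim.integral ψ hKψ.continuous hψc).div (hlim.integral χ hKχ.continuous hχc) hχint.ne'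
    rwa [hψ.mean, zero_div] at this
  have hden : ∀ᶠ j in (U : Filter ℕ), 0 < ∫ y, χ y ∂(μ j) :=
    (hlim.integral χ hKχ.continuous hχc).eventually_const_lt hχint
  have hc1 : ∀ᶠ j in (U : Filter ℕ), |c j| ≤ 1 := by
    have : Tendsto (fun j => |c j|) U (𝓝 0) := by simpa using hc0.abs
    exact this.eventually_le_const one_pos
  set φ := fun j y => ψ y - c j * χ y with hφ
  have hAdm : ∀ᶠ j in (U : Filter ℕ), Adm (μ j) 0 R' (φ j) ∧ LipschitzWith (Kψ + Kχ) (φ j) := by
    filter_upwards [hden, hc1] with j hj hj1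
    have hL : LipschitzWith (Kψ + Kχ) (φ j) := by
      refine LipschitzWith.of_dist_le_mul fun a b => ?_
      have e1 := hKψ.dist_le_mul a b
      have e2 := hKχ.dist_le_mul a b
      rw [Real.dist_eq] at e1 e2 ⊢
      simp only [hφ, NNReal.coe_add, add_mul]
      rw [show ψ a - c j * χ a - (ψ b - c j * χ b) = (ψ a - ψ b) - c j * (χ a - χ b) by ring]
      refine (abs_sub _ _).trans (add_le_add e1 ?_)
      rw [abs_mul]
      exact (mul_le_of_le_one_left (abs_nonneg _) hj1).trans e2
    refine ⟨⟨⟨_, hL⟩, ?_, ?_⟩, hL⟩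
    · refine closure_minimal (fun y hy => ?_) isClosed_closedBall
      by_contra hout
      apply hy
      simp [hφ, image_eq_zero_of_notMem_tsupport fun h => hout (hψ'.supp h),
        image_eq_zero_of_notMem_tsupport fun h => hout (hχs h)]
    · simp only [hφ]
      rw [integral_sub (hKψ.continuous.integrable_of_hasCompactSupport hψc)
        ((hKχ.continuous.integrable_of_hasCompactSupport hχc).const_mul _), integral_const_mul, hc]
      simp only
      rw [div_mul_cancel₀ _ hj.ne', sub_self]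
  have hconv : ∀ y, Tendsto (fun j => φ j y) U (𝓝 (ψ y)) := fun y => by
    simpa [hφ] using (tendsto_const_nhds (x := ψ y)).sub (hc0.mul_const (χ y))
  have hP := hlim.pairing φ ψ R' (Kψ + Kχ) hAdm hψ'
    (hKψ.weaken (le_add_right le_rfl)) hconv
  set B := |2 * (2 ^ n * C + 16 * (2 ^ (n + 1) * C)) * (C * 2 ^ n)|
      * ((Kψ + Kχ : ℝ≥0) : ℝ) ^ 2 * R' ^ (n + 1) with hB
  have hR0 : 0 < R' := lt_of_lt_of_le two_pos (le_max_right _ _)
  have hbig : ∀ᶠ j : ℕ in (U : Filter ℕ), R' ≤ (j : ℝ) + 1 := by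
    refine hU ((eventually_ge_atTop ⌈R'⌉₊).mono fun j hj => ?_)
    have : (⌈R'⌉₊ : ℝ) ≤ j := by exact_mod_cast hj
    linarith [Nat.le_ceil R']
  have hsq : Tendsto (fun j : ℕ => ‖pairing n (μ j) (φ j)‖ ^ 2) U (𝓝 0) := by
    refine squeeze_zero' (Eventually.of_forall fun j => sq_nonneg _) ?_
      ((tendsto_one_div_add_atTop_nhds_zero_nat.mono_left hU).mul_const B |> fun h => by
        simpa using h)
    filter_upwards [hAdm, hbig] with j hj hjR
    have hadm' : Adm (μ j) 0 (((j : ℝ) + 1) * 1) (φ j) :=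
      hj.1.mono (closedBall_subset_closedBall (by rw [mul_one]; exact hjR))
    refine (norm_pairing_sq_le (hup j) hn one_pos (by positivity) (hosc j) hadm').trans ?_
    rw [one_pow, mul_one]
    have hE := En_le_of_lipschitz (hup j) hn hj.2 hR0 hj.1.supp
    have hE' : (En n (μ j) (φ j)).toReal ≤ B := by
      refine ENNReal.toReal_le_of_le_ofReal (by positivity) (hE.trans (ENNReal.ofReal_le_ofReal ?_))
      rw [hB]
      gcongr
      exact le_abs_self _
    calc 1 / ((j : ℝ) + 1 + 1) * (En n (μ j) (φ j)).toReal ≤ 1 / ((j : ℝ) + 1 + 1) * B :=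
          mul_le_mul_of_nonneg_left hE' (by positivity)
      _ ≤ 1 / ((j : ℝ) + 1) * B := mul_le_mul_of_nonneg_right
          (one_div_le_one_div_of_le (by positivity) (by linarith)) (by positivity)
      _ ≤ _ := by rw [one_div]
  have h := tendsto_nhds_unique (hP.norm.pow 2) hsq
  simpa using h

/-- flatness of the limit gives flatness of the approximants -/
theorem flat_approx {U : Ultrafilter ℕ} {μ : ℕ → Measure (Spc d)} {ν : Measure (Spc d)}
    (hlim : IsLimit n U μ ν) {y : Spc d} {r ε : ℝ} (hr : 0 < r) (hε : 0 < ε)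
    (hflat : Flat n ν y r (ε / 4 * r)) {z : ℕ → Spc d} (hz : Tendsto z U (𝓝 y)) :
    ∀ᶠ j in (U : Filter ℕ), Flat n (μ j) (z j) (r / 2) (ε * (r / 2)) := by
  classical
  obtain ⟨L, hL⟩ := hflat
  suffices h : ∀ᶠ j in (U : Filter ℕ), ∀ w ∈ (μ j).support ∩ closedBall (z j) (r / 2),
      ‖L.dev w‖ ≤ ε * (r / 2) from h.mono fun j hj => ⟨L, hj⟩
  by_contra hcon
  rw [← Ultrafilter.eventually_not] at hcon
  push Not at hcon
  let w : ℕ → Spc d := fun j =>
    if h : ∃ w ∈ (μ j).support ∩ closedBall (z j) (r / 2), ε * (r / 2) < ‖L.dev w‖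
      then h.choose else y
  have hw : ∀ᶠ j in (U : Filter ℕ), w j ∈ (μ j).support ∧ dist (w j) (z j) ≤ r / 2 ∧
      ε * (r / 2) < ‖L.dev (w j)‖ := hcon.mono fun j hj => by
    have e : w j = hj.choose := dif_pos hj
    rw [e]
    exact ⟨hj.choose_spec.1.1, hj.choose_spec.1.2, hj.choose_spec.2⟩
  have hK : ∀ᶠ j in (U : Filter ℕ), w j ∈ closedBall y r := by
    filter_upwards [hw, hz.eventually (closedBall_mem_nhds y (half_pos hr))] with j hj hzj
    rw [mem_closedBall] at *
    linarith [dist_triangle (w j) (z j) y, hj.2.1]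
  obtain ⟨w', hw', hwlim⟩ := (isCompact_closedBall y r).ultrafilter_le_nhds (Ultrafilter.map w U)
    (le_principal_iff.2 hK)
  have hwt : Tendsto w U (𝓝 w') := hwlim
  have hws : w' ∈ ν.support := hlim.supp_limit w w' (hw.mono fun j h => h.1) hwt
  have h1 := hL w' ⟨hws, hw'⟩
  have hcont : Continuous L.dev := by unfold Plane.dev; fun_prop
  have h2 : ε * (r / 2) ≤ ‖L.dev w'‖ :=
    ge_of_tendsto ((hcont.norm.tendsto _).comp hwt) (hw.mono fun j h => h.2.2.le)
  nlinarith

end Abund

open Abund in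
theorem abundanceStmt_of (hP : PackingStmt) (hC : CompactStmt) (hT : TouchStmt) : AbundanceStmt := by
  intro n d hn hd C ε hε
  by_contra hcon
  push Not at hcon
  choose L hL using fun j : ℕ => exists_small_osc hP hn hd C ((j : ℝ) + 1)
  choose μ hlf D hReg hRB x hx ρ hρ hρD hbad using fun j : ℕ =>
    hcon (1 / (8 : ℝ) ^ (j + 1 + L j) * (1 / ((j : ℝ) + 1))) (by positivity)
  have hlf' : ∀ j, IsLocallyFiniteMeasure (μ j) := hlf
  choose z hz k hk1 hk2 hosc using fun j : ℕ =>
    hL j (μ j) (D j) (hReg j) (hRB j) (x j) (hx j) (ρ j) (hρ j) (hρD j) (j + 1) (by omega)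
  set t := fun j => side (ρ j) (k j) with ht
  have ht0 : ∀ j, 0 < t j := fun j => by simp only [ht, side]; have := hρ j; positivity
  set ν' := fun j => rescale n (μ j) (z j) (t j) with hν'
  haveI : ∀ j, IsLocallyFiniteMeasure (ν' j) := fun j => isLocallyFiniteMeasure_rescale (ht0 j)
  obtain ⟨C', _, hcomp⟩ := hC n d hn hd C
  set U := Ultrafilter.of (atTop : Filter ℕ)
  have hDlim : Tendsto (fun j => D j / t j) atTop atTop := by
    refine tendsto_atTop_mono (fun j => ?_)
      ((tendsto_pow_atTop_atTop_of_one_lt (by norm_num : (1 : ℝ) < 8)))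
    rw [le_div_iff₀ (ht0 j)]
    simp only [ht, side]
    rw [mul_div_assoc', div_le_iff₀ (by positivity)]
    calc (8 : ℝ) ^ j * ρ j ≤ 8 ^ k j * ρ j := mul_le_mul_of_nonneg_right
          (pow_le_pow_right₀ (by norm_num) (by have := hk1 j; omega)) (hρ j).le
      _ ≤ 8 ^ k j * D j := mul_le_mul_of_nonneg_left (hρD j) (by positivity)
      _ = _ := by ring
  obtain ⟨ν, hνlf, hνreg, hνRB, hν0, hlim⟩ := hcomp ν' (fun j => inferInstance)
    (fun j => D j / t j) U (Ultrafilter.of_le _) hDlim fun j =>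
      ⟨(hReg j).rescale _ (ht0 j), (hRB j).rescale _ (ht0 j),
        zero_mem_support_rescale (ht0 j) (hz j).1⟩
  have href : Reflectionless n ν := reflectionless_limit hn (Ultrafilter.of_le _) hνreg hν0 hlim
    (C := C) (fun j => ((hReg j).rescale (z j) (ht0 j)).upper) fun j => by
      have h := hosc j
      rw [abs_of_nonneg (show (0 : ℝ) ≤ (j : ℝ) + 1 by positivity)] at h
      simp only [hν']
      rw [oscSq_rescale (hReg j).upper hn (ht0 j) 0 one_pos, smul_zero, add_zero, mul_one]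
      exact h
  obtain ⟨y, ⟨hy, hyb⟩, r, hr, hflat⟩ := hT n d hn hd C' ν hνreg hνRB href hν0 (ε / 4) (by positivity)
  obtain ⟨w, hws, hwt⟩ := hlim.supp_approx y hy
  have hev := (flat_approx hlim hr.1 hε hflat hwt).and (hws.and
    ((hwt.eventually (isOpen_ball.mem_nhds hyb)).and
      (Ultrafilter.of_le (atTop : Filter ℕ) (eventually_ge_atTop ⌈2 / r⌉₊))))
  obtain ⟨j, hjflat, hjs, hjb, hjr⟩ := hev.exists
  simp only [hν', mem_support_rescale (ht0 j)] at hjs
  have hjr' : 2 / r ≤ (j : ℝ) + 1 := by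
    have : (⌈2 / r⌉₊ : ℝ) ≤ j := by exact_mod_cast hjr
    linarith [Nat.le_ceil (2 / r)]
  have hr1 := hr.2
  have hρj := hρ j
  have htj := ht0 j
  have ht8 : t j ≤ ρ j / 8 := by
    simp only [ht, side]
    exact div_le_div_of_nonneg_left hρj.le (by norm_num) (by
      simpa using pow_le_pow_right₀ (by norm_num : (1 : ℝ) ≤ 8)
        (show 1 ≤ k j by have := hk1 j; omega))
  refine hbad j (z j + t j • w j) ⟨hjs, ?_⟩ (t j * (r / 2)) ⟨?_, ?_⟩ ?_
  · have h1 := mem_closedBall.1 (hz j).2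
    have h2 : dist (z j + t j • w j) (z j) ≤ t j := by
      rw [dist_eq_norm, add_sub_cancel_left, norm_smul, Real.norm_eq_abs, abs_of_pos htj]
      refine mul_le_of_le_one_right htj.le ?_
      rw [← dist_zero_right]
      exact (mem_ball.1 hjb).le
    rw [mem_ball]
    linarith [dist_triangle (z j + t j • w j) (z j) (x j)]
  · have e1 : 1 / (8 : ℝ) ^ (j + 1 + L j) * ρ j ≤ t j := by
      simp only [ht, side]
      rw [one_div_mul_eq_div]
      exact div_le_div_of_nonneg_left hρj.le (by positivity)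
        (pow_le_pow_right₀ (by norm_num) (hk2 j))
    have e2 : 1 / ((j : ℝ) + 1) ≤ r / 2 := by
      rw [div_le_div_iff₀ (by positivity) two_pos]
      rw [div_le_iff₀ hr.1] at hjr'
      linarith
    calc 1 / (8 : ℝ) ^ (j + 1 + L j) * (1 / ((j : ℝ) + 1)) * ρ j
        = (1 / (8 : ℝ) ^ (j + 1 + L j) * ρ j) * (1 / ((j : ℝ) + 1)) := by ring
      _ ≤ t j * (r / 2) := mul_le_mul e1 e2 (by positivity) htj.le
  · nlinarith
  · obtain ⟨P, hP'⟩ := hjflat
    refine ⟨P.unzoom (z j) (t j), fun v hv => ?_⟩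
    rw [Plane.dev_unzoom P htj.ne', norm_smul, Real.norm_eq_abs, abs_of_pos htj]
    refine (mul_le_mul_of_nonneg_left (hP' (zoom (z j) (t j) v) ⟨?_, ?_⟩) htj.le).trans
      (le_of_eq (by ring))
    · simp only [hν', mem_support_rescale htj, add_smul_zoom htj.ne']
      exact hv.1
    · show zoom (z j) (t j) v ∈ closedBall (w j) (r / 2)
      rw [← mem_preimage, zoom_preimage_closedBall htj]
      exact hv.2

end Vale.Agent.P120
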