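import Vale.Agent.P120.Statements
import Vale.Agent.P120.Pairing

/-!
Compactness of regular measures with bounded Riesz transform, along ultrafilters.
-/

noncomputable section

open MeasureTheory Metric Set Filter Topology CompactlySupported
open scoped ENNReal NNReal RealInnerProductSpace

namespace Vale.Agent.P120

variable {n d : ℕ}

theorem UpperReg.real_closedBall_le {C : ℝ} (hC : 0 ≤ C) {μ : Measure (Spc d)}
    (h : UpperReg n C μ) (x : Spc d) {r r' : ℝ} (hr : 0 ≤ r) (hr' : r < r') :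
    μ.real (closedBall x r) ≤ C * r' ^ n :=
  ENNReal.toReal_le_of_le_ofReal (mul_nonneg hC (pow_nonneg (hr.trans hr'.le) n))
    ((measure_mono (closedBall_subset_ball hr')).trans (h x r' (hr.trans_lt hr')))

namespace Cpt

theorem continuous_ramp_smul_riesz {ε : ℝ} (hε : 0 < ε) :
    Continuous fun z : Spc d => ramp (‖z‖ / ε) • riesz n z := by
  rw [continuous_iff_continuousAt]
  intro z
  rcases eq_or_ne z 0 with rfl | hz
  · refine (continuousAt_const (y := (0 : Spc d))).congr ?_
    filter_upwards [ball_mem_nhds (0 : Spc d) hε] with w hw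
    rw [mem_ball_zero_iff] at hw
    rw [ramp_eq_zero ((div_le_one hε).mpr hw.le), zero_smul]
  · refine ((continuous_ramp.comp (continuous_norm.div_const ε)).continuousAt).smul ?_
    unfold riesz
    exact ((continuousAt_id.norm.pow _).inv₀ (pow_ne_zero _ (norm_ne_zero_iff.mpr hz))).smul
      continuousAt_id

/-- Two uniformly close functions supported in a ball have close integrals. -/
theorem abs_integral_sub_le_of_mass {μ : Measure (Spc d)} [IsLocallyFiniteMeasure μ] {M : ℝ}
    {R : ℝ} (hM : μ.real (closedBall 0 R) ≤ M) {f g : Spc d → ℝ} (hf : Continuous f)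
    (hg : Continuous g) (hf0 : ∀ x, R < ‖x‖ → f x = 0) (hg0 : ∀ x, R < ‖x‖ → g x = 0)
    {η : ℝ} (hη : 0 ≤ η) (h : ∀ x, |f x - g x| ≤ η) :
    |∫ x, f x ∂μ - ∫ x, g x ∂μ| ≤ η * M := by
  have hcs : ∀ u : Spc d → ℝ, (∀ x, R < ‖x‖ → u x = 0) → HasCompactSupport u := fun u hu =>
    HasCompactSupport.intro (isCompact_closedBall (0 : Spc d) R) fun x hx => hu x
      (by simpa [mem_closedBall, dist_zero_right] using hx)
  rw [← integral_sub (hf.integrable_of_hasCompactSupport (hcs f hf0))
    (hg.integrable_of_hasCompactSupport (hcs g hg0))]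
  have hout : ∀ x ∉ closedBall (0 : Spc d) R, f x - g x = 0 := fun x hx => by
    have hx' : R < ‖x‖ := by simpa [mem_closedBall, dist_zero_right] using hx
    rw [hf0 x hx', hg0 x hx', sub_self]
  rw [← setIntegral_eq_integral_of_forall_compl_eq_zero (s := closedBall (0 : Spc d) R) hout,
    ← Real.norm_eq_abs]
  refine (norm_setIntegral_le_of_norm_le_const measure_closedBall_lt_top
    fun x _ => (Real.norm_eq_abs _).trans_le (h x)).trans ?_
  exact mul_le_mul_of_nonneg_left hM hη

/-- Pointwise convergence of equi-Lipschitz functions is uniform on balls. -/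
theorem eventually_uniform_close {U : Ultrafilter ℕ} {α : Type*} [PseudoMetricSpace α]
    {s : Set α} (hs : IsCompact s) {φ : ℕ → α → ℝ} {ψ : α → ℝ} {ω δ : ℝ} (hδ : 0 < δ)
    (hmod : ∀ᶠ j in U, ∀ x y, dist x y < δ → |φ j x - φ j y| ≤ ω)
    (hmod' : ∀ x y, dist x y < δ → |ψ x - ψ y| ≤ ω) (hω : 0 < ω)
    (h : ∀ x ∈ s, Tendsto (fun j => φ j x) U (𝓝 (ψ x))) :
    ∀ᶠ j in U, ∀ x ∈ s, |φ j x - ψ x| ≤ 3 * ω := by
  obtain ⟨t, ht, htfin, hcov⟩ := finite_cover_balls_of_compact hs hδ
  have h1 : ∀ᶠ j in (U : Filter ℕ), ∀ c ∈ t, |φ j c - ψ c| ≤ ω := by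
    rw [htfin.eventually_all]
    intro c hc
    filter_upwards [(h c (ht hc)).eventually (ball_mem_nhds (ψ c) hω)] with j hj
    rw [← Real.dist_eq]
    exact hj.le
  filter_upwards [h1, hmod] with j hj hjm x hx
  obtain ⟨c, hc, hxc⟩ : ∃ c ∈ t, dist x c < δ := by
    have := hcov hx
    simp only [mem_iUnion, mem_ball] at this
    obtain ⟨c, hc, hxc⟩ := this
    exact ⟨c, hc, hxc⟩
  have a1 := abs_le.mp (hjm x c hxc)
  have a2 := abs_le.mp (hj c hc)
  have a3 := abs_le.mp (hmod' x c hxc)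
  rw [abs_le]
  constructor <;> linarith [a1.1, a1.2, a2.1, a2.2, a3.1, a3.2]

section limit

variable {C : ℝ} {μ : ℕ → Measure (Spc d)} {U : Ultrafilter ℕ}

/-- The integrals of a compactly supported continuous function are bounded along the sequence. -/
theorem exists_bound_integral (hC : 0 ≤ C) [∀ j, IsLocallyFiniteMeasure (μ j)]
    (hup : ∀ j, UpperReg n C (μ j)) (f : C_c(Spc d, ℝ)) :
    ∃ B : ℝ, ∀ j, ∫ x, f x ∂(μ j) ∈ Icc (-B) B := by
  obtain ⟨R, hR⟩ := (isBounded_iff_subset_closedBall (0 : Spc d)).mp f.hasCompactSupport.isBounded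
  obtain ⟨M, hM⟩ := f.hasCompactSupport.exists_bound_of_continuous f.continuous
  refine ⟨max M 0 * (C * (max R 0 + 1) ^ n), fun j => ?_⟩
  have hR0 : ∀ x : Spc d, max R 0 < ‖x‖ → f x = 0 := fun x hx => by
    refine image_eq_zero_of_notMem_tsupport fun hmem => ?_
    have := hR hmem
    rw [mem_closedBall, dist_zero_right] at this
    linarith [le_max_left R 0]
  have h := abs_integral_sub_le_of_mass (μ := μ j)
    ((hup j).real_closedBall_le hC 0 (le_max_right R 0) (lt_add_one _)) f.continuous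
    (continuous_const (y := (0 : ℝ))) hR0 (fun _ _ => rfl) (le_max_right M 0)
    (fun x => by
      rw [sub_zero, ← Real.norm_eq_abs]
      exact (hM x).trans (le_max_left _ _))
  rw [integral_zero, sub_zero] at h
  exact abs_le.mp h

theorem exists_limit_measure (hC : 0 ≤ C) [∀ j, IsLocallyFiniteMeasure (μ j)]
    (hup : ∀ j, UpperReg n C (μ j)) :
    ∃ ν : Measure (Spc d), IsLocallyFiniteMeasure ν ∧ ν.Regular ∧
      ∀ f : Spc d → ℝ, Continuous f → HasCompactSupport f →
        Tendsto (fun j => ∫ x, f x ∂(μ j)) U (𝓝 (∫ x, f x ∂ν)) := by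
  have hlim : ∀ f : C_c(Spc d, ℝ), ∃ a, Tendsto (fun j => ∫ x, f x ∂(μ j)) U (𝓝 a) := by
    intro f
    obtain ⟨B, hB⟩ := exists_bound_integral hC hup f
    obtain ⟨a, -, ha⟩ := isCompact_Icc.ultrafilter_le_nhds
      (U.map fun j => ∫ x, f x ∂(μ j))
      (Filter.le_principal_iff.mpr
        (Filter.mem_map.mpr (Filter.univ_mem' fun j => hB j)))
    exact ⟨a, ha⟩
  choose L hL using hlim
  have hint : ∀ (j : ℕ) (f : C_c(Spc d, ℝ)), Integrable f (μ j) := fun j f =>
    f.continuous.integrable_of_hasCompactSupport f.hasCompactSupport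
  let Λl : C_c(Spc d, ℝ) →ₗ[ℝ] ℝ :=
    { toFun := L
      map_add' := fun f g => tendsto_nhds_unique (hL (f + g)) (by
        simpa [integral_add (hint _ f) (hint _ g)] using (hL f).add (hL g))
      map_smul' := fun c f => tendsto_nhds_unique (hL (c • f)) (by
        simpa [integral_const_mul] using (hL f).const_mul c) }
  let Λ : C_c(Spc d, ℝ) →ₚ[ℝ] ℝ := PositiveLinearMap.mk₀ Λl fun f hf =>
    ge_of_tendsto' (hL f) fun j => integral_nonneg fun x => hf x
  refine ⟨RealRMK.rieszMeasure Λ, inferInstance, inferInstance, fun f hfc hfs => ?_⟩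
  rw [show ∫ x, f x ∂(RealRMK.rieszMeasure Λ) = L ⟨⟨f, hfc⟩, hfs⟩ from
    RealRMK.integral_rieszMeasure Λ ⟨⟨f, hfc⟩, hfs⟩]
  exact hL ⟨⟨f, hfc⟩, hfs⟩

variable {ν : Measure (Spc d)}

theorem limit_upperReg [∀ j, IsLocallyFiniteMeasure (μ j)] [IsLocallyFiniteMeasure ν]
    [ν.Regular] (hC : 0 ≤ C)
    (hint : ∀ f : Spc d → ℝ, Continuous f → HasCompactSupport f →
      Tendsto (fun j => ∫ x, f x ∂(μ j)) U (𝓝 (∫ x, f x ∂ν)))
    (hup : ∀ j, UpperReg n C (μ j)) : UpperReg n C ν := by
  intro x r hr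
  rw [isOpen_ball.measure_eq_iSup_isCompact]
  refine iSup₂_le fun K hKsub => iSup_le fun hK => ?_
  obtain ⟨f, hf1, hf0, hfc, hf01⟩ := exists_continuous_one_zero_of_isCompact hK
    isOpen_ball.isClosed_compl (disjoint_compl_right_iff_subset.mpr hKsub)
  have hνf : ν.real K ≤ ∫ y, f y ∂ν := by
    rw [← integral_indicator_one hK.measurableSet]
    refine integral_mono_of_nonneg (Eventually.of_forall fun y => ?_)
      (f.continuous.integrable_of_hasCompactSupport hfc) (Eventually.of_forall fun y => ?_)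
    · exact indicator_nonneg (fun _ _ => zero_le_one) y
    · by_cases hy : y ∈ K
      · simp [hy, hf1 hy]
      · simp [hy, (hf01 y).1]
  have hle : ∫ y, f y ∂ν ≤ C * r ^ n := by
    refine le_of_tendsto' (hint f f.continuous hfc) fun j => ?_
    calc ∫ y, f y ∂(μ j) ≤ ∫ y, (ball x r).indicator 1 y ∂(μ j) := by
          refine integral_mono_of_nonneg (Eventually.of_forall fun y => (hf01 y).1) ?_
            (Eventually.of_forall fun y => ?_)
          · exact (integrableOn_const measure_ball_lt_top.ne).integrable_indicator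
              measurableSet_ball
          · by_cases hy : y ∈ ball x r
            · simp [hy, (hf01 y).2]
            · simp [hy, hf0 hy]
      _ = (μ j).real (ball x r) := integral_indicator_one measurableSet_ball
      _ ≤ C * r ^ n :=
          ENNReal.toReal_le_of_le_ofReal (mul_nonneg hC (pow_nonneg hr.le n)) (hup j x r hr)
  calc ν K = ENNReal.ofReal (ν.real K) := (ofReal_measureReal hK.measure_lt_top.ne).symm
    _ ≤ ENNReal.ofReal (C * r ^ n) := ENNReal.ofReal_le_ofReal (hνf.trans hle)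

/-- A bump which is `1` on the closed ball of radius `s` and `0` outside the ball of radius `s'`. -/
def bump (y : Spc d) (s s' : ℝ) (x : Spc d) : ℝ := 1 - ramp ((dist x y - s) / (s' - s) + 1)

theorem continuous_bump (y : Spc d) (s s' : ℝ) : Continuous (bump y s s') :=
  continuous_const.sub (continuous_ramp.comp
    ((((continuous_id.dist continuous_const).sub continuous_const).div_const _).add continuous_const))

theorem bump_eq_zero {y : Spc d} {s s' : ℝ} (h : s < s') {x : Spc d} (hx : s' ≤ dist x y) :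
    bump y s s' x = 0 := by
  unfold bump
  rw [ramp_eq_one, sub_self]
  have : 1 ≤ (dist x y - s) / (s' - s) := (one_le_div (sub_pos.mpr h)).mpr (by linarith)
  linarith

theorem bump_eq_one {y : Spc d} {s s' : ℝ} (h : s < s') {x : Spc d} (hx : dist x y ≤ s) :
    bump y s s' x = 1 := by
  unfold bump
  rw [ramp_eq_zero, sub_zero]
  have : (dist x y - s) / (s' - s) ≤ 0 :=
    div_nonpos_of_nonpos_of_nonneg (by linarith) (by linarith)
  linarith

theorem bump_nonneg (y : Spc d) (s s' : ℝ) (x : Spc d) : 0 ≤ bump y s s' x :=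
  sub_nonneg.mpr (ramp_le_one _)

theorem bump_le_one (y : Spc d) (s s' : ℝ) (x : Spc d) : bump y s s' x ≤ 1 :=
  sub_le_self _ (ramp_nonneg _)

theorem hasCompactSupport_bump (y : Spc d) {s s' : ℝ} (h : s < s') :
    HasCompactSupport (bump y s s') :=
  HasCompactSupport.intro (isCompact_closedBall y s') fun _ hx =>
    bump_eq_zero h (le_of_lt (by simpa [mem_closedBall, not_le] using hx))

theorem limit_ball_lower [∀ j, IsLocallyFiniteMeasure (μ j)] [IsLocallyFiniteMeasure ν]
    (hint : ∀ f : Spc d → ℝ, Continuous f → HasCompactSupport f →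
      Tendsto (fun j => ∫ x, f x ∂(μ j)) U (𝓝 (∫ x, f x ∂ν)))
    {y : Spc d} {s s' c : ℝ} (hs : s < s')
    (h : ∀ᶠ j in U, ENNReal.ofReal c ≤ μ j (ball y s)) : ENNReal.ofReal c ≤ ν (ball y s') := by
  have hfc := hasCompactSupport_bump y hs
  have h1 : c ≤ ∫ x, bump y s s' x ∂ν := by
    refine ge_of_tendsto (hint _ (continuous_bump y s s') hfc) ?_
    filter_upwards [h] with j hj
    refine ((ENNReal.ofReal_le_iff_le_toReal measure_ball_lt_top.ne).mp hj).trans ?_
    change (μ j).real (ball y s) ≤ _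
    rw [← integral_indicator_one measurableSet_ball]
    refine integral_mono_of_nonneg
      (Eventually.of_forall fun x => indicator_nonneg (fun _ _ => zero_le_one) x)
      ((continuous_bump y s s').integrable_of_hasCompactSupport hfc)
      (Eventually.of_forall fun x => ?_)
    by_cases hx : x ∈ ball y s
    · simp [hx, bump_eq_one hs (mem_ball.mp hx).le]
    · simp [hx, bump_nonneg y s s' x]
  have h2 : ∫ x, bump y s s' x ∂ν ≤ ν.real (ball y s') := by
    rw [← integral_indicator_one measurableSet_ball]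
    refine integral_mono_of_nonneg (Eventually.of_forall fun x => bump_nonneg y s s' x) ?_
      (Eventually.of_forall fun x => ?_)
    · exact (integrableOn_const measure_ball_lt_top.ne).integrable_indicator measurableSet_ball
    · by_cases hx : x ∈ ball y s'
      · simp [hx, bump_le_one y s s' x]
      · simp [hx, bump_eq_zero hs (by simpa [not_lt] using hx)]
  exact (ENNReal.ofReal_le_ofReal (h1.trans h2)).trans (le_of_eq (ofReal_measureReal
    measure_ball_lt_top.ne))

theorem mem_support_of_balls {y : Spc d} (h : ∀ r : ℝ, 0 < r → 0 < ν (ball y r)) :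
    y ∈ ν.support := by
  rw [Measure.mem_support_iff_forall]
  intro W hW
  obtain ⟨r, hr, hrW⟩ := Metric.mem_nhds_iff.mp hW
  exact (h r hr).trans_le (measure_mono hrW)

theorem ball_pos_of_mem_support {y : Spc d} (hy : y ∈ ν.support) {r : ℝ} (hr : 0 < r) :
    0 < ν (ball y r) :=
  (Measure.mem_support_iff_forall y).mp hy _ (ball_mem_nhds y hr)

theorem limit_supp_limit [∀ j, IsLocallyFiniteMeasure (μ j)] [IsLocallyFiniteMeasure ν]
    {D : ℕ → ℝ} (hU : (U : Filter ℕ) ≤ atTop) (hD : Tendsto D atTop atTop)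
    (hC : 1 ≤ C) (hreg : ∀ j, Reg n C (D j) (μ j))
    (hint : ∀ f : Spc d → ℝ, Continuous f → HasCompactSupport f →
      Tendsto (fun j => ∫ x, f x ∂(μ j)) U (𝓝 (∫ x, f x ∂ν)))
    (z : ℕ → Spc d) (y : Spc d) (hz : ∀ᶠ j in U, z j ∈ (μ j).support)
    (hzy : Tendsto z U (𝓝 y)) {r : ℝ} (hr : 0 < r) :
    ENNReal.ofReal (C⁻¹ * (r / 4) ^ n) ≤ ν (ball y r) := by
  refine limit_ball_lower hint (show r / 2 < r by linarith) ?_
  filter_upwards [hz, hzy.eventually (ball_mem_nhds y (show 0 < r / 4 by linarith)),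
    hU ((tendsto_atTop.mp hD) (r / 4))] with j hj hjy hjD
  refine ((hreg j).lower (z j) hj (r / 4) (by linarith) hjD).trans (measure_mono ?_)
  refine ball_subset_ball' ?_
  linarith

theorem limit_supp_approx [∀ j, IsLocallyFiniteMeasure (μ j)] [IsLocallyFiniteMeasure ν]
    (hint : ∀ f : Spc d → ℝ, Continuous f → HasCompactSupport f →
      Tendsto (fun j => ∫ x, f x ∂(μ j)) U (𝓝 (∫ x, f x ∂ν)))
    (hne : ∀ j, (μ j).support.Nonempty) {y : Spc d} (hy : y ∈ ν.support) :
    ∃ z : ℕ → Spc d, (∀ᶠ j in U, z j ∈ (μ j).support) ∧ Tendsto z U (𝓝 y) := by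
  choose z hz hzd using fun j =>
    (Measure.isClosed_support (μ := μ j)).exists_infDist_eq_dist (hne j) y
  refine ⟨z, Eventually.of_forall hz, Metric.tendsto_nhds.mpr fun ε hε => ?_⟩
  have hs : ε / 4 < ε / 2 := by linarith
  have hpos : 0 < ∫ x, bump y (ε / 4) (ε / 2) x ∂ν := by
    have hq : 0 < ν.real (ball y (ε / 4)) :=
      ENNReal.toReal_pos (ball_pos_of_mem_support hy (by linarith)).ne' measure_ball_lt_top.ne
    refine hq.trans_le ?_
    rw [← integral_indicator_one measurableSet_ball]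
    refine integral_mono_of_nonneg
      (Eventually.of_forall fun x => indicator_nonneg (fun _ _ => zero_le_one) x)
      ((continuous_bump y _ _).integrable_of_hasCompactSupport (hasCompactSupport_bump y hs))
      (Eventually.of_forall fun x => ?_)
    by_cases hx : x ∈ ball y (ε / 4)
    · simp [hx, bump_eq_one hs (mem_ball.mp hx).le]
    · simp [hx, bump_nonneg y (ε / 4) (ε / 2) x]
  filter_upwards [(hint _ (continuous_bump y _ _) (hasCompactSupport_bump y hs)).eventually
    (lt_mem_nhds hpos)] with j hj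
  have hmeas : 0 < μ j (ball y (ε / 2)) := by
    refine pos_iff_ne_zero.mpr fun h0 => hj.ne' ?_
    refine integral_eq_zero_of_ae ?_
    rw [Filter.EventuallyEq, ae_iff]
    refine measure_mono_null (fun x hx => ?_) h0
    by_contra hxb
    exact hx (bump_eq_zero hs (by simpa [not_lt] using hxb))
  obtain ⟨w, hw, hws⟩ := Measure.nonempty_inter_support_of_pos hmeas
  rw [dist_comm, ← hzd j]
  refine (infDist_le_dist_of_mem hws).trans_lt ?_
  rw [dist_comm]
  rw [mem_ball] at hw
  linarith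

theorem limit_prod [∀ j, IsLocallyFiniteMeasure (μ j)] [IsLocallyFiniteMeasure ν] (hC : 0 ≤ C)
    (hup : ∀ j, UpperReg n C (μ j)) (hupν : UpperReg n C ν)
    (hint : ∀ f : Spc d → ℝ, Continuous f → HasCompactSupport f →
      Tendsto (fun j => ∫ x, f x ∂(μ j)) U (𝓝 (∫ x, f x ∂ν)))
    (k : Spc d × Spc d → ℝ) (hk : Continuous k) (hks : HasCompactSupport k) :
    Tendsto (fun j => ∫ p, k p ∂((μ j).prod (μ j))) U (𝓝 (∫ p, k p ∂(ν.prod ν))) := by
  obtain ⟨R₀, hR₀⟩ := (isBounded_iff_subset_closedBall (0 : Spc d × Spc d)).mp hks.isBounded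
  set R := max R₀ 0 with hRdef
  have hR : 0 ≤ R := le_max_right _ _
  have hkzero : ∀ x y : Spc d, (R < ‖x‖ ∨ R < ‖y‖) → k (x, y) = 0 := by
    intro x y h
    refine image_eq_zero_of_notMem_tsupport fun hmem => ?_
    have h' := hR₀ hmem
    rw [mem_closedBall, dist_zero_right, Prod.norm_def, max_le_iff] at h'
    rcases h with h | h <;> linarith [h'.1, h'.2, le_max_left R₀ 0]
  set M := C * (R + 1) ^ n with hMdef
  have hM : 0 ≤ M := mul_nonneg hC (pow_nonneg (by linarith) n)
  have hmass : ∀ j, (μ j).real (closedBall 0 R) ≤ M := fun j =>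
    (hup j).real_closedBall_le hC 0 hR (lt_add_one R)
  have hmassν : ν.real (closedBall 0 R) ≤ M := hupν.real_closedBall_le hC 0 hR (lt_add_one R)
  have huc := hks.uniformContinuous_of_continuous hk
  rw [Metric.uniformContinuous_iff] at huc
  set F : ℕ → Spc d → ℝ := fun j x => ∫ y, k (x, y) ∂(μ j) with hF
  set G : Spc d → ℝ := fun x => ∫ y, k (x, y) ∂ν with hG
  have hky : ∀ x, Continuous fun y => k (x, y) := fun x =>
    hk.comp (continuous_const.prodMk continuous_id)
  have hkys : ∀ x : Spc d, HasCompactSupport fun y => k (x, y) := fun x =>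
    HasCompactSupport.intro (isCompact_closedBall (0 : Spc d) R) fun y hy =>
      hkzero x y (Or.inr (by simpa [mem_closedBall, dist_zero_right] using hy))
  have hmod : ∀ ω : ℝ, 0 < ω → ∃ δ : ℝ, 0 < δ ∧
      ∀ (m : Measure (Spc d)) [IsLocallyFiniteMeasure m], m.real (closedBall 0 R) ≤ M →
        ∀ x x', dist x x' < δ → |(∫ y, k (x, y) ∂m) - ∫ y, k (x', y) ∂m| ≤ ω := by
    intro ω hω
    obtain ⟨δ, hδ, h⟩ := huc (ω / (M + 1)) (div_pos hω (by linarith))
    refine ⟨δ, hδ, fun m _ hm x x' hxx => ?_⟩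
    refine (abs_integral_sub_le_of_mass (η := ω / (M + 1)) hm (hky x) (hky x')
      (fun y hy => hkzero x y (Or.inr hy)) (fun y hy => hkzero x' y (Or.inr hy))
      (div_nonneg hω.le (by linarith)) fun y => ?_).trans ?_
    · rw [← Real.dist_eq]
      refine (h (a := (x, y)) (b := (x', y)) ?_).le
      simpa [Prod.dist_eq] using hxx
    · rw [div_mul_eq_mul_div]
      exact (div_le_iff₀ (by linarith)).mpr (mul_le_mul_of_nonneg_left (by linarith) hω.le)
  have hFcont : ∀ (m : Measure (Spc d)) [IsLocallyFiniteMeasure m],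
      m.real (closedBall 0 R) ≤ M → Continuous fun x => ∫ y, k (x, y) ∂m := by
    intro m _ hm
    rw [Metric.continuous_iff]
    intro x ε hε
    obtain ⟨δ, hδ, h⟩ := hmod (ε / 2) (by linarith)
    refine ⟨δ, hδ, fun x' hx' => ?_⟩
    rw [Real.dist_eq]
    exact (h m hm x' x hx').trans_lt (by linarith)
  have hFzero : ∀ (m : Measure (Spc d)) (x : Spc d), R < ‖x‖ → ∫ y, k (x, y) ∂m = 0 :=
    fun m x hx => by simp [hkzero x _ (Or.inl hx)]
  have hGs : HasCompactSupport G :=
    HasCompactSupport.intro (isCompact_closedBall (0 : Spc d) R) fun x hx =>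
      hFzero ν x (by simpa [mem_closedBall, dist_zero_right] using hx)
  have hjint : ∀ (m : Measure (Spc d)) [IsLocallyFiniteMeasure m],
      ∫ p, k p ∂(m.prod m) = ∫ x, ∫ y, k (x, y) ∂m ∂m := fun m _ =>
    integral_prod k (hk.integrable_of_hasCompactSupport hks)
  simp only [hjint]
  rw [Metric.tendsto_nhds]
  intro ε hε
  have hω : 0 < ε / 2 / (3 * (M + 1)) := by positivity
  obtain ⟨δ, hδ, hmd⟩ := hmod _ hω
  have hclose := eventually_uniform_close (U := U) (isCompact_closedBall (0 : Spc d) R)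
    (φ := F) (ψ := G) hδ (Eventually.of_forall fun j => hmd (μ j) (hmass j)) (hmd ν hmassν) hω
    (fun x _ => hint _ (hky x) (hkys x))
  filter_upwards [hclose, (hint G (hFcont ν hmassν) hGs).eventually
    (ball_mem_nhds _ (show 0 < ε / 2 by linarith))] with j hj hjG
  rw [Real.dist_eq] at hjG
  rw [Real.dist_eq]
  have h1 : |∫ x, F j x ∂(μ j) - ∫ x, G x ∂(μ j)| ≤ 3 * (ε / 2 / (3 * (M + 1))) * M :=
    abs_integral_sub_le_of_mass (hmass j) (hFcont (μ j) (hmass j)) (hFcont ν hmassν)
      (hFzero (μ j)) (hFzero ν) (by positivity) fun x => by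
        by_cases hx : ‖x‖ ≤ R
        · exact hj x (by simpa [mem_closedBall, dist_zero_right] using hx)
        · rw [hFzero (μ j) x (not_le.mp hx), hFzero ν x (not_le.mp hx), sub_zero, abs_zero]
          positivity
  have h2 : 3 * (ε / 2 / (3 * (M + 1))) * M < ε / 2 := by
    rw [mul_div_assoc', div_mul_eq_mul_div, div_lt_iff₀ (by positivity)]
    nlinarith
  calc |∫ x, F j x ∂(μ j) - ∫ x, G x ∂ν|
      ≤ |∫ x, F j x ∂(μ j) - ∫ x, G x ∂(μ j)| + |∫ x, G x ∂(μ j) - ∫ x, G x ∂ν| :=
        abs_sub_le _ _ _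
    _ < ε := by linarith

/-- The same for vector valued kernels. -/
theorem limit_prod_vec [∀ j, IsLocallyFiniteMeasure (μ j)] [IsLocallyFiniteMeasure ν]
    (hC : 0 ≤ C) (hup : ∀ j, UpperReg n C (μ j)) (hupν : UpperReg n C ν)
    (hint : ∀ f : Spc d → ℝ, Continuous f → HasCompactSupport f →
      Tendsto (fun j => ∫ x, f x ∂(μ j)) U (𝓝 (∫ x, f x ∂ν)))
    (k : Spc d × Spc d → Spc d) (hk : Continuous k) (hks : HasCompactSupport k) :
    Tendsto (fun j => ∫ p, k p ∂((μ j).prod (μ j))) U (𝓝 (∫ p, k p ∂(ν.prod ν))) := by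
  set b := EuclideanSpace.basisFun (Fin d) ℝ with hb
  have hi : ∀ (m : Measure (Spc d)) [IsLocallyFiniteMeasure m] (i : Fin d),
      ⟪b i, ∫ p, k p ∂(m.prod m)⟫ = ∫ p, ⟪b i, k p⟫ ∂(m.prod m) := fun m _ i =>
    (integral_inner (hk.integrable_of_hasCompactSupport hks) (b i)).symm
  have h := tendsto_finsetSum (Finset.univ : Finset (Fin d)) fun i _ =>
    ((limit_prod hC hup hupν hint (fun p => ⟪b i, k p⟫) (continuous_const.inner hk)
      (hks.comp_left (g := fun v => ⟪b i, v⟫) (inner_zero_right _))).smul_const (b i))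
  simp only [← hi, b.sum_repr'] at h
  exact h

/-- Lipschitz test functions: the pairings converge. -/
theorem limit_pairing [∀ j, IsLocallyFiniteMeasure (μ j)] [IsLocallyFiniteMeasure ν] (hn : 1 ≤ n)
    (hd : 0 < d)
    (hC : 0 ≤ C) (hup : ∀ j, UpperReg n C (μ j)) (hupν : UpperReg n C ν)
    (hint : ∀ f : Spc d → ℝ, Continuous f → HasCompactSupport f →
      Tendsto (fun j => ∫ x, f x ∂(μ j)) U (𝓝 (∫ x, f x ∂ν)))
    (φ : ℕ → Spc d → ℝ) (ψ : Spc d → ℝ) (R₀ : ℝ) (K : ℝ≥0)
    (hφ : ∀ᶠ j in U, Adm (μ j) 0 R₀ (φ j) ∧ LipschitzWith K (φ j))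
    (hψ : Adm ν 0 R₀ ψ) (hψK : LipschitzWith K ψ)
    (hconv : ∀ x, Tendsto (fun j => φ j x) U (𝓝 (ψ x))) :
    Tendsto (fun j => pairing n (μ j) (φ j)) U (𝓝 (pairing n ν ψ)) := by
  set R := max R₀ 1 with hRdef
  have hR : 1 ≤ R := le_max_right _ _
  have hsub : closedBall (0 : Spc d) R₀ ⊆ closedBall 0 R :=
    closedBall_subset_closedBall (le_max_left _ _)
  have hφR : ∀ᶠ j in U, Adm (μ j) 0 R (φ j) ∧ LipschitzWith K (φ j) := hφ.mono fun j hj =>
    ⟨⟨hj.1.lip, hj.1.supp.trans hsub, hj.1.mean⟩, hj.2⟩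
  have hψR : Adm ν 0 R ψ := ⟨hψ.lip, hψ.supp.trans hsub, hψ.mean⟩
  have hzero : ∀ {m : Measure (Spc d)} {f : Spc d → ℝ}, Adm m 0 R f → ∀ x, R < ‖x‖ → f x = 0 := by
    intro m f hf x hx
    refine image_eq_zero_of_notMem_tsupport fun hmem => ?_
    have h := hf.supp hmem
    rw [mem_closedBall, dist_zero_right] at h
    linarith
  set Aψ := K * (2 * R + 1) with hA
  have hbd : ∀ {m : Measure (Spc d)} [IsLocallyFiniteMeasure m] {f : Spc d → ℝ}, UpperReg n C m →
      Adm m 0 R f → LipschitzWith K f → ∫ x, |f x| ∂m ≤ Aψ * (C * (R + 1) ^ n) := by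
    intro m _ f hm hf hfK
    obtain ⟨v, hv⟩ : ∃ v : Spc d, R < ‖v‖ ∧ ‖v‖ ≤ R + 1 := by
      · refine ⟨(R + 1) • EuclideanSpace.basisFun (Fin d) ℝ ⟨0, hd⟩, ?_⟩
        rw [norm_smul, (EuclideanSpace.basisFun (Fin d) ℝ).norm_eq_one, mul_one, Real.norm_eq_abs,
          abs_of_pos (by linarith)]
        exact ⟨by linarith, le_rfl⟩
    have hptw : ∀ x, |f x| ≤ Aψ := by
      intro x
      by_cases hx : R < ‖x‖
      · rw [hzero hf x hx, abs_zero]
        exact mul_nonneg K.coe_nonneg (by linarith)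
      · have h := hfK.dist_le_mul x v
        rw [Real.dist_eq, hzero hf v hv.1, sub_zero] at h
        refine h.trans (mul_le_mul_of_nonneg_left ?_ K.coe_nonneg)
        linarith [dist_le_norm_add_norm x v, hv.2, not_lt.mp hx]
    have h := abs_integral_sub_le_of_mass (μ := m) (f := fun x => |f x|) (g := fun _ => 0)
      (hm.real_closedBall_le hC 0 (by linarith) (lt_add_one R)) hfK.continuous.abs continuous_const
      (fun x hx => by rw [hzero hf x hx, abs_zero]) (fun _ _ => rfl)
      (show 0 ≤ Aψ from mul_nonneg K.coe_nonneg (by linarith))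
      (fun x => by rw [sub_zero, abs_abs]; exact hptw x)
    rw [integral_zero, sub_zero] at h
    exact (le_abs_self _).trans h
  set T := |tailConst n C / 2 * R| * (Aψ * (C * (R + 1) ^ n)) with hT
  have htail : ∀ {m : Measure (Spc d)} [IsLocallyFiniteMeasure m] {f : Spc d → ℝ}, UpperReg n C m →
      Adm m 0 R f → LipschitzWith K f → ∀ L, 2 * R ≤ L →
      ‖pairing n m f - pairW n m (cut 0 L) f‖ ≤ T / L := by
    intro m _ f hm hf hfK L hL
    have hL0 : 0 < L := by linarith
    refine (norm_pairing_sub_pairW_le hm hn hf hL hL0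
      (isWindow_cut hL0 (by rw [dist_self, zero_add]))).trans ?_
    refine div_le_div_of_nonneg_right ?_ hL0.le
    exact mul_le_mul (le_abs_self _) (hbd hm hf hfK) (integral_nonneg fun x => abs_nonneg _)
      (abs_nonneg _)
  rw [Metric.tendsto_nhds]
  intro ε hε
  obtain ⟨L, hL2, hLT⟩ : ∃ L, 2 * R ≤ L ∧ T / L < ε / 8 := by
    have h : Tendsto (fun L => T / L) atTop (𝓝 0) := tendsto_id.const_div_atTop T
    exact ((eventually_ge_atTop _).and
      (h.eventually (Iio_mem_nhds (show (0 : ℝ) < ε / 8 by linarith)))).exists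
  have hL0 : 0 < L := by linarith
  -- the window pairing is the limit of the pairings with truncated kernels
  set S := closedBall (0 : Spc d) (2 * L) with hS
  have hcut0 : ∀ x ∉ S, cut (0 : Spc d) L x = 0 := fun x hx =>
    cut_eq_zero hL0 (le_of_lt (by simpa [hS, mem_closedBall, not_le] using hx))
  set ker : ℝ → (Spc d → ℝ) → Spc d × Spc d → Spc d := fun δ f p =>
    (cut 0 L p.1 * cut 0 L p.2 * (f p.1 - f p.2) * ramp (‖p.1 - p.2‖ / δ)) • riesz n (p.1 - p.2)
    with hker
  have hkerc : ∀ δ, 0 < δ → ∀ f : Spc d → ℝ, Continuous f → Continuous (ker δ f) := by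
    intro δ hδ f hf
    have h : ker δ f = fun p => (cut 0 L p.1 * cut 0 L p.2 * (f p.1 - f p.2)) •
        (ramp (‖p.1 - p.2‖ / δ) • riesz n (p.1 - p.2)) := by
      funext p
      rw [smul_smul]
    rw [h]
    exact ((((continuous_cut 0 L).comp continuous_fst).mul
      ((continuous_cut 0 L).comp continuous_snd)).mul
        ((hf.comp continuous_fst).sub (hf.comp continuous_snd))).smul
      ((continuous_ramp_smul_riesz hδ).comp (continuous_fst.sub continuous_snd))
  have hkers : ∀ δ (f : Spc d → ℝ), HasCompactSupport (ker δ f) := fun δ f =>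
    HasCompactSupport.intro ((isCompact_closedBall (0 : Spc d) (2 * L)).prod
      (isCompact_closedBall (0 : Spc d) (2 * L))) fun p hp => by
        rw [mem_prod, not_and_or] at hp
        rcases hp with hp | hp <;> simp [hker, hcut0 _ hp]
  have herr : ∀ {m : Measure (Spc d)} [IsLocallyFiniteMeasure m] {f : Spc d → ℝ}, UpperReg n C m →
      LipschitzWith K f → ∀ δ, 0 < δ →
      ‖pairW n m (cut 0 L) f - (1 / 2 : ℝ) • ∫ p, ker δ f p ∂(m.prod m)‖
        ≤ K * (2 ^ n * C * (2 * δ)) * (C * (2 * L + 1) ^ n) := by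
    intro m _ f hm hf δ hδ
    have hi : Integrable (fun p : Spc d × Spc d =>
        (cut 0 L p.1 * cut 0 L p.2 * (f p.1 - f p.2)) • riesz n (p.1 - p.2)) (m.prod m) :=
      integrable_pairKernel hm hn hf (W := fun p => cut 0 L p.1 * cut 0 L p.2)
        (((continuous_cut 0 L).comp continuous_fst).mul ((continuous_cut 0 L).comp continuous_snd))
        (a := 0) (R := 2 * L) (B := 1) (by linarith)
        (fun p hp => by
          rw [mem_prod, not_and_or] at hp
          rcases hp with hp | hp <;> simp [hcut0 _ hp])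
        (fun p => by
          rw [abs_of_nonneg (mul_nonneg (cut_nonneg _ _ _) (cut_nonneg _ _ _))]
          exact mul_le_one₀ (cut_le_one _ _ _) (cut_nonneg _ _ _) (cut_le_one _ _ _))
    unfold pairW
    rw [← smul_sub, ← integral_sub hi
      ((hkerc δ hδ f hf.continuous).integrable_of_hasCompactSupport (hkers δ f)), norm_smul]
    refine (mul_le_of_le_one_left (norm_nonneg _) (by norm_num)).trans ?_
    have hnear : ∀ p : Spc d × Spc d,
        ‖(cut 0 L p.1 * cut 0 L p.2 * (f p.1 - f p.2)) • riesz n (p.1 - p.2) - ker δ f p‖ₑ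
          ≤ (S ×ˢ univ).indicator (fun q : Spc d × Spc d => ENNReal.ofReal K *
              (ball q.1 (2 * δ)).indicator
                (fun y => ENNReal.ofReal ((dist y q.1 ^ (n - 1))⁻¹)) q.2) p := by
      intro p
      rw [hker, ← sub_smul]
      by_cases hp : p.1 ∈ S ∧ dist p.2 p.1 < 2 * δ
      · rw [indicator_of_mem (show p ∈ S ×ˢ univ from ⟨hp.1, mem_univ _⟩),
          indicator_of_mem (mem_ball.mpr hp.2), ← ENNReal.ofReal_mul K.coe_nonneg, ← ofReal_norm,
          norm_smul, Real.norm_eq_abs]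
        refine ENNReal.ofReal_le_ofReal (le_trans ?_ (abs_sub_mul_norm_riesz_le hn hf p.1 p.2))
        refine mul_le_mul_of_nonneg_right ?_ (norm_nonneg _)
        set c := cut 0 L p.1 * cut 0 L p.2 with hc
        rw [show c * (f p.1 - f p.2) - c * (f p.1 - f p.2) * ramp (‖p.1 - p.2‖ / δ)
          = c * (1 - ramp (‖p.1 - p.2‖ / δ)) * (f p.1 - f p.2) by ring, abs_mul]
        refine mul_le_of_le_one_left (abs_nonneg _) ?_
        have hc0 : 0 ≤ c := mul_nonneg (cut_nonneg _ _ _) (cut_nonneg _ _ _)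
        have hr0 := ramp_nonneg (‖p.1 - p.2‖ / δ)
        have hr1 := ramp_le_one (‖p.1 - p.2‖ / δ)
        rw [abs_of_nonneg (mul_nonneg hc0 (by linarith))]
        exact mul_le_one₀ (mul_le_one₀ (cut_le_one _ _ _) (cut_nonneg _ _ _) (cut_le_one _ _ _))
          (by linarith) (by linarith)
      · rw [not_and_or] at hp
        rcases hp with hp | hp
        · simp [hcut0 _ hp]
        · rw [ramp_eq_one ((le_div_iff₀ hδ).mpr (by
            rw [← dist_eq_norm, dist_comm]
            exact not_lt.mp hp))]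
          simp
    have hmeas : Measurable fun p : Spc d × Spc d => (S ×ˢ univ).indicator
        (fun q : Spc d × Spc d => ENNReal.ofReal K * (ball q.1 (2 * δ)).indicator
          (fun y => ENNReal.ofReal ((dist y q.1 ^ (n - 1))⁻¹)) q.2) p := by
      refine Measurable.indicator (measurable_const.mul ?_)
        (measurableSet_closedBall.prod MeasurableSet.univ)
      have h : (fun q : Spc d × Spc d => (ball q.1 (2 * δ)).indicator
          (fun y => ENNReal.ofReal ((dist y q.1 ^ (n - 1))⁻¹)) q.2)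
          = {q : Spc d × Spc d | dist q.2 q.1 < 2 * δ}.indicator
            (fun q => ENNReal.ofReal ((dist q.2 q.1 ^ (n - 1))⁻¹)) := by
        funext q
        simp only [indicator, mem_ball, mem_ofPred_eq]
      rw [h]
      exact Measurable.indicator (by fun_prop) (measurableSet_lt (by fun_prop) (by fun_prop))
    have hlin := (lintegral_mono (μ := m.prod m) hnear).trans (le_of_eq
      (lintegral_prod _ hmeas.aemeasurable))
    have hfinal : ∫⁻ x, ∫⁻ y, (S ×ˢ univ).indicator
        (fun q : Spc d × Spc d => ENNReal.ofReal K * (ball q.1 (2 * δ)).indicator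
          (fun y => ENNReal.ofReal ((dist y q.1 ^ (n - 1))⁻¹)) q.2) (x, y) ∂m ∂m
        ≤ ENNReal.ofReal (K * (2 ^ n * C * (2 * δ)) * (C * (2 * L + 1) ^ n)) := by
      calc _ ≤ ∫⁻ x, S.indicator (fun _ => ENNReal.ofReal K *
              ENNReal.ofReal (2 ^ n * C * (2 * δ))) x ∂m := by
            refine lintegral_mono fun x => ?_
            by_cases hx : x ∈ S
            · simp only [indicator_of_mem hx, mem_prod, hx, mem_univ, and_self, indicator_of_mem]
              rw [lintegral_const_mul' _ _ ENNReal.ofReal_ne_top,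
                lintegral_indicator measurableSet_ball]
              exact mul_le_mul_right (hm.lintegral_near hn x (by linarith)) _
            · simp [hx]
        _ = ENNReal.ofReal K * ENNReal.ofReal (2 ^ n * C * (2 * δ)) * m S :=
            lintegral_indicator_const measurableSet_closedBall _
        _ ≤ _ := by
            refine (mul_le_mul_right ((measure_mono (closedBall_subset_ball (lt_add_one (2 * L)))).trans
              (hm 0 (2 * L + 1) (by linarith))) _).trans (le_of_eq ?_)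
            rw [← ENNReal.ofReal_mul K.coe_nonneg, ← ENNReal.ofReal_mul (by positivity)]
    refine le_trans ?_ (ENNReal.toReal_le_of_le_ofReal (by positivity) (hlin.trans hfinal))
    simpa [ofReal_norm] using norm_integral_le_lintegral_norm (μ := m.prod m) fun p : Spc d × Spc d =>
      (cut 0 L p.1 * cut 0 L p.2 * (f p.1 - f p.2)) • riesz n (p.1 - p.2) - ker δ f p
  obtain ⟨δ, hδ0, hδ⟩ : ∃ δ, 0 < δ ∧
      K * (2 ^ n * C * (2 * δ)) * (C * (2 * L + 1) ^ n) < ε / 8 := by
    have hc : Continuous fun δ : ℝ => K * (2 ^ n * C * (2 * δ)) * (C * (2 * L + 1) ^ n) := by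
      fun_prop
    have h := (tendsto_nhdsWithin_of_tendsto_nhds (s := Ioi (0 : ℝ))
      (hc.tendsto' 0 0 (by simp))).eventually (Iio_mem_nhds (show (0 : ℝ) < ε / 8 by linarith))
    exact ((eventually_mem_nhdsWithin (s := Ioi (0 : ℝ))).and h).exists
  -- the truncated kernels converge uniformly
  have hlimν := limit_prod_vec hC hup hupν hint (ker δ ψ) (hkerc δ hδ0 ψ hψK.continuous)
    (hkers δ ψ)
  set M := C * (2 * L + 1) ^ n with hM
  set B := (δ ^ n)⁻¹ * 2 with hB
  have hM0 : 0 ≤ M := mul_nonneg hC (pow_nonneg (by linarith) n)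
  set ω := ε / 8 / (3 * (B * M * M + 1)) with hωdef
  have hω : 0 < ω := by positivity
  have hunif := eventually_uniform_close (U := U) (isCompact_closedBall (0 : Spc d) R) (φ := φ)
    (ψ := ψ) (ω := ω) (δ := ω / (K + 1)) (by positivity)
    (hφR.mono fun j hj x y hxy => by
      rw [← Real.dist_eq]
      refine (hj.2.dist_le_mul x y).trans ?_
      rw [lt_div_iff₀ (by positivity)] at hxy
      nlinarith [dist_nonneg (x := x) (y := y), K.coe_nonneg])
    (fun x y hxy => by
      rw [← Real.dist_eq]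
      refine (hψK.dist_le_mul x y).trans ?_
      rw [lt_div_iff₀ (by positivity)] at hxy
      nlinarith [dist_nonneg (x := x) (y := y), K.coe_nonneg]) hω (fun x _ => hconv x)
  filter_upwards [hφR, hunif,
    hlimν.eventually (ball_mem_nhds _ (show (0 : ℝ) < ε / 8 by linarith))] with j hj hju hjν
  obtain ⟨hja, hjK⟩ := hj
  have hkbound : ∀ p : Spc d × Spc d,
      ‖ker δ (φ j) p - ker δ ψ p‖ ≤ (S ×ˢ S).indicator (fun _ => B * (3 * ω)) p := by
    intro p
    by_cases hp : p ∈ S ×ˢ S
    · rw [indicator_of_mem hp, hker, ← sub_smul, norm_smul, Real.norm_eq_abs]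
      set c := cut 0 L p.1 * cut 0 L p.2 with hc
      set ρ := ramp (‖p.1 - p.2‖ / δ) with hρ
      rw [show c * (φ j p.1 - φ j p.2) * ρ - c * (ψ p.1 - ψ p.2) * ρ
        = c * ((φ j p.1 - ψ p.1) - (φ j p.2 - ψ p.2)) * ρ by ring, abs_mul, abs_mul]
      have hd : ∀ x, |φ j x - ψ x| ≤ 3 * ω := fun x => by
        by_cases hx : ‖x‖ ≤ R
        · exact hju x (by simpa [mem_closedBall, dist_zero_right] using hx)
        · rw [hzero hja x (not_le.mp hx), hzero hψR x (not_le.mp hx), sub_zero, abs_zero]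
          positivity
      have h1 : |c| ≤ 1 := by
        rw [hc, abs_of_nonneg (mul_nonneg (cut_nonneg _ _ _) (cut_nonneg _ _ _))]
        exact mul_le_one₀ (cut_le_one _ _ _) (cut_nonneg _ _ _) (cut_le_one _ _ _)
      have h2 : |ρ| * ‖riesz n (p.1 - p.2)‖ ≤ (δ ^ n)⁻¹ := by
        by_cases hpd : ‖p.1 - p.2‖ ≤ δ
        · rw [hρ, ramp_eq_zero ((div_le_one hδ0).mpr hpd), abs_zero, zero_mul]
          positivity
        · rw [hρ, abs_of_nonneg (ramp_nonneg _)]
          exact (mul_le_of_le_one_left (norm_nonneg _) (ramp_le_one _)).trans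
            ((norm_riesz_le _).trans (inv_anti₀ (by positivity)
              (pow_le_pow_left₀ hδ0.le (not_le.mp hpd).le n)))
      calc |c| * |φ j p.1 - ψ p.1 - (φ j p.2 - ψ p.2)| * |ρ| * ‖riesz n (p.1 - p.2)‖
          = |c| * |φ j p.1 - ψ p.1 - (φ j p.2 - ψ p.2)| * (|ρ| * ‖riesz n (p.1 - p.2)‖) := by ring
        _ ≤ 1 * (3 * ω + 3 * ω) * (δ ^ n)⁻¹ := by
            refine mul_le_mul (mul_le_mul h1 ((abs_sub _ _).trans (add_le_add (hd _) (hd _)))
              (abs_nonneg _) zero_le_one) h2 (by positivity) (by positivity)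
        _ = B * (3 * ω) := by
            rw [hB]
            ring
    · rw [indicator_of_notMem hp, hker]
      rw [mem_prod, not_and_or] at hp
      rcases hp with hp | hp <;> simp [hcut0 _ hp]
  have hdiff : ‖∫ p, ker δ (φ j) p ∂((μ j).prod (μ j)) - ∫ p, ker δ ψ p ∂((μ j).prod (μ j))‖
      ≤ ε / 8 := by
    rw [← integral_sub ((hkerc δ hδ0 _ hjK.continuous).integrable_of_hasCompactSupport (hkers _ _))
      ((hkerc δ hδ0 _ hψK.continuous).integrable_of_hasCompactSupport (hkers _ _))]
    refine (norm_integral_le_of_norm_le ?_ (Eventually.of_forall hkbound)).trans ?_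
    · refine (integrable_indicator_iff (measurableSet_closedBall.prod measurableSet_closedBall)).mpr
        (integrableOn_const ?_)
      rw [Measure.prod_prod]
      exact ENNReal.mul_ne_top measure_closedBall_lt_top.ne measure_closedBall_lt_top.ne
    rw [integral_indicator (measurableSet_closedBall.prod measurableSet_closedBall),
      setIntegral_const, smul_eq_mul, measureReal_prod_prod]
    have hmj : (μ j).real S ≤ M :=
      (hup j).real_closedBall_le hC 0 (by linarith) (lt_add_one (2 * L))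
    calc (μ j).real S * (μ j).real S * (B * (3 * ω)) ≤ M * M * (B * (3 * ω)) :=
          mul_le_mul_of_nonneg_right (mul_le_mul hmj hmj measureReal_nonneg hM0) (by positivity)
      _ ≤ (B * M * M + 1) * (3 * ω) := by
          rw [add_mul, one_mul]
          linarith [hω]
      _ = ε / 8 := by
          rw [hωdef]
          field_simp; exact div_self (by positivity)
  have e1 := htail (hup j) hja hjK L hL2
  have e2 := htail hupν hψR hψK L hL2
  have e3 := herr (hup j) hjK δ hδ0
  have e4 := herr hupν hψK δ hδ0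
  rw [dist_eq_norm] at hjν
  rw [dist_eq_norm]
  set P := pairing n (μ j) (φ j)
  set Q := pairing n ν ψ
  set Pw := pairW n (μ j) (cut 0 L) (φ j)
  set Qw := pairW n ν (cut 0 L) ψ
  set I₁ := ∫ p, ker δ (φ j) p ∂((μ j).prod (μ j))
  set I₂ := ∫ p, ker δ ψ p ∂((μ j).prod (μ j))
  set I₃ := ∫ p, ker δ ψ p ∂(ν.prod ν)
  have hdec : P - Q = (P - Pw) + (Pw - (1 / 2 : ℝ) • I₁)
      + ((1 / 2 : ℝ) • (I₁ - I₂) + (1 / 2 : ℝ) • (I₂ - I₃))
      + (((1 / 2 : ℝ) • I₃ - Qw) + (Qw - Q)) := by
    simp only [smul_sub]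
    abel
  have h5 : ‖(1 / 2 : ℝ) • (I₁ - I₂)‖ ≤ ε / 8 := by
    rw [norm_smul]
    exact (mul_le_of_le_one_left (norm_nonneg _) (by norm_num)).trans hdiff
  have h6 : ‖(1 / 2 : ℝ) • (I₂ - I₃)‖ ≤ ε / 8 := by
    rw [norm_smul]
    exact (mul_le_of_le_one_left (norm_nonneg _) (by norm_num)).trans hjν.le
  rw [norm_sub_rev] at e4 e2
  rw [hdec]
  linarith [norm_add₃_le (a := (P - Pw) + (Pw - (1 / 2 : ℝ) • I₁))
      (b := (1 / 2 : ℝ) • (I₁ - I₂) + (1 / 2 : ℝ) • (I₂ - I₃))
      (c := ((1 / 2 : ℝ) • I₃ - Qw) + (Qw - Q)),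
    norm_add_le (P - Pw) (Pw - (1 / 2 : ℝ) • I₁),
    norm_add_le ((1 / 2 : ℝ) • (I₁ - I₂)) ((1 / 2 : ℝ) • (I₂ - I₃)),
    norm_add_le ((1 / 2 : ℝ) • I₃ - Qw) (Qw - Q)]

theorem limit_RB [∀ j, IsLocallyFiniteMeasure (μ j)] [IsLocallyFiniteMeasure ν] (hC : 0 ≤ C)
    (hup : ∀ j, UpperReg n C (μ j)) (hupν : UpperReg n C ν)
    (hint : ∀ f : Spc d → ℝ, Continuous f → HasCompactSupport f →
      Tendsto (fun j => ∫ x, f x ∂(μ j)) U (𝓝 (∫ x, f x ∂ν)))
    {C' : ℝ} (hrb : ∀ j, RB n C' (μ j)) : RB n C' ν := by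
  intro ε hε f g hf hfs hg hgs
  have hk : Continuous fun p : Spc d × Spc d =>
      (f p.1 * g p.2 * ramp (‖p.1 - p.2‖ / ε)) • riesz n (p.1 - p.2) := by
    have h : (fun p : Spc d × Spc d =>
        (f p.1 * g p.2 * ramp (‖p.1 - p.2‖ / ε)) • riesz n (p.1 - p.2))
        = fun p => (f p.1 * g p.2) • (ramp (‖p.1 - p.2‖ / ε) • riesz n (p.1 - p.2)) := by
      funext p
      rw [smul_smul]
    rw [h]
    exact ((hf.comp continuous_fst).mul (hg.comp continuous_snd)).smul
      ((continuous_ramp_smul_riesz hε).comp (continuous_fst.sub continuous_snd))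
  have hks : HasCompactSupport fun p : Spc d × Spc d =>
      (f p.1 * g p.2 * ramp (‖p.1 - p.2‖ / ε)) • riesz n (p.1 - p.2) :=
    HasCompactSupport.intro (hfs.isCompact.prod hgs.isCompact) fun p hp => by
      rw [mem_prod, not_and_or] at hp
      rcases hp with hp | hp <;> simp [image_eq_zero_of_notMem_tsupport hp]
  have hsq : ∀ u : Spc d → ℝ, Continuous u → HasCompactSupport u →
      Tendsto (fun j => Real.sqrt (∫ x, u x ^ 2 ∂(μ j))) U (𝓝 (Real.sqrt (∫ x, u x ^ 2 ∂ν))) :=
    fun u hu hus => (Real.continuous_sqrt.tendsto _).comp (hint _ (hu.pow 2)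
      (hus.comp_left (g := fun t : ℝ => t ^ 2) (by norm_num)))
  exact le_of_tendsto_of_tendsto' (limit_prod_vec hC hup hupν hint _ hk hks).norm
    (((hsq f hf hfs).const_mul C').mul (hsq g hg hgs))
    fun j => hrb j ε hε f g hf hfs hg hgs

end limit

end Cpt

open Cpt in
theorem compactStmt_proof : CompactStmt := by
  intro n d hn hnd C
  set C₀ := max C 1 with hC₀
  have hC₀1 : 1 ≤ C₀ := le_max_right _ _
  have h4 : (1 : ℝ) ≤ 4 ^ n := one_le_pow₀ (by norm_num)
  refine ⟨C₀ * 4 ^ n, (le_max_left C 1).trans (le_mul_of_one_le_right (by linarith) h4), ?_⟩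
  intro μ hμ D U hU hD h
  haveI : ∀ j, IsLocallyFiniteMeasure (μ j) := hμ
  have hC : 1 ≤ C := (h 0).1.one_le
  have hup : ∀ j, UpperReg n C (μ j) := fun j => (h j).1.upper
  have hne : ∀ j, (μ j).support.Nonempty := fun j => ⟨0, (h j).2.2⟩
  obtain ⟨ν, hν, hνr, hint⟩ := exists_limit_measure (U := U) (by linarith) hup
  haveI := hν
  haveI := hνr
  have hupν : UpperReg n C ν := limit_upperReg (by linarith) hint hup
  have hlow : ∀ (z : ℕ → Spc d) (y : Spc d), (∀ᶠ j in U, z j ∈ (μ j).support) →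
      Tendsto z U (𝓝 y) → ∀ r : ℝ, 0 < r → ENNReal.ofReal (C⁻¹ * (r / 4) ^ n) ≤ ν (ball y r) :=
    fun z y hz hzy r hr => limit_supp_limit hU hD hC (fun j => (h j).1) hint z y hz hzy hr
  have hlim : ∀ (z : ℕ → Spc d) (y : Spc d), (∀ᶠ j in U, z j ∈ (μ j).support) →
      Tendsto z U (𝓝 y) → y ∈ ν.support := fun z y hz hzy => mem_support_of_balls fun r hr =>
    lt_of_lt_of_le (ENNReal.ofReal_pos.mpr (by positivity)) (hlow z y hz hzy r hr)
  have happ : ∀ y ∈ ν.support, ∃ z : ℕ → Spc d,
      (∀ᶠ j in U, z j ∈ (μ j).support) ∧ Tendsto z U (𝓝 y) :=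
    fun y hy => limit_supp_approx hint hne hy
  have hCC : C ≤ C₀ * 4 ^ n := (le_max_left C 1).trans (le_mul_of_one_le_right (by linarith) h4)
  refine ⟨ν, hν, fun D' => ⟨?_, ?_, ?_⟩, ?_,
    hlim (fun _ => 0) 0 (Eventually.of_forall fun j => (h j).2.2) tendsto_const_nhds,
    ⟨hint, ?_, happ, hlim, ?_⟩⟩
  · exact hC.trans hCC
  · exact fun x r hr => (hupν x r hr).trans
      (ENNReal.ofReal_le_ofReal (mul_le_mul_of_nonneg_right hCC (pow_nonneg hr.le n)))
  · intro y hy r hr _
    obtain ⟨z, hz, hzy⟩ := happ y hy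
    refine le_trans (ENNReal.ofReal_le_ofReal ?_) (hlow z y hz hzy r hr)
    have e : C⁻¹ * (r / 4) ^ n = (C * 4 ^ n)⁻¹ * r ^ n := by
      rw [mul_inv, div_pow]
      ring
    rw [e]
    refine mul_le_mul_of_nonneg_right ?_ (pow_nonneg hr.le n)
    exact inv_anti₀ (by positivity) (mul_le_mul_of_nonneg_right (le_max_left C 1) (by positivity))
  · exact (limit_RB (by linarith) hup hupν hint fun j => (h j).2.1).mono hCC
  · exact limit_prod (by linarith) hup hupν hint
  · exact limit_pairing hn (by omega) (by linarith) hup hupν hint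

end Vale.Agent.P120
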