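import Vale.Agent.P120.Statements

/-!
Module Cubes: nested Borel partitions of the support built from maximal separated nets.
-/

noncomputable section

open MeasureTheory Metric Set Filter Topology
open scoped ENNReal NNReal

namespace Vale.Agent.P120

namespace CubesAux

variable {d : ℕ}

theorem exists_maximal_sep (E : Set (Spc d)) (r : ℝ) :
    ∃ X : Set (Spc d), X ⊆ E ∧ (∀ x ∈ X, ∀ y ∈ X, x ≠ y → r ≤ dist x y) ∧
      ∀ y ∈ E, 0 < r → ∃ x ∈ X, dist y x < r := by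
  let S : Set (Set (Spc d)) := {X | X ⊆ E ∧ ∀ x ∈ X, ∀ y ∈ X, x ≠ y → r ≤ dist x y}
  obtain ⟨X, hX⟩ := zorn_subset S fun c hc hchain =>
    ⟨⋃₀ c, ⟨sUnion_subset fun s hs => (hc hs).1, by
      rintro x ⟨s, hs, hx⟩ y ⟨t, ht, hy⟩ hne
      rcases hchain.total hs ht with h | h
      · exact (hc ht).2 x (h hx) y hy hne
      · exact (hc hs).2 x hx y (h hy) hne⟩,
      fun s hs => subset_sUnion_of_mem hs⟩
  refine ⟨X, hX.1.1, hX.1.2, fun y hy hr => ?_⟩
  by_contra hne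
  push Not at hne
  have hyX : y ∉ X := fun h => by
    have := hne y h
    simp at this
    linarith
  refine hyX (hX.2 (y := insert y X) ⟨insert_subset hy hX.1.1, ?_⟩ (subset_insert y X)
    (mem_insert y X))
  intro a ha b hb hab
  rcases ha with rfl | ha <;> rcases hb with rfl | hb
  · exact absurd rfl hab
  · exact hne b hb
  · rw [dist_comm]; exact hne a ha
  · exact hX.1.2 a ha b hb hab

theorem sep_countable {X : Set (Spc d)} {r : ℝ} (hr : 0 < r)
    (h : ∀ x ∈ X, ∀ y ∈ X, x ≠ y → r ≤ dist x y) : X.Countable := by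
  have hd : X.PairwiseDisjoint fun x => ball x (r / 2) := fun x hx y hy hne =>
    ball_disjoint_ball (by linarith [h x hx y hy hne])
  exact hd.countable_of_isOpen (fun _ _ => isOpen_ball) fun x _ => ⟨x, mem_ball_self (by linarith)⟩

theorem sep_finite_inter {X : Set (Spc d)} {r : ℝ} (hr : 0 < r)
    (h : ∀ x ∈ X, ∀ y ∈ X, x ≠ y → r ≤ dist x y) (c : Spc d) (R : ℝ) :
    (X ∩ closedBall c R).Finite := by
  obtain ⟨t, -, ht, hsub⟩ := (isCompact_closedBall c R).finite_cover_balls (half_pos hr)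
  have hcov : ∀ x ∈ X ∩ closedBall c R, ∃ a ∈ t, x ∈ ball a (r / 2) := fun x hx => by
    simpa using hsub hx.2
  choose! a hat hxa using hcov
  refine Set.Finite.of_finite_image (f := a) (ht.subset (by rintro _ ⟨x, hx, rfl⟩; exact hat x hx)) ?_
  intro x hx y hy hxy
  by_contra hne
  have h1 := h x hx.1 y hy.1 hne
  have h2 := hxa x hx
  have h3 := hxa y hy
  rw [mem_ball] at h2 h3
  rw [hxy] at h2
  linarith [dist_triangle_right x y (a y)]

variable (μ : Measure (Spc d)) (ρ : ℝ)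

/-- The net at level `k`. -/
def net (k : ℕ) : Set (Spc d) := (exists_maximal_sep μ.support (side ρ k)).choose

theorem net_subset (k : ℕ) : net μ ρ k ⊆ μ.support :=
  (exists_maximal_sep μ.support (side ρ k)).choose_spec.1

theorem net_sep (k : ℕ) : ∀ x ∈ net μ ρ k, ∀ y ∈ net μ ρ k, x ≠ y → side ρ k ≤ dist x y :=
  (exists_maximal_sep μ.support (side ρ k)).choose_spec.2.1

variable {ρ} (hρ : 0 < ρ)
include hρ

theorem side_pos' (k : ℕ) : 0 < side ρ k := by unfold side; positivity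

omit hρ in
theorem side_succ' (k : ℕ) : side ρ (k + 1) = side ρ k / 8 := by
  unfold side; rw [pow_succ, div_div]

theorem net_max (k : ℕ) {y : Spc d} (hy : y ∈ μ.support) :
    ∃ x ∈ net μ ρ k, dist y x < side ρ k :=
  (exists_maximal_sep μ.support (side ρ k)).choose_spec.2.2 y hy (side_pos' hρ k)

open Classical in
/-- The parent: the point of the coarser net within half a side if there is one, else any point
within one side. -/
def par (k : ℕ) (z : Spc d) : Spc d :=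
  if h : ∃ x ∈ net μ ρ k, dist z x < side ρ k / 2 then h.choose
  else if h' : ∃ x ∈ net μ ρ k, dist z x < side ρ k then h'.choose else z

theorem par_spec (k : ℕ) {z : Spc d} (hz : z ∈ net μ ρ (k + 1)) :
    par μ k (ρ := ρ) z ∈ net μ ρ k ∧ dist z (par μ k (ρ := ρ) z) < side ρ k := by
  unfold par
  split_ifs with h h'
  · exact ⟨h.choose_spec.1, h.choose_spec.2.trans (half_lt_self (side_pos' hρ k))⟩
  · exact h'.choose_spec
  · exact absurd (net_max μ hρ k (net_subset μ ρ _ hz)) h'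

omit hρ in
theorem par_eq (k : ℕ) {z x : Spc d} (hx : x ∈ net μ ρ k) (h : dist z x < side ρ k / 2) :
    par μ k (ρ := ρ) z = x := by
  have h' : ∃ x ∈ net μ ρ k, dist z x < side ρ k / 2 := ⟨x, hx, h⟩
  rw [par, dif_pos h']
  by_contra hne
  have := net_sep μ ρ k _ h'.choose_spec.1 x hx hne
  have := h'.choose_spec.2
  have := dist_triangle_left h'.choose x z
  linarith

omit hρ in
/-- The ancestor at level `k` of a point of level `k + j`. -/
def anc (μ : Measure (Spc d)) (ρ : ℝ) (k : ℕ) : ℕ → Spc d → Spc d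
  | 0, w => w
  | j + 1, w => anc μ ρ k j (par μ (k + j) (ρ := ρ) w)

theorem anc_spec (k : ℕ) : ∀ (j : ℕ) (w : Spc d), w ∈ net μ ρ (k + j) →
    anc μ ρ k j w ∈ net μ ρ k ∧ dist w (anc μ ρ k j w) ≤ 8 / 7 * (side ρ k - side ρ (k + j))
  | 0, w, hw => by simpa [anc] using hw
  | j + 1, w, hw => by
    obtain ⟨h1, h2⟩ := par_spec μ hρ (k + j) (z := w) hw
    obtain ⟨h3, h4⟩ := anc_spec k j _ h1
    refine ⟨h3, ?_⟩
    have := dist_triangle w (par μ (k + j) (ρ := ρ) w) (anc μ ρ k (j + 1) w)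
    rw [anc] at this ⊢
    rw [← add_assoc, side_succ']
    linarith

omit hρ in
theorem anc_succ (k : ℕ) : ∀ (j : ℕ) (w : Spc d),
    anc μ ρ k (j + 1) w = par μ k (ρ := ρ) (anc μ ρ (k + 1) j w)
  | 0, w => rfl
  | j + 1, w => by
    rw [anc, anc_succ k j, anc, show k + 1 + j = k + (j + 1) by omega]

omit hρ in
/-- The closed cell before making the cells disjoint: limits of descendants. -/
def limSet (μ : Measure (Spc d)) (ρ : ℝ) (k : ℕ) (x : Spc d) : Set (Spc d) :=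
  μ.support ∩ ⋂ m : ℕ, ⋃ j ≥ m, ⋃ w ∈ {w ∈ net μ ρ (k + j) | anc μ ρ k j w = x},
    ball w (2 * side ρ (k + j))

theorem limSet_meas (k : ℕ) (x : Spc d) : MeasurableSet (limSet μ ρ k x) := by
  refine Measure.isClosed_support.measurableSet.inter (MeasurableSet.iInter fun m => ?_)
  refine MeasurableSet.iUnion fun j => MeasurableSet.iUnion fun _ => ?_
  exact MeasurableSet.biUnion ((sep_countable (side_pos' hρ _) (net_sep μ ρ _)).mono (sep_subset _ _))
    fun _ _ => measurableSet_ball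

omit hρ in
theorem mem_limSet {k : ℕ} {x y : Spc d} :
    y ∈ limSet μ ρ k x ↔ y ∈ μ.support ∧ ∀ m, ∃ j, m ≤ j ∧
      ∃ w ∈ net μ ρ (k + j), anc μ ρ k j w = x ∧ dist y w < 2 * side ρ (k + j) := by
  simp only [limSet, mem_inter_iff, mem_iInter, mem_iUnion, Set.mem_ofPred_eq, mem_ball,
    exists_prop, and_assoc, ge_iff_le]

theorem limSet_dist {k : ℕ} {x y : Spc d} (h : y ∈ limSet μ ρ k x) :
    dist y x ≤ 8 / 7 * side ρ k := by
  refine le_of_forall_pos_le_add fun e he => ?_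
  obtain ⟨m, hm⟩ := pow_unbounded_of_one_lt (2 * side ρ k / e) (by norm_num : (1 : ℝ) < 8)
  obtain ⟨j, hj, w, hw, hwx, hd⟩ := ((mem_limSet μ).1 h).2 m
  obtain ⟨-, hda⟩ := anc_spec μ hρ k j w hw
  rw [hwx] at hda
  have h1 : side ρ (k + j) = side ρ k / 8 ^ j := by
    unfold side; rw [pow_add, div_div]
  have h2 : 2 * side ρ k / e < 8 ^ j :=
    hm.trans_le (pow_le_pow_right₀ (by norm_num) hj)
  have h3 : 2 * side ρ (k + j) < e := by
    rw [h1, ← mul_div_assoc, div_lt_iff₀ (by positivity)]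
    rw [div_lt_iff₀ he] at h2
    linarith
  have := dist_triangle y w x
  have := side_pos' hρ (k + j)
  linarith

omit hρ in
theorem limSet_sub_parent {k : ℕ} {z y : Spc d} (h : y ∈ limSet μ ρ (k + 1) z) :
    y ∈ limSet μ ρ k (par μ k (ρ := ρ) z) := by
  rw [mem_limSet] at h ⊢
  refine ⟨h.1, fun m => ?_⟩
  obtain ⟨j, hj, w, hw, hwz, hd⟩ := h.2 m
  have e : k + 1 + j = k + (j + 1) := by omega
  exact ⟨j + 1, by omega, w, e ▸ hw, by rw [anc_succ, hwz], e ▸ hd⟩

theorem limSet_children {k : ℕ} {x y : Spc d} (h : y ∈ limSet μ ρ k x) :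
    ∃ z ∈ net μ ρ (k + 1), par μ k (ρ := ρ) z = x ∧ y ∈ limSet μ ρ (k + 1) z := by
  obtain ⟨hy, hm⟩ := (mem_limSet μ).1 h
  have hfin : (net μ ρ (k + 1) ∩ closedBall y (4 * side ρ (k + 1))).Finite :=
    sep_finite_inter (side_pos' hρ _) (net_sep μ ρ _) _ _
  have key : ∀ m, ∃ z ∈ net μ ρ (k + 1) ∩ closedBall y (4 * side ρ (k + 1)),
      par μ k (ρ := ρ) z = x ∧ ∃ j, m ≤ j ∧ ∃ w ∈ net μ ρ (k + 1 + j),
        anc μ ρ (k + 1) j w = z ∧ dist y w < 2 * side ρ (k + 1 + j) := by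
    intro m
    obtain ⟨j, hj, w, hw, hwx, hd⟩ := hm (m + 1)
    obtain ⟨j, rfl⟩ : ∃ i, j = i + 1 := ⟨j - 1, by omega⟩
    have e : k + (j + 1) = k + 1 + j := by omega
    rw [e] at hw hd
    obtain ⟨h1, h2⟩ := anc_spec μ hρ (k + 1) j w hw
    refine ⟨_, ⟨h1, ?_⟩, by rw [← anc_succ]; exact hwx, j, by omega, w, hw, rfl, hd⟩
    rw [mem_closedBall, dist_comm]
    have := dist_triangle y w (anc μ ρ (k + 1) j w)
    have : side ρ (k + 1 + j) ≤ side ρ (k + 1) := by
      unfold side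
      exact div_le_div_of_nonneg_left hρ.le (by positivity) (pow_le_pow_right₀ (by norm_num) (by omega))
    have := side_pos' hρ (k + 1)
    have := side_pos' hρ (k + 1 + j)
    linarith
  choose z hz hpar hrest using key
  obtain ⟨m₀, hinf⟩ : ∃ m₀, {m | z m = z m₀}.Infinite := by
    by_contra hcon
    push Not at hcon
    refine Set.infinite_univ (α := ℕ) ?_
    refine ((hfin.subset (range_subset_iff.2 hz)).biUnion
      (t := fun b => {m | z m = b}) (by rintro b ⟨m, rfl⟩; exact hcon m)).subset ?_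
    intro m _
    exact mem_biUnion (mem_range_self m) (by simp)
  refine ⟨z m₀, (hz m₀).1, hpar m₀, (mem_limSet μ).2 ⟨hy, fun m => ?_⟩⟩
  obtain ⟨m', hm', hlt⟩ := hinf.exists_gt m
  obtain ⟨j, hj, w, hw, hwz, hd⟩ := hrest m'
  exact ⟨j, by omega, w, hw, hwz.trans hm', hd⟩

theorem limSet_cover_zero {y : Spc d} (hy : y ∈ μ.support) :
    ∃ x ∈ net μ ρ 0, y ∈ limSet μ ρ 0 x := by
  have hfin : (net μ ρ 0 ∩ closedBall y (4 * side ρ 0)).Finite :=
    sep_finite_inter (side_pos' hρ _) (net_sep μ ρ _) _ _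
  have key : ∀ m, ∃ x ∈ net μ ρ 0 ∩ closedBall y (4 * side ρ 0), ∃ w ∈ net μ ρ (0 + m),
      anc μ ρ 0 m w = x ∧ dist y w < 2 * side ρ (0 + m) := by
    intro m
    obtain ⟨w, hw, hd⟩ := net_max μ hρ (0 + m) hy
    obtain ⟨h1, h2⟩ := anc_spec μ hρ 0 m w hw
    have hsm := side_pos' hρ (0 + m)
    refine ⟨_, ⟨h1, ?_⟩, w, hw, rfl, by linarith⟩
    rw [mem_closedBall, dist_comm]
    have := dist_triangle y w (anc μ ρ 0 m w)
    have : side ρ (0 + m) ≤ side ρ 0 := by
      unfold side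
      exact div_le_div_of_nonneg_left hρ.le (by positivity) (pow_le_pow_right₀ (by norm_num) (by omega))
    have := side_pos' hρ 0
    linarith
  choose z hz hrest using key
  obtain ⟨m₀, hinf⟩ : ∃ m₀, {m | z m = z m₀}.Infinite := by
    by_contra hcon
    push Not at hcon
    refine Set.infinite_univ (α := ℕ) ?_
    refine ((hfin.subset (range_subset_iff.2 hz)).biUnion
      (t := fun b => {m | z m = b}) (by rintro b ⟨m, rfl⟩; exact hcon m)).subset ?_
    intro m _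
    exact mem_biUnion (mem_range_self m) (by simp)
  refine ⟨z m₀, (hz m₀).1, (mem_limSet μ).2 ⟨hy, fun m => ?_⟩⟩
  obtain ⟨m', hm', hlt⟩ := hinf.exists_gt m
  obtain ⟨w, hw, hwz, hd⟩ := hrest m'
  exact ⟨m', hlt.le, w, hw, hwz.trans hm', hd⟩

theorem limSet_inner {k : ℕ} {x z y : Spc d} (hz : z ∈ net μ ρ k)
    (hyz : dist y z < side ρ k / 8) (h : y ∈ limSet μ ρ k x) : x = z := by
  obtain ⟨c, hc, hpar, hyc⟩ := limSet_children μ hρ h
  have h1 := limSet_dist μ hρ hyc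
  rw [side_succ'] at h1
  have := dist_triangle c y z
  rw [dist_comm c y] at this
  have hs := side_pos' hρ k
  rw [← hpar, par_eq μ k hz (by linarith)]

open Classical in
omit hρ in
/-- An enumeration of the points, injective on the net. -/
def num (μ : Measure (Spc d)) (ρ : ℝ) (k : ℕ) : Spc d → ℕ :=
  if h : ∃ f : Spc d → ℕ, InjOn f (net μ ρ k) then h.choose else fun _ => 0

theorem num_injOn (k : ℕ) : InjOn (num μ ρ k) (net μ ρ k) := by
  have h : ∃ f : Spc d → ℕ, InjOn f (net μ ρ k) :=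
    Set.countable_iff_exists_injOn.1 (sep_countable (side_pos' hρ k) (net_sep μ ρ k))
  rw [num, dif_pos h]
  exact h.choose_spec

omit hρ in
/-- The cells. -/
def cellOf (μ : Measure (Spc d)) (ρ : ℝ) : ℕ → Spc d → Set (Spc d)
  | 0, x => limSet μ ρ 0 x \ ⋃ z ∈ {z ∈ net μ ρ 0 | num μ ρ 0 z < num μ ρ 0 x}, limSet μ ρ 0 z
  | k + 1, x => (cellOf μ ρ k (par μ k (ρ := ρ) x) ∩ limSet μ ρ (k + 1) x) \
      ⋃ z ∈ {z ∈ net μ ρ (k + 1) | par μ k (ρ := ρ) z = par μ k (ρ := ρ) x ∧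
        num μ ρ (k + 1) z < num μ ρ (k + 1) x}, limSet μ ρ (k + 1) z

omit hρ in
theorem cellOf_sub (k : ℕ) (x : Spc d) : cellOf μ ρ k x ⊆ limSet μ ρ k x := by
  cases k with
  | zero => exact sdiff_subset
  | succ k => exact fun y hy => hy.1.2

theorem cellOf_meas : ∀ (k : ℕ) (x : Spc d), MeasurableSet (cellOf μ ρ k x)
  | 0, x => (limSet_meas μ hρ 0 x).diff (MeasurableSet.biUnion
      ((sep_countable (side_pos' hρ _) (net_sep μ ρ _)).mono (sep_subset _ _))
      fun z _ => limSet_meas μ hρ 0 z)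
  | k + 1, x => ((cellOf_meas k _).inter (limSet_meas μ hρ (k + 1) x)).diff (MeasurableSet.biUnion
      ((sep_countable (side_pos' hρ _) (net_sep μ ρ _)).mono (sep_subset _ _))
      fun z _ => limSet_meas μ hρ (k + 1) z)

theorem cellOf_cover : ∀ (k : ℕ), ∀ y ∈ μ.support, ∃ x ∈ net μ ρ k, y ∈ cellOf μ ρ k x
  | 0, y, hy => by
    classical
    have hex : ∃ i, ∃ x ∈ net μ ρ 0, num μ ρ 0 x = i ∧ y ∈ limSet μ ρ 0 x := by
      obtain ⟨x, hx, hyx⟩ := limSet_cover_zero μ hρ hy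
      exact ⟨_, x, hx, rfl, hyx⟩
    obtain ⟨x, hx, hnum, hyx⟩ := Nat.find_spec hex
    refine ⟨x, hx, hyx, ?_⟩
    simp only [mem_iUnion, Set.mem_ofPred_eq, not_exists]
    rintro z ⟨hz, hlt⟩ hyz
    exact Nat.find_min hex (hnum ▸ hlt) ⟨z, hz, rfl, hyz⟩
  | k + 1, y, hy => by
    classical
    obtain ⟨p, hp, hyp⟩ := cellOf_cover k y hy
    have hex : ∃ i, ∃ x ∈ net μ ρ (k + 1), par μ k (ρ := ρ) x = p ∧ num μ ρ (k + 1) x = i ∧
        y ∈ limSet μ ρ (k + 1) x := by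
      obtain ⟨x, hx, hpx, hyx⟩ := limSet_children μ hρ (cellOf_sub μ k p hyp)
      exact ⟨_, x, hx, hpx, rfl, hyx⟩
    obtain ⟨x, hx, hpx, hnum, hyx⟩ := Nat.find_spec hex
    refine ⟨x, hx, ⟨hpx.symm ▸ hyp, hyx⟩, ?_⟩
    simp only [mem_iUnion, Set.mem_ofPred_eq, not_exists]
    rintro z ⟨hz, hzp, hlt⟩ hyz
    exact Nat.find_min hex (hnum ▸ hlt) ⟨z, hz, hzp.trans hpx, rfl, hyz⟩

theorem cellOf_disj : ∀ (k : ℕ), (net μ ρ k).PairwiseDisjoint (cellOf μ ρ k)
  | 0 => by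
    intro x hx z hz hne
    refine Set.disjoint_left.2 fun y hyx hyz => ?_
    rcases lt_or_gt_of_ne (fun h => hne (num_injOn μ hρ 0 hx hz h)) with h | h
    · exact hyz.2 (mem_biUnion (show x ∈ {w | w ∈ net μ ρ 0 ∧ num μ ρ 0 w < num μ ρ 0 z} from
        ⟨hx, h⟩) hyx.1)
    · exact hyx.2 (mem_biUnion (show z ∈ {w | w ∈ net μ ρ 0 ∧ num μ ρ 0 w < num μ ρ 0 x} from
        ⟨hz, h⟩) hyz.1)
  | k + 1 => by
    intro x hx z hz hne
    refine Set.disjoint_left.2 fun y hyx hyz => ?_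
    have hp : par μ k (ρ := ρ) x = par μ k (ρ := ρ) z := by
      by_contra hpne
      exact Set.disjoint_left.1 (cellOf_disj k (par_spec μ hρ k hx).1 (par_spec μ hρ k hz).1 hpne)
        hyx.1.1 hyz.1.1
    rcases lt_or_gt_of_ne (fun h => hne (num_injOn μ hρ (k + 1) hx hz h)) with h | h
    · exact hyz.2 (mem_biUnion (show x ∈ {w | w ∈ net μ ρ (k + 1) ∧
        par μ k (ρ := ρ) w = par μ k (ρ := ρ) z ∧ num μ ρ (k + 1) w < num μ ρ (k + 1) z} from
        ⟨hx, hp, h⟩) hyx.1.2)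
    · exact hyx.2 (mem_biUnion (show z ∈ {w | w ∈ net μ ρ (k + 1) ∧
        par μ k (ρ := ρ) w = par μ k (ρ := ρ) x ∧ num μ ρ (k + 1) w < num μ ρ (k + 1) x} from
        ⟨hz, hp.symm, h⟩) hyz.1.2)

end CubesAux

open CubesAux in
theorem cubesStmt_proof : CubesStmt := by
  intro d μ ρ hρ
  refine ⟨{
    X := net μ ρ
    cell := cellOf μ ρ
    parent := fun k => par μ k
    countable := fun k => sep_countable (side_pos' hρ k) (net_sep μ ρ k)
    subset := net_subset μ ρ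
    sep := net_sep μ ρ
    meas := fun k z _ => cellOf_meas μ hρ k z
    outer := fun k z _ y hy => ⟨((mem_limSet μ).1 (cellOf_sub μ k z hy)).1, ?_⟩
    inner := fun k z hz y hy => ?_
    disj := cellOf_disj μ hρ
    cover := fun k y hy => ?_
    parent_mem := fun k z hz => (par_spec μ hρ k hz).1
    nested := fun k z _ y hy => hy.1.1 }⟩
  · rw [mem_closedBall]
    linarith [limSet_dist μ hρ (cellOf_sub μ k z hy), side_pos' hρ k]
  · obtain ⟨hyE, hyb⟩ := hy
    obtain ⟨x, hx, hyx⟩ := cellOf_cover μ hρ k y hyE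
    rw [mem_ball] at hyb
    rwa [← limSet_inner μ hρ hz hyb (cellOf_sub μ k x hyx)]
  · obtain ⟨x, hx, hyx⟩ := cellOf_cover μ hρ k y hy
    exact mem_biUnion hx hyx

end Vale.Agent.P120
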