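import Mathlib
import Vale.Agent.P120.Core

/-!
The statements proved by the separate modules. Each module proves its statement from those it
lists as inputs.
-/

noncomputable section

open MeasureTheory Metric Set Filter Topology
open scoped ENNReal NNReal RealInnerProductSpace

namespace Vale.Agent.P120

/-- module Cubes -/
def CubesStmt : Prop :=
  ∀ (d : ℕ) (μ : Measure (Spc d)) (ρ : ℝ), 0 < ρ → Nonempty (Cubes μ ρ)

/-- module Packing -/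
def PackingStmt : Prop :=
  ∀ (n d : ℕ), 1 ≤ n → n < d → ∀ C M : ℝ, ∃ C' : ℝ, ∀ (μ : Measure (Spc d)) [IsLocallyFiniteMeasure μ]
    (D : ℝ), Reg n C D μ → RB n C μ → ∀ x ∈ μ.support, ∀ ρ : ℝ, 0 < ρ → ρ ≤ D →
    ∀ S : Finset (ℕ × Spc d),
      (∀ q ∈ S, q.2 ∈ μ.support ∩ closedBall x (4 * ρ)) →
      (∀ q ∈ S, ∀ q' ∈ S, q.1 = q'.1 → q ≠ q' → side ρ q.1 / 8 ≤ dist q.2 q'.2) →
      ∑ q ∈ S, oscSq n μ M q.2 (side ρ q.1) * ENNReal.ofReal (side ρ q.1 ^ n)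
        ≤ ENNReal.ofReal (C' * ρ ^ n)

/-- properties of a limit measure along an ultrafilter -/
structure IsLimit {d : ℕ} (n : ℕ) (U : Ultrafilter ℕ) (μ : ℕ → Measure (Spc d))
    (ν : Measure (Spc d)) : Prop where
  integral : ∀ f : Spc d → ℝ, Continuous f → HasCompactSupport f →
    Tendsto (fun j => ∫ x, f x ∂(μ j)) U (𝓝 (∫ x, f x ∂ν))
  prod : ∀ k : Spc d × Spc d → ℝ, Continuous k → HasCompactSupport k →
    Tendsto (fun j => ∫ p, k p ∂((μ j).prod (μ j))) U (𝓝 (∫ p, k p ∂(ν.prod ν)))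
  supp_approx : ∀ y ∈ ν.support, ∃ z : ℕ → Spc d,
    (∀ᶠ j in U, z j ∈ (μ j).support) ∧ Tendsto z U (𝓝 y)
  supp_limit : ∀ (z : ℕ → Spc d) (y : Spc d),
    (∀ᶠ j in U, z j ∈ (μ j).support) → Tendsto z U (𝓝 y) → y ∈ ν.support
  pairing : ∀ (φ : ℕ → Spc d → ℝ) (ψ : Spc d → ℝ) (R : ℝ) (K : ℝ≥0),
    (∀ᶠ j in U, Adm (μ j) 0 R (φ j) ∧ LipschitzWith K (φ j)) →
    Adm ν 0 R ψ → LipschitzWith K ψ →
    (∀ x, Tendsto (fun j => φ j x) U (𝓝 (ψ x))) →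
    Tendsto (fun j => pairing n (μ j) (φ j)) U (𝓝 (pairing n ν ψ))

/-- module Compactness -/
def CompactStmt : Prop :=
  ∀ (n d : ℕ), 1 ≤ n → n < d → ∀ C : ℝ, ∃ C' : ℝ, C ≤ C' ∧
    ∀ (μ : ℕ → Measure (Spc d)), (∀ j, IsLocallyFiniteMeasure (μ j)) →
    ∀ (D : ℕ → ℝ) (U : Ultrafilter ℕ), (U : Filter ℕ) ≤ atTop →
      Tendsto D atTop atTop →
      (∀ j, Reg n C (D j) (μ j) ∧ RB n C (μ j) ∧ (0 : Spc d) ∈ (μ j).support) →
      ∃ ν : Measure (Spc d), IsLocallyFiniteMeasure ν ∧ RegTop n C' ν ∧ RB n C' ν ∧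
        (0 : Spc d) ∈ ν.support ∧ IsLimit n U μ ν

/-- module Touch, first part: reflectionless measures have flat sub-balls -/
def TouchStmt : Prop :=
  ∀ (n d : ℕ), 1 ≤ n → n < d → ∀ C : ℝ, ∀ (ν : Measure (Spc d)) [IsLocallyFiniteMeasure ν],
    RegTop n C ν → RB n C ν → Reflectionless n ν → (0 : Spc d) ∈ ν.support → ∀ ε : ℝ, 0 < ε →
    ∃ y ∈ ν.support ∩ ball 0 1, ∃ r ∈ Ioc (0 : ℝ) 1, Flat n ν y r (ε * r)

/-- module Touch, second part: a reflectionless measure inside a plane fills it -/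
def FillStmt : Prop :=
  ∀ (n d : ℕ), 1 ≤ n → n < d → ∀ C : ℝ, ∀ (ν : Measure (Spc d)) [IsLocallyFiniteMeasure ν],
    RegTop n C ν → RB n C ν → Reflectionless n ν → ν.support.Nonempty →
    ∀ L : Plane n d, ν.support ⊆ L.carrier → ν.support = L.carrier

/-- module Abundance -/
def AbundanceStmt : Prop :=
  ∀ (n d : ℕ), 1 ≤ n → n < d → ∀ C ε : ℝ, 0 < ε → ∃ δ : ℝ, 0 < δ ∧
    ∀ (μ : Measure (Spc d)) [IsLocallyFiniteMeasure μ] (D : ℝ), Reg n C D μ → RB n C μ →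
      ∀ x ∈ μ.support, ∀ ρ : ℝ, 0 < ρ → ρ ≤ D →
        ∃ y ∈ μ.support ∩ ball x ρ, ∃ r ∈ Icc (δ * ρ) ρ, Flat n μ y r (ε * r)

/-- module Liouville -/
def LiouvilleStmt : Prop :=
  ∀ (n : ℕ), 1 ≤ n → ∀ (A : Spc n → ℝ) (C : ℝ),
    AEStronglyMeasurable A volume →
    (∀ R : ℝ, 1 ≤ R → IntegrableOn (fun x => A x ^ 2) (ball 0 R) ∧
      ∫ x in ball 0 R, A x ^ 2 ≤ C * R ^ (n + 3)) →
    (∀ h : Spc n → ℝ, ContDiff ℝ ((⊤ : ℕ∞) : WithTop ℕ∞) h → HasCompactSupport h → ∫ x, h x = 0 →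
      ∫ x, A x * fracLap h x = 0) →
    ∃ (a : ℝ) (v : Spc n), A =ᵐ[volume] fun x => a + ⟪v, x⟫

/-- module FlatConst: a reflectionless measure on a plane is a multiple of Lebesgue measure -/
def FlatConstStmt : Prop :=
  ∀ (n d : ℕ), 1 ≤ n → n < d → ∀ C : ℝ, ∀ (ν : Measure (Spc d)) [IsLocallyFiniteMeasure ν],
    RegTop n C ν → RB n C ν → Reflectionless n ν → ν.support.Nonempty →
    ∀ L : Plane n d, ν.support ⊆ L.carrier →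
      ∃ θ : ℝ, 0 < θ ∧ ν = ENNReal.ofReal θ • Measure.map L.param volume

/-- averaged size of `g` at dyadic scales, with geometric weights -/
def tailAvg {d : ℕ} (n : ℕ) (μ : Measure (Spc d)) (a : Spc d) (R : ℝ) (g : Spc d → ℝ) : ℝ :=
  ∑' j : ℕ, ((4 : ℝ) ^ j)⁻¹ * (((2 : ℝ) ^ j * R) ^ n)⁻¹ *
    ∫ y in closedBall a ((2 : ℝ) ^ (j + 2) * R), |g y| ∂μ

/-- module Energy: the Caccioppoli inequality -/
def EnergyStmt : Prop :=
  ∀ (n d : ℕ), 1 ≤ n → n < d → ∀ C : ℝ, ∃ C' : ℝ,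
    ∀ (μ : Measure (Spc d)) [IsLocallyFiniteMeasure μ] (D : ℝ), Reg n C D μ →
      ∀ a ∈ μ.support, ∀ R : ℝ, 0 < R → R ≤ D → ∀ (v : Spc d) (b δ : ℝ), ‖v‖ = 1 → 0 ≤ δ →
        oscSq n μ 2 a R ≤ ENNReal.ofReal δ →
        En n μ (fun y => cut a R y * (⟪v, y⟫ - b)) ≤ ENNReal.ofReal (C' *
          (R⁻¹ * (∫ y in closedBall a (4 * R), (⟪v, y⟫ - b) ^ 2 ∂μ)
            + R ^ n / R * tailAvg n μ a R (fun y => ⟪v, y⟫ - b) ^ 2
            + δ * R ^ (n + 1)))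

/-- module PlaneStab -/
def PlaneStabStmt : Prop :=
  ∀ (n d : ℕ), 1 ≤ n → n < d → ∀ C : ℝ, ∃ C' : ℝ,
    ∀ (μ : Measure (Spc d)) [IsLocallyFiniteMeasure μ] (D : ℝ), Reg n C D μ →
      ∀ z ∈ μ.support, ∀ r : ℝ, 0 < r → r ≤ D → ∀ (L L' : Plane n d) (y : Spc d),
        ‖L.dev y - L'.dev y‖ ≤
          C' * (1 + dist y z / r) * Real.sqrt ((devSq μ L z r + devSq μ L' z r) / r ^ n)

/-- module Improve: flatness improves where `R 1` does not oscillate -/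
def ImproveStmt : Prop :=
  ∀ (n d : ℕ), 1 ≤ n → n < d → ∀ C Λ κ : ℝ, 4 ≤ Λ → 0 < κ →
    ∃ (η : ℝ) (I₀ : ℕ) (M C' : ℝ), 0 < η ∧ ∀ (μ : Measure (Spc d)) [IsLocallyFiniteMeasure μ]
      (D : ℝ), Reg n C D μ → RB n C μ →
      ∀ (I : ℕ) (z : ℕ → Spc d) (t δ : ℝ), I₀ ≤ I → 0 < t → t * 8 ^ I ≤ D → 0 ≤ δ →
        (∀ i ≤ I, z i ∈ μ.support) →
        (∀ i < I, dist (z i) (z (i + 1)) ≤ 2 * (t * 8 ^ (i + 1))) →
        (∀ i ≤ I, Flat n μ (z i) (Λ * (t * 8 ^ i)) (η * (t * 8 ^ i))) →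
        oscSq n μ M (z 0) t ≤ ENNReal.ofReal δ →
        betaSq n μ Λ (z 0) t ≤
          κ * ((∑ i ∈ Finset.range (I + 1), (1/2 : ℝ) ^ i * betaSq n μ Λ (z i) (t * 8 ^ i))
              + (1/2 : ℝ) ^ I) + C' * δ

/-- module Tree: stopping trees with small exits and a graph through the rest -/
def TreeStmt : Prop :=
  ∀ (n d : ℕ), 1 ≤ n → n < d → ∀ C γ : ℝ, 0 < γ →
    ∃ (K ε M C' : ℝ) (J₀ : ℕ), 1 ≤ K ∧ 0 < ε ∧
      ∀ (μ : Measure (Spc d)) [IsLocallyFiniteMeasure μ] (D ρ : ℝ), Reg n C D μ → RB n C μ →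
        0 < ρ → ρ ≤ D → ∀ (Q : Cubes μ ρ) (T : ℕ × Spc d), J₀ ≤ T.1 → T.2 ∈ Q.X T.1 →
          Flat n μ T.2 (K * side ρ T.1) (ε * side ρ T.1) →
          ∃ (X : Set (ℕ × Spc d)) (L : Plane n d),
            (∀ e ∈ X, T.1 < e.1 ∧ Q.Below e T) ∧
            X.PairwiseDisjoint (fun e => Q.cell e.1 e.2) ∧
            μ (⋃ e ∈ X, Q.cell e.1 e.2) ≤ ENNReal.ofReal γ * μ (Q.cell T.1 T.2)
              + ENNReal.ofReal C' * ∑' q : ↥(Q.tree T X),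
                  oscSq n μ M q.1.2 (side ρ q.1.1) * μ (Q.cell q.1.1 q.1.2) ∧
            ∀ x ∈ Q.stay T X ∪ Prod.snd '' X, ∀ y ∈ Q.stay T X ∪ Prod.snd '' X,
              dist x y ≤ 2 * dist (L.coord x) (L.coord y)

/-- the final statement -/
def MainStmt : Prop :=
  ∀ (n d : ℕ), 1 ≤ n → n < d → ∀ (μ : Measure (Spc d)) [IsLocallyFiniteMeasure μ],
    IsADRegular n μ → RieszBounded n μ → IsUniformlyRectifiable n μ

end Vale.Agent.P120
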