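import Mathlib
import Vale.Agent.P120.EnergyBasic
import Vale.Agent.P120.Statements

/-!
Potentials for the Caccioppoli inequality: squared increments of a cut-off, the far kernel, and
the weighted tail of a linear function.
-/

noncomputable section

open MeasureTheory Metric Set Filter Topology
open scoped ENNReal NNReal RealInnerProductSpace

namespace Vale.Agent.P120

variable {d n : ℕ} {C : ℝ} {μ : Measure (Spc d)}

/-- the scalar kernel of order `n + 1` -/
def ker (n : ℕ) (p : Spc d × Spc d) : ℝ := (‖p.1 - p.2‖ ^ (n + 1))⁻¹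

lemma ker_nonneg (p : Spc d × Spc d) : 0 ≤ ker n p := by unfold ker; positivity

lemma ker_swap (p : Spc d × Spc d) : ker n p.swap = ker n p := by
  simp [ker, norm_sub_rev p.2 p.1]

@[fun_prop]
lemma measurable_ker : Measurable (ker n : Spc d × Spc d → ℝ) := by unfold ker; fun_prop

/-- an integral is at most a bound of the corresponding lower integral -/
lemma integral_le_of_lintegral_le {α : Type*} [MeasurableSpace α] {ν : Measure α} {f : α → ℝ}
    {c : ℝ} (hf : 0 ≤ᵐ[ν] f) (hm : AEStronglyMeasurable f ν) (hc : 0 ≤ c)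
    (h : ∫⁻ x, ENNReal.ofReal (f x) ∂ν ≤ ENNReal.ofReal c) :
    Integrable f ν ∧ ∫ x, f x ∂ν ≤ c := by
  have hi : Integrable f ν :=
    ⟨hm, (hasFiniteIntegral_iff_ofReal hf).2 (h.trans_lt ENNReal.ofReal_lt_top)⟩
  refine ⟨hi, ?_⟩
  rw [integral_eq_lintegral_of_nonneg_ae hf hm]
  exact ENNReal.toReal_le_of_le_ofReal hc h

/-- the squared increments of a cut-off have a potential of size `1/R` -/
lemma cut_potential [IsLocallyFiniteMeasure μ] (h : UpperReg n C μ) (hn : 1 ≤ n) (hC : 0 ≤ C)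
    (a x : Spc d) {R : ℝ} (hR : 0 < R) :
    ∫⁻ y, ENNReal.ofReal ((cut a R x - cut a R y) ^ 2 * ker n (x, y)) ∂μ
      ≤ ENNReal.ofReal (3 * 2 ^ n * C / R) := by
  have hlip := lipschitz_cut a hR
  have s1 : ∫⁻ y in ball x R, ENNReal.ofReal ((cut a R x - cut a R y) ^ 2 * ker n (x, y)) ∂μ
      ≤ ENNReal.ofReal (2 ^ n * C / R) := by
    calc ∫⁻ y in ball x R, ENNReal.ofReal ((cut a R x - cut a R y) ^ 2 * ker n (x, y)) ∂μ
        ≤ ∫⁻ y in ball x R,
            ENNReal.ofReal ((R ^ 2)⁻¹) * ENNReal.ofReal (((dist y x) ^ (n - 1))⁻¹) ∂μ := by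
          refine setLIntegral_mono' measurableSet_ball fun y _ => ?_
          rw [← ENNReal.ofReal_mul (by positivity)]
          refine ENNReal.ofReal_le_ofReal ?_
          rcases eq_or_ne x y with rfl | hxy
          · simp only [sub_self, ne_eq, OfNat.ofNat_ne_zero, not_false_eq_true, zero_pow, zero_mul]
            positivity
          have hd : 0 < dist y x := dist_pos.mpr (Ne.symm hxy)
          have hl : |cut a R x - cut a R y| ≤ R⁻¹ * dist y x := by
            have := hlip.dist_le_mul x y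
            rwa [Real.coe_toNNReal _ (by positivity), Real.dist_eq, dist_comm x y] at this
          obtain ⟨m, rfl⟩ : ∃ m, n = m + 1 := ⟨n - 1, by omega⟩
          simp only [ker, ← dist_eq_norm, dist_comm x y, Nat.add_sub_cancel]
          calc (cut a R x - cut a R y) ^ 2 * (dist y x ^ (m + 1 + 1))⁻¹
              ≤ (R⁻¹ * dist y x) ^ 2 * (dist y x ^ (m + 1 + 1))⁻¹ := by
                rw [← sq_abs (cut a R x - cut a R y)]; gcongr
            _ = _ := by rw [mul_pow, pow_succ, pow_succ, inv_pow]; field_simp; ring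
      _ ≤ ENNReal.ofReal ((R ^ 2)⁻¹) * ENNReal.ofReal (2 ^ n * C * R) := by
          rw [lintegral_const_mul _ (by fun_prop)]
          exact mul_le_mul_right (h.lintegral_near hn x hR) _
      _ = _ := by rw [← ENNReal.ofReal_mul (by positivity)]; congr 1; field_simp
  have s2 : ∫⁻ y in (ball x R)ᶜ, ENNReal.ofReal ((cut a R x - cut a R y) ^ 2 * ker n (x, y)) ∂μ
      ≤ ENNReal.ofReal (2 ^ (n + 1) * C / R) := by
    refine le_trans (setLIntegral_mono' measurableSet_ball.compl fun y _ => ?_) (h.lintegral_far x hR)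
    refine ENNReal.ofReal_le_ofReal ?_
    simp only [ker, ← dist_eq_norm, dist_comm x y]
    refine mul_le_of_le_one_left (by positivity) ?_
    have h1 := cut_nonneg a R x
    have h2 := cut_le_one a R x
    have h3 := cut_nonneg a R y
    have h4 := cut_le_one a R y
    nlinarith
  rw [← lintegral_add_compl _ (measurableSet_ball (x := x) (ε := R))]
  refine (add_le_add s1 s2).trans (le_of_eq ?_)
  rw [← ENNReal.ofReal_add (by positivity) (by positivity), pow_succ]
  ring_nf

/-- the kernel from `closedBall a (2R)` to the outside of `closedBall a (4R)` -/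
lemma far_potential (h : UpperReg n C μ) {a x : Spc d} {R : ℝ} (hR : 0 < R)
    (hx : dist x a ≤ 2 * R) :
    ∫⁻ y in (closedBall a (4 * R))ᶜ, ENNReal.ofReal (ker n (x, y)) ∂μ
      ≤ ENNReal.ofReal (2 ^ n * C / R) := by
  refine le_trans (lintegral_mono_set (t := (ball x (2 * R))ᶜ) fun y hy => ?_)
    (le_trans (le_of_eq ?_) ((h.lintegral_far x (by positivity : 0 < 2 * R)).trans (le_of_eq ?_)))
  · simp only [mem_compl_iff, mem_closedBall, mem_ball, not_le, not_lt] at hy ⊢
    linarith [dist_triangle y x a]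
  · refine setLIntegral_congr_fun measurableSet_ball.compl fun y _ => ?_
    simp [ker, ← dist_eq_norm, dist_comm x y]
  · congr 1; rw [pow_succ]; field_simp

/-- difference of the scalar kernel at `x` and at `a`, seen from far away -/
lemma abs_ker_sub_le {a x y : Spc d} {R : ℝ} (hR : 0 < R) (hx : dist x a ≤ 2 * R)
    (hy : 4 * R ≤ dist y a) :
    |ker n (x, y) - ker n (a, y)| ≤ 4 * R * (n + 1) * 3 ^ n / dist y a ^ (n + 2) := by
  set D := dist y a with hD
  have hD0 : 0 < D := by linarith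
  have e1 : ‖a - y‖ = D := by rw [← dist_eq_norm, dist_comm]
  have hab : |‖x - y‖ - ‖a - y‖| ≤ 2 * R := by
    refine (abs_norm_sub_norm_le _ _).trans ?_
    rwa [sub_sub_sub_cancel_right, ← dist_eq_norm]
  rw [e1] at hab
  obtain ⟨h1, h2⟩ := abs_le.1 hab
  have hlo : D / 2 ≤ ‖x - y‖ := by linarith
  have hhi : ‖x - y‖ ≤ 3 * D / 2 := by linarith
  have hpos : 0 < ‖x - y‖ := by linarith
  have hp := abs_pow_sub_pow_le D ‖x - y‖ (n + 1)
  rw [abs_of_pos hpos, abs_of_pos hD0, Nat.add_sub_cancel] at hp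
  simp only [ker, e1]
  rw [inv_sub_inv (by positivity) (by positivity), abs_div,
    abs_of_pos (show (0 : ℝ) < ‖x - y‖ ^ (n + 1) * D ^ (n + 1) by positivity)]
  calc |D ^ (n + 1) - ‖x - y‖ ^ (n + 1)| / (‖x - y‖ ^ (n + 1) * D ^ (n + 1))
      ≤ 2 * R * ((n + 1 : ℕ) : ℝ) * (3 * D / 2) ^ n / ((D / 2) ^ (n + 1) * D ^ (n + 1)) := by
        gcongr
        refine hp.trans ?_
        rw [abs_sub_comm D ‖x - y‖]
        gcongr
        exact max_le (by linarith) hhi
    _ = _ := by
        simp only [div_pow, mul_pow, pow_succ, pow_add]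
        push_cast
        field_simp
        ring

lemma summable_tailAvg [IsLocallyFiniteMeasure μ] (h : UpperReg n C μ) (hC : 0 ≤ C) (a : Spc d)
    {R : ℝ} (hR : 0 < R) {g : Spc d → ℝ} (hg : LipschitzWith 1 g) :
    Summable fun j : ℕ => ((4 : ℝ) ^ j)⁻¹ * (((2 : ℝ) ^ j * R) ^ n)⁻¹ *
      ∫ y in closedBall a ((2 : ℝ) ^ (j + 2) * R), |g y| ∂μ := by
  refine Summable.of_nonneg_of_le (fun j => ?_) (fun j => ?_)
    ((summable_geometric_two).mul_left (C * 8 ^ n * (|g a| + 4 * R)))
  · have : 0 ≤ ∫ y in closedBall a ((2 : ℝ) ^ (j + 2) * R), |g y| ∂μ :=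
      integral_nonneg fun y => abs_nonneg _
    positivity
  set r : ℝ := (2 : ℝ) ^ (j + 2) * R with hr
  have hr0 : 0 < r := by positivity
  have hint : ∫ y in closedBall a r, |g y| ∂μ ≤ (|g a| + r) * (C * 2 ^ n * r ^ n) := by
    have hb : ∀ y ∈ closedBall a r, ‖|g y|‖ ≤ |g a| + r := fun y hy => by
      rw [Real.norm_eq_abs, abs_abs]
      have h1 := hg.dist_le_mul y a
      rw [Real.dist_eq, NNReal.coe_one, one_mul] at h1
      have h2 := abs_sub_abs_le_abs_sub (g y) (g a)
      linarith [mem_closedBall.1 hy]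
    refine le_trans (Real.le_norm_self _) (le_trans
      (norm_setIntegral_le_of_norm_le_const measure_closedBall_lt_top hb) ?_)
    refine mul_le_mul_of_nonneg_left ?_ (by positivity)
    exact ENNReal.toReal_le_of_le_ofReal (by positivity) (h.closedBall_le a hr0)
  refine le_trans (mul_le_mul_of_nonneg_left hint (by positivity)) ?_
  have e1 : (((2 : ℝ) ^ j * R) ^ n)⁻¹ * (C * 2 ^ n * r ^ n) = C * 8 ^ n := by
    rw [hr, pow_add, show ((8 : ℝ)) = 2 * 2 ^ 2 by norm_num, mul_pow 2, mul_pow, mul_pow, mul_pow]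
    field_simp
  have e2 : ((4 : ℝ) ^ j)⁻¹ * (|g a| + r) ≤ (|g a| + 4 * R) * (1 / 2) ^ j := by
    have h4 : (4 : ℝ) ^ j = 2 ^ j * 2 ^ j := by rw [← mul_pow]; norm_num
    rw [h4, hr, pow_add, one_div, inv_pow, inv_mul_eq_div, ← div_eq_mul_inv,
      div_le_div_iff₀ (by positivity) (by positivity)]
    have h1 : (1 : ℝ) ≤ 2 ^ j := one_le_pow₀ (by norm_num)
    have : 0 ≤ |g a| * ((2 : ℝ) ^ j * (2 ^ j - 1)) :=
      mul_nonneg (abs_nonneg _) (mul_nonneg (by positivity) (by linarith))
    nlinarith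
  calc ((4 : ℝ) ^ j)⁻¹ * (((2 : ℝ) ^ j * R) ^ n)⁻¹ * ((|g a| + r) * (C * 2 ^ n * r ^ n))
      = ((4 : ℝ) ^ j)⁻¹ * (|g a| + r) * ((((2 : ℝ) ^ j * R) ^ n)⁻¹ * (C * 2 ^ n * r ^ n)) := by
        ring
    _ ≤ (|g a| + 4 * R) * (1 / 2) ^ j * (C * 8 ^ n) := by
        rw [e1]; gcongr
    _ = _ := by ring

lemma tailAvg_nonneg (a : Spc d) {R : ℝ} (hR : 0 < R) (g : Spc d → ℝ) :
    0 ≤ tailAvg n μ a R g := by
  refine tsum_nonneg fun j => ?_
  have : 0 ≤ ∫ y in closedBall a ((2 : ℝ) ^ (j + 2) * R), |g y| ∂μ :=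
    integral_nonneg fun y => abs_nonneg _
  positivity

/-- the weighted tail of `g` is controlled by the dyadic averages -/
lemma tail_potential [IsLocallyFiniteMeasure μ] (h : UpperReg n C μ) (hC : 0 ≤ C) (a : Spc d)
    {R : ℝ} (hR : 0 < R) {g : Spc d → ℝ} (hg : LipschitzWith 1 g) :
    ∫⁻ y in (closedBall a (4 * R))ᶜ, ENNReal.ofReal (|g y| / dist y a ^ (n + 2)) ∂μ
      ≤ ENNReal.ofReal ((R ^ 2)⁻¹ * tailAvg n μ a R g) := by
  set S : ℕ → Set (Spc d) := fun j => closedBall a ((2 : ℝ) ^ (j + 2) * R)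
  set c : ℕ → ℝ := fun j => (((2 : ℝ) ^ (j + 1) * R) ^ (n + 2))⁻¹
  have hgc := hg.continuous
  have hpt : ∀ y ∈ (closedBall a (4 * R))ᶜ, ENNReal.ofReal (|g y| / dist y a ^ (n + 2)) ≤
      ∑' j, (S j).indicator (fun y => ENNReal.ofReal (c j * |g y|)) y := by
    intro y hy
    simp only [mem_compl_iff, mem_closedBall, not_le] at hy
    have h4 : 1 < dist y a / (2 * R) := by rw [lt_div_iff₀ (by positivity)]; linarith
    obtain ⟨j, hj1, hj2⟩ := exists_nat_pow_near h4.le (one_lt_two (α := ℝ))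
    refine le_trans ?_ (ENNReal.le_tsum j)
    rw [le_div_iff₀ (by positivity)] at hj1
    rw [div_lt_iff₀ (by positivity)] at hj2
    rw [indicator_of_mem (show y ∈ S j from mem_closedBall.2 (by
      simp only [pow_succ] at hj2 ⊢; linarith))]
    refine ENNReal.ofReal_le_ofReal ?_
    rw [div_eq_inv_mul]
    refine mul_le_mul_of_nonneg_right (inv_anti₀ (by positivity) ?_) (abs_nonneg _)
    refine pow_le_pow_left₀ (by positivity) ?_ _
    rw [pow_succ]; linarith
  refine (setLIntegral_mono' measurableSet_closedBall.compl hpt).trans ?_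
  refine (setLIntegral_le_lintegral _ _).trans ?_
  rw [lintegral_tsum fun j =>
    ((by fun_prop : Measurable fun y => ENNReal.ofReal (c j * |g y|)).indicator
      measurableSet_closedBall).aemeasurable]
  rw [tailAvg, ← tsum_mul_left, ENNReal.ofReal_tsum_of_nonneg (fun j => ?_)
    ((summable_tailAvg h hC a hR hg).mul_left _)]
  · refine ENNReal.tsum_le_tsum fun j => ?_
    rw [lintegral_indicator measurableSet_closedBall]
    have hint : IntegrableOn (fun y => c j * |g y|) (S j) μ :=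
      (ContinuousOn.integrableOn_compact (isCompact_closedBall _ _) (by fun_prop))
    rw [← ofReal_integral_eq_lintegral_ofReal hint
      (Eventually.of_forall fun y => by simp only [c]; positivity), integral_const_mul]
    refine ENNReal.ofReal_le_ofReal ?_
    rw [← mul_assoc, ← mul_assoc]
    refine mul_le_mul_of_nonneg_right ?_ (integral_nonneg fun y => abs_nonneg _)
    simp only [c]
    rw [← mul_inv, ← mul_inv]
    refine inv_anti₀ (by positivity) ?_
    have e : ((2 : ℝ) ^ (j + 1) * R) ^ (n + 2) =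
        2 ^ n * 4 * (R ^ 2 * 4 ^ j * ((2 : ℝ) ^ j * R) ^ n) := by
      have h4 : (4 : ℝ) ^ j = 2 ^ j * 2 ^ j := by rw [← mul_pow]; norm_num
      rw [h4, pow_add, pow_succ (2 : ℝ) j, mul_pow, mul_pow, mul_pow]
      ring
    rw [e]
    have h1 : (1 : ℝ) ≤ 2 ^ n := one_le_pow₀ (by norm_num)
    exact le_mul_of_one_le_left (by positivity) (by linarith)
  · have : 0 ≤ ∫ y in closedBall a ((2 : ℝ) ^ (j + 2) * R), |g y| ∂μ :=
      integral_nonneg fun y => abs_nonneg _
    positivity

end Vale.Agent.P120
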