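import Mathlib
import Vale.Agent.P120.EnergyPot

/-!
The Caccioppoli inequality for a linear function against the oscillation of `R 1`.
-/

noncomputable section

open MeasureTheory Metric Set Filter Topology
open scoped ENNReal NNReal RealInnerProductSpace

namespace Vale.Agent.P120

variable {d n : ℕ} {C : ℝ} {μ : Measure (Spc d)}

/-- a weighted kernel on a product is controlled by the potential of the kernel -/
lemma weighted_kernel [IsLocallyFiniteMeasure μ] {s t : Set (Spc d)} (hs : IsCompact s)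
    (ht : MeasurableSet t) {f : Spc d → ℝ} (hf : Continuous f) (hf0 : ∀ x, 0 ≤ f x)
    {q : Spc d × Spc d → ℝ} (hq : Measurable q) (hq0 : ∀ p, 0 ≤ q p) {c : ℝ} (hc : 0 ≤ c)
    (hpot : ∀ x ∈ s, ∫⁻ y in t, ENNReal.ofReal (q (x, y)) ∂μ ≤ ENNReal.ofReal c) :
    Integrable ((s ×ˢ t).indicator fun p => f p.1 * q p) (μ.prod μ) ∧
      ∫ p, (s ×ˢ t).indicator (fun p => f p.1 * q p) p ∂(μ.prod μ) ≤ c * ∫ x in s, f x ∂μ := by
  have hst : MeasurableSet (s ×ˢ t) := hs.measurableSet.prod ht
  have hm : Measurable fun p : Spc d × Spc d => f p.1 * q p :=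
    (hf.measurable.comp measurable_fst).mul hq
  have hfi : IntegrableOn f s μ := hf.continuousOn.integrableOn_compact hs
  refine integral_le_of_lintegral_le
    (Eventually.of_forall fun p => indicator_nonneg (fun q' _ => mul_nonneg (hf0 _) (hq0 q')) p)
    (hm.indicator hst).aestronglyMeasurable
    (mul_nonneg hc (setIntegral_nonneg hs.measurableSet fun x _ => hf0 x)) ?_
  calc ∫⁻ p, ENNReal.ofReal ((s ×ˢ t).indicator (fun p => f p.1 * q p) p) ∂(μ.prod μ)
      = ∫⁻ p in s ×ˢ t, ENNReal.ofReal (f p.1 * q p) ∂(μ.prod μ) := by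
        rw [← lintegral_indicator hst]
        refine lintegral_congr fun p => ?_
        by_cases hp : p ∈ s ×ˢ t <;> simp [hp]
    _ = ∫⁻ x in s, ∫⁻ y in t, ENNReal.ofReal (f x * q (x, y)) ∂μ ∂μ := by
        rw [← Measure.prod_restrict, lintegral_prod _ hm.ennreal_ofReal.aemeasurable]
    _ ≤ ∫⁻ x in s, ENNReal.ofReal c * ENNReal.ofReal (f x) ∂μ := by
        refine setLIntegral_mono' hs.measurableSet fun x hx => ?_
        have e : ∀ y, ENNReal.ofReal (f x * q (x, y)) =
            ENNReal.ofReal (f x) * ENNReal.ofReal (q (x, y)) := fun y => ENNReal.ofReal_mul (hf0 x)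
        simp only [e]
        rw [lintegral_const_mul _ (by fun_prop), mul_comm]
        exact mul_le_mul_left (hpot x hx) _
    _ = ENNReal.ofReal (c * ∫ x in s, f x ∂μ) := by
        rw [lintegral_const_mul _ (by fun_prop),
          ← ofReal_integral_eq_lintegral_ofReal hfi (Eventually.of_forall hf0),
          ← ENNReal.ofReal_mul hc]

/-- products with a bounded Lipschitz function supported in a ball are Lipschitz -/
lemma lipschitz_mul_bounded {f g : Spc d → ℝ} {K L : ℝ≥0} (hf : LipschitzWith K f)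
    (hg : LipschitzWith L g) (hf1 : ∀ x, |f x| ≤ 1) {a : Spc d} {ρ : ℝ} (hρ : 0 ≤ ρ)
    (hsupp : ∀ x, x ∉ closedBall a ρ → f x = 0) :
    ∃ K' : ℝ≥0, LipschitzWith K' fun x => f x * g x := by
  set G : ℝ := |g a| + L * ρ with hG
  have hG0 : 0 ≤ G := by positivity
  have hb : ∀ x ∈ closedBall a ρ, |g x| ≤ G := fun x hx => by
    have h1 := hg.dist_le_mul x a
    rw [Real.dist_eq] at h1
    have h2 := abs_sub_abs_le_abs_sub (g x) (g a)
    have h3 : (L : ℝ) * dist x a ≤ L * ρ := mul_le_mul_of_nonneg_left (mem_closedBall.1 hx) L.2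
    linarith
  have key : ∀ x ∈ closedBall a ρ, ∀ y, dist (f x * g x) (f y * g y) ≤ ((K : ℝ) * G + L) * dist x y := by
    intro x hx y
    have h1 := hf.dist_le_mul x y
    have h2 := hg.dist_le_mul x y
    rw [Real.dist_eq] at h1 h2 ⊢
    calc |f x * g x - f y * g y| = |(f x - f y) * g x + f y * (g x - g y)| := by ring_nf
      _ ≤ |f x - f y| * |g x| + |f y| * |g x - g y| := by
          rw [← abs_mul, ← abs_mul]; exact abs_add_le _ _
      _ ≤ (K : ℝ) * dist x y * G + 1 * (L * dist x y) :=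
          add_le_add (mul_le_mul h1 (hb x hx) (abs_nonneg _) (by positivity))
            (mul_le_mul (hf1 y) h2 (abs_nonneg _) zero_le_one)
      _ = _ := by ring
  refine ⟨Real.toNNReal ((K : ℝ) * G + L), LipschitzWith.of_dist_le_mul fun x y => ?_⟩
  rw [Real.coe_toNNReal _ (by positivity)]
  by_cases hx : x ∈ closedBall a ρ
  · exact key x hx y
  by_cases hy : y ∈ closedBall a ρ
  · rw [dist_comm, dist_comm x y]; exact key y hy x
  rw [hsupp x hx, hsupp y hy, zero_mul, zero_mul, dist_self]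
  positivity

/-- the pointwise inequality between the pairing and the energy near the cut-off -/
lemma near_bound (cx cy gx gy m k : ℝ) (hk : 0 ≤ k) :
    3/4 * ((cx * gx - cy * gy) ^ 2 * k) ≤
      (gx - gy) * (cx ^ 2 * (gx - m) - cy ^ 2 * (gy - m)) * k
        + (gx ^ 2 + 3 * m ^ 2) * ((cx - cy) ^ 2 * k) + (gy ^ 2 + 3 * m ^ 2) * ((cx - cy) ^ 2 * k) := by
  have key : 3/4 * (cx * gx - cy * gy) ^ 2 ≤ (gx - gy) * (cx ^ 2 * (gx - m) - cy ^ 2 * (gy - m))
      + (gx ^ 2 + 3 * m ^ 2) * (cx - cy) ^ 2 + (gy ^ 2 + 3 * m ^ 2) * (cx - cy) ^ 2 := by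
    have e : (gx - gy) * (cx ^ 2 * (gx - m) - cy ^ 2 * (gy - m)) =
        (cx * gx - cy * gy) ^ 2 - gx * gy * (cx - cy) ^ 2
          - m * (cx - cy) * (2 * (cx * gx - cy * gy) - (gx + gy) * (cx - cy)) := by ring
    rw [e]
    nlinarith [sq_nonneg (cx * gx - cy * gy - 4 * m * (cx - cy)), sq_nonneg ((gx - gy) * (cx - cy)),
      sq_nonneg ((gx + m) * (cx - cy)), sq_nonneg ((gy + m) * (cx - cy)),
      mul_nonneg (sq_nonneg m) (sq_nonneg (cx - cy))]
  calc 3/4 * ((cx * gx - cy * gy) ^ 2 * k) = 3/4 * (cx * gx - cy * gy) ^ 2 * k := by ring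
    _ ≤ _ := mul_le_mul_of_nonneg_right key hk
    _ = _ := by ring

/-- the pointwise bound of the energy of the test function -/
lemma test_bound (cx cy gx gy m : ℝ) (hcx : |cx| ≤ 1) (hcy : |cy| ≤ 1) :
    (cx ^ 2 * (gx - m) - cy ^ 2 * (gy - m)) ^ 2 ≤
      3 * (cx * gx - cy * gy) ^ 2 + (3 * (cy * gy) ^ 2 + 12 * m ^ 2) * (cx - cy) ^ 2 := by
  have e : cx ^ 2 * (gx - m) - cy ^ 2 * (gy - m) =
      cx * (cx * gx - cy * gy) + cy * gy * (cx - cy) - m * (cx + cy) * (cx - cy) := by ring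
  rw [e]
  have h1 : cx ^ 2 ≤ 1 := by rw [← sq_abs]; exact pow_le_one₀ (abs_nonneg _) hcx
  have h2 : (cx + cy) ^ 2 ≤ 4 := by
    rw [← sq_abs]
    have := abs_add_le cx cy
    nlinarith [abs_nonneg (cx + cy)]
  set u := cx * (cx * gx - cy * gy) with hu
  set w := cy * gy * (cx - cy) with hw
  set z := m * (cx + cy) * (cx - cy) with hz
  have h3 : (u + w - z) ^ 2 ≤ 3 * u ^ 2 + 3 * w ^ 2 + 3 * z ^ 2 := by
    nlinarith [sq_nonneg (u - w), sq_nonneg (u + z), sq_nonneg (w + z)]
  have h4 : u ^ 2 ≤ (cx * gx - cy * gy) ^ 2 := by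
    rw [hu, mul_pow]; exact mul_le_of_le_one_left (sq_nonneg _) h1
  have h5 : z ^ 2 ≤ 4 * m ^ 2 * (cx - cy) ^ 2 := by
    rw [hz, mul_pow, mul_pow]
    exact mul_le_mul_of_nonneg_right
      (by linarith [mul_le_mul_of_nonneg_left h2 (sq_nonneg m)]) (sq_nonneg _)
  rw [hw] at h3 ⊢
  linarith [mul_pow (cy * gy) (cx - cy) 2]

variable {a : Spc d} {R : ℝ} {g : Spc d → ℝ} {m : ℝ}

/-- the cut linear function -/
def cutFn (a : Spc d) (R : ℝ) (g : Spc d → ℝ) (y : Spc d) : ℝ := cut a R y * g y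

/-- the test function -/
def testFn (a : Spc d) (R : ℝ) (g : Spc d → ℝ) (m : ℝ) (y : Spc d) : ℝ :=
  cut a R y ^ 2 * (g y - m)

lemma cut_eq_zero' (hR : 0 < R) {x : Spc d} (hx : x ∉ closedBall a (2 * R)) : cut a R x = 0 :=
  cut_eq_zero hR (by simp only [mem_closedBall, not_le] at hx; exact hx.le)

lemma cutFn_eq_zero (hR : 0 < R) {x : Spc d} (hx : x ∉ closedBall a (2 * R)) :
    cutFn a R g x = 0 := by simp [cutFn, cut_eq_zero' hR hx]

lemma testFn_eq_zero (hR : 0 < R) {x : Spc d} (hx : x ∉ closedBall a (2 * R)) :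
    testFn a R g m x = 0 := by simp [testFn, cut_eq_zero' hR hx]

lemma exists_lip_cutFn (hR : 0 < R) (hg : LipschitzWith 1 g) :
    ∃ K : ℝ≥0, LipschitzWith K (cutFn a R g) :=
  lipschitz_mul_bounded (lipschitz_cut a hR) hg (abs_cut_le_one a R)
    (a := a) (ρ := 2 * R) (by positivity) fun _ hx => cut_eq_zero' hR hx

lemma exists_lip_testFn (hR : 0 < R) (hg : LipschitzWith 1 g) :
    ∃ K : ℝ≥0, LipschitzWith K (testFn a R g m) := by
  obtain ⟨K1, hK1⟩ := lipschitz_mul_bounded (lipschitz_cut a hR)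
    (hg.sub (LipschitzWith.const m)) (abs_cut_le_one a R) (a := a) (ρ := 2 * R) (by positivity)
    fun _ hx => cut_eq_zero' hR hx
  obtain ⟨K, hK⟩ := lipschitz_mul_bounded (lipschitz_cut a hR) hK1 (abs_cut_le_one a R)
    (a := a) (ρ := 2 * R) (by positivity) fun _ hx => cut_eq_zero' hR hx
  refine ⟨K, LipschitzWith.of_dist_le_mul fun x y => ?_⟩
  simp only [testFn, sq, mul_assoc]
  exact hK.dist_le_mul x y

lemma tsupport_subset_ball {f : Spc d → ℝ} (hf : ∀ x, x ∉ closedBall a (2 * R) → f x = 0) :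
    tsupport f ⊆ closedBall a (2 * R) :=
  closure_minimal (fun x hx => by by_contra h; exact hx (hf x h)) isClosed_closedBall

lemma setIntegral_quad_le [IsLocallyFiniteMeasure μ] (hg : Continuous g) {cm : ℝ}
    (hm : m ^ 2 * μ.real (closedBall a (4 * R)) ≤ cm * ∫ y in closedBall a (4 * R), g y ^ 2 ∂μ)
    (α β : ℝ) (hβ : 0 ≤ β) :
    ∫ y in closedBall a (4 * R), (α * g y ^ 2 + β * m ^ 2) ∂μ ≤
      (α + β * cm) * ∫ y in closedBall a (4 * R), g y ^ 2 ∂μ := by
  have i1 : IntegrableOn (fun y => α * g y ^ 2) (closedBall a (4 * R)) μ :=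
    ((hg.pow 2).const_mul α).continuousOn.integrableOn_compact (isCompact_closedBall _ _)
  have i2 : IntegrableOn (fun _ : Spc d => β * m ^ 2) (closedBall a (4 * R)) μ :=
    continuous_const.continuousOn.integrableOn_compact (isCompact_closedBall _ _)
  rw [integral_add i1 i2, integral_const_mul, setIntegral_const, smul_eq_mul]
  nlinarith

/-- the centring constant -/
lemma exists_centre [IsLocallyFiniteMeasure μ] {D : ℝ} (hreg : Reg n C D μ) (ha : a ∈ μ.support)
    (hR : 0 < R) (hRD : R ≤ D) (hg : Continuous g) :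
    ∃ m : ℝ, ∫ y, testFn a R g m y ∂μ = 0 ∧
      m ^ 2 * μ.real (closedBall a (4 * R)) ≤
        C ^ 2 * 8 ^ n * ∫ y in closedBall a (4 * R), g y ^ 2 ∂μ := by
  have hC : 1 ≤ C := hreg.one_le
  have hχc : Continuous (cut a R) := continuous_cut a R
  set S : ℝ := ∫ y in closedBall a (4 * R), g y ^ 2 ∂μ
  have hchi_int : ∀ {f : Spc d → ℝ}, Continuous f →
      Integrable (fun y => cut a R y ^ 2 * f y) μ := by
    intro f hf
    refine (((hχc.pow 2).mul hf).integrable_of_hasCompactSupport ?_)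
    exact HasCompactSupport.intro (isCompact_closedBall a (2 * R))
      fun x hx => by simp [cut_eq_zero' hR hx]
  have hμB : μ.real (closedBall a (4 * R)) ≤ C ^ 2 * 8 ^ n * (C⁻¹ * R ^ n) := by
    refine (hreg.closedBall_real_le a (by positivity : 0 < 4 * R)).trans (le_of_eq ?_)
    rw [show (8 : ℝ) = 2 * 4 by norm_num, mul_pow, mul_pow]; field_simp
  set Z : ℝ := ∫ y, cut a R y ^ 2 ∂μ with hZ
  have hZint : Integrable (fun y => cut a R y ^ 2) μ := by
    simpa using hchi_int (f := fun _ => (1 : ℝ)) continuous_const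
  have hZlow : C⁻¹ * R ^ n ≤ Z := by
    refine (hreg.le_ball_real ha hR hRD).trans ?_
    calc μ.real (ball a R) = ∫ y in ball a R, (1 : ℝ) ∂μ := by simp
      _ = ∫ y in ball a R, cut a R y ^ 2 ∂μ :=
          setIntegral_congr_fun measurableSet_ball fun y hy => by
            simp [cut_eq_one hR (mem_ball.1 hy).le]
      _ ≤ Z := setIntegral_le_integral hZint (Eventually.of_forall fun _ => sq_nonneg _)
  have hZpos : 0 < Z := lt_of_lt_of_le (mul_pos (inv_pos.2 (by linarith)) (by positivity)) hZlow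
  set m : ℝ := (∫ y, cut a R y ^ 2 * g y ∂μ) / Z with hm
  have hmZ : ∫ y, cut a R y ^ 2 * g y ∂μ = m * Z := by rw [hm]; field_simp
  refine ⟨m, ?_, ?_⟩
  · simp only [testFn, mul_sub]
    rw [integral_sub (hchi_int hg) (hZint.mul_const m), integral_mul_const, ← hZ, hmZ]
    ring
  have h1 : m ^ 2 * Z ≤ ∫ y, cut a R y ^ 2 * g y ^ 2 ∂μ := by
    have i1 := hchi_int (f := fun y => g y ^ 2) (hg.pow 2)
    have i2 : Integrable (fun y => cut a R y ^ 2 * g y * (2 * m)) μ := (hchi_int hg).mul_const _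
    have i3 : Integrable (fun y => cut a R y ^ 2 * m ^ 2) μ := hZint.mul_const _
    have i12 : Integrable
        (fun y => cut a R y ^ 2 * g y ^ 2 - cut a R y ^ 2 * g y * (2 * m)) μ := i1.sub i2
    have h0 : 0 ≤ ∫ y, (cut a R y ^ 2 * g y ^ 2 - cut a R y ^ 2 * g y * (2 * m)
        + cut a R y ^ 2 * m ^ 2) ∂μ := integral_nonneg fun y => by
      show 0 ≤ cut a R y ^ 2 * g y ^ 2 - cut a R y ^ 2 * g y * (2 * m) + cut a R y ^ 2 * m ^ 2
      nlinarith [mul_nonneg (sq_nonneg (cut a R y)) (sq_nonneg (g y - m))]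
    rw [integral_add i12 i3, integral_sub i1 i2, integral_mul_const, integral_mul_const, hmZ] at h0
    linarith
  have h2 : ∫ y, cut a R y ^ 2 * g y ^ 2 ∂μ ≤ S := by
    rw [← setIntegral_eq_integral_of_forall_compl_eq_zero (s := closedBall a (4 * R)) fun y hy => by
      rw [cut_eq_zero' hR fun h => hy (closedBall_subset_closedBall (by linarith) h)]; simp]
    refine setIntegral_mono_on (hchi_int (hg.pow 2)).integrableOn
      ((hg.pow 2).continuousOn.integrableOn_compact (isCompact_closedBall _ _))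
      measurableSet_closedBall fun y _ => ?_
    exact mul_le_of_le_one_left (sq_nonneg _)
      (pow_le_one₀ (cut_nonneg _ _ _) (cut_le_one _ _ _))
  calc m ^ 2 * μ.real (closedBall a (4 * R)) ≤ m ^ 2 * (C ^ 2 * 8 ^ n * (C⁻¹ * R ^ n)) :=
        mul_le_mul_of_nonneg_left hμB (sq_nonneg _)
    _ ≤ m ^ 2 * (C ^ 2 * 8 ^ n * Z) := by gcongr
    _ = C ^ 2 * 8 ^ n * (m ^ 2 * Z) := by ring
    _ ≤ _ := by gcongr; linarith

/-- the energy of a function supported near `a`, as an integral -/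
lemma energy_eq [IsLocallyFiniteMeasure μ] (hup : UpperReg n C μ) (hn : 1 ≤ n) (hR : 0 < R)
    {f : Spc d → ℝ} {K : ℝ≥0} (hf : LipschitzWith K f)
    (hf0 : ∀ x, x ∉ closedBall a (2 * R) → f x = 0) :
    Integrable (fun p => (f p.1 - f p.2) ^ 2 * ker n p) (μ.prod μ) ∧
      En n μ f = ENNReal.ofReal (∫ p, (f p.1 - f p.2) ^ 2 * ker n p ∂(μ.prod μ)) := by
  have hfc := hf.continuous
  have hnn : 0 ≤ᵐ[μ.prod μ] fun p : Spc d × Spc d => (f p.1 - f p.2) ^ 2 * ker n p :=
    Eventually.of_forall fun p => mul_nonneg (sq_nonneg _) (ker_nonneg p)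
  have e : En n μ f = ∫⁻ p, ENNReal.ofReal ((f p.1 - f p.2) ^ 2 * ker n p) ∂(μ.prod μ) := by
    simp only [En, ker, div_eq_mul_inv]
  have hfin : En n μ f < ⊤ :=
    (En_le_of_lipschitz hup hn hf (by positivity) (tsupport_subset_ball hf0)).trans_lt
      ENNReal.ofReal_lt_top
  have hint : Integrable (fun p => (f p.1 - f p.2) ^ 2 * ker n p) (μ.prod μ) :=
    ⟨(by fun_prop : Measurable fun p : Spc d × Spc d =>
        (f p.1 - f p.2) ^ 2 * ker n p).aestronglyMeasurable,
      (hasFiniteIntegral_iff_ofReal hnn).2 (e ▸ hfin)⟩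
  exact ⟨hint, by rw [e, ofReal_integral_eq_lintegral_ofReal hint hnn]⟩

/-- increments of the cut-off, weighted by the kernel -/
def cutKer (n : ℕ) (a : Spc d) (R : ℝ) (p : Spc d × Spc d) : ℝ :=
  (cut a R p.1 - cut a R p.2) ^ 2 * ker n p

lemma cutKer_swap (p : Spc d × Spc d) : cutKer n a R p.swap = cutKer n a R p := by
  simp only [cutKer, ker_swap, Prod.fst_swap, Prod.snd_swap]; ring

lemma cutKer_nonneg (p : Spc d × Spc d) : 0 ≤ cutKer n a R p :=
  mul_nonneg (sq_nonneg _) (ker_nonneg p)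

lemma measurable_cutKer : Measurable (cutKer n a R : Spc d × Spc d → ℝ) := by
  unfold cutKer; fun_prop

lemma cutKer_pot [IsLocallyFiniteMeasure μ] (hup : UpperReg n C μ) (hn : 1 ≤ n) (hC : 0 ≤ C)
    (hR : 0 < R) (x : Spc d) :
    ∫⁻ y in (univ : Set (Spc d)), ENNReal.ofReal (cutKer n a R (x, y)) ∂μ
      ≤ ENNReal.ofReal (3 * 2 ^ n * C / R) := by
  rw [Measure.restrict_univ]; exact cut_potential hup hn hC a x hR

/-- the energy of the test function -/
lemma testFn_energy_le [IsLocallyFiniteMeasure μ] (hup : UpperReg n C μ) (hn : 1 ≤ n)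
    (hC : 0 ≤ C) (hR : 0 < R) (hg : LipschitzWith 1 g) {cm : ℝ}
    (hm : m ^ 2 * μ.real (closedBall a (4 * R)) ≤ cm * ∫ y in closedBall a (4 * R), g y ^ 2 ∂μ) :
    (∫ p, (testFn a R g m p.1 - testFn a R g m p.2) ^ 2 * ker n p ∂(μ.prod μ)) ≤
      3 * (∫ p, (cutFn a R g p.1 - cutFn a R g p.2) ^ 2 * ker n p ∂(μ.prod μ)) +
        2 * (3 * 2 ^ n * C / R * ((3 + 12 * cm) * ∫ y in closedBall a (4 * R), g y ^ 2 ∂μ)) := by
  obtain ⟨Kh, hKh⟩ := exists_lip_cutFn (a := a) hR hg
  obtain ⟨Kφ, hKφ⟩ := exists_lip_testFn (a := a) (m := m) hR hg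
  obtain ⟨ieh, -⟩ := energy_eq hup hn hR hKh fun x => cutFn_eq_zero hR
  obtain ⟨ieφ, -⟩ := energy_eq hup hn hR hKφ fun x => testFn_eq_zero hR
  set B := closedBall a (4 * R)
  have hB2B : closedBall a (2 * R) ⊆ B := closedBall_subset_closedBall (by linarith)
  have hgc := hg.continuous
  have hhc := hKh.continuous
  obtain ⟨iW, hW⟩ := weighted_kernel (μ := μ) (isCompact_closedBall a (4 * R)) MeasurableSet.univ
    (f := fun x => 3 * cutFn a R g x ^ 2 + 12 * m ^ 2) (by fun_prop) (fun x => by positivity)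
    measurable_cutKer cutKer_nonneg (by positivity) (fun x _ => cutKer_pot hup hn hC hR x)
  set W := (B ×ˢ (univ : Set (Spc d))).indicator
    fun p => (3 * cutFn a R g p.1 ^ 2 + 12 * m ^ 2) * cutKer n a R p with hWdef
  have hW0 : ∀ p, 0 ≤ W p := fun p =>
    indicator_nonneg (fun p' _ => mul_nonneg (by positivity) (cutKer_nonneg p')) p
  have hWs : Integrable (fun p => W p.swap) (μ.prod μ) := iW.swap
  have hWsum : Integrable (fun p => W p + W p.swap) (μ.prod μ) := iW.add hWs
  set eh := fun p : Spc d × Spc d => (cutFn a R g p.1 - cutFn a R g p.2) ^ 2 * ker n p with heh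
  have i0 : Integrable (fun p => 3 * eh p) (μ.prod μ) := ieh.const_mul 3
  have hsum : Integrable (fun p => 3 * eh p + (W p + W p.swap)) (μ.prod μ) := i0.add hWsum
  have key : ∀ p, (testFn a R g m p.1 - testFn a R g m p.2) ^ 2 * ker n p ≤
      3 * eh p + (W p + W p.swap) := by
    intro p
    have ht := test_bound (cut a R p.1) (cut a R p.2) (g p.1) (g p.2) m (abs_cut_le_one _ _ _)
      (abs_cut_le_one _ _ _)
    have ht' : (testFn a R g m p.1 - testFn a R g m p.2) ^ 2 * ker n p ≤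
        3 * eh p + (3 * cutFn a R g p.2 ^ 2 + 12 * m ^ 2) * cutKer n a R p := by
      simp only [heh, testFn, cutFn, cutKer]
      exact (mul_le_mul_of_nonneg_right ht (ker_nonneg p)).trans (le_of_eq (by ring))
    refine ht'.trans ((add_le_add_iff_left _).2 ?_)
    have h1 := hW0 p
    have h2 := hW0 p.swap
    by_cases hy : p.2 ∈ B
    · have e : W p.swap = (3 * cutFn a R g p.2 ^ 2 + 12 * m ^ 2) * cutKer n a R p := by
        rw [hWdef, indicator_of_mem (show p.swap ∈ B ×ˢ univ from ⟨hy, mem_univ _⟩),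
          cutKer_swap, Prod.fst_swap]
      linarith
    have hh2 : cutFn a R g p.2 = 0 := cutFn_eq_zero hR fun hm => hy (hB2B hm)
    by_cases hx : p.1 ∈ B
    · have e : W p = (3 * cutFn a R g p.1 ^ 2 + 12 * m ^ 2) * cutKer n a R p := by
        rw [hWdef, indicator_of_mem (show p ∈ B ×ˢ univ from ⟨hx, mem_univ _⟩)]
      rw [hh2]
      have : 0 ≤ 3 * cutFn a R g p.1 ^ 2 * cutKer n a R p :=
        mul_nonneg (by positivity) (cutKer_nonneg p)
      linarith
    · have : cutKer n a R p = 0 := by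
        simp [cutKer, cut_eq_zero' hR fun hm => hx (hB2B hm),
          cut_eq_zero' hR fun hm => hy (hB2B hm)]
      rw [this, mul_zero]; linarith
  have hWb : ∫ p, W p ∂(μ.prod μ) ≤
      3 * 2 ^ n * C / R * ((3 + 12 * cm) * ∫ y in B, g y ^ 2 ∂μ) := by
    refine hW.trans (mul_le_mul_of_nonneg_left ?_ (by positivity))
    refine le_trans (setIntegral_mono_on (g := fun x => 3 * g x ^ 2 + 12 * m ^ 2)
      (Continuous.continuousOn (by fun_prop) |>.integrableOn_compact (isCompact_closedBall _ _))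
      (Continuous.continuousOn (by fun_prop) |>.integrableOn_compact (isCompact_closedBall _ _))
      measurableSet_closedBall fun x _ => ?_) ?_
    · have : cutFn a R g x ^ 2 ≤ g x ^ 2 := by
        rw [cutFn, mul_pow]
        exact mul_le_of_le_one_left (sq_nonneg _)
          (pow_le_one₀ (cut_nonneg _ _ _) (cut_le_one _ _ _))
      linarith
    · exact (setIntegral_quad_le hgc hm 3 12 (by norm_num)).trans (le_of_eq (by ring))
  have e1 : ∫ p, (3 * eh p + (W p + W p.swap)) ∂(μ.prod μ) =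
      3 * (∫ p, eh p ∂(μ.prod μ)) + 2 * ∫ p, W p ∂(μ.prod μ) := by
    rw [integral_add i0 hWsum, integral_add iW hWs, integral_const_mul, integral_prod_swap W]
    ring
  have := integral_mono ieφ hsum key
  linarith

/-- the energy of the cut linear function lives near the cut-off -/
lemma cutFn_energy_le [IsLocallyFiniteMeasure μ] (hup : UpperReg n C μ) (hn : 1 ≤ n)
    (hC : 0 ≤ C) (hR : 0 < R) (hg : LipschitzWith 1 g) :
    (∫ p, (cutFn a R g p.1 - cutFn a R g p.2) ^ 2 * ker n p ∂(μ.prod μ)) ≤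
      (∫ p, (closedBall a (4 * R) ×ˢ closedBall a (4 * R)).indicator
        (fun p => (cutFn a R g p.1 - cutFn a R g p.2) ^ 2 * ker n p) p ∂(μ.prod μ)) +
        2 * (2 ^ n * C / R * ∫ y in closedBall a (4 * R), g y ^ 2 ∂μ) := by
  obtain ⟨Kh, hKh⟩ := exists_lip_cutFn (a := a) hR hg
  obtain ⟨ieh, -⟩ := energy_eq hup hn hR hKh fun x => cutFn_eq_zero hR
  set B := closedBall a (4 * R)
  set B2 := closedBall a (2 * R)
  have hB2B : B2 ⊆ B := closedBall_subset_closedBall (by linarith)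
  have hgc := hg.continuous
  have hhc := hKh.continuous
  obtain ⟨iU, hU⟩ := weighted_kernel (μ := μ) (isCompact_closedBall a (2 * R))
    (measurableSet_closedBall (x := a) (ε := 4 * R)).compl
    (f := fun x => cutFn a R g x ^ 2) (by fun_prop) (fun x => sq_nonneg _)
    (measurable_ker (n := n)) ker_nonneg (c := 2 ^ n * C / R) (by positivity)
    (fun x hx => far_potential hup hR (mem_closedBall.1 hx))
  set U := (B2 ×ˢ Bᶜ).indicator fun p => cutFn a R g p.1 ^ 2 * ker n p with hUdef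
  have hU0 : ∀ p, 0 ≤ U p := fun p =>
    indicator_nonneg (fun p' _ => mul_nonneg (sq_nonneg _) (ker_nonneg p')) p
  have hUs : Integrable (fun p => U p.swap) (μ.prod μ) := iU.swap
  have hUsum : Integrable (fun p => U p + U p.swap) (μ.prod μ) := iU.add hUs
  set eh := fun p : Spc d × Spc d => (cutFn a R g p.1 - cutFn a R g p.2) ^ 2 * ker n p with heh
  set BB : Set (Spc d × Spc d) := B ×ˢ B
  have i1 : Integrable (BB.indicator eh) (μ.prod μ) :=
    ieh.indicator (measurableSet_closedBall.prod measurableSet_closedBall)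
  have key : ∀ p, eh p ≤ BB.indicator eh p + (U p + U p.swap) := by
    intro p
    have h1 := hU0 p
    have h2 := hU0 p.swap
    have h3 : 0 ≤ BB.indicator eh p :=
      indicator_nonneg (fun p' _ => mul_nonneg (sq_nonneg _) (ker_nonneg p')) p
    by_cases hx : p.1 ∈ B2 <;> by_cases hy : p.2 ∈ B2
    · rw [indicator_of_mem (show p ∈ BB from ⟨hB2B hx, hB2B hy⟩)]; linarith
    · by_cases hy' : p.2 ∈ B
      · rw [indicator_of_mem (show p ∈ BB from ⟨hB2B hx, hy'⟩)]; linarith
      · have e : U p = eh p := by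
          rw [hUdef, indicator_of_mem (show p ∈ B2 ×ˢ Bᶜ from ⟨hx, hy'⟩)]
          simp [heh, cutFn_eq_zero hR hy]
        linarith
    · by_cases hx' : p.1 ∈ B
      · rw [indicator_of_mem (show p ∈ BB from ⟨hx', hB2B hy⟩)]; linarith
      · have e : U p.swap = eh p := by
          rw [hUdef, indicator_of_mem (show p.swap ∈ B2 ×ˢ Bᶜ from ⟨hy, hx'⟩)]
          simp [heh, cutFn_eq_zero hR hx, ker_swap]
        linarith
    · have : eh p = 0 := by simp [heh, cutFn_eq_zero hR hx, cutFn_eq_zero hR hy]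
      linarith
  have hUb : ∫ p, U p ∂(μ.prod μ) ≤ 2 ^ n * C / R * ∫ y in B, g y ^ 2 ∂μ := by
    refine hU.trans (mul_le_mul_of_nonneg_left ?_ (by positivity))
    refine le_trans (setIntegral_mono_set
      ((hhc.pow 2).continuousOn.integrableOn_compact (isCompact_closedBall a (4 * R)))
      (Eventually.of_forall fun x => sq_nonneg _) hB2B.eventuallyLE) ?_
    refine setIntegral_mono_on
      ((hhc.pow 2).continuousOn.integrableOn_compact (isCompact_closedBall _ _))
      ((hgc.pow 2).continuousOn.integrableOn_compact (isCompact_closedBall _ _))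
      measurableSet_closedBall fun x _ => ?_
    rw [cutFn, mul_pow]
    exact mul_le_of_le_one_left (sq_nonneg _)
      (pow_le_one₀ (cut_nonneg _ _ _) (cut_le_one _ _ _))
  have hsum : Integrable (fun p => BB.indicator eh p + (U p + U p.swap)) (μ.prod μ) := i1.add hUsum
  have := integral_mono ieh hsum key
  rw [integral_add i1 hUsum, integral_add iU hUs, integral_prod_swap U] at this
  linarith

/-- the two mass bounds on the test function -/
lemma testFn_mass_le [IsLocallyFiniteMeasure μ] (hC : 0 ≤ C)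
    (hμB : μ.real (closedBall a (4 * R)) ≤ C * 8 ^ n * R ^ n)
    (hR : 0 < R) (hg : LipschitzWith 1 g) {cm : ℝ}
    (hm : m ^ 2 * μ.real (closedBall a (4 * R)) ≤ cm * ∫ y in closedBall a (4 * R), g y ^ 2 ∂μ)
    {T : ℝ} (hT : 0 ≤ T) :
    (∫ x, |testFn a R g m x * g x| ∂μ) ≤ (2 + cm) * (∫ y in closedBall a (4 * R), g y ^ 2 ∂μ) ∧
      (∫ x, |testFn a R g m x| ∂μ) * T ≤
        (1 + cm) * (∫ y in closedBall a (4 * R), g y ^ 2 ∂μ) + C * 8 ^ n * R ^ n * T ^ 2 := by
  obtain ⟨Kφ, hKφ⟩ := exists_lip_testFn (a := a) (m := m) hR hg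
  set B := closedBall a (4 * R)
  set φ := testFn a R g m with hφ
  have hgc := hg.continuous
  have hφc := hKφ.continuous
  have hz : ∀ x, x ∉ B → φ x = 0 := fun x hx =>
    testFn_eq_zero hR fun h => hx (closedBall_subset_closedBall (by linarith) h)
  have hle : ∀ x, |φ x| ≤ |g x - m| := fun x => by
    rw [hφ, testFn, abs_mul]
    refine mul_le_of_le_one_left (abs_nonneg _) ?_
    rw [abs_pow]
    exact pow_le_one₀ (abs_nonneg _) (abs_cut_le_one _ _ _)
  constructor
  · rw [← setIntegral_eq_integral_of_forall_compl_eq_zero (s := B) fun x hx => by simp [hz x hx]]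
    refine le_trans (setIntegral_mono_on (g := fun x => 2 * g x ^ 2 + 1 * m ^ 2)
      (Continuous.continuousOn (by fun_prop) |>.integrableOn_compact (isCompact_closedBall _ _))
      (Continuous.continuousOn (by fun_prop) |>.integrableOn_compact (isCompact_closedBall _ _))
      measurableSet_closedBall fun x _ => ?_) ?_
    · rw [abs_mul]
      have h1 := mul_le_mul_of_nonneg_right (hle x) (abs_nonneg (g x))
      have h2 := abs_sub (g x) m
      nlinarith [sq_abs (g x), sq_abs m, sq_nonneg (|g x| - |m|), abs_nonneg (g x)]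
    · exact (setIntegral_quad_le hgc hm 2 1 zero_le_one).trans (le_of_eq (by ring))
  · rw [← setIntegral_eq_integral_of_forall_compl_eq_zero (s := B) fun x hx => by simp [hz x hx],
      ← integral_mul_const]
    refine le_trans (setIntegral_mono_on (g := fun x => (1 * g x ^ 2 + 1 * m ^ 2) + T ^ 2)
      (Continuous.continuousOn (by fun_prop) |>.integrableOn_compact (isCompact_closedBall _ _))
      (Continuous.continuousOn (by fun_prop) |>.integrableOn_compact (isCompact_closedBall _ _))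
      measurableSet_closedBall fun x _ => ?_) ?_
    · have h2 := abs_sub (g x) m
      have h3 := mul_le_mul_of_nonneg_right (hle x) hT
      nlinarith [sq_abs (g x), sq_abs m, sq_nonneg (|g x| - |m|), sq_nonneg (|g x - m| - T),
        sq_abs (g x - m), abs_nonneg (g x - m)]
    · have i1 : IntegrableOn (fun x => 1 * g x ^ 2 + 1 * m ^ 2) B μ :=
        Continuous.continuousOn (by fun_prop) |>.integrableOn_compact (isCompact_closedBall _ _)
      have i2 : IntegrableOn (fun _ : Spc d => T ^ 2) B μ :=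
        continuous_const.continuousOn.integrableOn_compact (isCompact_closedBall _ _)
      rw [integral_add i1 i2, setIntegral_const, smul_eq_mul]
      have h4 := setIntegral_quad_le hgc hm 1 1 zero_le_one
      have h5 : μ.real B * T ^ 2 ≤ C * 8 ^ n * R ^ n * T ^ 2 :=
        mul_le_mul_of_nonneg_right hμB (sq_nonneg _)
      linarith

/-- the integrand of the windowed pairing against `v` -/
def winInt (n : ℕ) (a : Spc d) (R L : ℝ) (g : Spc d → ℝ) (m : ℝ) (p : Spc d × Spc d) : ℝ :=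
  cut a L p.1 * cut a L p.2 * (testFn a R g m p.1 - testFn a R g m p.2)
    * ((g p.1 - g p.2) * ker n p)

lemma winInt_swap (L : ℝ) (p : Spc d × Spc d) :
    winInt n a R L g m p.swap = winInt n a R L g m p := by
  simp only [winInt, ker_swap, Prod.fst_swap, Prod.snd_swap]; ring

/-- the near part of the pairing dominates the energy -/
lemma near_part [IsLocallyFiniteMeasure μ] (hup : UpperReg n C μ) (hn : 1 ≤ n) (hC : 0 ≤ C)
    (hR : 0 < R) (hg : LipschitzWith 1 g) {cm : ℝ}
    (hm : m ^ 2 * μ.real (closedBall a (4 * R)) ≤ cm * ∫ y in closedBall a (4 * R), g y ^ 2 ∂μ)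
    {L : ℝ} (hL : 4 * R ≤ L) (hG : Integrable (winInt n a R L g m) (μ.prod μ)) :
    3/4 * (∫ p, (closedBall a (4 * R) ×ˢ closedBall a (4 * R)).indicator
        (fun p => (cutFn a R g p.1 - cutFn a R g p.2) ^ 2 * ker n p) p ∂(μ.prod μ)) ≤
      (∫ p, (closedBall a (4 * R) ×ˢ closedBall a (4 * R)).indicator
        (winInt n a R L g m) p ∂(μ.prod μ))
        + 2 * (3 * 2 ^ n * C / R * ((1 + 3 * cm) * ∫ y in closedBall a (4 * R), g y ^ 2 ∂μ)) := by
  obtain ⟨Kh, hKh⟩ := exists_lip_cutFn (a := a) hR hg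
  obtain ⟨ieh, -⟩ := energy_eq hup hn hR hKh fun x => cutFn_eq_zero hR
  set B := closedBall a (4 * R)
  have hgc := hg.continuous
  have hw1 : ∀ x ∈ B, cut a L x = 1 := fun x hx =>
    cut_eq_one (by linarith) ((mem_closedBall.1 hx).trans hL)
  obtain ⟨iW, hW⟩ := weighted_kernel (μ := μ) (isCompact_closedBall a (4 * R)) MeasurableSet.univ
    (f := fun x => g x ^ 2 + 3 * m ^ 2) (by fun_prop) (fun x => by positivity)
    measurable_cutKer cutKer_nonneg (by positivity) (fun x _ => cutKer_pot hup hn hC hR x)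
  set W := (B ×ˢ (univ : Set (Spc d))).indicator
    fun p => (g p.1 ^ 2 + 3 * m ^ 2) * cutKer n a R p with hWdef
  have hW0 : ∀ p, 0 ≤ W p := fun p =>
    indicator_nonneg (fun p' _ => mul_nonneg (by positivity) (cutKer_nonneg p')) p
  have hWs : Integrable (fun p => W p.swap) (μ.prod μ) := iW.swap
  have hWsum : Integrable (fun p => W p + W p.swap) (μ.prod μ) := iW.add hWs
  set eh := fun p : Spc d × Spc d => (cutFn a R g p.1 - cutFn a R g p.2) ^ 2 * ker n p with heh
  set G := winInt n a R L g m with hGdef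
  set BB : Set (Spc d × Spc d) := B ×ˢ B
  have hBBm : MeasurableSet BB := measurableSet_closedBall.prod measurableSet_closedBall
  have i1 : Integrable (fun p => 3/4 * BB.indicator eh p) (μ.prod μ) :=
    (ieh.indicator hBBm).const_mul _
  have i2 : Integrable (BB.indicator G) (μ.prod μ) := hG.indicator hBBm
  have hsum : Integrable (fun p => BB.indicator G p + (W p + W p.swap)) (μ.prod μ) := i2.add hWsum
  have key : ∀ p, 3/4 * BB.indicator eh p ≤ BB.indicator G p + (W p + W p.swap) := by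
    intro p
    have h1 := hW0 p
    have h2 := hW0 p.swap
    by_cases hp : p ∈ BB
    · rw [indicator_of_mem hp, indicator_of_mem hp, hWdef,
        indicator_of_mem (show p ∈ B ×ˢ univ from ⟨hp.1, mem_univ _⟩),
        indicator_of_mem (show p.swap ∈ B ×ˢ univ from ⟨hp.2, mem_univ _⟩), cutKer_swap,
        Prod.fst_swap]
      have hb := near_bound (cut a R p.1) (cut a R p.2) (g p.1) (g p.2) m (ker n p) (ker_nonneg p)
      simp only [heh, hGdef, winInt, testFn, cutFn, cutKer, hw1 _ hp.1, hw1 _ hp.2, one_mul]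
      linarith
    · rw [indicator_of_notMem hp, indicator_of_notMem hp]
      linarith
  have hWb : ∫ p, W p ∂(μ.prod μ) ≤
      3 * 2 ^ n * C / R * ((1 + 3 * cm) * ∫ y in B, g y ^ 2 ∂μ) := by
    refine hW.trans (mul_le_mul_of_nonneg_left ?_ (by positivity))
    refine le_trans (le_of_eq ?_) (setIntegral_quad_le hgc hm 1 3 (by norm_num))
    simp only [one_mul]
  have := integral_mono i1 hsum key
  rw [integral_add i2 hWsum, integral_add iW hWs, integral_const_mul, integral_prod_swap W] at this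
  linarith

/-- the far part of the pairing -/
lemma far_part [IsLocallyFiniteMeasure μ] (hup : UpperReg n C μ) (hC : 0 ≤ C)
    (hR : 0 < R) (hg : LipschitzWith 1 g) (hmean : ∫ y, testFn a R g m y ∂μ = 0)
    {L : ℝ} (hL : 4 * R ≤ L) (hG : Integrable (winInt n a R L g m) (μ.prod μ)) :
    |∫ p, (closedBall a (4 * R) ×ˢ (closedBall a (4 * R))ᶜ).indicator
        (winInt n a R L g m) p ∂(μ.prod μ)| ≤
      2 ^ (n + 1) * (2 ^ (n + 1) * C) * (∫ x, |testFn a R g m x * g x| ∂μ) / R
        + 4 * (n + 1) * 3 ^ n * (∫ x, |testFn a R g m x| ∂μ) * tailAvg n μ a R g / R := by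
  obtain ⟨Kφ, hKφ⟩ := exists_lip_testFn (a := a) (m := m) hR hg
  set φ := testFn a R g m with hφ
  set B := closedBall a (4 * R) with hB
  have hB2B : closedBall a (2 * R) ⊆ B := closedBall_subset_closedBall (by linarith)
  have hgc := hg.continuous
  have hφc := hKφ.continuous
  have hφ0 : ∀ x, x ∉ closedBall a (2 * R) → φ x = 0 := fun x hx => testFn_eq_zero hR hx
  have hcs : ∀ f : Spc d → ℝ, (∀ x, x ∉ closedBall a (2 * R) → f x = 0) → HasCompactSupport f :=
    fun f hf => HasCompactSupport.intro (isCompact_closedBall a (2 * R)) hf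
  set A : ℝ := ∫ x, |φ x * g x| ∂μ with hA
  set Φ : ℝ := ∫ x, |φ x| ∂μ with hΦ
  have hA0 : 0 ≤ A := integral_nonneg fun x => abs_nonneg _
  have hΦ0 : 0 ≤ Φ := integral_nonneg fun x => abs_nonneg _
  have hT0 : 0 ≤ tailAvg n μ a R g := tailAvg_nonneg a hR g
  have iA : Integrable (fun x => |φ x * g x|) μ :=
    ((hφc.mul hgc).integrable_of_hasCompactSupport (hcs _ fun x hx => by simp [hφ0 x hx])).abs
  have i3 : Integrable φ μ := hφc.integrable_of_hasCompactSupport (hcs _ hφ0)
  have iΦ : Integrable (fun x => |φ x|) μ := i3.abs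
  set H := (B ×ˢ Bᶜ).indicator (winInt n a R L g m) with hH
  have hHi : Integrable H (μ.prod μ) :=
    hG.indicator (measurableSet_closedBall.prod measurableSet_closedBall.compl)
  set cT : ℝ := 4 * (n + 1) * 3 ^ n with hcT
  rw [integral_prod_symm H hHi, ← Real.norm_eq_abs]
  set bd : Spc d → ℝ≥0∞ := Bᶜ.indicator fun y =>
    ENNReal.ofReal (2 ^ (n + 1) * A) * ENNReal.ofReal ((dist y a ^ (n + 1))⁻¹)
      + ENNReal.ofReal (cT * R * Φ) * ENNReal.ofReal (|g y| / dist y a ^ (n + 2)) with hbd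
  have hpt : ∀ y, ‖∫ x, H (x, y) ∂μ‖ₑ ≤ bd y := by
    intro y
    by_cases hy : y ∈ B
    · have : ∀ x, H (x, y) = 0 := fun x => indicator_of_notMem (fun hm => hm.2 hy) _
      simp [this]
    have hy4 : 4 * R ≤ dist y a := by
      simp only [hB, mem_closedBall, not_le] at hy; exact hy.le
    have hd0 : 0 < dist y a := by linarith
    have hHe : ∀ x, H (x, y) = cut a L y * (φ x * g x * ker n (x, y)
        - g y * (φ x * (ker n (x, y) - ker n (a, y))) - g y * ker n (a, y) * φ x) := by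
      intro x
      by_cases hx : x ∈ B
      · rw [hH, indicator_of_mem (show (x, y) ∈ B ×ˢ Bᶜ from ⟨hx, hy⟩)]
        simp only [winInt, ← hφ, hφ0 y fun hm => hy (hB2B hm),
          cut_eq_one (show (0 : ℝ) < L by linarith) ((mem_closedBall.1 hx).trans hL)]
        ring
      · rw [hH, indicator_of_notMem (fun hm => hx hm.1)]
        simp [hφ0 x fun hm => hx (hB2B hm)]
    have b1 : ∀ x, ‖φ x * g x * ker n (x, y)‖ ≤
        |φ x * g x| * (2 ^ (n + 1) * (dist y a ^ (n + 1))⁻¹) := fun x => by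
      by_cases hx : x ∈ closedBall a (2 * R)
      · rw [Real.norm_eq_abs, abs_mul, abs_of_nonneg (ker_nonneg _)]
        refine mul_le_mul_of_nonneg_left ?_ (abs_nonneg _)
        have hl : dist y a / 2 ≤ ‖x - y‖ := by
          rw [← dist_eq_norm, dist_comm x y]
          linarith [dist_triangle y x a, mem_closedBall.1 hx]
        refine (inv_anti₀ (by positivity) (pow_le_pow_left₀ (by positivity) hl _)).trans
          (le_of_eq ?_)
        rw [div_pow, inv_div, div_eq_mul_inv]
      · simp [hφ0 x hx]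
    have b2 : ∀ x, ‖φ x * (ker n (x, y) - ker n (a, y))‖ ≤
        |φ x| * (cT * R / dist y a ^ (n + 2)) := fun x => by
      by_cases hx : x ∈ closedBall a (2 * R)
      · rw [Real.norm_eq_abs, abs_mul]
        refine mul_le_mul_of_nonneg_left ?_ (abs_nonneg _)
        exact (abs_ker_sub_le hR (mem_closedBall.1 hx) hy4).trans (le_of_eq (by rw [hcT]; ring))
      · simp [hφ0 x hx]
    have i1 : Integrable (fun x => φ x * g x * ker n (x, y)) μ :=
      (iA.mul_const _).mono' (by fun_prop : Measurable fun x =>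
        φ x * g x * ker n (x, y)).aestronglyMeasurable (Eventually.of_forall b1)
    have i2 : Integrable (fun x => φ x * (ker n (x, y) - ker n (a, y))) μ :=
      (iΦ.mul_const _).mono' (by fun_prop : Measurable fun x =>
        φ x * (ker n (x, y) - ker n (a, y))).aestronglyMeasurable (Eventually.of_forall b2)
    have i12 : Integrable (fun x => φ x * g x * ker n (x, y)
        - g y * (φ x * (ker n (x, y) - ker n (a, y)))) μ := i1.sub (i2.const_mul _)
    simp only [hHe]
    rw [integral_const_mul, integral_sub i12 (i3.const_mul _),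
      integral_sub i1 (i2.const_mul _), integral_const_mul, integral_const_mul, hmean,
      mul_zero, sub_zero, hbd, indicator_of_mem (show y ∈ Bᶜ from hy), ← ofReal_norm,
      ← ENNReal.ofReal_mul (by positivity), ← ENNReal.ofReal_mul (by positivity),
      ← ENNReal.ofReal_add (by positivity) (by positivity)]
    refine ENNReal.ofReal_le_ofReal ?_
    rw [norm_mul, Real.norm_eq_abs (cut a L y)]
    refine (mul_le_of_le_one_left (norm_nonneg _) (abs_cut_le_one _ _ _)).trans ?_
    refine (norm_sub_le _ _).trans (add_le_add ?_ ?_)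
    · refine (norm_integral_le_of_norm_le (iA.mul_const _) (Eventually.of_forall b1)).trans
        (le_of_eq ?_)
      rw [integral_mul_const, ← hA]; ring
    · rw [norm_mul, Real.norm_eq_abs (g y)]
      refine le_trans (mul_le_mul_of_nonneg_left (norm_integral_le_of_norm_le (iΦ.mul_const _)
        (Eventually.of_forall b2)) (abs_nonneg _)) (le_of_eq ?_)
      rw [integral_mul_const, ← hΦ]; ring
  have hl : ∫⁻ y, bd y ∂μ ≤ ENNReal.ofReal
      (2 ^ (n + 1) * (2 ^ (n + 1) * C) * A / R + cT * Φ * tailAvg n μ a R g / R) := by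
    rw [hbd, lintegral_indicator measurableSet_closedBall.compl, lintegral_add_left (by fun_prop),
      lintegral_const_mul _ (by fun_prop), lintegral_const_mul _ (by fun_prop)]
    have hfar1 : ∫⁻ y in Bᶜ, ENNReal.ofReal ((dist y a ^ (n + 1))⁻¹) ∂μ
        ≤ ENNReal.ofReal (2 ^ (n + 1) * C / R) :=
      le_trans (lintegral_mono_set (t := (ball a R)ᶜ) fun y hy => by
        simp only [hB, mem_compl_iff, mem_closedBall, mem_ball, not_le, not_lt] at hy ⊢
        linarith) (hup.lintegral_far a hR)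
    refine le_trans (add_le_add (mul_le_mul_right hfar1 _) (mul_le_mul_right
      (tail_potential hup hC a hR hg) _)) (le_of_eq ?_)
    rw [← ENNReal.ofReal_mul (by positivity), ← ENNReal.ofReal_mul (by positivity),
      ← ENNReal.ofReal_add (by positivity) (by positivity)]
    congr 1
    field_simp
  calc ‖∫ y, ∫ x, H (x, y) ∂μ ∂μ‖ ≤ (∫⁻ y, ‖∫ x, H (x, y) ∂μ‖ₑ ∂μ).toReal := by
        simpa only [ofReal_norm] using
          norm_integral_le_lintegral_norm (μ := μ) fun y => ∫ x, H (x, y) ∂μ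
    _ ≤ _ := ENNReal.toReal_le_of_le_ofReal (by positivity) ((lintegral_mono hpt).trans hl)

/-- the inequality through one window -/
lemma window_bound [IsLocallyFiniteMeasure μ] (hup : UpperReg n C μ) (hn : 1 ≤ n) (hC : 0 ≤ C)
    (hR : 0 < R) (hg : LipschitzWith 1 g) {v : Spc d} (hv : ‖v‖ = 1)
    (hgv : ∀ x y, g x - g y = ⟪v, x - y⟫) (hmean : ∫ y, testFn a R g m y ∂μ = 0) {cm : ℝ}
    (hm : m ^ 2 * μ.real (closedBall a (4 * R)) ≤ cm * ∫ y in closedBall a (4 * R), g y ^ 2 ∂μ)
    {L : ℝ} (hL : 4 * R ≤ L) :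
    3/4 * (∫ p, (cutFn a R g p.1 - cutFn a R g p.2) ^ 2 * ker n p ∂(μ.prod μ)) ≤
      2 * ‖pairing n μ (testFn a R g m)‖
        + 2 * (tailConst n C / 2 * (2 * R) * (∫ x, |testFn a R g m x| ∂μ) / L)
        + 2 * (2 ^ (n + 1) * (2 ^ (n + 1) * C) * (∫ x, |testFn a R g m x * g x| ∂μ) / R
          + 4 * (n + 1) * 3 ^ n * (∫ x, |testFn a R g m x| ∂μ) * tailAvg n μ a R g / R)
        + 2 * (3 * 2 ^ n * C / R * ((1 + 3 * cm) * ∫ y in closedBall a (4 * R), g y ^ 2 ∂μ))
        + 3/2 * (2 ^ n * C / R * ∫ y in closedBall a (4 * R), g y ^ 2 ∂μ) := by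
  obtain ⟨Kφ, hKφ⟩ := exists_lip_testFn (a := a) (m := m) hR hg
  have hL0 : 0 < L := by linarith
  set φ := testFn a R g m with hφ
  set B := closedBall a (4 * R) with hB
  have hB2B : closedBall a (2 * R) ⊆ B := closedBall_subset_closedBall (by linarith)
  set w : Spc d → ℝ := cut a L with hw
  set G := winInt n a R L g m with hGdef
  have hvec := integrable_pairKernel (μ := μ) hup hn hKφ (W := fun p => w p.1 * w p.2)
    (by fun_prop) (a := a) (R := 2 * L) (by positivity)
    (fun p hp => by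
      have hz : ∀ x, x ∉ closedBall a (2 * L) → w x = 0 := fun x hx => cut_eq_zero' hL0 hx
      rw [mem_prod, not_and_or] at hp
      rcases hp with hp | hp <;> simp [hz _ hp])
    (B := 1) (fun p => by
      rw [abs_mul]
      exact mul_le_one₀ (abs_cut_le_one _ _ _) (abs_nonneg _) (abs_cut_le_one _ _ _))
  have hGeq : ∀ p, G p = ⟪v, (w p.1 * w p.2 * (φ p.1 - φ p.2)) • riesz n (p.1 - p.2)⟫ := fun p => by
    rw [real_inner_smul_right, inner_riesz, ← hgv, div_eq_mul_inv]
    rfl
  have hGi : Integrable G (μ.prod μ) :=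
    (hvec.const_inner (𝕜 := ℝ) v).congr (Eventually.of_forall fun p => (hGeq p).symm)
  have hGP : ∫ p, G p ∂(μ.prod μ) = 2 * ⟪v, pairW n μ w φ⟫ := by
    rw [pairW, real_inner_smul_right, ← integral_inner hvec,
      integral_congr_ae (Eventually.of_forall hGeq)]
    ring
  set H : Spc d × Spc d → ℝ := (B ×ˢ Bᶜ).indicator G with hH
  set BB : Set (Spc d × Spc d) := B ×ˢ B with hBB
  have hBBm : MeasurableSet BB := measurableSet_closedBall.prod measurableSet_closedBall
  have hHi : Integrable H (μ.prod μ) :=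
    hGi.indicator (measurableSet_closedBall.prod measurableSet_closedBall.compl)
  have hHs : Integrable (fun p => H p.swap) (μ.prod μ) := hHi.swap
  have hHsum : Integrable (fun p => H p + H p.swap) (μ.prod μ) := hHi.add hHs
  have hsplit : ∀ p, G p = BB.indicator G p + (H p + H p.swap) := by
    intro p
    have hsym : G p.swap = G p := winInt_swap L p
    by_cases hx : p.1 ∈ B <;> by_cases hy : p.2 ∈ B
    · simp [hH, BB, indicator, hx, hy]
    · simp [hH, BB, indicator, hx, hy]
    · simp [hH, BB, indicator, hx, hy, hsym]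
    · have h1 : φ p.1 = 0 := testFn_eq_zero hR fun hm => hx (hB2B hm)
      have h2 : φ p.2 = 0 := testFn_eq_zero hR fun hm => hy (hB2B hm)
      have h0 : G p = 0 := by simp [hGdef, winInt, ← hφ, h1, h2]
      simp [hH, BB, indicator, hx, hy, h0]
  have hGsum : ∫ p, G p ∂(μ.prod μ) =
      (∫ p, BB.indicator G p ∂(μ.prod μ)) + 2 * ∫ p, H p ∂(μ.prod μ) := by
    rw [integral_congr_ae (Eventually.of_forall hsplit), integral_add (hGi.indicator hBBm) hHsum,
      integral_add hHi hHs, integral_prod_swap H]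
    ring
  have hnear := near_part hup hn hC hR hg hm hL hGi
  have hfar := far_part hup hC hR hg hmean hL hGi
  have henergy := cutFn_energy_le (a := a) hup hn hC hR hg
  have hwin : IsWindow a L w := isWindow_cut hL0 (by simp)
  have hadm : Adm μ a (2 * R) φ :=
    ⟨⟨Kφ, hKφ⟩, tsupport_subset_ball fun x hx => testFn_eq_zero hR hx, hmean⟩
  have herr := norm_pairing_sub_pairW_le hup hn hadm (R := L) (by linarith) hL0 hwin
  have hinner : |⟪v, pairW n μ w φ⟫| ≤
      ‖pairing n μ φ‖ + tailConst n C / 2 * (2 * R) * (∫ x, |φ x| ∂μ) / L := by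
    refine (abs_real_inner_le_norm _ _).trans ?_
    rw [hv, one_mul]
    have := norm_sub_norm_le (pairW n μ w φ) (pairing n μ φ)
    rw [norm_sub_rev] at this
    linarith
  obtain ⟨h1, h2⟩ := abs_le.1 hinner
  obtain ⟨h3, h4⟩ := abs_le.1 hfar
  linarith

/-- the constant of the inequality -/
def energyConst (n : ℕ) (C : ℝ) : ℝ :=
  let cm := C ^ 2 * 8 ^ n
  let p := 3 * 2 ^ n * C
  let cA : ℝ := 2 ^ (n + 1) * (2 ^ (n + 1) * C)
  let cT : ℝ := 4 * (n + 1) * 3 ^ n
  p * (3 + 12 * cm) + 4 * (p * (1 + 3 * cm)) + 3 * (2 ^ n * C) + 4 * (cA * (2 + cm))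
    + 4 * (cT * (1 + cm + C * 8 ^ n)) + 24

lemma energy_arith {c1 c2 c3 c4 c5 X Y Z : ℝ} (h1 : 0 ≤ c1) (h2 : 0 ≤ c2) (h3 : 0 ≤ c3)
    (h4 : 0 ≤ c4) (h5 : 0 ≤ c5) (hX : 0 ≤ X) (hY : 0 ≤ Y) (hZ : 0 ≤ Z) :
    c1 * X + 4 * c2 * X + 3 * c3 * X + 4 * c4 * X + 4 * c5 * (X + Y) + 24 * Z ≤
      (c1 + 4 * c2 + 3 * c3 + 4 * c4 + 4 * c5 + 24) * (X + Y + Z) := by
  have : 0 ≤ (c1 + 4 * c2 + 3 * c3 + 4 * c4) * (Y + Z) :=
    mul_nonneg (by linarith) (by linarith)
  have : 0 ≤ 4 * c5 * Z := by positivity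
  linarith

/-- module Energy -/
theorem energyStmt_proof : EnergyStmt := by
  intro n d hn _ C
  refine ⟨energyConst n C, fun μ _ D hreg a ha R hR hRD v b δ hv hδ hosc => ?_⟩
  have hup := hreg.upper
  have hC : 0 ≤ C := hreg.nonneg
  set g : Spc d → ℝ := fun y => ⟪v, y⟫ - b with hgdef
  have hgsub : ∀ x y, g x - g y = ⟪v, x - y⟫ := fun x y => by
    simp only [hgdef, inner_sub_right]; ring
  have hg : LipschitzWith 1 g := LipschitzWith.of_dist_le_mul fun x y => by
    rw [NNReal.coe_one, one_mul, Real.dist_eq, hgsub, dist_eq_norm]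
    exact (abs_real_inner_le_norm _ _).trans (by rw [hv, one_mul])
  obtain ⟨m, hmean, hm⟩ := exists_centre hreg ha hR hRD hg.continuous
  obtain ⟨Kh, hKh⟩ := exists_lip_cutFn (a := a) hR hg
  obtain ⟨Kφ, hKφ⟩ := exists_lip_testFn (a := a) (m := m) hR hg
  obtain ⟨-, hEh⟩ := energy_eq hup hn hR hKh fun x => cutFn_eq_zero hR
  obtain ⟨-, hEφ⟩ := energy_eq hup hn hR hKφ fun x => testFn_eq_zero hR
  have hadm : Adm μ a (2 * R) (testFn a R g m) :=
    ⟨⟨Kφ, hKφ⟩, tsupport_subset_ball fun x hx => testFn_eq_zero hR hx, hmean⟩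
  have hμB : μ.real (closedBall a (4 * R)) ≤ C * 8 ^ n * R ^ n := by
    refine (hreg.closedBall_real_le a (by positivity : 0 < 4 * R)).trans (le_of_eq ?_)
    rw [show (8 : ℝ) = 2 * 4 by norm_num, mul_pow, mul_pow]; ring
  have hT0 : 0 ≤ tailAvg n μ a R g := tailAvg_nonneg a hR g
  obtain ⟨hAle, hΦle⟩ := testFn_mass_le (n := n) hC hμB hR hg hm hT0
  have hEφle := testFn_energy_le hup hn hC hR hg hm
  have hS0 : 0 ≤ ∫ y in closedBall a (4 * R), g y ^ 2 ∂μ :=
    setIntegral_nonneg measurableSet_closedBall fun _ _ => sq_nonneg _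
  have hEφ0 : 0 ≤ ∫ p, (testFn a R g m p.1 - testFn a R g m p.2) ^ 2 * ker n p ∂(μ.prod μ) :=
    integral_nonneg fun p => mul_nonneg (sq_nonneg _) (ker_nonneg p)
  have hP := norm_pairing_sq_le hup hn hR hδ hosc hadm
  rw [hEφ, ENNReal.toReal_ofReal hEφ0] at hP
  set S := ∫ y in closedBall a (4 * R), g y ^ 2 ∂μ with hS
  set T := tailAvg n μ a R g with hT
  set A := ∫ x, |testFn a R g m x * g x| ∂μ
  set Φ := ∫ x, |testFn a R g m x| ∂μ
  set Eφ := ∫ p, (testFn a R g m p.1 - testFn a R g m p.2) ^ 2 * ker n p ∂(μ.prod μ)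
  set E := ∫ p, (cutFn a R g p.1 - cutFn a R g p.2) ^ 2 * ker n p ∂(μ.prod μ) with hE
  set P := ‖pairing n μ (testFn a R g m)‖
  set p : ℝ := 3 * 2 ^ n * C with hp
  set cm : ℝ := C ^ 2 * 8 ^ n with hcm
  set cA : ℝ := 2 ^ (n + 1) * (2 ^ (n + 1) * C) with hcA
  set cT : ℝ := 4 * (n + 1) * 3 ^ n with hcT
  have hmain : 3/4 * E ≤ 2 * P + 2 * (cA * A / R + cT * Φ * T / R)
      + 2 * (p / R * ((1 + 3 * cm) * S)) + 3/2 * (2 ^ n * C / R * S) := by
    set X : ℝ := 2 * P + 2 * (cA * A / R + cT * Φ * T / R)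
      + 2 * (p / R * ((1 + 3 * cm) * S)) + 3/2 * (2 ^ n * C / R * S) with hX
    set Y : ℝ := 2 * (tailConst n C / 2 * (2 * R) * Φ) with hY
    have ht : Tendsto (fun L : ℝ => X + Y / L) atTop (𝓝 X) := by
      simpa using ((tendsto_const_nhds (x := Y)).div_atTop tendsto_id).const_add X
    refine ge_of_tendsto ht ?_
    filter_upwards [eventually_ge_atTop (4 * R)] with L hL
    have h1 := window_bound hup hn hC hR hg hv hgsub hmean hm hL
    have h2 : Y / L = 2 * (tailConst n C / 2 * (2 * R) * Φ / L) := by rw [hY]; ring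
    linarith
  have hP2 : P ≤ Eφ / 24 + 6 * (δ * R ^ (n + 1)) := by
    have h2 : (0 : ℝ) ≤ δ * R ^ (n + 1) := by positivity
    refine le_of_pow_le_pow_left₀ two_ne_zero (by positivity) (hP.trans ?_)
    nlinarith [sq_nonneg (Eφ / 24 - 6 * (δ * R ^ (n + 1)))]
  have hp0 : 0 ≤ p := by positivity
  have hcm0 : 0 ≤ cm := by positivity
  have hAb : cA * A / R ≤ cA * (2 + cm) * (S / R) := by
    rw [← mul_div_assoc]
    refine div_le_div_of_nonneg_right ?_ hR.le
    exact (mul_le_mul_of_nonneg_left hAle (show (0 : ℝ) ≤ cA by positivity)).trans_eq (by ring)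
  have hΦb : cT * Φ * T / R ≤ cT * (1 + cm + C * 8 ^ n) * (S / R + R ^ n / R * T ^ 2) := by
    have e1 : cT * Φ * T / R = cT * (Φ * T) / R := by ring
    have e2 : cT * (1 + cm + C * 8 ^ n) * (S / R + R ^ n / R * T ^ 2) =
        cT * ((1 + cm + C * 8 ^ n) * (S + R ^ n * T ^ 2)) / R := by ring
    rw [e1, e2]
    refine div_le_div_of_nonneg_right
      (mul_le_mul_of_nonneg_left (hΦle.trans ?_) (by positivity)) hR.le
    have : 0 ≤ C * 8 ^ n * S := by positivity
    have : 0 ≤ (1 + cm) * (R ^ n * T ^ 2) := by positivity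
    linarith
  have e1 : p / R * ((3 + 12 * cm) * S) = p * (3 + 12 * cm) * (S / R) := by ring
  have e2 : p / R * ((1 + 3 * cm) * S) = p * (1 + 3 * cm) * (S / R) := by ring
  have e3 : 2 ^ n * C / R * S = 2 ^ n * C * (S / R) := by ring
  set X := S / R with hXdef
  set Y := R ^ n / R * T ^ 2 with hYdef
  set Z' := δ * R ^ (n + 1) with hZdef
  have hX0 : 0 ≤ X := by positivity
  have hY0 : 0 ≤ Y := by positivity
  have hZ0 : 0 ≤ Z' := by positivity
  have a1 : 0 ≤ p * (3 + 12 * cm) := by positivity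
  have a2 : 0 ≤ p * (1 + 3 * cm) := by positivity
  have a3 : (0 : ℝ) ≤ 2 ^ n * C := by positivity
  have a4 : 0 ≤ cA * (2 + cm) := by positivity
  have a5 : 0 ≤ cT * (1 + cm + C * 8 ^ n) := by positivity
  have hfinal : E ≤ energyConst n C * (X + Y + Z') := by
    have hE2 : E ≤ p * (3 + 12 * cm) * X + 4 * (p * (1 + 3 * cm)) * X + 3 * (2 ^ n * C) * X
        + 4 * (cA * (2 + cm)) * X + 4 * (cT * (1 + cm + C * 8 ^ n)) * (X + Y) + 24 * Z' := by
      linarith [mul_nonneg a1 hX0]
    exact hE2.trans (energy_arith a1 a2 a3 a4 a5 hX0 hY0 hZ0)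
  show En n μ (cutFn a R g) ≤ _
  rw [hEh]
  refine ENNReal.ofReal_le_ofReal (hfinal.trans (le_of_eq ?_))
  rw [hXdef, hYdef, hZdef, hS, hT, hgdef]
  ring

end Vale.Agent.P120
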