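import Mathlib
import Vale.Agent.P120.Kernel
import Vale.Agent.P120.Liouville.Kernel

/-!
The calculus behind module FlatConst: the divergence of the Riesz kernel is the fractional
Laplacian, in the weak form tested against a smooth compactly supported function.
-/

noncomputable section

open MeasureTheory Metric Set Filter Topology Module
open scoped ENNReal NNReal RealInnerProductSpace

namespace Vale.Agent.P120.FlatAux

variable {n : ℕ}

/-- Lebesgue measure has `n`-dimensional growth -/
lemma exists_upperReg_volume : ∃ c : ℝ, 0 < c ∧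
    (∀ (x : Spc n) (r : ℝ), 0 ≤ r → volume (closedBall x r) = ENNReal.ofReal (c * r ^ n)) ∧
    UpperReg n c (volume : Measure (Spc n)) := by
  set c : ℝ := (volume (closedBall (0 : Spc n) 1)).toReal with hc
  have hne : volume (closedBall (0 : Spc n) 1) ≠ ⊤ := measure_closedBall_lt_top.ne
  have hcp : 0 < c := ENNReal.toReal_pos (measure_closedBall_pos volume 0 one_pos).ne' hne
  have heq : ∀ (x : Spc n) (r : ℝ), 0 ≤ r →
      volume (closedBall x r) = ENNReal.ofReal (c * r ^ n) := by
    intro x r hr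
    rw [Measure.addHaar_closedBall' volume x hr, finrank_euclideanSpace_fin, mul_comm c,
      ENNReal.ofReal_mul (by positivity), hc, ENNReal.ofReal_toReal hne]
  exact ⟨c, hcp, heq, fun x r hr => (measure_mono ball_subset_closedBall).trans (heq x r hr.le).le⟩

/-- quantitative data of a smooth compactly supported test function -/
structure Test (h : Spc n → ℝ) (R Lp B : ℝ) : Prop where
  diff : Differentiable ℝ h
  cont' : Continuous (fderiv ℝ h)
  lip : ∀ a b, ‖fderiv ℝ h a - fderiv ℝ h b‖ ≤ Lp * ‖a - b‖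
  bd : ∀ x, |h x| ≤ B ∧ ‖fderiv ℝ h x‖ ≤ B
  out : ∀ x, R ≤ ‖x‖ → h x = 0 ∧ fderiv ℝ h x = 0
  one_le : 1 ≤ R
  lp0 : 0 ≤ Lp

lemma exists_test {h : Spc n → ℝ} (hh : ContDiff ℝ ((⊤ : ℕ∞) : WithTop ℕ∞) h)
    (hs : HasCompactSupport h) : ∃ R Lp B, Test h R Lp B := by
  have hd : ContDiff ℝ 1 (fderiv ℝ h) :=
    hh.fderiv_right (WithTop.coe_le_coe.mpr le_top)
  obtain ⟨Lp, hLp⟩ := hd.lipschitzWith_of_hasCompactSupport (hs.fderiv ℝ) one_ne_zero
  obtain ⟨B1, hB1⟩ := hh.continuous.bounded_above_of_compact_support hs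
  obtain ⟨B2, hB2⟩ := hd.continuous.bounded_above_of_compact_support (hs.fderiv ℝ)
  obtain ⟨R0, hR0⟩ := hs.isBounded.subset_closedBall (0 : Spc n)
  refine ⟨max R0 0 + 1, Lp, max B1 B2,
    { diff := hh.differentiable (by simp)
      cont' := hd.continuous
      lip := fun a b => by simpa [dist_eq_norm] using hLp.dist_le_mul a b
      bd := fun x => ⟨(hB1 x).trans (le_max_left _ _), (hB2 x).trans (le_max_right _ _)⟩
      out := fun x hx => ?_
      one_le := by linarith [le_max_right R0 0]
      lp0 := NNReal.coe_nonneg Lp }⟩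
  have hx' : x ∉ tsupport h := fun hm => by
    have := mem_closedBall.mp (hR0 hm)
    rw [dist_zero_right] at this
    linarith [le_max_left R0 0]
  exact ⟨image_eq_zero_of_notMem_tsupport hx',
    image_eq_zero_of_notMem_tsupport fun hm => hx' (tsupport_fderiv_subset ℝ hm)⟩

variable {h : Spc n → ℝ} {R Lp B : ℝ}

lemma Test.B_nonneg (ht : Test h R Lp B) : 0 ≤ B := (norm_nonneg _).trans (ht.bd 0).2

/-- the antisymmetrised integrand of the divergence of the kernel -/
def dd (h : Spc n → ℝ) (y z : Spc n) : ℝ :=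
  (fderiv ℝ h (y + z) - fderiv ℝ h (y - z)) (riesz n z)

/-- the dominating function -/
def ddBound (n : ℕ) (Lp T : ℝ) (z : Spc n) : ℝ :=
  (ball (0 : Spc n) T).indicator (fun z => 2 * Lp * ((dist z 0) ^ (n - 1))⁻¹) z

lemma integrable_ddBound (hn : 1 ≤ n) (Lp T : ℝ) (hT : 0 < T) :
    Integrable (ddBound n Lp T) (volume : Measure (Spc n)) := by
  obtain ⟨c, -, -, hc⟩ := exists_upperReg_volume (n := n)
  refine (integrable_indicator_iff measurableSet_ball).mpr (Integrable.const_mul ?_ _)
  refine ⟨(by fun_prop : Measurable fun z : Spc n => ((dist z 0) ^ (n - 1))⁻¹).aestronglyMeasurable,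
    ?_⟩
  refine lt_of_le_of_lt (le_of_eq ?_)
    ((hc.lintegral_near hn 0 hT).trans_lt ENNReal.ofReal_lt_top)
  refine lintegral_congr fun z => ?_
  rw [← ofReal_norm, Real.norm_eq_abs, abs_of_nonneg (by positivity)]

lemma abs_dd_smul_le (hn : 1 ≤ n) (ht : Test h R Lp B) {y z : Spc n} {T s : ℝ} (hs : 1/2 ≤ s)
    (hs' : s ≤ 2) (hT : 2 * (‖y‖ + R) ≤ T) :
    |(fderiv ℝ h (y + s • z) - fderiv ℝ h (y - s • z)) (riesz n z)| ≤ 2 * ddBound n Lp T z := by
  have hR := ht.one_le
  by_cases hz : z ∈ ball (0 : Spc n) T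
  · rw [ddBound, indicator_of_mem hz, dist_zero_right]
    rcases eq_or_ne z 0 with rfl | hz0
    · rw [riesz_zero, map_zero, abs_zero]; have := ht.lp0; positivity
    have hzp : 0 < ‖z‖ := norm_pos_iff.mpr hz0
    obtain ⟨m, rfl⟩ : ∃ m, n = m + 1 := ⟨n - 1, by omega⟩
    have h1 : ‖fderiv ℝ h (y + s • z) - fderiv ℝ h (y - s • z)‖ ≤ Lp * (4 * ‖z‖) := by
      refine (ht.lip _ _).trans (mul_le_mul_of_nonneg_left ?_ ht.lp0)
      rw [show y + s • z - (y - s • z) = (2 * s) • z by module, norm_smul, Real.norm_eq_abs,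
        abs_of_pos (by linarith)]
      gcongr; linarith
    calc |(fderiv ℝ h (y + s • z) - fderiv ℝ h (y - s • z)) (riesz (m + 1) z)|
        ≤ ‖fderiv ℝ h (y + s • z) - fderiv ℝ h (y - s • z)‖ * ‖riesz (m + 1) z‖ :=
          (ContinuousLinearMap.le_opNorm (fderiv ℝ h (y + s • z) - fderiv ℝ h (y - s • z))
            (riesz (m + 1) z))
      _ ≤ Lp * (4 * ‖z‖) * (‖z‖ ^ (m + 1))⁻¹ :=
          mul_le_mul h1 (norm_riesz_le z) (norm_nonneg _) (by have := ht.lp0; positivity)
      _ = _ := by rw [Nat.add_sub_cancel, pow_succ]; field_simp; ring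
  · rw [ddBound, indicator_of_notMem hz, mul_zero]
    rw [mem_ball_zero_iff, not_lt] at hz
    have hsz : ‖y‖ + R ≤ ‖s • z‖ := by
      rw [norm_smul, Real.norm_eq_abs, abs_of_pos (by linarith)]
      nlinarith [norm_nonneg z, norm_nonneg y]
    have e1 : R ≤ ‖y + s • z‖ := by
      have := norm_sub_le (y + s • z) y
      rw [add_sub_cancel_left] at this; linarith
    have e2 : R ≤ ‖y - s • z‖ := by
      have := norm_sub_le y (y - s • z)
      rw [sub_sub_cancel] at this; linarith
    simp [(ht.out _ e1).2, (ht.out _ e2).2]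

lemma abs_dd_le (hn : 1 ≤ n) (ht : Test h R Lp B) {y z : Spc n} {T : ℝ}
    (hT : 2 * (‖y‖ + R) ≤ T) : |dd h y z| ≤ 2 * ddBound n Lp T z := by
  simpa [dd] using abs_dd_smul_le hn ht (z := z) (show (1/2 : ℝ) ≤ 1 by norm_num) (by norm_num) hT

lemma fderiv_riesz_eq (y z w : Spc n) :
    fderiv ℝ h y z / ‖w‖ ^ (n + 1) = fderiv ℝ h y ((‖w‖ ^ (n + 1))⁻¹ • z) := by
  rw [map_smul, smul_eq_mul]; ring

lemma abs_second_le (ht : Test h R Lp B) (y z : Spc n) :
    |2 * h y - h (y + z) - h (y - z)| ≤ 2 * Lp * ‖z‖ ^ 2 := by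
  set φ : ℝ → ℝ := fun t => 2 * h y - h (y + t • z) - h (y - t • z) with hφ
  have hd : ∀ t, HasDerivAt φ (-(fderiv ℝ h (y + t • z) z) + fderiv ℝ h (y - t • z) z) t := by
    intro t
    have l1 : HasDerivAt (fun t : ℝ => y + t • z) z t := by
      simpa using ((hasDerivAt_id t).smul_const z).const_add y
    have l2 : HasDerivAt (fun t : ℝ => y - t • z) (-z) t := by
      simpa using ((hasDerivAt_id t).smul_const z).const_sub y
    have d1 := (ht.diff _).hasFDerivAt.comp_hasDerivAt t l1
    have d2 := (ht.diff _).hasFDerivAt.comp_hasDerivAt t l2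
    have := ((hasDerivAt_const t (2 * h y)).sub d1).sub d2
    simp only [map_neg, zero_sub, sub_neg_eq_add] at this
    exact this
  have key := norm_image_sub_le_of_norm_deriv_le_segment_01' (f := φ) (C := 2 * Lp * ‖z‖ ^ 2)
    (fun t _ => (hd t).hasDerivWithinAt) fun t ht' => ?_
  · simpa [hφ, two_mul] using key
  · rw [neg_add_eq_sub, ← _root_.sub_apply]
    refine (ContinuousLinearMap.le_opNorm _ _).trans ?_
    calc ‖fderiv ℝ h (y - t • z) - fderiv ℝ h (y + t • z)‖ * ‖z‖
        ≤ Lp * ‖y - t • z - (y + t • z)‖ * ‖z‖ := by gcongr; exact ht.lip _ _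
      _ ≤ Lp * (2 * ‖z‖) * ‖z‖ := by
          have := ht.lp0
          gcongr
          rw [show y - t • z - (y + t • z) = -((2 * t) • z) by module, norm_neg, norm_smul,
            Real.norm_eq_abs, abs_of_nonneg (by linarith [ht'.1])]
          gcongr; linarith [ht'.2]
      _ = _ := by ring

lemma lop_eq_fracLap (h : Spc n → ℝ) : Liouville.lop h = fracLap h := by
  funext x
  simp only [Liouville.lop, fracLap, finrank_euclideanSpace_fin, smul_eq_mul, Liouville.sdiff]
  congr 1
  refine integral_congr_ae (Eventually.of_forall fun z => ?_)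
  simp only
  ring

lemma exists_nice (ht : Test h R Lp B) (K : ℕ) : ∃ B', Liouville.Nice K B' h := by
  refine ⟨max (B * (1 + R) ^ K) (2 * Lp * (3 * R + 3) ^ K),
    ⟨ht.diff.continuous, fun x => ?_, fun x z hz => ?_⟩⟩
  · rcases le_or_gt R ‖x‖ with hx | hx
    · rw [(ht.out x hx).1, norm_zero, zero_mul]
      exact le_max_of_le_left (by have := ht.B_nonneg; have := ht.one_le; positivity)
    · exact le_max_of_le_left (mul_le_mul (ht.bd x).1 (by gcongr) (by positivity) ht.B_nonneg)
  · rcases lt_or_ge (2 * R + 2) ‖x‖ with hx | hx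
    · have hR := ht.one_le
      have hz' : ‖z‖ ≤ ‖x‖ / 2 := hz.trans (max_le (by linarith) le_rfl)
      have e1 : R ≤ ‖x + z‖ := by
        have := norm_sub_le (x + z) z
        rw [add_sub_cancel_right] at this; linarith
      have e2 : R ≤ ‖x - z‖ := by linarith [norm_sub_norm_le x z]
      rw [Liouville.sdiff, (ht.out x (by linarith)).1, (ht.out _ e1).1, (ht.out _ e2).1]
      simp only [add_zero, sub_zero, norm_zero, zero_mul]
      exact mul_nonneg (le_max_of_le_left (by have := ht.B_nonneg; positivity)) (sq_nonneg _)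
    · have h1 : ‖Liouville.sdiff h x z‖ ≤ 2 * Lp * ‖z‖ ^ 2 := by
        rw [Real.norm_eq_abs, Liouville.sdiff, ← two_mul]; exact abs_second_le ht x z
      calc ‖Liouville.sdiff h x z‖ * (1 + ‖x‖) ^ K ≤ 2 * Lp * ‖z‖ ^ 2 * (3 * R + 3) ^ K := by
            refine mul_le_mul h1 (pow_le_pow_left₀ (by positivity) (by linarith [ht.one_le]) K)
              (by positivity) ?_
            have := ht.lp0; positivity
        _ = 2 * Lp * (3 * R + 3) ^ K * ‖z‖ ^ 2 := by ring
        _ ≤ _ := by gcongr; exact le_max_right _ _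

lemma integrable_fracLap (hn : 1 ≤ n) (ht : Test h R Lp B) (hmean : ∫ x, h x = 0) :
    Integrable (fracLap h) := by
  have : Nonempty (Fin n) := ⟨⟨0, hn⟩⟩
  have : Nontrivial (Spc n) := inferInstance
  obtain ⟨Cd, -, hdec⟩ := Liouville.lop_decay (V := Spc n) (F := ℝ)
  obtain ⟨B', hB'⟩ := exists_nice ht (finrank ℝ (Spc n) + 4)
  have hd := hdec B' h hB' hmean
  rw [lop_eq_fracLap, finrank_euclideanSpace_fin] at hd
  have hc := ht.diff.continuous
  have hm : StronglyMeasurable fun p : Spc n × Spc n =>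
      (2 * h p.1 - h (p.1 + p.2) - h (p.1 - p.2)) / ‖p.2‖ ^ (n + 1) :=
    (by fun_prop : Measurable _).stronglyMeasurable
  have hmeas : AEStronglyMeasurable (fracLap h) volume :=
    ((hm.integral_prod_right' (ν := volume)).const_mul (1/2 : ℝ)).aestronglyMeasurable
  refine ((integrable_one_add_norm (r := ((n + 2 : ℕ) : ℝ)) (by
    rw [finrank_euclideanSpace_fin]; push_cast; linarith)).const_mul (Cd * B')).mono' hmeas
    (Eventually.of_forall fun x => ?_)
  rw [Real.rpow_neg (by positivity), Real.rpow_natCast, ← div_eq_mul_inv,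
    le_div_iff₀ (by positivity)]
  exact hd x

/-- scaling argument: the radial derivative of the second difference gives back the operator -/
lemma integral_dd (hn : 1 ≤ n) (ht : Test h R Lp B) (y : Spc n) :
    ∫ z, dd h y z = -(2 * fracLap h y) := by
  have : Nonempty (Fin n) := ⟨⟨0, hn⟩⟩
  have : Nontrivial (Spc n) := inferInstance
  have hc := ht.diff.continuous
  have hc' := ht.cont'
  set g : Spc n → ℝ := fun z => 2 * h y - h (y + z) - h (y - z) with hg
  set F : ℝ → Spc n → ℝ := fun t z => g (t • z) / ‖z‖ ^ (n + 1) with hF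
  set F' : ℝ → Spc n → ℝ := fun t z =>
    -((fderiv ℝ h (y + t • z) - fderiv ℝ h (y - t • z)) (riesz n z)) with hF'
  set I := ∫ z, g z / ‖z‖ ^ (n + 1) with hI
  have hgc : Continuous g := by simp only [hg]; fun_prop
  have hint1 : Integrable (F 1) := by
    refine ((Liouville.integrable_ker0 (V := Spc n)).const_mul (max (2 * Lp) (4 * B))).mono'
      (by simp only [hF]; fun_prop : Measurable (F 1)).aestronglyMeasurable
      (Eventually.of_forall fun z => ?_)
    have e : F 1 z = (‖z‖ ^ (finrank ℝ (Spc n) + 1))⁻¹ • Liouville.sdiff h y z := by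
      simp only [hF, one_smul, hg, finrank_euclideanSpace_fin, smul_eq_mul, Liouville.sdiff]
      ring
    rw [e]
    refine Liouville.norm_weight_sdiff_le (fun _ => ?_) fun _ => ?_
    · rw [Real.norm_eq_abs, Liouville.sdiff, ← two_mul]
      exact (abs_second_le ht y z).trans (by gcongr; exact le_max_left _ _)
    · refine le_max_of_le_right ?_
      rw [Real.norm_eq_abs, Liouville.sdiff]
      have := abs_le.mp (ht.bd y).1
      have := abs_le.mp (ht.bd (y + z)).1
      have := abs_le.mp (ht.bd (y - z)).1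
      rw [abs_le]; constructor <;> linarith
  have hderiv : ∀ z t, HasDerivAt (fun t => F t z) (F' t z) t := by
    intro z t
    have l1 : HasDerivAt (fun t : ℝ => y + t • z) z t := by
      simpa using ((hasDerivAt_id t).smul_const z).const_add y
    have l2 : HasDerivAt (fun t : ℝ => y - t • z) (-z) t := by
      simpa using ((hasDerivAt_id t).smul_const z).const_sub y
    have := (((hasDerivAt_const t (2 * h y)).sub ((ht.diff _).hasFDerivAt.comp_hasDerivAt t l1)).sub
      ((ht.diff _).hasFDerivAt.comp_hasDerivAt t l2)).div_const (‖z‖ ^ (n + 1))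
    refine this.congr_deriv ?_
    simp only [hF', riesz, map_smul, _root_.sub_apply, smul_eq_mul, map_neg]
    ring
  have hT : (0 : ℝ) < 2 * (‖y‖ + R) := by linarith [norm_nonneg y, ht.one_le]
  have hFm : ∀ t, Measurable (F t) := fun t => by simp only [hF]; fun_prop
  have hF'm : Measurable (F' 1) := by
    simp only [hF', one_smul]
    fun_prop
  obtain ⟨-, hD⟩ := hasDerivAt_integral_of_dominated_loc_of_deriv_le
    (F := F) (F' := F') (bound := fun z => 2 * ddBound n Lp (2 * (‖y‖ + R)) z)
    (ball_mem_nhds (1 : ℝ) (show (0 : ℝ) < 1/2 by norm_num))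
    (Eventually.of_forall fun t => (hFm t).aestronglyMeasurable) hint1 hF'm.aestronglyMeasurable
    (Eventually.of_forall fun z t htb => by
      rw [mem_ball, Real.dist_eq, abs_lt] at htb
      simp only [hF', norm_neg, Real.norm_eq_abs]
      exact abs_dd_smul_le hn ht (by linarith) (by linarith) le_rfl)
    ((integrable_ddBound hn Lp _ hT).const_mul 2)
    (Eventually.of_forall fun z t _ => hderiv z t)
  have hscale : ∀ t : ℝ, 0 < t → ∫ z, F t z = t * I := by
    intro t ht0
    have e : ∀ z, F t z = t ^ (n + 1) * (g (t • z) / ‖t • z‖ ^ (n + 1)) := by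
      intro z
      simp only [hF, norm_smul, Real.norm_eq_abs, abs_of_pos ht0, mul_pow]
      rw [mul_div_assoc', mul_div_mul_left _ _ (by positivity)]
    rw [funext e, integral_const_mul,
      Measure.integral_comp_smul_of_nonneg volume (fun u => g u / ‖u‖ ^ (n + 1)) t (hR := ht0.le),
      finrank_euclideanSpace_fin, smul_eq_mul, ← hI, pow_succ]
    field_simp
  have hI' : HasDerivAt (fun t => ∫ z, F t z) I 1 := by
    have : HasDerivAt (fun t : ℝ => t * I) I 1 := by simpa using (hasDerivAt_id (1 : ℝ)).mul_const I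
    exact this.congr_of_eventuallyEq
      (by filter_upwards [Ioi_mem_nhds (zero_lt_one (α := ℝ))] with t ht0 using hscale t ht0)
  have := hD.unique hI'
  simp only [hF', one_smul, integral_neg] at this
  rw [fracLap]
  simp only [dd]
  linarith [this, hI]

/-- the truncated divergence of the kernel, tested against `h` -/
def gEps (h : Spc n → ℝ) (ε : ℝ) (y : Spc n) : ℝ :=
  ∫ x, ramp (‖x - y‖ / ε) * fderiv ℝ h x (riesz n (x - y))

lemma integrable_gEps_side (ht : Test h R Lp B) {ε : ℝ} (hε : 0 < ε) (y : Spc n) :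
    Integrable fun z => ramp (‖z‖ / ε) * fderiv ℝ h (y + z) (riesz n z) := by
  have hc' := ht.cont'
  have hm : Measurable fun z => ramp (‖z‖ / ε) * fderiv ℝ h (y + z) (riesz n z) := by fun_prop
  refine ((integrable_indicator_iff measurableSet_closedBall).mpr
    (integrableOn_const (C := B * (ε ^ n)⁻¹)
      (measure_closedBall_lt_top (x := (0 : Spc n)) (r := ‖y‖ + R)).ne)).mono'
    hm.aestronglyMeasurable (Eventually.of_forall fun z => ?_)
  have hB := ht.B_nonneg
  rw [Real.norm_eq_abs, abs_mul, abs_of_nonneg (ramp_nonneg _)]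
  by_cases hz : z ∈ closedBall (0 : Spc n) (‖y‖ + R)
  · rw [indicator_of_mem hz]
    rcases le_or_gt ‖z‖ ε with hze | hze
    · rw [ramp_eq_zero ((div_le_one hε).mpr hze), zero_mul]; positivity
    · calc ramp (‖z‖ / ε) * |fderiv ℝ h (y + z) (riesz n z)|
          ≤ 1 * (‖fderiv ℝ h (y + z)‖ * ‖riesz n z‖) := by
            gcongr
            · exact ramp_le_one _
            · exact (fderiv ℝ h (y + z)).le_opNorm _
        _ ≤ B * (ε ^ n)⁻¹ := by
            rw [one_mul]
            exact mul_le_mul (ht.bd _).2 ((norm_riesz_le z).trans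
              (inv_anti₀ (by positivity) (pow_le_pow_left₀ hε.le hze.le _))) (norm_nonneg _) hB
  · rw [indicator_of_notMem hz]
    rw [mem_closedBall_zero_iff, not_le] at hz
    have e1 : R ≤ ‖y + z‖ := by
      have := norm_sub_le (y + z) y
      rw [add_sub_cancel_left] at this; linarith
    simp [(ht.out _ e1).2]

lemma gEps_eq (ht : Test h R Lp B) {ε : ℝ} (hε : 0 < ε) (y : Spc n) :
    gEps h ε y = (1/2 : ℝ) * ∫ z, ramp (‖z‖ / ε) * dd h y z := by
  have h1 : gEps h ε y = ∫ z, ramp (‖z‖ / ε) * fderiv ℝ h (y + z) (riesz n z) := by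
    rw [gEps, ← integral_add_left_eq_self
      (fun x => ramp (‖x - y‖ / ε) * fderiv ℝ h x (riesz n (x - y))) y]
    simp only [add_sub_cancel_left]
  have hint := integrable_gEps_side ht hε y
  have h2 : ∫ z, ramp (‖z‖ / ε) * fderiv ℝ h (y - z) (riesz n z) =
      -∫ z, ramp (‖z‖ / ε) * fderiv ℝ h (y + z) (riesz n z) := by
    rw [← integral_neg_eq_self (fun z => ramp (‖z‖ / ε) * fderiv ℝ h (y + z) (riesz n z)),
      ← integral_neg]
    refine integral_congr_ae (Eventually.of_forall fun z => ?_)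
    simp [riesz_neg, sub_eq_add_neg]
  have hint2 : Integrable fun z => ramp (‖z‖ / ε) * fderiv ℝ h (y - z) (riesz n z) := by
    refine (hint.comp_neg.neg).congr (Eventually.of_forall fun z => ?_)
    simp [riesz_neg, sub_eq_add_neg]
  simp only [dd, _root_.sub_apply, mul_sub]
  rw [integral_sub hint hint2, h2, h1]
  ring

lemma abs_gEps_le (hn : 1 ≤ n) (ht : Test h R Lp B) {ε : ℝ} (hε : 0 < ε) {y : Spc n} {T : ℝ}
    (hT : 2 * (‖y‖ + R) ≤ T) : |gEps h ε y| ≤ ∫ z, ddBound n Lp T z := by
  have hT0 : 0 < T := lt_of_lt_of_le (by linarith [norm_nonneg y, ht.one_le]) hT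
  rw [gEps_eq ht hε, abs_mul, abs_of_pos (show (0 : ℝ) < 1/2 by norm_num)]
  have := norm_integral_le_of_norm_le (f := fun z => ramp (‖z‖ / ε) * dd h y z)
    ((integrable_ddBound hn Lp T hT0).const_mul 2) (Eventually.of_forall fun z => by
      rw [Real.norm_eq_abs, abs_mul, abs_of_nonneg (ramp_nonneg _)]
      exact (mul_le_of_le_one_left (abs_nonneg _) (ramp_le_one _)).trans (abs_dd_le hn ht hT))
  rw [integral_const_mul, Real.norm_eq_abs] at this
  linarith

lemma tendsto_gEps (hn : 1 ≤ n) (ht : Test h R Lp B) (y : Spc n) :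
    Tendsto (fun ε => gEps h ε y) (𝓝[>] 0) (𝓝 (-fracLap h y)) := by
  have hc' := ht.cont'
  have hm : ∀ ε : ℝ, Measurable fun z => ramp (‖z‖ / ε) * dd h y z := fun ε => by
    unfold dd; fun_prop
  have key : Tendsto (fun ε => ∫ z, ramp (‖z‖ / ε) * dd h y z) (𝓝[>] 0) (𝓝 (∫ z, dd h y z)) := by
    refine tendsto_integral_filter_of_dominated_convergence _
      (Eventually.of_forall fun ε => (hm ε).aestronglyMeasurable)
      (Eventually.of_forall fun ε => Eventually.of_forall fun z => ?_)
      ((integrable_ddBound hn Lp (2 * (‖y‖ + R))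
        (by linarith [norm_nonneg y, ht.one_le])).const_mul 2)
      (Eventually.of_forall fun z => ?_)
    · rw [Real.norm_eq_abs, abs_mul, abs_of_nonneg (ramp_nonneg _)]
      exact (mul_le_of_le_one_left (abs_nonneg _) (ramp_le_one _)).trans (abs_dd_le hn ht le_rfl)
    · rcases eq_or_ne z 0 with rfl | hz
      · simp [dd, riesz_zero]
      · refine tendsto_const_nhds.congr' ?_
        filter_upwards [Ioo_mem_nhdsGT (half_pos (norm_pos_iff.mpr hz))] with ε hε
        rw [ramp_eq_one (by rw [le_div_iff₀ hε.1]; linarith [hε.2]), one_mul]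
  have h2 := key.const_mul (1/2 : ℝ)
  rw [integral_dd hn ht, show (1/2 : ℝ) * -(2 * fracLap h y) = -fracLap h y by ring] at h2
  refine h2.congr' ?_
  filter_upwards [self_mem_nhdsWithin] with ε hε using (gEps_eq ht hε y).symm

lemma measurable_gEps (ht : Test h R Lp B) (ε : ℝ) : StronglyMeasurable (gEps h ε) := by
  have hc' := ht.cont'
  have hm : StronglyMeasurable fun p : Spc n × Spc n =>
      ramp (‖p.1 - p.2‖ / ε) * fderiv ℝ h p.1 (riesz n (p.1 - p.2)) :=
    (by fun_prop : Measurable _).stronglyMeasurable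
  exact hm.integral_prod_left' (μ := volume)

end Vale.Agent.P120.FlatAux
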