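import Mathlib
import Vale.Agent.P120.Kernel

/-!
Elementary algebra of affine planes given by a base point and an orthonormal frame.
-/

noncomputable section

open MeasureTheory Metric Set Filter Topology
open scoped ENNReal NNReal RealInnerProductSpace

namespace Vale.Agent.P120

variable {d n : ℕ}

lemma exists_plane (h : n ≤ d) : Nonempty (Plane n d) :=
  ⟨⟨0, fun i => EuclideanSpace.single (Fin.castLE h i) (1 : ℝ),
    (EuclideanSpace.basisFun (Fin d) ℝ).orthonormal.comp _ (Fin.castLE_injective h) |> fun h' => by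
      simpa [Function.comp_def, EuclideanSpace.basisFun_apply] using h'⟩⟩

namespace Plane

variable (L : Plane n d)

/-- linear part: orthogonal projection onto the direction of the plane -/
def dirProj : Spc d →L[ℝ] Spc d := ∑ i, (innerSL ℝ (L.frame i)).smulRight (L.frame i)

/-- linear part of `dev` -/
def perp : Spc d →L[ℝ] Spc d := ContinuousLinearMap.id ℝ (Spc d) - L.dirProj

lemma dirProj_apply (v : Spc d) : L.dirProj v = ∑ i, ⟪L.frame i, v⟫ • L.frame i := by
  simp [dirProj]

lemma perp_apply (v : Spc d) : L.perp v = v - L.dirProj v := by simp [perp]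

lemma dirProj_add_perp (v : Spc d) : L.dirProj v + L.perp v = v := by
  rw [perp_apply, add_sub_cancel]

lemma dev_eq (y : Spc d) : L.dev y = L.perp (y - L.base) := by
  simp [dev, perp_apply, dirProj_apply]

lemma inner_frame_frame (i j : Fin n) : ⟪L.frame i, L.frame j⟫ = if i = j then 1 else 0 :=
  orthonormal_iff_ite.mp L.orth i j

lemma inner_frame_dirProj (i : Fin n) (v : Spc d) : ⟪L.frame i, L.dirProj v⟫ = ⟪L.frame i, v⟫ := by
  rw [dirProj_apply, inner_sum]
  simp [real_inner_smul_right, inner_frame_frame, Finset.sum_ite_eq]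

lemma inner_frame_perp (i : Fin n) (v : Spc d) : ⟪L.frame i, L.perp v⟫ = 0 := by
  rw [perp_apply, inner_sub_right, inner_frame_dirProj, sub_self]

lemma inner_dirProj_left (v w : Spc d) : ⟪L.dirProj v, w⟫ = ∑ i, ⟪L.frame i, v⟫ * ⟪L.frame i, w⟫ := by
  rw [dirProj_apply, sum_inner]
  simp [real_inner_smul_left]

lemma inner_dirProj_perp (v w : Spc d) : ⟪L.dirProj v, L.perp w⟫ = 0 := by
  rw [inner_dirProj_left]; simp [inner_frame_perp]

lemma inner_dirProj_comm (v w : Spc d) : ⟪L.dirProj v, w⟫ = ⟪v, L.dirProj w⟫ := by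
  rw [real_inner_comm (L.dirProj w) v, inner_dirProj_left, inner_dirProj_left]
  simp [mul_comm]

lemma inner_perp_comm (v w : Spc d) : ⟪L.perp v, w⟫ = ⟪v, L.perp w⟫ := by
  simp [perp_apply, inner_sub_left, inner_sub_right, inner_dirProj_comm]

lemma dirProj_perp (v : Spc d) : L.dirProj (L.perp v) = 0 := by
  rw [dirProj_apply]; simp [inner_frame_perp]

lemma perp_perp (v : Spc d) : L.perp (L.perp v) = L.perp v := by
  rw [perp_apply, dirProj_perp, sub_zero]

lemma dirProj_dirProj (v : Spc d) : L.dirProj (L.dirProj v) = L.dirProj v := by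
  rw [dirProj_apply, dirProj_apply]; simp [← dirProj_apply, inner_frame_dirProj]

lemma norm_sq_eq (v : Spc d) : ‖v‖ ^ 2 = ‖L.dirProj v‖ ^ 2 + ‖L.perp v‖ ^ 2 := by
  conv_lhs => rw [← L.dirProj_add_perp v]
  rw [norm_add_sq_real, inner_dirProj_perp]; ring

lemma norm_perp_le (v : Spc d) : ‖L.perp v‖ ≤ ‖v‖ := by
  nlinarith [L.norm_sq_eq v, sq_nonneg ‖L.dirProj v‖, norm_nonneg v, norm_nonneg (L.perp v)]

lemma norm_dirProj_le (v : Spc d) : ‖L.dirProj v‖ ≤ ‖v‖ := by
  nlinarith [L.norm_sq_eq v, sq_nonneg ‖L.perp v‖, norm_nonneg v, norm_nonneg (L.dirProj v)]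

lemma norm_dev_sub_le (x y : Spc d) : ‖L.dev x - L.dev y‖ ≤ dist x y := by
  rw [dev_eq, dev_eq, ← map_sub, sub_sub_sub_cancel_right, dist_eq_norm]
  exact L.norm_perp_le _

lemma norm_dev_le_add (x y : Spc d) : ‖L.dev x‖ ≤ ‖L.dev y‖ + dist x y := by
  have := L.norm_dev_sub_le x y
  linarith [norm_le_norm_add_norm_sub' (L.dev x) (L.dev y)]

@[fun_prop]
lemma continuous_dev : Continuous L.dev := by unfold dev; fun_prop

@[fun_prop]
lemma continuous_coord : Continuous L.coord := by unfold coord; fun_prop

@[fun_prop]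
lemma continuous_param : Continuous L.param := by unfold param; fun_prop

lemma coord_apply (y : Spc d) (i : Fin n) : L.coord y i = ⟪L.frame i, y - L.base⟫ := rfl

lemma param_sub_base (u : Spc n) : L.param u - L.base = ∑ i, u i • L.frame i := by simp [param]

lemma coord_param (u : Spc n) : L.coord (L.param u) = u := by
  ext i
  rw [coord_apply, param_sub_base, inner_sum]
  simp [real_inner_smul_right, inner_frame_frame, Finset.sum_ite_eq]

lemma param_coord_add_dev (y : Spc d) : L.param (L.coord y) + L.dev y = y := by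
  simp [param, dev, coord_apply]

lemma norm_coord_sub (x y : Spc d) : ‖L.coord x - L.coord y‖ = ‖L.dirProj (x - y)‖ := by
  have h1 : ‖L.dirProj (x - y)‖ ^ 2 = ∑ i, ⟪L.frame i, x - y⟫ ^ 2 := by
    rw [← real_inner_self_eq_norm_sq, inner_dirProj_left]
    simp only [inner_frame_dirProj, sq]
  have h2 : ‖L.coord x - L.coord y‖ ^ 2 = ∑ i, ⟪L.frame i, x - y⟫ ^ 2 := by
    rw [EuclideanSpace.norm_eq, Real.sq_sqrt (by positivity)]
    refine Finset.sum_congr rfl fun i _ => ?_
    rw [Real.norm_eq_abs, sq_abs]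
    congr 1
    show L.coord x i - L.coord y i = _
    rw [coord_apply, coord_apply, ← inner_sub_right, sub_sub_sub_cancel_right]
  exact (sq_eq_sq₀ (norm_nonneg _) (norm_nonneg _)).mp (h2.trans h1.symm)

lemma dist_coord_le (x y : Spc d) : dist (L.coord x) (L.coord y) ≤ dist x y := by
  rw [dist_eq_norm, norm_coord_sub, dist_eq_norm]
  exact L.norm_dirProj_le _

lemma isometry_param : Isometry L.param := by
  refine Isometry.of_dist_eq fun u v => ?_
  have hd : L.dev (L.param u) = 0 ∧ L.dev (L.param v) = 0 := by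
    constructor
    · have := L.param_coord_add_dev (L.param u)
      rw [coord_param] at this
      exact left_eq_add.mp this.symm
    · have := L.param_coord_add_dev (L.param v)
      rw [coord_param] at this
      exact left_eq_add.mp this.symm
  have hp : L.perp (L.param u - L.param v) = 0 := by
    have := congrArg₂ (· - ·) hd.1 hd.2
    simpa [dev_eq, ← map_sub] using this
  have := L.norm_sq_eq (L.param u - L.param v)
  rw [hp, norm_zero] at this
  rw [dist_eq_norm, dist_eq_norm, ← (sq_eq_sq₀ (norm_nonneg _) (norm_nonneg _))]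
  rw [this, ← norm_coord_sub, coord_param, coord_param]
  ring

lemma dist_le_coord_add_dev (x y : Spc d) :
    dist x y ≤ dist (L.coord x) (L.coord y) + ‖L.dev x - L.dev y‖ := by
  conv_lhs => rw [← L.param_coord_add_dev x, ← L.param_coord_add_dev y]
  rw [← L.isometry_param.dist_eq (L.coord x) (L.coord y), ← dist_eq_norm]
  exact dist_add_add_le _ _ _ _

lemma mem_carrier_iff (y : Spc d) : y ∈ L.carrier ↔ L.dev y = 0 := by
  constructor
  · rintro ⟨u, rfl⟩
    have := L.param_coord_add_dev (L.param u)
    rw [coord_param] at this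
    exact left_eq_add.mp this.symm
  · intro h
    exact ⟨L.coord y, by simpa [h] using L.param_coord_add_dev y⟩

end Plane

end Vale.Agent.P120
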