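import Mathlib
import Vale.Agent.P120.Statements
import Vale.Agent.P120.EnergyBasic
import Vale.Agent.P120.PlaneBasic
import Vale.Agent.P120.FlatConstCalc

/-!
Module FlatConst: a reflectionless regular measure on an `n`-plane is a constant multiple of
Lebesgue measure on that plane, given that it fills the plane and the Liouville theorem.
-/

noncomputable section

open MeasureTheory Metric Set Filter Topology Module
open scoped ENNReal NNReal RealInnerProductSpace Convolution

namespace Vale.Agent.P120.FlatAux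

variable {n d : ℕ} {C : ℝ}

/-! ### Comparison of two measures with comparable balls -/

lemma measure_le_of_balls {k : ℕ} (μ₁ μ₂ : Measure (Spc k)) [IsLocallyFiniteMeasure μ₂]
    {a : ℝ≥0∞} (ha : a ≠ ⊤)
    (h : ∀ (x : Spc k) (r : ℝ), 0 < r → μ₁ (closedBall x r) ≤ a * μ₂ (closedBall x r))
    (s : Set (Spc k)) : μ₁ s ≤ a * μ₂ s := by
  have key : ∀ ε : ℝ≥0∞, ε ≠ 0 → μ₁ s ≤ a * (μ₂ s + ε) := by
    intro ε hε
    obtain ⟨t, r, htc, -, hr, hcov, hsum⟩ :=
      Besicovitch.exists_closedBall_covering_tsum_measure_le μ₂ hε (fun _ => Ioi (0 : ℝ)) s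
        (fun x _ δ hδ => ⟨δ / 2, half_pos hδ, half_pos hδ, half_lt_self hδ⟩)
    refine (measure_mono hcov).trans ((measure_biUnion_le μ₁ htc _).trans ?_)
    refine le_trans (ENNReal.tsum_le_tsum fun x => h x.1 (r x.1) (hr x.1 x.2)) ?_
    rw [ENNReal.tsum_mul_left]
    exact mul_le_mul_right hsum _
  rcases eq_or_ne a 0 with rfl | ha0
  · simpa using key 1 one_ne_zero
  refine ENNReal.le_of_forall_pos_le_add fun δ hδ _ => ?_
  refine (key (δ / a) (ENNReal.div_ne_zero.mpr ⟨by simpa using hδ.ne', ha⟩)).trans ?_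
  rw [mul_add, ENNReal.mul_div_cancel ha0 ha]

/-- a measure with `n`-dimensional balls is a bounded, bounded below, density -/
lemma exists_density (m : Measure (Spc n)) [IsLocallyFiniteMeasure m] (hC : 1 ≤ C)
    (hup : UpperReg n C m)
    (hlow : ∀ (x : Spc n) (r : ℝ), 0 < r → ENNReal.ofReal (C⁻¹ * r ^ n) ≤ m (ball x r)) :
    ∃ (θ : Spc n → ℝ≥0) (c K : ℝ≥0), 0 < c ∧ Measurable θ ∧ (∀ x, c ≤ θ x ∧ θ x ≤ K) ∧
      m ≤ (K : ℝ≥0∞) • (volume : Measure (Spc n)) ∧
      m = volume.withDensity fun x => (θ x : ℝ≥0∞) := by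
  obtain ⟨v, hv, heq, -⟩ := exists_upperReg_volume (n := n)
  have hC0 : 0 < C := lt_of_lt_of_le one_pos hC
  set c : ℝ≥0 := Real.toNNReal (C⁻¹ / v) with hc
  set K : ℝ≥0 := Real.toNNReal (C * 2 ^ n / v) with hK
  have hcp : 0 < c := Real.toNNReal_pos.mpr (by positivity)
  have h1 : ∀ s, m s ≤ (K : ℝ≥0∞) * volume s := by
    refine measure_le_of_balls m volume ENNReal.coe_ne_top fun x r hr => ?_
    rw [heq x r hr.le, hK, ← ENNReal.ofReal, ← ENNReal.ofReal_mul (by positivity)]
    refine (hup.closedBall_le x hr).trans (le_of_eq ?_)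
    congr 1; field_simp
  have h2 : ∀ s, (c : ℝ≥0∞) * volume s ≤ m s := by
    intro s
    have := measure_le_of_balls (c • volume : Measure (Spc n)) m ENNReal.one_ne_top
      (fun x r hr => by
        rw [one_mul, Measure.smul_apply, heq x r hr.le, ENNReal.smul_def, smul_eq_mul, hc,
          ← ENNReal.ofReal, ← ENNReal.ofReal_mul (by positivity)]
        refine le_trans (le_of_eq ?_) ((hlow x r hr).trans (measure_mono ball_subset_closedBall))
        congr 1; field_simp) s
    rwa [one_mul, Measure.smul_apply, ENNReal.smul_def, smul_eq_mul] at this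
  have hac : m ≪ (volume : Measure (Spc n)) :=
    Measure.AbsolutelyContinuous.mk fun s _ hs => le_antisymm ((h1 s).trans (by simp [hs])) zero_le
  have hwd := Measure.withDensity_rnDeriv_eq m volume hac
  have hset : ∀ s, MeasurableSet s → ∫⁻ x in s, m.rnDeriv volume x = m s := fun s hs => by
    rw [← withDensity_apply _ hs, hwd]
  have hle : ∀ᵐ x, m.rnDeriv volume x ≤ (K : ℝ≥0∞) :=
    ae_le_of_forall_setLIntegral_le_of_sigmaFinite (Measure.measurable_rnDeriv _ _)
      fun s hs _ => by rw [hset s hs, setLIntegral_const]; exact h1 s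
  have hge : ∀ᵐ x, (c : ℝ≥0∞) ≤ m.rnDeriv volume x :=
    ae_le_of_forall_setLIntegral_le_of_sigmaFinite measurable_const
      fun s hs _ => by rw [hset s hs, setLIntegral_const]; exact h2 s
  have hcK : c ≤ K := by
    refine ENNReal.coe_le_coe.mp ?_
    obtain ⟨x, hx1, hx2⟩ := (hle.and hge).exists
    exact hx2.trans hx1
  set θ : Spc n → ℝ≥0 := fun x => max c (min K (m.rnDeriv volume x).toNNReal)
  refine ⟨θ, c, K, hcp, ?_, fun x => ⟨le_max_left _ _, max_le hcK (min_le_left _ _)⟩, ?_, ?_⟩
  · exact measurable_const.max (measurable_const.min (Measure.measurable_rnDeriv _ _).ennreal_toNNReal)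
  · exact Measure.le_iff.mpr fun s _ => by simpa [smul_eq_mul] using h1 s
  · conv_lhs => rw [← hwd]
    refine withDensity_congr_ae ?_
    filter_upwards [hle, hge] with x hx1 hx2
    have hne : m.rnDeriv volume x ≠ ⊤ := ne_top_of_le_ne_top ENNReal.coe_ne_top hx1
    have e := ENNReal.coe_toNNReal hne
    simp only [θ]
    rw [min_eq_right (ENNReal.coe_le_coe.mp (e.le.trans hx1)),
      max_eq_right (ENNReal.coe_le_coe.mp (hx2.trans e.ge)), e]

/-! ### The truncated form -/

lemma trBil_swap (m : Measure (Spc n)) [IsLocallyFiniteMeasure m] (ε : ℝ) (f g : Spc n → ℝ) :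
    trBil n m ε g f = -trBil n m ε f g := by
  unfold trBil
  rw [← integral_neg, ← integral_prod_swap (fun p : Spc n × Spc n =>
    (g p.1 * f p.2 * ramp (‖p.1 - p.2‖ / ε)) • riesz n (p.1 - p.2))]
  refine integral_congr_ae (Eventually.of_forall fun p => ?_)
  simp only [Prod.fst_swap, Prod.snd_swap]
  rw [riesz_sub_comm p.1 p.2, smul_neg, norm_sub_rev p.2 p.1, mul_comm (g p.2)]

variable {m : Measure (Spc n)} [IsLocallyFiniteMeasure m]

lemma norm_trBil_integrand_le {ε : ℝ} (hε : 0 < ε) (a b : ℝ) (x y : Spc n) :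
    ‖(a * b * ramp (‖x - y‖ / ε)) • riesz n (x - y)‖ ≤ |a| * (|b| * (ε ^ n)⁻¹) := by
  rw [norm_smul, Real.norm_eq_abs, abs_mul, abs_mul, abs_of_nonneg (ramp_nonneg _), mul_assoc,
    mul_assoc]
  refine mul_le_mul_of_nonneg_left (mul_le_mul_of_nonneg_left ?_ (abs_nonneg _)) (abs_nonneg _)
  rcases le_or_gt ‖x - y‖ ε with hp | hp
  · rw [ramp_eq_zero ((div_le_one hε).mpr hp), zero_mul]; positivity
  · calc ramp (‖x - y‖ / ε) * ‖riesz n (x - y)‖ ≤ 1 * (‖x - y‖ ^ n)⁻¹ :=
          mul_le_mul (ramp_le_one _) (norm_riesz_le _) (norm_nonneg _) zero_le_one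
      _ ≤ (ε ^ n)⁻¹ := by
          rw [one_mul]; exact inv_anti₀ (by positivity) (pow_le_pow_left₀ hε.le hp.le _)

lemma integrable_bounded_supp {f : Spc n → ℝ} {ρ B : ℝ} (hf : AEStronglyMeasurable f m)
    (hB : ∀ x, |f x| ≤ B) (hs : ∀ x ∉ closedBall (0 : Spc n) ρ, f x = 0) : Integrable f m := by
  refine ((integrable_indicator_iff measurableSet_closedBall).mpr
    (integrableOn_const (C := B)
      (measure_closedBall_lt_top (μ := m) (x := (0 : Spc n)) (r := ρ)).ne)).mono'
    hf (Eventually.of_forall fun x => ?_)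
  by_cases hx : x ∈ closedBall (0 : Spc n) ρ
  · rw [indicator_of_mem hx]; exact hB x
  · rw [indicator_of_notMem hx, hs x hx, norm_zero]

lemma integrable_trBil' {ε : ℝ} (hε : 0 < ε) {f w : Spc n → ℝ} {ρ B : ℝ} (hf : Measurable f)
    (hB : ∀ x, |f x| ≤ B) (hs : ∀ x ∉ closedBall (0 : Spc n) ρ, f x = 0) (hw : Continuous w)
    (hw' : HasCompactSupport w) :
    Integrable (fun p : Spc n × Spc n =>
      (f p.1 * w p.2 * ramp (‖p.1 - p.2‖ / ε)) • riesz n (p.1 - p.2)) (m.prod m) := by
  refine ((integrable_bounded_supp hf.aestronglyMeasurable hB hs).abs.mul_prod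
    ((hw.integrable_of_hasCompactSupport hw').abs.mul_const ((ε ^ n)⁻¹))).mono'
    (by fun_prop : Measurable _).aestronglyMeasurable
    (Eventually.of_forall fun p => norm_trBil_integrand_le hε _ _ _ _)

lemma trBil_sub {ε : ℝ} (hε : 0 < ε) {f g w : Spc n → ℝ} {ρ B : ℝ} (hf : Measurable f)
    (hg : Measurable g) (hfB : ∀ x, |f x| ≤ B) (hgB : ∀ x, |g x| ≤ B)
    (hfs : ∀ x ∉ closedBall (0 : Spc n) ρ, f x = 0) (hgs : ∀ x ∉ closedBall (0 : Spc n) ρ, g x = 0)
    (hw : Continuous w) (hw' : HasCompactSupport w) :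
    trBil n m ε (fun x => f x - g x) w = trBil n m ε f w - trBil n m ε g w := by
  unfold trBil
  rw [← integral_sub (integrable_trBil' hε hf hfB hfs hw hw') (integrable_trBil' hε hg hgB hgs hw hw')]
  refine integral_congr_ae (Eventually.of_forall fun p => ?_)
  simp only [← sub_smul]
  congr 1; ring

/-- pairings through wide windows of mean zero Lipschitz functions are small -/
def Small (n : ℕ) (C : ℝ) (m : Measure (Spc n)) : Prop :=
  ∀ (φ : Spc n → ℝ) (ρ : ℝ), 0 < ρ → Adm m 0 ρ φ → ∀ L, 4 * ρ ≤ L →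
    ‖pairW n m (cut 0 L) φ‖ ≤ tailConst n C * ρ * (∫ x, |φ x| ∂m) / L

/-- the bound passes to bounded measurable limits -/
lemma eventually_trBil_le (hn : 1 ≤ n) (hC : 1 ≤ C) (hup : UpperReg n C m) (hRB : RB n C m)
    (hsmall : Small n C m) {f : Spc n → ℝ} {φ : ℕ → Spc n → ℝ} {ρ B L : ℝ} (hρ : 0 < ρ)
    (hφ : ∀ k, Adm m 0 ρ (φ k)) (hB : ∀ k x, |φ k x| ≤ B) (hfB : ∀ x, |f x| ≤ B)
    (hf : Measurable f) (hfs : ∀ x ∉ closedBall (0 : Spc n) ρ, f x = 0)
    (hlim : ∀ᵐ x ∂m, Tendsto (fun k => φ k x) atTop (𝓝 (f x))) (hL : 4 * ρ ≤ L) {δ : ℝ}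
    (hδ : 0 < δ) :
    ∀ᶠ ε in 𝓝[>] (0 : ℝ), ‖trBil n m ε f (cut 0 L)‖ ≤
      tailConst n C * ρ * (B * m.real (closedBall 0 ρ)) / L + δ := by
  have hL0 : 0 < L := by linarith
  have hB0 : 0 ≤ B := (abs_nonneg _).trans (hfB 0)
  set w : Spc n → ℝ := cut 0 L with hw
  have hwc : Continuous w := continuous_cut 0 L
  have hws : HasCompactSupport w := hasCompactSupport_cut 0 hL0
  have hφc : ∀ k, Continuous (φ k) := fun k => (hφ k).lip.choose_spec.continuous
  have hφs : ∀ k, ∀ x ∉ closedBall (0 : Spc n) ρ, φ k x = 0 := fun k x hx =>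
    image_eq_zero_of_notMem_tsupport fun hm => hx ((hφ k).supp hm)
  have hφcs : ∀ k, HasCompactSupport (φ k) := fun k =>
    IsCompact.of_isClosed_subset (isCompact_closedBall _ _) (isClosed_tsupport _) (hφ k).supp
  have hB2 : ∀ a b : ℝ, |a| ≤ B → |b| ≤ B → |(a - b) ^ 2| ≤ (2 * B) ^ 2 := by
    intro a b ha hb
    rw [abs_pow]
    exact pow_le_pow_left₀ (abs_nonneg _) ((abs_sub _ _).trans (by linarith)) _
  -- quadratic convergence against a fixed function
  have hsq : ∀ g : Spc n → ℝ, Measurable g → (∀ x, |g x| ≤ B) →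
      (∀ x ∉ closedBall (0 : Spc n) ρ, g x = 0) →
      Tendsto (fun k => ∫ x, (φ k x - g x) ^ 2 ∂m) atTop (𝓝 (∫ x, (f x - g x) ^ 2 ∂m)) := by
    intro g hg hgB hgs
    refine tendsto_integral_of_dominated_convergence
      ((closedBall (0 : Spc n) ρ).indicator fun _ => (2 * B) ^ 2)
      (fun k => (((hφc k).measurable.sub hg).pow_const 2).aestronglyMeasurable)
      ((integrable_indicator_iff measurableSet_closedBall).mpr
        (integrableOn_const measure_closedBall_lt_top.ne))
      (fun k => Eventually.of_forall fun x => ?_) ?_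
    · by_cases hx : x ∈ closedBall (0 : Spc n) ρ
      · rw [indicator_of_mem hx]; exact hB2 _ _ (hB k x) (hgB x)
      · rw [indicator_of_notMem hx, hφs k x hx, hgs x hx]; simp
    · filter_upwards [hlim] with x hx using (hx.sub_const _).pow 2
  set A : ℝ := C * Real.sqrt (∫ x, w x ^ 2 ∂m) with hA
  have hA0 : 0 ≤ A := by positivity
  -- choose a good approximant
  obtain ⟨j, hj⟩ : ∃ j, A * Real.sqrt (∫ x, (f x - φ j x) ^ 2 ∂m) < δ / 2 := by
    have h0 := (hsq f hf hfB hfs).sqrt.const_mul A
    simp only [sub_self, ne_eq, OfNat.ofNat_ne_zero, not_false_eq_true, zero_pow, integral_zero,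
      Real.sqrt_zero, mul_zero] at h0
    obtain ⟨j, hj⟩ := (h0.eventually (Iio_mem_nhds (half_pos hδ))).exists
    refine ⟨j, ?_⟩
    have e : ∀ x, (f x - φ j x) ^ 2 = (φ j x - f x) ^ 2 := fun x => by ring
    simpa only [e] using hj
  -- the approximant
  have hwφ : (fun x => w x * φ j x) = φ j := by
    funext x
    by_cases hx : x ∈ closedBall (0 : Spc n) ρ
    · rw [hw, cut_eq_one hL0 (by linarith [mem_closedBall.mp hx]), one_mul]
    · rw [hφs j x hx, mul_zero]
  obtain ⟨Kj, hKj⟩ := (hφ j).lip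
  have hlimj : Tendsto (fun ε => trBil n m ε (φ j) w) (𝓝[>] 0) (𝓝 (pairW n m w (φ j))) := by
    have := tendsto_trBil_pairW hup hn hKj hwc hws
    rw [hwφ] at this
    refine this.congr fun ε => ?_
    rw [trBil_swap m ε (φ j) w]
    module
  have hbj : ‖pairW n m w (φ j)‖ ≤ tailConst n C * ρ * (B * m.real (closedBall 0 ρ)) / L := by
    refine (hsmall (φ j) ρ hρ (hφ j) L hL).trans ?_
    have : 0 ≤ tailConst n C := by unfold tailConst; positivity
    gcongr
    calc ∫ x, |φ j x| ∂m = ∫ x in closedBall (0 : Spc n) ρ, |φ j x| ∂m :=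
          (setIntegral_eq_integral_of_forall_compl_eq_zero fun x hx => by simp [hφs j x hx]).symm
      _ ≤ B * m.real (closedBall 0 ρ) := by
          have := norm_setIntegral_le_of_norm_le_const (μ := m) (f := fun x => |φ j x|)
            (s := closedBall (0 : Spc n) ρ) measure_closedBall_lt_top
            (fun x _ => by rw [Real.norm_eq_abs, abs_abs]; exact hB j x)
          exact (le_abs_self _).trans this
  filter_upwards [hlimj.norm.eventually (Iio_mem_nhds (show ‖pairW n m w (φ j)‖ <
      tailConst n C * ρ * (B * m.real (closedBall 0 ρ)) / L + δ / 2 by linarith)),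
    self_mem_nhdsWithin] with ε hε1 hε
  have hε0 : (0 : ℝ) < ε := hε
  have hstep : ∀ k, ‖trBil n m ε (φ k) w - trBil n m ε (φ j) w‖ ≤
      A * Real.sqrt (∫ x, (φ k x - φ j x) ^ 2 ∂m) := by
    intro k
    rw [← trBil_sub hε0 (hφc k).measurable (hφc j).measurable (hB k) (hB j) (hφs k) (hφs j) hwc hws]
    refine (hRB ε hε0 _ _ ((hφc k).sub (hφc j)) ((hφcs k).sub (hφcs j)) hwc hws).trans (le_of_eq ?_)
    rw [hA]; simp only [Pi.sub_apply]; exact mul_right_comm _ _ _
  have hconv : Tendsto (fun k => trBil n m ε (φ k) w) atTop (𝓝 (trBil n m ε f w)) := by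
    unfold trBil
    refine tendsto_integral_of_dominated_convergence
      (fun p : Spc n × Spc n => (closedBall (0 : Spc n) ρ).indicator (fun _ => B) p.1 *
        (|w p.2| * (ε ^ n)⁻¹))
      (fun k => (integrable_trBil' hε0 (hφc k).measurable (hB k) (hφs k) hwc hws).1)
      (((integrable_indicator_iff measurableSet_closedBall).mpr
        (integrableOn_const measure_closedBall_lt_top.ne)).mul_prod
        ((hwc.integrable_of_hasCompactSupport hws).abs.mul_const _))
      (fun k => Eventually.of_forall fun p =>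
        (norm_trBil_integrand_le hε0 _ _ _ _).trans ?_) ?_
    · refine mul_le_mul_of_nonneg_right ?_ (by positivity)
      by_cases hx : p.1 ∈ closedBall (0 : Spc n) ρ
      · rw [indicator_of_mem hx]; exact hB k _
      · rw [indicator_of_notMem hx, hφs k _ hx, abs_zero]
    · filter_upwards [Measure.quasiMeasurePreserving_fst.ae hlim] with p hp
      exact (((hp.mul_const _).mul_const _)).smul_const _
  have h3 : ‖trBil n m ε f w - trBil n m ε (φ j) w‖ ≤
      A * Real.sqrt (∫ x, (f x - φ j x) ^ 2 ∂m) :=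
    le_of_tendsto_of_tendsto' (hconv.sub_const _).norm
      ((hsq (φ j) (hφc j).measurable (hB j) (hφs j)).sqrt.const_mul A) hstep
  have h4 := norm_sub_norm_le (trBil n m ε f w) (trBil n m ε (φ j) w)
  
  linarith

/-! ### The fractional Laplacian annihilates the density -/

lemma integral_fderiv_apply_eq_zero {h : Spc n → ℝ} {R Lp B : ℝ} (ht : Test h R Lp B)
    (v : Spc n) : ∫ x, fderiv ℝ h x v = 0 := by
  have hi : Integrable fun x => fderiv ℝ h x v := by
    refine Continuous.integrable_of_hasCompactSupport (ht.cont'.clm_apply continuous_const) ?_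
    refine HasCompactSupport.intro (isCompact_closedBall (0 : Spc n) R) fun x hx => ?_
    rw [mem_closedBall_zero_iff, not_le] at hx
    simp [(ht.out x hx.le).2]
  have hi2 : Integrable h := by
    refine ht.diff.continuous.integrable_of_hasCompactSupport ?_
    refine HasCompactSupport.intro (isCompact_closedBall (0 : Spc n) R) fun x hx => ?_
    rw [mem_closedBall_zero_iff, not_le] at hx
    exact (ht.out x hx.le).1
  have := integral_mul_fderiv_eq_neg_fderiv_mul_of_integrable (μ := (volume : Measure (Spc n)))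
    (f := fun _ => (1 : ℝ)) (g := h) (v := v) (by simp) (by simpa using hi) (by simpa using hi2)
    (fun x _ => differentiableAt_const _) (fun x _ => ht.diff x)
  simpa using this

omit [IsLocallyFiniteMeasure m] in
lemma integral_density_smul {θ : Spc n → ℝ≥0} (hθm : Measurable θ)
    (hm : m = volume.withDensity fun x => (θ x : ℝ≥0∞)) (F : Spc n → ℝ) :
    ∫ x, F x ∂m = ∫ x, (θ x : ℝ) * F x := by
  rw [hm, integral_withDensity_eq_integral_smul hθm]
  simp [NNReal.smul_def]

/-- mollified inverse density -/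
lemma exists_inverse_approx {θ : Spc n → ℝ≥0} {c : ℝ≥0} (hc : 0 < c) (hθm : Measurable θ)
    (hθ : ∀ x, c ≤ θ x) :
    ∃ q : ℕ → Spc n → ℝ, (∀ k, ContDiff ℝ 1 (q k)) ∧ (∀ k x, |q k x| ≤ (c : ℝ)⁻¹) ∧
      ∀ᵐ x, Tendsto (fun k => q k x) atTop (𝓝 ((θ x : ℝ)⁻¹)) := by
  set g : Spc n → ℝ := fun x => ((θ x : ℝ))⁻¹ with hg
  have hgm : Measurable g := by simp only [hg]; fun_prop
  have hgB : ∀ x, ‖g x‖ ≤ (c : ℝ)⁻¹ := fun x => by
    rw [Real.norm_eq_abs, abs_of_nonneg (by simp only [hg]; positivity)]
    exact inv_anti₀ (by exact_mod_cast hc) (by exact_mod_cast hθ x)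
  have hgl : LocallyIntegrable g (volume : Measure (Spc n)) := by
    refine locallyIntegrable_iff.mpr fun k hk => ?_
    exact ((integrableOn_const (C := (c : ℝ)⁻¹) hk.measure_lt_top.ne)).mono'
      hgm.aestronglyMeasurable.restrict (Eventually.of_forall hgB)
  set φ : ℕ → ContDiffBump (0 : Spc n) := fun k =>
    ⟨1 / ((k : ℝ) + 1), 2 / ((k : ℝ) + 1), by positivity,
      div_lt_div_of_pos_right one_lt_two (by positivity)⟩
  refine ⟨fun k => (φ k).normed volume ⋆[ContinuousLinearMap.lsmul ℝ ℝ, volume] g,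
    fun k => (φ k).hasCompactSupport_normed.contDiff_convolution_left _ (φ k).contDiff_normed hgl,
    fun k x => ?_, ?_⟩
  · show |((φ k).normed volume ⋆[ContinuousLinearMap.lsmul ℝ ℝ, volume] g) x| ≤ _
    rw [convolution_def]
    have := norm_integral_le_of_norm_le (μ := (volume : Measure (Spc n)))
      (f := fun t => ContinuousLinearMap.lsmul ℝ ℝ ((φ k).normed volume t) (g (x - t)))
      (((φ k).integrable_normed (μ := volume)).mul_const (c : ℝ)⁻¹)
      (Eventually.of_forall fun t => by
        rw [ContinuousLinearMap.lsmul_apply, norm_smul, Real.norm_eq_abs,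
          abs_of_nonneg ((φ k).nonneg_normed t)]
        exact mul_le_mul_of_nonneg_left (hgB _) ((φ k).nonneg_normed t))
    rw [integral_mul_const, (φ k).integral_normed, one_mul, Real.norm_eq_abs] at this
    exact this
  · refine ContDiffBump.ae_convolution_tendsto_right_of_locallyIntegrable (K := 2) ?_
      (Eventually.of_forall fun k => ?_) hgl
    · exact (tendsto_one_div_add_atTop_nhds_zero_nat.const_mul 2).congr (fun k => by
        simp only [φ]; ring) |>.trans (by rw [mul_zero])
    · exact le_of_eq (by simp only [φ]; ring)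

lemma integral_fracLap_eq_zero (hn : 1 ≤ n) (hC : 1 ≤ C) (hup : UpperReg n C m)
    (hRB : RB n C m) (hsmall : Small n C m) {θ : Spc n → ℝ≥0} {c K : ℝ≥0} (hc : 0 < c)
    (hθm : Measurable θ) (hθ : ∀ x, c ≤ θ x) (hmK : m ≤ (K : ℝ≥0∞) • (volume : Measure (Spc n)))
    (hm : m = volume.withDensity fun x => (θ x : ℝ≥0∞)) {h : Spc n → ℝ}
    (hh : ContDiff ℝ ((⊤ : ℕ∞) : WithTop ℕ∞) h) (hs : HasCompactSupport h)
    (hmean : ∫ x, h x = 0) : ∫ x, (θ x : ℝ) * fracLap h x = 0 := by
  obtain ⟨R, Lp, B, ht⟩ := exists_test hh hs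
  have hR := ht.one_le
  have hB0 := ht.B_nonneg
  set D : Spc n → Spc n →L[ℝ] ℝ := fderiv ℝ h with hD
  have hDc : Continuous D := ht.cont'
  have hc' : (0 : ℝ) < c := by exact_mod_cast hc
  have hθ0 : ∀ x, (θ x : ℝ) ≠ 0 := fun x =>
    (lt_of_lt_of_le hc' (NNReal.coe_le_coe.mpr (hθ x))).ne'
  obtain ⟨q, hqd, hqB, hqlim⟩ := exists_inverse_approx hc hθm hθ
  have hac : m ≪ (volume : Measure (Spc n)) := by
    rw [hm]; exact withDensity_absolutelyContinuous _ _
  set b := EuclideanSpace.basisFun (Fin n) ℝ with hb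
  -- the normalised bump
  set ρ : ℝ := max R 2 with hρ
  have hρ0 : 0 < ρ := by positivity
  have hψ0pos : 0 < ∫ x, cut 0 1 x ∂m := by
    rw [integral_density_smul hθm hm]
    have hint : Integrable fun x : Spc n => (c : ℝ) * cut 0 1 x :=
      ((continuous_cut 0 1).integrable_of_hasCompactSupport (hasCompactSupport_cut 0 one_pos)).const_mul _
    have hint2 : Integrable fun x : Spc n => (θ x : ℝ) * cut 0 1 x := by
      have h1 : Integrable (fun x : Spc n => cut 0 1 x) m :=
        (continuous_cut 0 1).integrable_of_hasCompactSupport (hasCompactSupport_cut 0 one_pos)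
      rw [hm, integrable_withDensity_iff_integrable_smul hθm] at h1
      simpa [NNReal.smul_def] using h1
    refine lt_of_lt_of_le ?_ (integral_mono hint hint2 fun x =>
      mul_le_mul_of_nonneg_right (NNReal.coe_le_coe.mpr (hθ x)) (cut_nonneg 0 1 x))
    refine (integral_pos_iff_support_of_nonneg (fun x => mul_nonneg hc'.le (cut_nonneg 0 1 x))
      hint).mpr (lt_of_lt_of_le (measure_ball_pos volume (0 : Spc n) one_pos) (measure_mono ?_))
    intro x hx
    rw [Function.mem_support, cut_eq_one one_pos (mem_ball.mp hx).le, mul_one]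
    exact hc'.ne'
  set ψ : Spc n → ℝ := fun x => (∫ x, cut 0 1 x ∂m)⁻¹ * cut 0 1 x with hψ
  have hψ1 : ∫ x, ψ x ∂m = 1 := by
    simp only [hψ, integral_const_mul]; exact inv_mul_cancel₀ hψ0pos.ne'
  set Bψ : ℝ := (∫ x, cut 0 1 x ∂m)⁻¹ with hBψ
  -- the key estimate for one direction
  have hdir : ∀ i : Fin n, ∃ A : ℝ, ∀ L, 4 * ρ ≤ L → ∀ δ, 0 < δ → ∀ᶠ ε in 𝓝[>] (0 : ℝ),
      ‖trBil n m ε (fun x => (θ x : ℝ)⁻¹ * D x (b i)) (cut 0 L)‖ ≤ A / L + δ := by
    intro i
    set f : Spc n → ℝ := fun x => (θ x : ℝ)⁻¹ * D x (b i) with hf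
    have hDi : Continuous fun x => D x (b i) := hDc.clm_apply continuous_const
    have hDb : ∀ x, |D x (b i)| ≤ B := fun x => by
      refine ((D x).le_opNorm (b i)).trans ?_
      rw [b.orthonormal.1 i, mul_one]; exact (ht.bd x).2
    have hDs : ∀ x, R ≤ ‖x‖ → D x (b i) = 0 := fun x hx => by simp [hD, (ht.out x hx).2]
    have hθinv : ∀ x, |(θ x : ℝ)⁻¹| ≤ (c : ℝ)⁻¹ := fun x => by
      rw [abs_of_nonneg (by positivity)]
      exact inv_anti₀ hc' (NNReal.coe_le_coe.mpr (hθ x))
    have hfm : Measurable f := (hθm.coe_nnreal_real.inv).mul hDi.measurable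
    set B1 : ℝ := (c : ℝ)⁻¹ * B with hB1
    have hfB : ∀ x, |f x| ≤ B1 := fun x => by
      rw [hf, abs_mul]; exact mul_le_mul (hθinv x) (hDb x) (abs_nonneg _) (by positivity)
    set fk : ℕ → Spc n → ℝ := fun k x => q k x * D x (b i) with hfk
    have hfkB : ∀ k x, |fk k x| ≤ B1 := fun k x => by
      rw [hfk, abs_mul]; exact mul_le_mul (hqB k x) (hDb x) (abs_nonneg _) (by positivity)
    have hfks : ∀ k, ∀ x ∉ closedBall (0 : Spc n) R, fk k x = 0 := fun k x hx => by
      rw [mem_closedBall_zero_iff, not_le] at hx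
      simp [hfk, hDs x hx.le]
    have hfkm : ∀ k, Measurable (fk k) := fun k =>
      (hqd k).continuous.measurable.mul hDi.measurable
    set ck : ℕ → ℝ := fun k => ∫ x, fk k x ∂m with hck
    have hlimfk : ∀ᵐ x ∂m, Tendsto (fun k => fk k x) atTop (𝓝 (f x)) := by
      filter_upwards [hac.ae_le hqlim] with x hx using hx.mul_const _
    have hf0 : ∫ x, f x ∂m = 0 := by
      rw [integral_density_smul hθm hm, ← integral_fderiv_apply_eq_zero ht (b i)]
      refine integral_congr_ae (Eventually.of_forall fun x => ?_)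
      simp only [hf, hD]
      rw [← mul_assoc, mul_inv_cancel₀ (hθ0 x), one_mul]
    have hcklim : Tendsto ck atTop (𝓝 0) := by
      rw [← hf0]
      refine tendsto_integral_of_dominated_convergence
        ((closedBall (0 : Spc n) R).indicator fun _ => B1)
        (fun k => (hfkm k).aestronglyMeasurable)
        ((integrable_indicator_iff measurableSet_closedBall).mpr
          (integrableOn_const measure_closedBall_lt_top.ne))
        (fun k => Eventually.of_forall fun x => ?_) hlimfk
      by_cases hx : x ∈ closedBall (0 : Spc n) R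
      · rw [indicator_of_mem hx]; exact hfkB k x
      · rw [indicator_of_notMem hx, hfks k x hx, norm_zero]
    set M : ℝ := B1 * m.real (closedBall 0 R) with hM
    have hckB : ∀ k, |ck k| ≤ M := fun k => by
      rw [hck]
      have e : ∫ x, fk k x ∂m = ∫ x in closedBall (0 : Spc n) R, fk k x ∂m :=
        (setIntegral_eq_integral_of_forall_compl_eq_zero fun x hx => hfks k x hx).symm
      simp only [e]
      exact norm_setIntegral_le_of_norm_le_const (μ := m) (f := fun x => fk k x)
        measure_closedBall_lt_top fun x _ => hfkB k x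
    have hBψ0 : 0 ≤ Bψ := by positivity
    set φ : ℕ → Spc n → ℝ := fun k x => fk k x - ck k * ψ x with hφ
    set B2 : ℝ := B1 + M * Bψ with hB2
    have hψb : ∀ x, |ψ x| ≤ Bψ := fun x => by
      show |Bψ * cut 0 1 x| ≤ Bψ
      rw [abs_mul, abs_of_nonneg hBψ0]
      exact mul_le_of_le_one_right hBψ0 (abs_cut_le_one 0 1 x)
    have hψs : ∀ x ∉ closedBall (0 : Spc n) ρ, ψ x = 0 := fun x hx => by
      rw [mem_closedBall_zero_iff, not_le] at hx
      show Bψ * cut 0 1 x = 0
      rw [cut_eq_zero one_pos (by rw [dist_zero_right]; linarith [le_max_right R 2]), mul_zero]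
    have hRρ : closedBall (0 : Spc n) R ⊆ closedBall 0 ρ :=
      closedBall_subset_closedBall (le_max_left _ _)
    have hφadm : ∀ k, Adm m 0 ρ (φ k) := by
      intro k
      refine ⟨?_, ?_, ?_⟩
      · have hD1 : ContDiff ℝ 1 fun x => D x (b i) :=
          (hh.fderiv_right (WithTop.coe_le_coe.mpr le_top)).clm_apply contDiff_const
        have hcs : HasCompactSupport (fk k) :=
          HasCompactSupport.intro (isCompact_closedBall _ _) (hfks k)
        obtain ⟨K1, hK1⟩ := ((hqd k).mul hD1).lipschitzWith_of_hasCompactSupport hcs one_ne_zero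
        have hK2 := lipschitz_cut (0 : Spc n) one_pos
        refine ⟨K1 + Real.toNNReal (|ck k| * Bψ) * Real.toNNReal (1 : ℝ)⁻¹, ?_⟩
        refine LipschitzWith.of_dist_le_mul fun x y => ?_
        have h1 := hK1.dist_le_mul x y
        have h2 := hK2.dist_le_mul x y
        simp only [Real.dist_eq] at h1 h2 ⊢
        rw [NNReal.coe_add, NNReal.coe_mul, Real.coe_toNNReal _ (by positivity)]
        have e : φ k x - φ k y = (fk k x - fk k y) - ck k * Bψ * (cut 0 1 x - cut 0 1 y) := by
          simp only [hφ, hψ, hBψ]; ring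
        rw [e, add_mul]
        refine (abs_sub _ _).trans (add_le_add h1 ?_)
        rw [abs_mul, abs_mul, abs_of_nonneg hBψ0, mul_assoc (|ck k| * Bψ)]
        exact mul_le_mul_of_nonneg_left h2 (by positivity)
      · refine closure_minimal (fun x hx => ?_) isClosed_closedBall
        by_contra hx'
        refine hx ?_
        simp [hφ, hfks k x (fun h' => hx' (hRρ h')), hψs x hx']
      · have i1 : Integrable (fk k) m :=
          integrable_bounded_supp (hfkm k).aestronglyMeasurable (hfkB k) (hfks k)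
        have i2 : Integrable ψ m :=
          ((continuous_cut 0 1).integrable_of_hasCompactSupport
            (hasCompactSupport_cut 0 one_pos)).const_mul _
        simp only [hφ]
        rw [integral_sub i1 (i2.const_mul _), integral_const_mul, hψ1, mul_one]
        exact sub_self _
    have hφB : ∀ k x, |φ k x| ≤ B2 := fun k x => by
      refine (abs_sub _ _).trans (add_le_add (hfkB k x) ?_)
      rw [abs_mul]; exact mul_le_mul (hckB k) (hψb x) (abs_nonneg _) ((abs_nonneg _).trans (hckB k))
    have hM0 : 0 ≤ M := (abs_nonneg _).trans (hckB 0)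
    have hfB2 : ∀ x, |f x| ≤ B2 := fun x =>
      (hfB x).trans (le_add_of_nonneg_right (by positivity))
    have hfs : ∀ x ∉ closedBall (0 : Spc n) ρ, f x = 0 := fun x hx => by
      rw [mem_closedBall_zero_iff, not_le] at hx
      simp [hf, hDs x ((le_max_left R 2).trans hx.le)]
    have hlimφ : ∀ᵐ x ∂m, Tendsto (fun k => φ k x) atTop (𝓝 (f x)) := by
      filter_upwards [hlimfk] with x hx
      simpa [hφ] using hx.sub (hcklim.mul_const (ψ x))
    exact ⟨tailConst n C * ρ * (B2 * m.real (closedBall 0 ρ)), fun L hL δ hδ =>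
      eventually_trBil_le hn hC hup hRB hsmall hρ0 hφadm hφB hfB2 hfm hfs hlimφ hL hδ⟩
  choose A hA using hdir
  -- the sum over directions is the tested divergence
  have hsum : ∀ ε : ℝ, 0 < ε → ∀ L : ℝ, 0 < L →
      ∫ y, cut 0 L y * gEps h ε y ∂m =
        ∑ i, ⟪b i, trBil n m ε (fun x => (θ x : ℝ)⁻¹ * D x (b i)) (cut 0 L)⟫ := by
    intro ε hε L hL
    set w : Spc n → ℝ := cut 0 L
    have hfi : ∀ i, Integrable (fun p : Spc n × Spc n =>
        (((θ p.1 : ℝ)⁻¹ * D p.1 (b i)) * w p.2 * ramp (‖p.1 - p.2‖ / ε)) • riesz n (p.1 - p.2))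
        (m.prod m) := by
      intro i
      refine integrable_trBil' (f := fun x => (θ x : ℝ)⁻¹ * D x (b i)) (ρ := R)
        (B := (c : ℝ)⁻¹ * B) hε
        ((hθm.coe_nnreal_real.inv).mul (hDc.clm_apply continuous_const).measurable) (fun x => ?_)
        (fun x hx => ?_) (continuous_cut 0 L) (hasCompactSupport_cut 0 hL)
      · rw [abs_mul, abs_of_nonneg (by positivity : (0 : ℝ) ≤ (θ x : ℝ)⁻¹)]
        refine mul_le_mul (inv_anti₀ hc' (NNReal.coe_le_coe.mpr (hθ x))) ?_ (abs_nonneg _)
          (by positivity)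
        refine ((D x).le_opNorm (b i)).trans ?_
        rw [b.orthonormal.1 i, mul_one]; exact (ht.bd x).2
      · rw [mem_closedBall_zero_iff, not_le] at hx
        simp [hD, (ht.out x hx.le).2]
    set Φ : Spc n × Spc n → ℝ := fun p =>
      (θ p.1 : ℝ)⁻¹ * (w p.2 * (ramp (‖p.1 - p.2‖ / ε) * D p.1 (riesz n (p.1 - p.2)))) with hΦ
    have hΦeq : ∀ p, Φ p = ∑ i, ⟪b i, (((θ p.1 : ℝ)⁻¹ * D p.1 (b i)) * w p.2 *
        ramp (‖p.1 - p.2‖ / ε)) • riesz n (p.1 - p.2)⟫ := by
      intro p
      have hz : D p.1 (riesz n (p.1 - p.2)) =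
          ∑ i, ⟪b i, riesz n (p.1 - p.2)⟫ * D p.1 (b i) := by
        conv_lhs => rw [← b.sum_repr' (riesz n (p.1 - p.2))]
        simp only [map_sum, map_smul, smul_eq_mul]
      simp only [hΦ, hz, Finset.mul_sum, real_inner_smul_right]
      exact Finset.sum_congr rfl fun i _ => by ring
    have hΦi : Integrable Φ (m.prod m) := by
      rw [funext hΦeq]
      exact integrable_finsetSum _ fun i _ => (hfi i).const_inner (b i)
    have hr : ∫ p, Φ p ∂(m.prod m) =
        ∑ i, ⟪b i, trBil n m ε (fun x => (θ x : ℝ)⁻¹ * D x (b i)) (cut 0 L)⟫ := by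
      rw [funext hΦeq, integral_finsetSum _ fun i _ => (hfi i).const_inner (b i)]
      exact Finset.sum_congr rfl fun i _ => integral_inner (hfi i) (b i)
    rw [← hr, integral_prod_symm _ hΦi]
    refine integral_congr_ae (Eventually.of_forall fun y => ?_)
    simp only [hΦ]
    rw [integral_density_smul hθm hm, gEps, ← integral_const_mul]
    refine integral_congr_ae (Eventually.of_forall fun x => ?_)
    simp only [hD]
    rw [← mul_assoc (θ x : ℝ), mul_inv_cancel₀ (hθ0 x), one_mul]
  have hGi : Integrable (fracLap h) m :=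
    ((integrable_fracLap hn ht hmean).smul_measure ENNReal.coe_ne_top).mono_measure hmK
  -- limit in the truncation
  have hbound : ∀ L, 4 * ρ ≤ L → |∫ y, cut 0 L y * fracLap h y ∂m| ≤ (∑ i, A i) / L := by
    intro L hL
    have hL0 : 0 < L := by linarith
    have hwc := continuous_cut (0 : Spc n) L
    set T : ℝ := 2 * (2 * L + R)
    have hconv : Tendsto (fun ε => ∫ y, cut 0 L y * gEps h ε y ∂m) (𝓝[>] 0)
        (𝓝 (∫ y, cut 0 L y * -fracLap h y ∂m)) := by
      refine tendsto_integral_filter_of_dominated_convergence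
        (fun y => cut 0 L y * ∫ z, ddBound n Lp T z)
        (Eventually.of_forall fun ε =>
          (hwc.stronglyMeasurable.mul (measurable_gEps ht ε)).aestronglyMeasurable) ?_
        ((hwc.integrable_of_hasCompactSupport (hasCompactSupport_cut 0 hL0)).mul_const _)
        (Eventually.of_forall fun y => (tendsto_gEps hn ht y).const_mul _)
      filter_upwards [self_mem_nhdsWithin] with ε hε
      refine Eventually.of_forall fun y => ?_
      rw [Real.norm_eq_abs, abs_mul, abs_of_nonneg (cut_nonneg 0 L y)]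
      rcases lt_or_ge ‖y‖ (2 * L) with hy | hy
      · exact mul_le_mul_of_nonneg_left (abs_gEps_le hn ht hε (by simp only [T]; linarith))
          (cut_nonneg 0 L y)
      · rw [cut_eq_zero hL0 (by rwa [dist_zero_right]), zero_mul, zero_mul]
    have e : |∫ y, cut 0 L y * fracLap h y ∂m| = |∫ y, cut 0 L y * -fracLap h y ∂m| := by
      simp only [mul_neg, integral_neg, abs_neg]
    rw [e]
    refine le_of_forall_pos_le_add fun δ hδ => le_of_tendsto hconv.abs ?_
    have hδ' : 0 < δ / ((n : ℝ) + 1) := by positivity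
    filter_upwards [self_mem_nhdsWithin,
      eventually_all.mpr fun i => hA i L hL _ hδ'] with ε hε hAi
    rw [hsum ε hε L hL0]
    refine (Finset.abs_sum_le_sum_abs _ _).trans (le_trans (Finset.sum_le_sum fun i _ =>
      ((abs_real_inner_le_norm _ _).trans_eq (by rw [b.orthonormal.1 i, one_mul])).trans (hAi i)) ?_)
    rw [Finset.sum_add_distrib, ← Finset.sum_div, Finset.sum_const, Finset.card_univ,
      Fintype.card_fin, nsmul_eq_mul]
    gcongr
    rw [mul_div_assoc', div_le_iff₀ (by positivity)]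
    nlinarith
  -- limit in the window
  have hlimL : Tendsto (fun L => ∫ y, cut 0 L y * fracLap h y ∂m) atTop
      (𝓝 (∫ y, fracLap h y ∂m)) := by
    refine tendsto_integral_filter_of_dominated_convergence (fun y => |fracLap h y|)
      (Eventually.of_forall fun L => (continuous_cut 0 L).aestronglyMeasurable.mul hGi.1)
      (Eventually.of_forall fun L => Eventually.of_forall fun y => ?_) hGi.abs
      (Eventually.of_forall fun y => tendsto_const_nhds.congr' ?_)
    · rw [Real.norm_eq_abs, abs_mul]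
      exact mul_le_of_le_one_left (abs_nonneg _) (abs_cut_le_one 0 L y)
    · filter_upwards [eventually_ge_atTop (max ‖y‖ 1)] with L hL
      rw [cut_eq_one (lt_of_lt_of_le one_pos ((le_max_right _ _).trans hL))
        (by rw [dist_zero_right]; exact (le_max_left _ _).trans hL), one_mul]
  have hzero : |∫ y, fracLap h y ∂m| ≤ 0 :=
    le_of_tendsto_of_tendsto hlimL.abs (tendsto_id.const_div_atTop (∑ i, A i))
      (by filter_upwards [eventually_ge_atTop (4 * ρ)] with L hL using hbound L hL)
  rw [← integral_density_smul hθm hm]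
  exact abs_nonpos_iff.mp hzero

lemma exists_const_density (hn : 1 ≤ n) (hC : 1 ≤ C) (hup : UpperReg n C m)
    (hlow : ∀ (x : Spc n) (r : ℝ), 0 < r → ENNReal.ofReal (C⁻¹ * r ^ n) ≤ m (ball x r))
    (hRB : RB n C m) (hsmall : Small n C m) (hLiou : LiouvilleStmt) :
    ∃ θ₀ : ℝ, 0 < θ₀ ∧ m = ENNReal.ofReal θ₀ • (volume : Measure (Spc n)) := by
  obtain ⟨θ, c, K, hc, hθm, hθ, hmK, hm⟩ := exists_density m hC hup hlow
  obtain ⟨v0, -, heq, -⟩ := exists_upperReg_volume (n := n)
  have hA : AEStronglyMeasurable (fun x => (θ x : ℝ)) (volume : Measure (Spc n)) :=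
    hθm.coe_nnreal_real.aestronglyMeasurable
  have hgrow : ∀ R : ℝ, 1 ≤ R → IntegrableOn (fun x => (θ x : ℝ) ^ 2) (ball (0 : Spc n) R) ∧
      ∫ x in ball (0 : Spc n) R, (θ x : ℝ) ^ 2 ≤ (K : ℝ) ^ 2 * |v0| * R ^ (n + 3) := by
    intro R hR
    have hb : ∀ x, ‖(θ x : ℝ) ^ 2‖ ≤ (K : ℝ) ^ 2 := fun x => by
      rw [Real.norm_eq_abs, abs_of_nonneg (by positivity)]
      exact pow_le_pow_left₀ (NNReal.coe_nonneg _) (NNReal.coe_le_coe.mpr (hθ x).2) 2
    refine ⟨(integrableOn_const (C := (K : ℝ) ^ 2) measure_ball_lt_top.ne).mono'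
      (hθm.coe_nnreal_real.pow_const 2).aestronglyMeasurable.restrict (Eventually.of_forall hb), ?_⟩
    have h1 := norm_setIntegral_le_of_norm_le_const (μ := (volume : Measure (Spc n)))
      (s := ball (0 : Spc n) R) (f := fun x => (θ x : ℝ) ^ 2) measure_ball_lt_top fun x _ => hb x
    rw [Real.norm_eq_abs] at h1
    refine ((le_abs_self _).trans h1).trans ?_
    rw [mul_assoc]
    refine mul_le_mul_of_nonneg_left ?_ (by positivity)
    calc (volume : Measure (Spc n)).real (ball (0 : Spc n) R)
        ≤ |v0| * R ^ n := by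
          refine ENNReal.toReal_le_of_le_ofReal (by positivity)
            ((measure_mono ball_subset_closedBall).trans ?_)
          rw [heq 0 R (by linarith)]
          exact ENNReal.ofReal_le_ofReal (by gcongr; exact le_abs_self _)
      _ ≤ |v0| * R ^ (n + 3) := by
          gcongr
          omega
  obtain ⟨a, v, hav⟩ := hLiou n hn (fun x => (θ x : ℝ)) _ hA hgrow fun h hh hs hmean =>
    integral_fracLap_eq_zero hn hC hup hRB hsmall hc hθm (fun x => (hθ x).1) hmK hm hh hs hmean
  set S : Set (Spc n) := {x | a + ⟪v, x⟫ ∈ Icc (c : ℝ) K} with hS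
  have hSc : IsClosed S := isClosed_Icc.preimage (by fun_prop)
  have hall : S = univ := by
    by_contra hne
    have hpos : 0 < (volume : Measure (Spc n)) Sᶜ :=
      hSc.isOpen_compl.measure_pos volume (nonempty_compl.mpr hne)
    refine hpos.ne' ?_
    have hmem : ∀ᵐ x, x ∈ S := by
      filter_upwards [hav] with x hx
      rw [hS, mem_setOf_eq, ← hx]
      exact ⟨NNReal.coe_le_coe.mpr (hθ x).1, NNReal.coe_le_coe.mpr (hθ x).2⟩
    exact ae_iff.mp hmem
  have hv : v = 0 := by
    by_contra hv
    have hvv : (0 : ℝ) < ‖v‖ ^ 2 := by positivity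
    have := (hall.ge (mem_univ ((((K : ℝ) - a + 1) / ‖v‖ ^ 2) • v))).2
    rw [real_inner_smul_right, real_inner_self_eq_norm_sq, div_mul_cancel₀ _ hvv.ne'] at this
    linarith
  subst hv
  have ha : (c : ℝ) ≤ a := by simpa using (hall.ge (mem_univ (0 : Spc n))).1
  refine ⟨a, lt_of_lt_of_le (by exact_mod_cast hc) ha, ?_⟩
  rw [hm, withDensity_congr_ae (g := fun _ => ENNReal.ofReal a) ?_, withDensity_const]
  filter_upwards [hav] with x hx
  rw [inner_zero_left, add_zero] at hx
  rw [← hx, ENNReal.ofReal_coe_nnreal]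

/-! ### Pulling back to the plane -/

variable (P : Plane n d)

/-- the linear part of the parametrisation -/
def emb : Spc n →ₗᵢ[ℝ] Spc d where
  toFun u := ∑ i, u i • P.frame i
  map_add' u v := by simp [add_smul, Finset.sum_add_distrib]
  map_smul' c u := by simp [mul_smul, Finset.smul_sum]
  norm_map' u := by
    have := P.isometry_param.dist_eq u 0
    rw [dist_eq_norm, dist_zero_right] at this
    simpa [Plane.param] using this

lemma param_sub (u v : Spc n) : P.param u - P.param v = emb P (u - v) := by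
  simp [Plane.param, emb, sub_smul, Finset.sum_sub_distrib]

lemma riesz_emb (z : Spc n) : riesz n (emb P z) = emb P (riesz n z) := by
  rw [riesz, riesz, LinearIsometry.map_smul, LinearIsometry.norm_map]

lemma integral_param_prod (m : Measure (Spc n)) [IsLocallyFiniteMeasure m] {ν : Measure (Spc d)}
    [IsLocallyFiniteMeasure ν] (hν : ν = m.map P.param) (F : Spc d × Spc d → Spc d) :
    ∫ p, F p ∂(ν.prod ν) = ∫ p, F (P.param p.1, P.param p.2) ∂(m.prod m) := by
  have hme : MeasurableEmbedding P.param := P.isometry_param.isClosedEmbedding.measurableEmbedding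
  subst hν
  rw [Measure.map_prod_map _ _ hme.measurable hme.measurable,
    (hme.prodMap hme).integral_map]
  rfl

lemma trBil_param (m : Measure (Spc n)) [IsLocallyFiniteMeasure m] {ν : Measure (Spc d)}
    [IsLocallyFiniteMeasure ν] (hν : ν = m.map P.param) (ε : ℝ) {f g : Spc n → ℝ}
    {f' g' : Spc d → ℝ} (hf : ∀ u, f' (P.param u) = f u) (hg : ∀ u, g' (P.param u) = g u) :
    trBil n ν ε f' g' = emb P (trBil n m ε f g) := by
  unfold trBil
  rw [integral_param_prod P m hν, ← LinearIsometry.integral_comp_comm]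
  refine integral_congr_ae (Eventually.of_forall fun p => ?_)
  simp only
  rw [hf, hg, param_sub, riesz_emb, LinearIsometry.map_smul, LinearIsometry.norm_map]

lemma pairW_param (m : Measure (Spc n)) [IsLocallyFiniteMeasure m] {ν : Measure (Spc d)}
    [IsLocallyFiniteMeasure ν] (hν : ν = m.map P.param) {w φ : Spc n → ℝ} {w' φ' : Spc d → ℝ}
    (hw : ∀ u, w' (P.param u) = w u) (hφ : ∀ u, φ' (P.param u) = φ u) :
    pairW n ν w' φ' = emb P (pairW n m w φ) := by
  unfold pairW
  rw [integral_param_prod P m hν, LinearIsometry.map_smul, ← LinearIsometry.integral_comp_comm]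
  congr 1
  refine integral_congr_ae (Eventually.of_forall fun p => ?_)
  simp only
  rw [hw, hw, hφ, hφ, param_sub, riesz_emb, LinearIsometry.map_smul]

lemma cut_param (R : ℝ) (u : Spc n) : cut P.base R (P.param u) = cut 0 R u := by
  have h0 : P.param (0 : Spc n) = P.base := by simp [Plane.param]
  rw [cut, cut, ← h0, P.isometry_param.dist_eq]

end Vale.Agent.P120.FlatAux

namespace Vale.Agent.P120

open FlatAux

theorem flatConstStmt_of (hFill : FillStmt) (hLiou : LiouvilleStmt) : FlatConstStmt := by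
  intro n d hn hnd C ν _ hreg hRB hrefl hne P hsub
  have hC : 1 ≤ C := (hreg 0).one_le
  have hsupp : ν.support = P.carrier := hFill n d hn hnd C ν hreg hRB hrefl hne P hsub
  have hme : MeasurableEmbedding P.param := P.isometry_param.isClosedEmbedding.measurableEmbedding
  have hcar : ∀ᵐ y ∂ν, P.param (P.coord y) = y := by
    filter_upwards [Measure.support_mem_ae] with y hy
    obtain ⟨u, rfl⟩ := hsub hy
    rw [P.coord_param]
  set m : Measure (Spc n) := ν.map P.coord with hm
  have hνm : ν = m.map P.param := by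
    rw [hm, Measure.map_map hme.measurable P.continuous_coord.measurable]
    conv_lhs => rw [← Measure.map_id (μ := ν)]
    exact Measure.map_congr (hcar.mono fun y hy => hy.symm)
  have hball : ∀ u r, m (ball u r) = ν (ball (P.param u) r) := by
    intro u r
    rw [hm, Measure.map_apply P.continuous_coord.measurable measurableSet_ball]
    refine measure_congr ?_
    filter_upwards [hcar] with y hy
    show (dist (P.coord y) u < r) = (dist y (P.param u) < r)
    conv_rhs => rw [← hy, P.isometry_param.dist_eq]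
  have : IsLocallyFiniteMeasure m := ⟨fun u => ⟨ball u 1, ball_mem_nhds u one_pos, by
    rw [hball]; exact measure_ball_lt_top⟩⟩
  have hup : UpperReg n C m := fun u r hr => (hball u r).trans_le ((hreg 0).upper _ r hr)
  have hlow : ∀ (u : Spc n) (r : ℝ), 0 < r → ENNReal.ofReal (C⁻¹ * r ^ n) ≤ m (ball u r) := by
    intro u r hr
    rw [hball]
    exact (hreg r).lower _ (hsupp ▸ mem_range_self u) r hr le_rfl
  have hint : ∀ (F : Spc d → ℝ), ∫ y, F y ∂ν = ∫ u, F (P.param u) ∂m := fun F => by
    conv_lhs => rw [hνm]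
    exact hme.integral_map F
  have hRBm : RB n C m := by
    intro ε hε f g hf hf' hg hg'
    obtain ⟨R1, hR1, hf0⟩ := exists_window_radius (0 : Spc n) hf'
    obtain ⟨R2, hR2, hg0⟩ := exists_window_radius (0 : Spc n) hg'
    set R := max R1 R2
    have hR : 0 < R := lt_max_of_lt_left hR1
    set f' : Spc d → ℝ := fun y => cut P.base R y * f (P.coord y)
    set g' : Spc d → ℝ := fun y => cut P.base R y * g (P.coord y)
    have key : ∀ (k : Spc n → ℝ) (u : Spc n), (∀ x ∉ closedBall (0 : Spc n) R, k x = 0) →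
        cut P.base R (P.param u) * k (P.coord (P.param u)) = k u := by
      intro k u hk
      rw [cut_param, P.coord_param]
      by_cases hu : u ∈ closedBall (0 : Spc n) R
      · rw [cut_eq_one hR (mem_closedBall.mp hu), one_mul]
      · rw [hk u hu, mul_zero]
    have hfe : ∀ u, f' (P.param u) = f u := fun u => key f u fun x hx =>
      hf0 x fun h => hx (closedBall_subset_closedBall (le_max_left _ _) h)
    have hge : ∀ u, g' (P.param u) = g u := fun u => key g u fun x hx =>
      hg0 x fun h => hx (closedBall_subset_closedBall (le_max_right _ _) h)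
    have := hRB ε hε f' g' ((continuous_cut _ R).mul (hf.comp P.continuous_coord))
      ((hasCompactSupport_cut _ hR).mul_right) ((continuous_cut _ R).mul (hg.comp P.continuous_coord))
      ((hasCompactSupport_cut _ hR).mul_right)
    rw [trBil_param P m hνm ε hfe hge, LinearIsometry.norm_map, hint, hint] at this
    simpa only [hfe, hge] using this
  have hsmall : Small n C m := by
    intro φ ρ hρ hadm L hL
    have hL0 : 0 < L := by linarith
    obtain ⟨K, hK⟩ := hadm.lip
    have hcs : HasCompactSupport φ :=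
      IsCompact.of_isClosed_subset (isCompact_closedBall _ _) (isClosed_tsupport _) hadm.supp
    obtain ⟨Bf, hBf⟩ := hK.continuous.bounded_above_of_compact_support hcs
    have hB0 : 0 ≤ Bf := (norm_nonneg _).trans (hBf 0)
    set φ' : Spc d → ℝ := fun y => cut P.base ρ y * φ (P.coord y) with hφ'
    have he : ∀ u, φ' (P.param u) = φ u := by
      intro u
      rw [hφ']
      show cut P.base ρ (P.param u) * φ (P.coord (P.param u)) = φ u
      rw [cut_param, P.coord_param]
      by_cases hu : u ∈ closedBall (0 : Spc n) ρ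
      · rw [cut_eq_one hρ (mem_closedBall.mp hu), one_mul]
      · rw [image_eq_zero_of_notMem_tsupport fun h => hu (hadm.supp h), mul_zero]
    have hadm' : Adm ν P.base (2 * ρ) φ' := by
      refine ⟨⟨Real.toNNReal (ρ⁻¹ * Bf + K), LipschitzWith.of_dist_le_mul fun x y => ?_⟩,
        (tsupport_mul_subset_left).trans (tsupport_cut P.base hρ), ?_⟩
      · rw [Real.coe_toNNReal _ (by positivity), Real.dist_eq, add_mul]
        have e : φ' x - φ' y = (cut P.base ρ x - cut P.base ρ y) * φ (P.coord x)
            + cut P.base ρ y * (φ (P.coord x) - φ (P.coord y)) := by rw [hφ']; ring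
        rw [e]
        refine (abs_add_le _ _).trans (add_le_add ?_ ?_)
        · have h1 := (lipschitz_cut P.base hρ).dist_le_mul x y
          rw [Real.coe_toNNReal _ (by positivity), Real.dist_eq] at h1
          rw [abs_mul, mul_right_comm]
          exact mul_le_mul h1 (hBf _) (abs_nonneg _) (by positivity)
        · rw [abs_mul]
          refine (mul_le_of_le_one_left (abs_nonneg _) (abs_cut_le_one _ _ _)).trans ?_
          have h2 := hK.dist_le_mul (P.coord x) (P.coord y)
          rw [Real.dist_eq] at h2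
          exact h2.trans (by gcongr; exact P.dist_coord_le x y)
      · rw [hint]; simp only [he]; exact hadm.mean
    have hb := norm_pairing_sub_pairW_le (hreg 0).upper hn hadm' (R := L) (by linarith) hL0
      (isWindow_cut hL0 (by rw [dist_self, zero_add]) : IsWindow P.base L (cut P.base L))
    rw [hrefl _ _ φ' hadm', zero_sub, norm_neg,
      pairW_param P m hνm (cut_param P L) he, LinearIsometry.norm_map, hint] at hb
    simp only [he] at hb
    refine hb.trans_eq ?_
    ring
  obtain ⟨θ, hθ, hmθ⟩ := exists_const_density hn hC hup hlow hRBm hsmall hLiou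
  refine ⟨θ, hθ, ?_⟩
  rw [hνm, hmθ, Measure.map_smul]

end Vale.Agent.P120
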