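import Mathlib
import Vale.Agent.P120.Scaling
import Vale.Agent.P120.Improve.Tilt

/-!
Module Improve: flatness improves where `R 1` does not oscillate.
-/

noncomputable section

open MeasureTheory Metric Set Filter Topology
open scoped ENNReal NNReal RealInnerProductSpace

namespace Vale.Agent.P120

open Improve

/-- the compactness and contradiction part, in normalised scale -/
lemma improve_normalised (hComp : CompactStmt) (hFC : FlatConstStmt) (hE : EnergyStmt)
    (hLi : LiouvilleStmt) (hPS : PlaneStabStmt) {n d : ℕ} (hn : 1 ≤ n) (hnd : n < d) {C Λ κ : ℝ}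
    (hC : 1 ≤ C) (hΛ : 4 ≤ Λ) (hκ : 0 < κ) :
    ∃ k : ℕ, ∀ (μ : Measure (Spc d)) [IsLocallyFiniteMeasure μ] (D : ℝ), Reg n C D μ → RB n C μ →
      ∀ (I : ℕ) (z : ℕ → Spc d) (δ : ℝ), k ≤ I → (8 : ℝ) ^ I ≤ D → 0 ≤ δ →
        Chain n μ Λ (1 / ((k : ℝ) + 1)) I z → oscSq n μ ((k : ℝ) + 1) 0 1 ≤ ENNReal.ofReal δ →
        betaSq n μ Λ 0 1 ≤ κ * chainSum n μ Λ I z + ((k : ℝ) + 1) * δ := by
  obtain ⟨K, hK1, hK⟩ := chain_growth hPS hn hnd hC hΛ
  obtain ⟨C', -, hC'⟩ := hComp n d hn hnd C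
  by_contra hcon
  push Not at hcon
  choose μ hlf D hreg hrb I z δ hI hID hδ hch hosc hbeta using hcon
  set η : ℕ → ℝ := fun k => 1 / ((k : ℝ) + 1)
  set S : ℕ → ℝ := fun k => chainSum n (μ k) Λ (I k) (z k)
  have hη0 : ∀ k, 0 ≤ η k := fun k => by positivity
  have hη1 : ∀ k, η k ≤ 1 := fun k =>
    (div_le_one (by positivity)).2 (le_add_of_nonneg_left (Nat.cast_nonneg k))
  have hη : Tendsto η atTop (𝓝 0) := tendsto_one_div_add_atTop_nhds_zero_nat
  have hex := fun k => (by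
    have := hlf k
    exact hK (μ k) (D k) (η k) (I k) (z k) (hreg k) (hch k) (hID k) (hη0 k) (hη1 k) :
      S k ≤ K * η k ^ 2 + 2 * (1/2 : ℝ) ^ I k ∧ ∃ L : Plane n d,
        ‖L.base‖ ≤ K * (η k + Real.sqrt (S k)) ∧
        (∀ x : ℝ, 1 ≤ x → ∫ y in closedBall 0 x, ‖L.dev y‖ ^ 2 ∂(μ k) ≤ K * S k * x ^ (n + 3)) ∧
        ∀ i ≤ I k, ∀ y ∈ (μ k).support ∩ closedBall 0 (8 ^ i),
          ‖L.dev y‖ ≤ K * 64 ^ i * (η k + Real.sqrt (S k)))
  choose hS L hLb hLg hLf using hex
  have hSpos : ∀ k, 0 < S k := fun k => chainSum_pos (μ k) Λ (I k) (z k)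
  have hK0 : 0 ≤ K := by linarith
  set N : ℕ → ℝ := fun k => Real.sqrt (S k) with hN
  have hN2 : ∀ k, N k ^ 2 = S k := fun k => Real.sq_sqrt (hSpos k).le
  have hIt : Tendsto I atTop atTop := tendsto_atTop_mono hI tendsto_id
  have hS0 : Tendsto S atTop (𝓝 0) := by
    have h1 : Tendsto (fun k => K * η k ^ 2 + 2 * (1/2 : ℝ) ^ I k) atTop (𝓝 0) := by
      simpa using ((hη.pow 2).const_mul K).add
        (((tendsto_pow_atTop_nhds_zero_of_lt_one (by norm_num) (by norm_num : (1/2 : ℝ) < 1)).comp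
          hIt).const_mul 2)
    exact squeeze_zero (fun k => (hSpos k).le) hS h1
  have hN0 : Tendsto N atTop (𝓝 0) := by
    simpa [hN] using hS0.sqrt
  have hsum : Tendsto (fun k => η k + Real.sqrt (S k)) atTop (𝓝 0) := by
    simpa using hη.add hN0
  have hD : Tendsto D atTop atTop := tendsto_atTop_mono
    (fun k => (pow_le_pow_right₀ (by norm_num : (1:ℝ) ≤ 8) (hI k)).trans (hID k))
    (tendsto_pow_atTop_atTop_of_one_lt (by norm_num : (1:ℝ) < 8))
  have hb2 : ∀ k, betaSq n (μ k) Λ 0 1 ≤ 2 * S k := fun k => by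
    have := betaSq_le_chainSum (μ k) Λ (I k) (z k) (Nat.zero_le _) (n := n)
    rw [(hch k).base, pow_zero, pow_zero, mul_one] at this
    linarith [show (0:ℝ) < (1/2 : ℝ) ^ I k by positivity]
  have hB : Blow n C K μ D (fun k => (k : ℝ) + 1) δ N L :=
    { lf := hlf
      reg := hreg
      rb := hrb
      mem := fun k => (hch k).zero_mem
      D_top := hD
      M_top := tendsto_atTop_add_const_right _ _ tendsto_natCast_atTop_atTop
      N_pos := fun k => Real.sqrt_pos.2 (hSpos k)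
      N_zero := hN0
      base := squeeze_zero_norm hLb (by simpa using hsum.const_mul K)
      growth := fun k x hx => by rw [hN2]; exact hLg k x hx
      flat := fun R ε hε => by
        obtain ⟨i, hi⟩ := pow_unbounded_of_one_lt R (by norm_num : (1:ℝ) < 8)
        have h1 := (hsum.const_mul (K * 64 ^ i)).eventually (ge_mem_nhds (show K * 64 ^ i * 0 < ε by simpa using hε))
        filter_upwards [h1, hIt.eventually (eventually_ge_atTop i)] with k hk hki y hy
        exact (hLf k i hki y ⟨hy.1, closedBall_subset_closedBall hi.le hy.2⟩).trans hk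
      osc := hosc
      δ_nonneg := hδ
      δ_small := by
        refine squeeze_zero (fun k => div_nonneg (hδ k) (sq_nonneg _)) (fun k => ?_)
          (by simpa using (hη.const_mul 2))
        rw [hN2, div_le_iff₀ (hSpos k)]
        simp only [η]
        rw [mul_one_div, div_mul_eq_mul_div, le_div_iff₀ (by positivity)]
        nlinarith [hbeta k, hb2 k, mul_pos hκ (hSpos k)] }
  obtain ⟨U, hU⟩ : ∃ U : Ultrafilter ℕ, (U : Filter ℕ) ≤ atTop :=
    ⟨Filter.hyperfilter ℕ, Filter.hyperfilter_le_cofinite.trans Nat.cofinite_eq_atTop.le⟩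
  obtain ⟨ν, hνlf, hνreg, hνrb, hν0, hlim⟩ := hC' μ hlf D U hU hD
    fun k => ⟨hreg k, hrb k, hB.mem k⟩
  obtain ⟨P, hP0, hPb, hPf⟩ := exists_limit_plane U L (hB.base.mono_left hU)
  obtain ⟨θ, hθ, hν⟩ := hFC n d hn hnd C' ν hνreg hνrb (hB.reflectionless hU hn hνreg hν0 hlim)
    ⟨0, hν0⟩ P (hB.support_subset hU hlim hPb hPf)
  have hl : BlowLim n C C' K μ D (fun k => (k : ℝ) + 1) δ N L U ν P θ :=
    ⟨hU, hB, hK0, hνreg, hν0, hlim, hP0, hPb, hPf, hθ, hν⟩
  obtain ⟨k, hk⟩ := (hl.beta_small hE hLi hn hnd (show 1 ≤ Λ by linarith) hκ).exists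
  rw [hN2] at hk
  nlinarith [hbeta k, hk, hδ k, show (0:ℝ) ≤ (k : ℝ) by positivity]

/-- module Improve -/
theorem improveStmt_proof (hComp : CompactStmt) (hFC : FlatConstStmt) (hE : EnergyStmt)
    (hLi : LiouvilleStmt) (hPS : PlaneStabStmt) : ImproveStmt := by
  intro n d hn hnd C Λ κ hΛ hκ
  by_cases hC : 1 ≤ C
  swap
  · exact ⟨1, 0, 1, 0, one_pos, fun μ _ D hreg => absurd hreg.one_le hC⟩
  obtain ⟨k, hk⟩ := improve_normalised hComp hFC hE hLi hPS hn hnd hC hΛ hκ
  refine ⟨1 / ((k : ℝ) + 1), k, (k : ℝ) + 1, (k : ℝ) + 1, by positivity,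
    fun μ _ D hreg hrb I z t δ hI ht htD hδ hmem hstep hflat hosc => ?_⟩
  have := isLocallyFiniteMeasure_rescale (n := n) (μ := μ) (a := z 0) ht
  set z' : ℕ → Spc d := fun i => zoom (z 0) t (z i)
  have hz : ∀ i, z 0 + t • z' i = z i := fun i => add_smul_zoom ht.ne' (z i)
  have hz0 : z' 0 = 0 := by simp [z', zoom]
  have hch : Chain n (rescale n μ (z 0) t) Λ (1 / ((k : ℝ) + 1)) I z' :=
    { base := hz0
      mem := fun i hi => by rw [mem_support_rescale ht, hz]; exact hmem i hi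
      step := fun i hi => by
        simp only [z']
        rw [dist_zoom ht, inv_mul_le_iff₀ ht]
        exact (hstep i hi).trans_eq (by ring)
      flat := fun i hi => by
        rw [flat_rescale ht, hz, show t * (Λ * 8 ^ i) = Λ * (t * 8 ^ i) by ring,
          show t * (1 / ((k : ℝ) + 1) * 8 ^ i) = 1 / ((k : ℝ) + 1) * (t * 8 ^ i) by ring]
        exact hflat i hi }
  have hosc' : oscSq n (rescale n μ (z 0) t) ((k : ℝ) + 1) 0 1 ≤ ENNReal.ofReal δ := by
    rw [oscSq_rescale hreg.upper hn ht 0 one_pos, smul_zero, add_zero, mul_one]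
    exact hosc
  have := hk (rescale n μ (z 0) t) (D / t) (hreg.rescale _ ht) (hrb.rescale _ ht) I z' δ hI
    (by rw [le_div_iff₀ ht]; linarith) hδ hch hosc'
  rw [betaSq_rescale ht, smul_zero, add_zero, mul_one] at this
  simpa [chainSum, betaSq_rescale ht, hz] using this

end Vale.Agent.P120
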