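import Mathlib
import Vale.Agent.P120.Statements
import Vale.Agent.P120.Liouville.Test

/-!
The Liouville theorem for the half Laplacian.
-/

namespace Vale.Agent.P120

open MeasureTheory Set Filter Topology Module
open scoped RealInnerProductSpace

theorem liouvilleStmt_proof : LiouvilleStmt := by
  intro n hn A C hA hg heq
  haveI : Nontrivial (Spc n) :=
    nontrivial_of_finrank_pos (R := ℝ) (by rw [finrank_euclideanSpace_fin]; omega)
  have hi := Liouville.integrable_abs_mul_wt hA hg
  let ρb : ContDiffBump (0 : Spc n) := ⟨1, 2, one_pos, one_lt_two⟩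
  set ρ : Spc n → ℝ := ρb.normed volume with hρ
  have hρd : ContDiff ℝ ((⊤ : ℕ∞) : WithTop ℕ∞) ρ := ρb.contDiff_normed
  have hρs : HasCompactSupport ρ := ρb.hasCompactSupport_normed
  have hρ1 : ∫ y, ρ y = 1 := ρb.integral_normed
  have hρy : ∫ y, ρ y • y = 0 := by
    have h := integral_neg_eq_self (fun y => ρ y • y) volume
    simp only [hρ, ρb.normed_neg, smul_neg, integral_neg] at h
    linear_combination (norm := module) (-1/2 : ℝ) • h
  set e : Fin n → Spc n := fun i => EuclideanSpace.single i 1
  set dρ : Fin n → Spc n → ℝ := fun i y => -(fderiv ℝ ρ y (e i)) with hdρ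
  have hdd : ∀ i, ContDiff ℝ ((⊤ : ℕ∞) : WithTop ℕ∞) (dρ i) := fun i =>
    ((hρd.fderiv_right (m := ((⊤ : ℕ∞) : WithTop ℕ∞)) (by simp)).clm_apply contDiff_const).neg
  have hds : ∀ i, HasCompactSupport (dρ i) := fun i => (hρs.fderiv_apply (𝕜 := ℝ) (e i)).comp_left (g := fun t : ℝ => -t) neg_zero
  have hint : ∀ {g : Spc n → ℝ}, Continuous g → HasCompactSupport g → Integrable g :=
    fun h1 h2 => h1.integrable_of_hasCompactSupport h2
  have hparts : ∀ (ℓ : Spc n →L[ℝ] ℝ) (c : ℝ) (i : Fin n),
      ∫ y, (ℓ y + c) * dρ i y = ℓ (e i) := by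
    intro ℓ c i
    have hd : ∀ y, HasFDerivAt (fun y => ℓ y + c) ℓ y := fun y => ℓ.hasFDerivAt.add_const c
    have h := integral_mul_fderiv_eq_neg_fderiv_mul_of_integrable (μ := (volume : Measure (Spc n)))
      (f := fun y => ℓ y + c) (g := ρ) (v := e i)
      (by simp only [fun y => (hd y).fderiv]; exact (hint hρd.continuous hρs).const_mul _)
      (hint ((ℓ.continuous.add continuous_const).mul
          ((hρd.continuous_fderiv (by simp)).clm_apply continuous_const))
        (hρs.fderiv_apply (𝕜 := ℝ) (e i)).mul_left)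
      (hint ((ℓ.continuous.add continuous_const).mul hρd.continuous) hρs.mul_left)
      (fun y _ => (hd y).differentiableAt) (fun y _ => hρd.differentiable (by simp) y)
    simp only [fun y => (hd y).fderiv, integral_const_mul, hρ1, mul_one] at h
    simp only [hdρ, mul_neg, integral_neg, h, neg_neg]
  have hloc : LocallyIntegrable A volume := by
    refine (MeasureTheory.locallyIntegrable_iff).2 fun k hk => ?_
    obtain ⟨c, hc⟩ := hk.exists_bound_of_continuousOn
      ((Liouville.continuous_wt (V := Spc n)).inv₀ (fun x => by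
        unfold Liouville.wt; exact inv_ne_zero (pow_ne_zero _ (Liouville.one_add_pos x).ne'))).continuousOn
    refine (hi.integrableOn.const_mul c).mono' hA.restrict
      ((ae_restrict_mem hk.measurableSet).mono fun x hx => ?_)
    have h1 : (Liouville.wt x)⁻¹ ≤ c := (Real.norm_eq_abs _ ▸ le_abs_self _).trans (hc x hx)
    have h2 : 0 < Liouville.wt x := by
      unfold Liouville.wt; exact inv_pos.2 (pow_pos (Liouville.one_add_pos x) _)
    rw [Real.norm_eq_abs]
    calc |A x| = (Liouville.wt x)⁻¹ * (|A x| * Liouville.wt x) := by field_simp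
      _ ≤ _ := mul_le_mul_of_nonneg_right h1 (mul_nonneg (abs_nonneg _) h2.le)
  set a := ∫ x, A x * ρ x
  set v : Spc n := WithLp.toLp 2 fun i => ∫ x, A x * dρ i x with hv
  refine ⟨a, v, ?_⟩
  have haff : LocallyIntegrable (fun x : Spc n => a + ⟪v, x⟫) volume :=
    (by fun_prop : Continuous fun x : Spc n => a + ⟪v, x⟫).locallyIntegrable
  refine ae_eq_of_integral_contDiff_smul_eq hloc haff fun g hgd hgs => ?_
  simp only [smul_eq_mul]
  set m0 := ∫ y, g y
  set m : Fin n → ℝ := fun i => ∫ y, g y * y i
  set φ : Spc n → ℝ := fun y => g y - m0 * ρ y - ∑ i, m i * dρ i y with hφ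
  have hφd : ContDiff ℝ ((⊤ : ℕ∞) : WithTop ℕ∞) φ :=
    (hgd.sub (contDiff_const.mul hρd)).sub (ContDiff.sum fun i _ => contDiff_const.mul (hdd i))
  have hmul : ∀ (ℓ : Spc n → ℝ), Continuous ℓ → ∀ {h : Spc n → ℝ}, Continuous h →
      HasCompactSupport h → Integrable fun y => ℓ y * h y := fun ℓ hℓ h hh hhs =>
    hint (hℓ.mul hh) hhs.mul_left
  have hterm : ∀ i, HasCompactSupport fun y => m i * dρ i y := fun i => (hds i).mul_left
  have hφs : HasCompactSupport φ := by
    refine (hgs.sub hρs.mul_left).sub ?_
    refine HasCompactSupport.intro (K := ⋃ i, tsupport (fun y => m i * dρ i y))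
      (isCompact_iUnion fun i => (hterm i).isCompact) fun y hy => ?_
    exact Finset.sum_eq_zero fun i _ =>
      image_eq_zero_of_notMem_tsupport (f := fun y => m i * dρ i y)
        fun h => hy (mem_iUnion.2 ⟨i, h⟩)
  -- integrals of affine functions against the corrected function
  have hexp : ∀ (F : Spc n → ℝ), (∀ {h : Spc n → ℝ}, Continuous h → HasCompactSupport h →
      Integrable fun y => F y * h y) → ∫ y, F y * φ y =
        (∫ y, F y * g y) - m0 * (∫ y, F y * ρ y) - ∑ i, m i * ∫ y, F y * dρ i y := by
    intro F hF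
    have j1 := hF hgd.continuous hgs
    have j2 := (hF hρd.continuous hρs).const_mul m0
    have j3 : ∀ i ∈ (Finset.univ : Finset (Fin n)), Integrable fun y => m i * (F y * dρ i y) :=
      fun i _ => (hF (hdd i).continuous (hds i)).const_mul (m i)
    have eφ : (fun y => F y * φ y) =
        fun y => F y * g y - m0 * (F y * ρ y) - ∑ i, m i * (F y * dρ i y) := by
      funext y; simp only [hφ, mul_sub, Finset.mul_sum, mul_left_comm (F y)]
    have j4 : Integrable fun y => F y * g y - m0 * (F y * ρ y) := j1.sub j2
    rw [eφ, integral_sub j4 (integrable_finset_sum _ j3), integral_sub j1 j2,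
      integral_finset_sum _ j3]
    simp only [integral_const_mul]
  have hcoordρ : ∀ j : Fin n, ∫ y : Spc n, y j * ρ y = 0 := fun j => by
    have hIy : Integrable fun y : Spc n => ρ y • y :=
      (hρd.continuous.smul continuous_id).integrable_of_hasCompactSupport hρs.smul_right
    have h := (EuclideanSpace.proj j : Spc n →L[ℝ] ℝ).integral_comp_comm hIy
    rw [hρy, map_zero] at h
    simpa [mul_comm] using h
  have hphi0 : ∫ y, φ y = 0 := by
    have h := hexp (fun _ => (1 : ℝ)) (fun hh hhs => hmul _ continuous_const hh hhs)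
    have hz : ∀ i, ∫ y, (1 : ℝ) * dρ i y = 0 := fun i => by simpa using hparts 0 1 i
    simp only [one_mul] at h hz
    rw [h, hρ1]
    simp [hz, m0]
  have hphi1 : ∫ y, φ y • y = 0 := by
    have hI : Integrable fun y => φ y • y :=
      (hφd.continuous.smul continuous_id).integrable_of_hasCompactSupport hφs.smul_right
    ext j
    have h := (EuclideanSpace.proj j : Spc n →L[ℝ] ℝ).integral_comp_comm hI
    simp only [EuclideanSpace.proj, PiLp.proj_apply] at h ⊢
    simp only [PiLp.smul_apply, smul_eq_mul, PiLp.zero_apply] at h ⊢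
    rw [← h]
    have h2 := hexp (fun y => y j) (fun hh hhs => hmul _ (by fun_prop) hh hhs)
    have hd' : ∀ i, ∫ y : Spc n, y j * dρ i y = if i = j then 1 else 0 := fun i => by
      have := hparts (EuclideanSpace.proj j) 0 i
      simpa [e, EuclideanSpace.single_apply, eq_comm] using this
    rw [hcoordρ j] at h2
    simp only [hd', mul_ite, mul_one, mul_zero, Finset.sum_ite_eq', Finset.mem_univ, if_true,
      sub_zero] at h2
    rw [show (fun y : Spc n => φ y * y j) = fun y => y j * φ y from funext fun y => mul_comm _ _, h2]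
    simp [m, mul_comm]
  have hA0 := Liouville.integral_mul_eq_zero_of_moments hA hi heq hφd hφs hphi0 hphi1
  have hAint : ∀ {h : Spc n → ℝ}, Continuous h → HasCompactSupport h →
      Integrable fun y => A y * h y := fun hh hhs =>
    hloc.integrable_smul_right_of_hasCompactSupport hh hhs
  have hmain := hexp A hAint
  rw [hA0] at hmain
  have haffint : ∫ y : Spc n, g y * (a + ⟪v, y⟫) = a * m0 + ∑ i, v i * m i := by
    have hi2 : ∀ i ∈ (Finset.univ : Finset (Fin n)),
        Integrable fun y : Spc n => v i * (g y * y i) := fun i _ =>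
      ((hgd.continuous.mul (by fun_prop)).integrable_of_hasCompactSupport hgs.mul_right).const_mul _
    have ea : (fun y : Spc n => g y * (a + ⟪v, y⟫)) =
        fun y => a * g y + ∑ i, v i * (g y * y i) := by
      funext y
      rw [mul_add, PiLp.inner_apply, Finset.mul_sum]
      simp only [RCLike.inner_apply, conj_trivial]
      congr 1
      · ring
      · exact Finset.sum_congr rfl fun i _ => by ring
    rw [ea, integral_add ((hint hgd.continuous hgs).const_mul a) (integrable_finset_sum _ hi2),
      integral_finset_sum _ hi2]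
    simp only [integral_const_mul, m0, m]
  have hga : ∫ y, g y * A y = ∫ y, A y * g y :=
    integral_congr_ae (Eventually.of_forall fun y => mul_comm _ _)
  rw [haffint, hga]
  have hvm : ∑ i, m i * (∫ y, A y * dρ i y) = ∑ i, v i * m i :=
    Finset.sum_congr rfl fun i _ => by simp [hv, mul_comm]
  rw [hvm] at hmain
  have : a * m0 = m0 * ∫ y, A y * ρ y := mul_comm _ _
  linarith

end Vale.Agent.P120
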