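import Mathlib
import Vale.Agent.P120.Kernel

/-!
From the problem's hypotheses to the internal ones.
-/

noncomputable section

open MeasureTheory Metric Set Filter Topology
open scoped ENNReal NNReal RealInnerProductSpace

namespace Vale.Agent.P120

variable {d n : ℕ} {μ : Measure (Spc d)}

/-- an AD-regular measure with nondegenerate support is regular up to the diameter, and has
upper growth everywhere -/
lemma exists_reg_of_isADRegular [IsLocallyFiniteMeasure μ] (h : IsADRegular n μ)
    (hpos : 0 < ediam μ.support) :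
    ∃ C : ℝ, ∀ D : ℝ, ENNReal.ofReal D ≤ ediam μ.support → Reg n C D μ := by
  obtain ⟨C, hC1, hC⟩ := h
  have hC0 : 0 ≤ C := zero_le_one.trans hC1
  obtain ⟨C₀, hCC₀, hsup⟩ : ∃ C₀, C ≤ C₀ ∧ ∀ y ∈ μ.support, ∀ s, 0 < s →
      μ (ball y s) ≤ ENNReal.ofReal (C₀ * s ^ n) := by
    by_cases htop : ediam μ.support = ⊤
    · exact ⟨C, le_rfl, fun y hy s hs => (hC y hy s hs (by rw [htop]; exact le_top)).2⟩
    · set D₀ := (ediam μ.support).toReal with hD₀
      have hD₀pos : 0 < D₀ := ENNReal.toReal_pos hpos.ne' htop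
      have hbdd : Bornology.IsBounded μ.support := isBounded_iff_ediam_ne_top.mpr htop
      have hfin : μ univ ≠ ⊤ := by
        have : μ univ ≤ μ μ.support + μ μ.supportᶜ := by
          rw [← union_compl_self μ.support]; exact measure_union_le _ _
        rw [Measure.measure_compl_support, add_zero] at this
        exact (lt_of_le_of_lt this hbdd.measure_lt_top).ne
      refine ⟨max C ((μ univ).toReal / D₀ ^ n), le_max_left _ _, fun y hy s hs => ?_⟩
      rcases le_or_gt (ENNReal.ofReal s) (ediam μ.support) with hle | hgt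
      · refine (hC y hy s hs hle).2.trans (ENNReal.ofReal_le_ofReal ?_)
        gcongr; exact le_max_left _ _
      · refine (measure_mono (subset_univ _)).trans ((ENNReal.le_ofReal_iff_toReal_le hfin ?_).mpr ?_)
        · exact mul_nonneg (hC0.trans (le_max_left _ _)) (by positivity)
        · have hDs : D₀ ≤ s := by
            rw [hD₀, ← ENNReal.toReal_ofReal hs.le]
            exact ENNReal.toReal_mono ENNReal.ofReal_ne_top hgt.le
          calc (μ univ).toReal = (μ univ).toReal / D₀ ^ n * D₀ ^ n := by field_simp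
            _ ≤ max C ((μ univ).toReal / D₀ ^ n) * s ^ n := by
                gcongr; exact le_max_right _ _
  have hC₀0 : 0 ≤ C₀ := hC0.trans hCC₀
  have h2n : (1 : ℝ) ≤ 2 ^ n := one_le_pow₀ one_le_two
  refine ⟨C₀ * 2 ^ n, fun D hD => ⟨?_, fun x s hs => ?_, fun x hx s hs hsD => ?_⟩⟩
  · calc (1 : ℝ) = 1 * 1 := (one_mul 1).symm
      _ ≤ C₀ * 2 ^ n := mul_le_mul (hC1.trans hCC₀) h2n zero_le_one hC₀0
  · by_cases hne : (ball x s ∩ μ.support).Nonempty
    · obtain ⟨y, hy1, hy2⟩ := hne
      refine (measure_mono (ball_subset_ball' ?_ : ball x s ⊆ ball y (2 * s))).trans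
        ((hsup y hy2 _ (by positivity)).trans (le_of_eq ?_))
      · have := mem_ball.mp hy1; rw [dist_comm]; linarith
      · rw [mul_pow]; ring_nf
    · have h0 : μ (ball x s) = 0 := measure_mono_null
        (fun z hz hzs => hne ⟨z, hz, hzs⟩) Measure.measure_compl_support
      rw [h0]; exact zero_le
  · refine le_trans (ENNReal.ofReal_le_ofReal ?_)
      (hC x hx s hs ((ENNReal.ofReal_le_ofReal hsD).trans hD)).1
    gcongr
    calc C = C * 1 := (mul_one C).symm
      _ ≤ C₀ * 2 ^ n := mul_le_mul hCC₀ h2n zero_le_one hC₀0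

lemma toReal_volume_Ioc_inter_Iio (t : ℝ) :
    (volume (Ioc (1 : ℝ) 2 ∩ Iio t)).toReal = ramp t := by
  rcases le_or_gt t 2 with ht | ht
  · have : Ioc (1 : ℝ) 2 ∩ Iio t = Ioo 1 t := by
      ext s; simp only [mem_inter_iff, mem_Ioc, mem_Iio, mem_Ioo]
      constructor
      · rintro ⟨⟨a, -⟩, b⟩; exact ⟨a, b⟩
      · rintro ⟨a, b⟩; exact ⟨⟨a, by linarith⟩, b⟩
    rw [this, Real.volume_Ioo, ENNReal.toReal_ofReal']
    rcases le_or_gt t 1 with ht1 | ht1
    · rw [ramp_eq_zero ht1, max_eq_right (by linarith)]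
    · rw [ramp, max_eq_left (by linarith), max_eq_right (by linarith), min_eq_right (by linarith)]
  · have : Ioc (1 : ℝ) 2 ∩ Iio t = Ioc 1 2 := inter_eq_left.mpr fun s hs =>
      mem_Iio.mpr (lt_of_le_of_lt hs.2 ht)
    rw [this, Real.volume_Ioc, ramp_eq_one ht.le]; norm_num

lemma toReal_eLpNorm_two {u : Spc d → ℝ} (hu : MemLp u 2 μ) :
    (eLpNorm u 2 μ).toReal = Real.sqrt (∫ x, u x ^ 2 ∂μ) := by
  rw [hu.eLpNorm_eq_integral_rpow_norm two_ne_zero ENNReal.ofNat_ne_top,
    ENNReal.toReal_ofReal (by positivity), Real.sqrt_eq_rpow]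
  simp

lemma norm_integral_smul_le_eLpNorm {f : Spc d → ℝ} {F : Spc d → Spc d}
    (hf : MemLp f 2 μ) (hF : MemLp F 2 μ) :
    ‖∫ x, f x • F x ∂μ‖ ≤ (eLpNorm f 2 μ).toReal * (eLpNorm F 2 μ).toReal := by
  have h := eLpNorm_smul_le_mul_eLpNorm (p := 2) (q := 2) (r := 1) hF.aestronglyMeasurable
    hf.aestronglyMeasurable
  have hfin : eLpNorm f 2 μ * eLpNorm F 2 μ ≠ ⊤ :=
    ENNReal.mul_ne_top hf.eLpNorm_ne_top hF.eLpNorm_ne_top
  rw [← ENNReal.toReal_mul]
  refine le_trans ?_ (ENNReal.toReal_mono hfin h)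
  rw [eLpNorm_one_eq_lintegral_enorm]
  simpa [ofReal_norm] using norm_integral_le_lintegral_norm (μ := μ) (fun x => f x • F x)

/-- boundedness of the sharp truncations gives weak boundedness with smooth truncations -/
lemma exists_RB_of_rieszBounded [IsLocallyFiniteMeasure μ] (h : RieszBounded n μ) :
    ∃ C : ℝ, RB n C μ := by
  obtain ⟨C, hC⟩ := h
  refine ⟨C, fun ε hε f g hf hf' hg hg' => ?_⟩
  set S : Measure ℝ := volume.restrict (Ioc (1 : ℝ) 2) with hS
  haveI : IsFiniteMeasure S := ⟨by simp [hS]⟩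
  have hgL : MemLp g 2 μ := hg.memLp_of_hasCompactSupport hg'
  have hfi : Integrable f μ := hf.integrable_of_hasCompactSupport hf'
  have hgi : Integrable g μ := hg.integrable_of_hasCompactSupport hg'
  -- the triple integrand
  set G : ℝ × (Spc d × Spc d) → Spc d := fun q =>
    {q : ℝ × (Spc d × Spc d) | q.1 * ε < ‖q.2.1 - q.2.2‖}.indicator
      (fun q => (f q.2.1 * g q.2.2) • riesz n (q.2.1 - q.2.2)) q with hG
  have hset : MeasurableSet {q : ℝ × (Spc d × Spc d) | q.1 * ε < ‖q.2.1 - q.2.2‖} :=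
    measurableSet_lt (by fun_prop) (by fun_prop)
  have hGm : Measurable G := Measurable.indicator (by fun_prop) hset
  have hGi : Integrable G (S.prod (μ.prod μ)) := by
    have hb : Integrable (fun q : ℝ × (Spc d × Spc d) => (1 : ℝ) * (|f q.2.1| * |g q.2.2| * (ε ^ n)⁻¹))
        (S.prod (μ.prod μ)) :=
      (integrable_const (1 : ℝ)).mul_prod ((hfi.abs.mul_prod hgi.abs).mul_const _)
    refine hb.mono' hGm.aestronglyMeasurable ?_
    have hae : ∀ᵐ q ∂(S.prod (μ.prod μ)), q.1 ∈ Ioc (1 : ℝ) 2 :=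
      Measure.quasiMeasurePreserving_fst.ae (ae_restrict_mem measurableSet_Ioc)
    filter_upwards [hae] with q hq
    by_cases hm : q.1 * ε < ‖q.2.1 - q.2.2‖
    · simp only [hG]
      rw [indicator_of_mem (show q ∈ {q : ℝ × (Spc d × Spc d) | q.1 * ε < ‖q.2.1 - q.2.2‖} from hm),
        one_mul, norm_smul, Real.norm_eq_abs, abs_mul]
      gcongr
      refine (norm_riesz_le _).trans (inv_anti₀ (by positivity) (pow_le_pow_left₀ hε.le ?_ _))
      nlinarith [hq.1]
    · simp only [hG]
      rw [indicator_of_notMem (show q ∉ {q : ℝ × (Spc d × Spc d) | q.1 * ε < ‖q.2.1 - q.2.2‖} from hm),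
        norm_zero]
      positivity
  -- integrating over the truncation first gives the ramp
  have inner_s : ∀ p : Spc d × Spc d, ∫ s, G (s, p) ∂S
      = (f p.1 * g p.2 * ramp (‖p.1 - p.2‖ / ε)) • riesz n (p.1 - p.2) := by
    intro p
    set t := ‖p.1 - p.2‖ / ε
    have hEq : (fun s => G (s, p))
        = (Iio t).indicator fun _ => (f p.1 * g p.2) • riesz n (p.1 - p.2) := by
      funext s
      by_cases hs : s * ε < ‖p.1 - p.2‖
      · simp only [hG]
        rw [indicator_of_mem (show (s, p) ∈ {q : ℝ × (Spc d × Spc d) | q.1 * ε < ‖q.2.1 - q.2.2‖}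
            from hs), indicator_of_mem (show s ∈ Iio t from (lt_div_iff₀ hε).mpr hs)]
      · simp only [hG]
        rw [indicator_of_notMem (show (s, p) ∉ {q : ℝ × (Spc d × Spc d) | q.1 * ε < ‖q.2.1 - q.2.2‖}
            from hs), indicator_of_notMem (show s ∉ Iio t from fun hm => hs ((lt_div_iff₀ hε).mp hm))]
    rw [hEq, integral_indicator_const _ measurableSet_Iio, smul_smul]
    congr 1
    rw [hS, measureReal_def, Measure.restrict_apply measurableSet_Iio,
      show Iio t ∩ Ioc (1 : ℝ) 2 = Ioc 1 2 ∩ Iio t from inter_comm _ _]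
    rw [toReal_volume_Ioc_inter_Iio]; ring
  -- fixed truncation
  have inner_p : ∀ s ∈ Ioc (1 : ℝ) 2, ‖∫ p, G (s, p) ∂(μ.prod μ)‖ ≤
      C * Real.sqrt (∫ x, f x ^ 2 ∂μ) * Real.sqrt (∫ x, g x ^ 2 ∂μ) := by
    intro s hs
    have hse : 0 < s * ε := mul_pos (by linarith [hs.1]) hε
    obtain ⟨-, hbound⟩ := hC g hgL (s * ε) hse
    have hslice : Integrable (fun p => G (s, p)) (μ.prod μ) := by
      refine ((hfi.abs.mul_prod hgi.abs).mul_const ((ε ^ n)⁻¹)).mono'
        (hGm.comp measurable_prodMk_left).aestronglyMeasurable (Eventually.of_forall fun p => ?_)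
      by_cases hm : s * ε < ‖p.1 - p.2‖
      · simp only [hG]
        rw [indicator_of_mem (show (s, p) ∈ {q : ℝ × (Spc d × Spc d) | q.1 * ε < ‖q.2.1 - q.2.2‖}
          from hm), norm_smul, Real.norm_eq_abs, abs_mul]
        gcongr
        refine (norm_riesz_le _).trans (inv_anti₀ (by positivity) (pow_le_pow_left₀ hε.le ?_ _))
        nlinarith [hs.1]
      · simp only [hG]
        rw [indicator_of_notMem (show (s, p) ∉ {q : ℝ × (Spc d × Spc d) | q.1 * ε < ‖q.2.1 - q.2.2‖}
          from hm), norm_zero]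
        positivity
    have heq : ∀ x, ∫ y, G (s, (x, y)) ∂μ = f x • rieszTrunc n μ (s * ε) g x := by
      intro x
      have hset' : MeasurableSet {y : Spc d | s * ε < ‖x - y‖} :=
        measurableSet_lt measurable_const (by fun_prop)
      rw [rieszTrunc, ← integral_indicator hset', ← integral_smul]
      refine integral_congr_ae (Eventually.of_forall fun y => ?_)
      by_cases hm : s * ε < ‖x - y‖
      · simp only [hG]
        rw [indicator_of_mem (show (s, (x, y)) ∈ {q : ℝ × (Spc d × Spc d) | q.1 * ε < ‖q.2.1 - q.2.2‖}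
          from hm), indicator_of_mem (show y ∈ {y : Spc d | s * ε < ‖x - y‖} from hm), smul_smul]
      · simp only [hG]
        rw [indicator_of_notMem (show (s, (x, y)) ∉ {q : ℝ × (Spc d × Spc d) | q.1 * ε < ‖q.2.1 - q.2.2‖}
          from hm), indicator_of_notMem (show y ∉ {y : Spc d | s * ε < ‖x - y‖} from hm), smul_zero]
    rw [integral_prod _ hslice]
    simp only [heq]
    -- the Hölder step
    have hR : AEStronglyMeasurable (rieszTrunc n μ (s * ε) g) μ := by
      have hm : Measurable fun p : Spc d × Spc d =>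
          {p : Spc d × Spc d | s * ε < ‖p.1 - p.2‖}.indicator
            (fun p => g p.2 • riesz n (p.1 - p.2)) p :=
        Measurable.indicator (by fun_prop) (measurableSet_lt measurable_const (by fun_prop))
      have := (hm.stronglyMeasurable.integral_prod_right' (ν := μ)).aestronglyMeasurable (μ := μ)
      refine this.congr (Eventually.of_forall fun x => ?_)
      simp only [rieszTrunc]
      rw [← integral_indicator (measurableSet_lt measurable_const (by fun_prop))]
      rfl
    have hfL : MemLp f 2 μ := hf.memLp_of_hasCompactSupport hf'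
    have hRL : MemLp (rieszTrunc n μ (s * ε) g) 2 μ :=
      ⟨hR, lt_of_le_of_lt hbound (ENNReal.mul_lt_top ENNReal.coe_lt_top hgL.eLpNorm_lt_top)⟩
    refine (norm_integral_smul_le_eLpNorm hfL hRL).trans ?_
    rw [toReal_eLpNorm_two hfL, mul_comm (C : ℝ), mul_assoc]
    refine mul_le_mul_of_nonneg_left ?_ (Real.sqrt_nonneg _)
    refine (ENNReal.toReal_mono (ENNReal.mul_ne_top ENNReal.coe_ne_top hgL.eLpNorm_ne_top) hbound).trans
      (le_of_eq ?_)
    rw [ENNReal.toReal_mul, ENNReal.coe_toReal, toReal_eLpNorm_two hgL]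
  have hfub : trBil n μ ε f g = ∫ s, ∫ p, G (s, p) ∂(μ.prod μ) ∂S := by
    rw [integral_integral_swap hGi]
    simp only [inner_s, trBil]
  rw [hfub]
  refine (norm_integral_le_of_norm_le_const ((ae_restrict_iff' measurableSet_Ioc).mpr
    (Eventually.of_forall inner_p))).trans (le_of_eq ?_)
  rw [measureReal_def, Measure.restrict_apply MeasurableSet.univ, univ_inter, Real.volume_Ioc]
  norm_num

end Vale.Agent.P120
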