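import Mathlib
import Vale.Agent.P120.Core

/-!
Cubes: nesting, masses, oscillation sums over descendants, and finite families of flat tops.
-/

noncomputable section

open MeasureTheory Metric Set
open scoped ENNReal NNReal

namespace Vale.Agent.P120

variable {d : ℕ}

theorem side_pos' {ρ : ℝ} (hρ : 0 < ρ) (k : ℕ) : 0 < side ρ k := div_pos hρ (pow_pos (by norm_num) k)

theorem side_le_of_le {ρ : ℝ} (hρ : 0 < ρ) {k m : ℕ} (h : k ≤ m) : side ρ m ≤ side ρ k :=
  div_le_div_of_nonneg_left hρ.le (pow_pos (by norm_num) k) (pow_le_pow_right₀ (by norm_num) h)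

theorem side_le_self {ρ : ℝ} (hρ : 0 < ρ) (k : ℕ) : side ρ k ≤ ρ := by
  have h := side_le_of_le hρ (Nat.zero_le k)
  simpa [side] using h

theorem side_side (ρ : ℝ) (k j : ℕ) : side (side ρ k) j = side ρ (k + j) := by
  simp only [side, div_div, pow_add]

namespace Cubes

variable {μ : Measure (Spc d)} {ρ : ℝ} (Q : Cubes μ ρ)

theorem mem_cell (hρ : 0 < ρ) {k : ℕ} {z : Spc d} (hz : z ∈ Q.X k) : z ∈ Q.cell k z :=
  Q.inner k z hz ⟨Q.subset k hz, mem_ball_self (by have := side_pos' hρ k; positivity)⟩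

theorem cell_ball {k : ℕ} {z : Spc d} (hz : z ∈ Q.X k) {y : Spc d} (hy : y ∈ Q.cell k z) :
    dist y z ≤ 2 * side ρ k :=
  mem_closedBall.1 (Q.outer k z hz hy).2

theorem mem_supp {k : ℕ} {z : Spc d} (hz : z ∈ Q.X k) {y : Spc d} (hy : y ∈ Q.cell k z) :
    y ∈ μ.support :=
  (Q.outer k z hz hy).1

theorem exists_cell (k : ℕ) {y : Spc d} (hy : y ∈ μ.support) :
    ∃ z ∈ Q.X k, y ∈ Q.cell k z := by
  obtain ⟨z, hz, hyz⟩ := mem_iUnion₂.1 (Q.cover k hy)
  exact ⟨z, hz, hyz⟩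

theorem eq_of_mem {k : ℕ} {z z' y : Spc d} (hz : z ∈ Q.X k) (hz' : z' ∈ Q.X k)
    (hy : y ∈ Q.cell k z) (hy' : y ∈ Q.cell k z') : z = z' := by
  by_contra h
  exact disjoint_left.1 (Q.disj k hz hz' h) hy hy'

theorem subset_of_meet {k : ℕ} {z : Spc d} (hz : z ∈ Q.X k) : ∀ {m : ℕ}, k ≤ m → ∀ {w : Spc d},
    w ∈ Q.X m → ∀ {y : Spc d}, y ∈ Q.cell m w → y ∈ Q.cell k z → Q.cell m w ⊆ Q.cell k z := by
  intro m hkm
  induction m, hkm using Nat.le_induction with
  | base =>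
    intro w hw y hy hy'
    rw [Q.eq_of_mem hw hz hy hy']
  | succ m _ ih =>
    intro w hw y hy hy'
    exact (Q.nested m w hw).trans (ih (Q.parent_mem m w hw) (Q.nested m w hw hy) hy')

theorem below_refl {q : ℕ × Spc d} (hq : q.2 ∈ Q.X q.1) : Q.Below q q := ⟨le_rfl, hq, subset_rfl⟩

theorem Below.trans' {Q : Cubes μ ρ} {p q r : ℕ × Spc d} (h₁ : Q.Below p q) (h₂ : Q.Below q r) :
    Q.Below p r :=
  ⟨h₂.1.trans h₁.1, h₁.2.1, h₁.2.2.trans h₂.2.2⟩

theorem Below.mem_cell' {Q : Cubes μ ρ} (hρ : 0 < ρ) {p q : ℕ × Spc d} (h : Q.Below p q) :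
    p.2 ∈ Q.cell q.1 q.2 :=
  h.2.2 (Q.mem_cell hρ h.2.1)

theorem below_of_meet {p q : ℕ × Spc d} (hq : q.2 ∈ Q.X q.1) (hp : p.2 ∈ Q.X p.1)
    (hle : q.1 ≤ p.1) {y : Spc d} (hyp : y ∈ Q.cell p.1 p.2) (hyq : y ∈ Q.cell q.1 q.2) :
    Q.Below p q :=
  ⟨hle, hp, Q.subset_of_meet hq hle hp hyp hyq⟩

/-- two cells with disjoint interiors have separated centres -/
theorem dist_centre {k : ℕ} {z : Spc d} (hz : z ∈ Q.X k) {y : Spc d} (hy : y ∈ μ.support)
    (hy' : y ∉ Q.cell k z) : side ρ k / 8 ≤ dist y z := by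
  by_contra h
  exact hy' (Q.inner k z hz ⟨hy, mem_ball.2 (not_le.1 h)⟩)

variable {n : ℕ} {C D : ℝ}

theorem cell_le (hρ : 0 < ρ) (hreg : Reg n C D μ) {k : ℕ} {z : Spc d} (hz : z ∈ Q.X k) :
    μ (Q.cell k z) ≤ ENNReal.ofReal (C * 3 ^ n * side ρ k ^ n) := by
  have hs := side_pos' hρ k
  refine le_trans (measure_mono fun y hy => ?_)
    ((hreg.upper z (3 * side ρ k) (by positivity)).trans (le_of_eq (by rw [mul_pow, mul_assoc])))
  rw [mem_ball]
  have := Q.cell_ball hz hy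
  linarith

theorem cell_ge (hρ : 0 < ρ) (hD : ρ ≤ D) (hreg : Reg n C D μ) {k : ℕ} {z : Spc d}
    (hz : z ∈ Q.X k) :
    ENNReal.ofReal (C⁻¹ / 8 ^ n * side ρ k ^ n) ≤ μ (Q.cell k z) := by
  have hs := side_pos' hρ k
  have h := hreg.lower z (Q.subset k hz) (side ρ k / 8) (by positivity)
    (by have := side_le_self hρ k; linarith)
  refine le_trans (le_of_eq (by rw [div_pow]; ring_nf)) (h.trans ?_)
  rw [← measure_inter_conull (s := ball z (side ρ k / 8)) Measure.measure_compl_support]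
  exact measure_mono fun y hy => Q.inner k z hz ⟨hy.2, hy.1⟩

theorem cell_ne_top (hρ : 0 < ρ) (hreg : Reg n C D μ) {k : ℕ} {z : Spc d} (hz : z ∈ Q.X k) :
    μ (Q.cell k z) ≠ ⊤ :=
  ne_top_of_le_ne_top ENNReal.ofReal_ne_top (Q.cell_le hρ hreg hz)

/-- the mass ratio of a cube to a descendant `N` levels below -/
def ratio (n : ℕ) (C : ℝ) (N : ℕ) : ℝ := C * 3 ^ n * (C * 8 ^ n) * (8 ^ N) ^ n

theorem ratio_ge_one (hC : 1 ≤ C) (n N : ℕ) : 1 ≤ ratio n C N := by
  have h3 : (1 : ℝ) ≤ 3 ^ n := one_le_pow₀ (by norm_num)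
  have h8 : (1 : ℝ) ≤ 8 ^ n := one_le_pow₀ (by norm_num)
  have hN : (1 : ℝ) ≤ (8 ^ N) ^ n := one_le_pow₀ (one_le_pow₀ (by norm_num))
  exact one_le_mul_of_one_le_of_one_le
    (one_le_mul_of_one_le_of_one_le (one_le_mul_of_one_le_of_one_le hC h3)
      (one_le_mul_of_one_le_of_one_le hC h8)) hN

theorem real_cell_le_ratio (hρ : 0 < ρ) (hD : ρ ≤ D) (hreg : Reg n C D μ) {q p : ℕ × Spc d}
    (hq : q.2 ∈ Q.X q.1) (hp : p.2 ∈ Q.X p.1) {N : ℕ} (hN : p.1 ≤ q.1 + N) :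
    μ.real (Q.cell q.1 q.2) ≤ ratio n C N * μ.real (Q.cell p.1 p.2) := by
  have hC : 0 < C := lt_of_lt_of_le one_pos hreg.one_le
  have hsq := side_pos' hρ q.1
  have hsp := side_pos' hρ p.1
  have h1 : μ.real (Q.cell q.1 q.2) ≤ C * 3 ^ n * side ρ q.1 ^ n :=
    ENNReal.toReal_le_of_le_ofReal (by positivity) (Q.cell_le hρ hreg hq)
  have h2 : C⁻¹ / 8 ^ n * side ρ p.1 ^ n ≤ μ.real (Q.cell p.1 p.2) :=
    (ENNReal.ofReal_le_iff_le_toReal (Q.cell_ne_top hρ hreg hp)).1 (Q.cell_ge hρ hD hreg hp)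
  have h3 : side ρ q.1 ≤ 8 ^ N * side ρ p.1 := by
    have e : side ρ q.1 = 8 ^ N * side ρ (q.1 + N) := by
      simp only [side, pow_add]
      field_simp
    rw [e]
    exact mul_le_mul_of_nonneg_left (side_le_of_le hρ hN) (by positivity)
  calc μ.real (Q.cell q.1 q.2) ≤ C * 3 ^ n * side ρ q.1 ^ n := h1
    _ ≤ C * 3 ^ n * (8 ^ N * side ρ p.1) ^ n := by gcongr
    _ = ratio n C N * (C⁻¹ / 8 ^ n * side ρ p.1 ^ n) := by
        rw [ratio, mul_pow]; field_simp
    _ ≤ _ := mul_le_mul_of_nonneg_left h2 (by rw [ratio]; positivity)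

/-- disjoint cubes below `q`, at most `N` levels down, are few -/
theorem card_below_le (hρ : 0 < ρ) (hD : ρ ≤ D) (hreg : Reg n C D μ) {q : ℕ × Spc d}
    (hq : q.2 ∈ Q.X q.1) {N : ℕ} (S : Finset (ℕ × Spc d))
    (hS : ∀ p ∈ S, Q.Below p q ∧ p.1 ≤ q.1 + N)
    (hdisj : (S : Set (ℕ × Spc d)).PairwiseDisjoint fun p => Q.cell p.1 p.2) :
    (S.card : ℝ) ≤ ratio n C N := by
  have htop := Q.cell_ne_top hρ hreg hq
  have h1 : ∑ p ∈ S, μ.real (Q.cell p.1 p.2) ≤ μ.real (Q.cell q.1 q.2) := by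
    rw [← measureReal_biUnion_finset hdisj (fun p hp => Q.meas _ _ (hS p hp).1.2.1)
      (fun p hp => Q.cell_ne_top hρ hreg (hS p hp).1.2.1)]
    exact measureReal_mono (iUnion₂_subset fun p hp => (hS p hp).1.2.2) htop
  have hC : 0 < C := lt_of_lt_of_le one_pos hreg.one_le
  have hpos : 0 < μ.real (Q.cell q.1 q.2) := by
    have := side_pos' hρ q.1
    exact lt_of_lt_of_le (by positivity)
      ((ENNReal.ofReal_le_iff_le_toReal htop).1 (Q.cell_ge hρ hD hreg hq))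
  have h2 : (S.card : ℝ) * μ.real (Q.cell q.1 q.2) ≤ ratio n C N * μ.real (Q.cell q.1 q.2) := by
    calc (S.card : ℝ) * μ.real (Q.cell q.1 q.2)
        = ∑ p ∈ S, μ.real (Q.cell q.1 q.2) := by rw [Finset.sum_const, nsmul_eq_mul]
      _ ≤ ∑ p ∈ S, ratio n C N * μ.real (Q.cell p.1 p.2) :=
          Finset.sum_le_sum fun p hp =>
            Q.real_cell_le_ratio hρ hD hreg hq (hS p hp).1.2.1 (hS p hp).2
      _ ≤ _ := by
          rw [← Finset.mul_sum]
          exact mul_le_mul_of_nonneg_left h1 (by rw [ratio]; positivity)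
  exact le_of_mul_le_mul_right h2 hpos

/-- a finite family of flat tops carrying all but a small part of a cube -/
theorem exists_tops (hρ : 0 < ρ) (hD : ρ ≤ D) (hreg : Reg n C D μ) {J N₀ : ℕ}
    {good : ℕ × Spc d → Prop}
    (hdesc : ∀ q : ℕ × Spc d, J ≤ q.1 → q.2 ∈ Q.X q.1 →
      ∃ p, Q.Below p q ∧ p.1 ≤ q.1 + N₀ ∧ good p) :
    ∀ (L : ℕ) (q : ℕ × Spc d), J ≤ q.1 → q.2 ∈ Q.X q.1 → ∃ S : Finset (ℕ × Spc d),
      (∀ p ∈ S, Q.Below p q ∧ p.1 ≤ q.1 + L * N₀ ∧ good p) ∧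
      (S : Set (ℕ × Spc d)).PairwiseDisjoint (fun p => Q.cell p.1 p.2) ∧
      μ.real (Q.cell q.1 q.2) ≤ ∑ p ∈ S, μ.real (Q.cell p.1 p.2) +
        (1 - (ratio n C N₀)⁻¹) ^ L * μ.real (Q.cell q.1 q.2) := by
  classical
  intro L
  induction L with
  | zero => exact fun q _ _ => ⟨∅, by simp, by simp, by simp⟩
  | succ L ih =>
    intro q hJ hq
    obtain ⟨f, hfq, hfN, hfgood⟩ := hdesc q hJ hq
    set m := q.1 + N₀ with hm
    set ch : Set (ℕ × Spc d) :=
      {p | p.1 = m ∧ Q.Below p q ∧ ¬ Q.cell p.1 p.2 ⊆ Q.cell f.1 f.2} with hch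
    have hdisj_m : ∀ p ∈ ch, ∀ p' ∈ ch, p ≠ p' →
        Disjoint (Q.cell p.1 p.2) (Q.cell p'.1 p'.2) := by
      rintro ⟨k, w⟩ ⟨rfl, hw, -⟩ ⟨k', w'⟩ ⟨hk', hw', -⟩ hne
      simp only at hk'
      subst hk'
      exact Q.disj m hw.2.1 hw'.2.1 fun h => hne (by simp only at h; subst h; rfl)
    have hfin : ch.Finite := by
      by_contra hinf
      obtain ⟨S, hS, hScard⟩ :=
        Set.Infinite.exists_subset_card_eq hinf (⌈ratio n C N₀⌉₊ + 1)
      have := Q.card_below_le hρ hD hreg hq S (N := N₀)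
        (fun p hp => ⟨(hS hp).2.1, le_of_eq (hS hp).1⟩)
        (fun p hp p' hp' hne => hdisj_m p (hS hp) p' (hS hp') hne)
      rw [hScard] at this
      push_cast at this
      linarith [Nat.le_ceil (ratio n C N₀)]
    set Ch := hfin.toFinset with hCh
    choose F hF hFd hFm using fun p : {p // p ∈ Ch} =>
      ih p.1 (by
          have hp := hfin.mem_toFinset.1 p.2
          have := hp.1
          omega)
        (hfin.mem_toFinset.1 p.2).2.1.2.1
    have hchf : ∀ p ∈ ch, Disjoint (Q.cell p.1 p.2) (Q.cell f.1 f.2) := by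
      intro p hp
      rw [disjoint_left]
      intro y hyp hyf
      exact hp.2.2 (Q.subset_of_meet hfq.2.1 (by have := hp.1; omega) hp.2.1.2.1 hyp hyf)
    have hF' : ∀ p : {p // p ∈ Ch}, ∀ s ∈ F p, Q.cell s.1 s.2 ⊆ Q.cell p.1.1 p.1.2 :=
      fun p s hs => (hF p s hs).1.2.2
    have hnot : f ∉ Ch.attach.biUnion F := by
      intro h
      obtain ⟨p, -, hs⟩ := Finset.mem_biUnion.1 h
      exact disjoint_left.1 (hchf p.1 (hfin.mem_toFinset.1 p.2))
        (hF' p f hs (Q.mem_cell hρ hfq.2.1)) (Q.mem_cell hρ hfq.2.1)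
    refine ⟨insert f (Ch.attach.biUnion F), ?_, ?_, ?_⟩
    · intro s hs
      rcases Finset.mem_insert.1 hs with rfl | hs
      · exact ⟨hfq, le_trans hfN (by rw [add_mul, one_mul]; omega), hfgood⟩
      · obtain ⟨p, -, hs⟩ := Finset.mem_biUnion.1 hs
        have hp := hfin.mem_toFinset.1 p.2
        obtain ⟨h1, h2, h3⟩ := hF p s hs
        refine ⟨h1.trans' hp.2.1, ?_, h3⟩
        have := hp.1
        rw [add_mul, one_mul]
        omega
    · rw [Finset.coe_insert]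
      refine Set.PairwiseDisjoint.insert ?_ ?_
      · intro s hs s' hs' hne
        obtain ⟨p, -, hs⟩ := Finset.mem_biUnion.1 hs
        obtain ⟨p', -, hs'⟩ := Finset.mem_biUnion.1 hs'
        by_cases hpp : p = p'
        · subst hpp
          exact hFd p hs hs' hne
        · exact (hdisj_m p.1 (hfin.mem_toFinset.1 p.2) p'.1 (hfin.mem_toFinset.1 p'.2)
            fun h => hpp (Subtype.ext h)).mono (hF' p s hs) (hF' p' s' hs')
      · intro s hs _
        obtain ⟨p, -, hs⟩ := Finset.mem_biUnion.1 hs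
        exact ((hchf p.1 (hfin.mem_toFinset.1 p.2)).mono_left (hF' p s hs)).symm
    · rw [Finset.sum_insert hnot]
      have hbi : ∑ s ∈ Ch.attach.biUnion F, μ.real (Q.cell s.1 s.2) =
          ∑ p ∈ Ch.attach, ∑ s ∈ F p, μ.real (Q.cell s.1 s.2) := by
        refine Finset.sum_biUnion ?_
        intro p _ p' _ hpp
        rw [Function.onFun, Finset.disjoint_left]
        intro s hs hs'
        exact disjoint_left.1 (hdisj_m p.1 (hfin.mem_toFinset.1 p.2) p'.1
          (hfin.mem_toFinset.1 p'.2) fun h => hpp (Subtype.ext h))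
          (hF' p s hs (Q.mem_cell hρ (hF p s hs).1.2.1))
          (hF' p' s hs' (Q.mem_cell hρ (hF p s hs).1.2.1))
      rw [hbi]
      have hunion : μ.real (Q.cell q.1 q.2) =
          μ.real (Q.cell f.1 f.2) + ∑ p ∈ Ch, μ.real (Q.cell p.1 p.2) := by
        have htop := Q.cell_ne_top hρ hreg hfq.2.1
        have hsdiff : Q.cell q.1 q.2 \ Q.cell f.1 f.2 = ⋃ p ∈ Ch, Q.cell p.1 p.2 := by
          ext y
          simp only [mem_sdiff, mem_iUnion, exists_prop, hCh, Set.Finite.mem_toFinset]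
          constructor
          · rintro ⟨hyq, hyf⟩
            obtain ⟨w, hw, hyw⟩ := Q.exists_cell m (Q.mem_supp hq hyq)
            exact ⟨(m, w), ⟨rfl, Q.below_of_meet (p := (m, w)) hq hw (by simp only; omega) hyw hyq,
              fun h => hyf (h hyw)⟩, hyw⟩
          · rintro ⟨p, hp, hyp⟩
            exact ⟨hp.2.1.2.2 hyp, fun h => disjoint_left.1 (hchf p hp) hyp h⟩
        have h1 := measureReal_sdiff (μ := μ) hfq.2.2 (Q.meas _ _ hfq.2.1)
          (Q.cell_ne_top hρ hreg hq)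
        rw [hsdiff, measureReal_biUnion_finset
          (fun p hp p' hp' hne => hdisj_m p (hfin.mem_toFinset.1 hp) p' (hfin.mem_toFinset.1 hp') hne)
          (fun p hp => Q.meas _ _ (hfin.mem_toFinset.1 hp).2.1.2.1)
          (fun p hp => Q.cell_ne_top hρ hreg (hfin.mem_toFinset.1 hp).2.1.2.1)] at h1
        linarith
      have hR := ratio_ge_one hreg.one_le n N₀
      have hfr := Q.real_cell_le_ratio hρ hD hreg hq hfq.2.1 hfN
      set β := 1 - (ratio n C N₀)⁻¹ with hβ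
      have hβ0 : 0 ≤ β := by
        rw [hβ, sub_nonneg]; exact inv_le_one_of_one_le₀ hR
      have hsum : ∑ p ∈ Ch, μ.real (Q.cell p.1 p.2) ≤ β * μ.real (Q.cell q.1 q.2) := by
        have : (ratio n C N₀)⁻¹ * μ.real (Q.cell q.1 q.2) ≤ μ.real (Q.cell f.1 f.2) := by
          rw [inv_mul_le_iff₀ (by linarith)]; exact hfr
        rw [hβ, sub_mul, one_mul]
        linarith
      have hrec : ∑ p ∈ Ch, μ.real (Q.cell p.1 p.2) ≤
          ∑ p ∈ Ch.attach, ∑ s ∈ F p, μ.real (Q.cell s.1 s.2) +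
            β ^ L * ∑ p ∈ Ch, μ.real (Q.cell p.1 p.2) := by
        rw [← Finset.sum_attach Ch, Finset.mul_sum, ← Finset.sum_add_distrib]
        exact Finset.sum_le_sum fun p _ => hFm p
      have h2 : β ^ L * ∑ p ∈ Ch, μ.real (Q.cell p.1 p.2) ≤
          β ^ (L + 1) * μ.real (Q.cell q.1 q.2) := by
        rw [pow_succ, mul_assoc]
        exact mul_le_mul_of_nonneg_left hsum (pow_nonneg hβ0 L)
      linarith

/-- oscillation summed over all descendants -/
def oscSum (n : ℕ) (M : ℝ) (q : ℕ × Spc d) : ℝ≥0∞ :=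
  ∑' p : ℕ × Spc d, {p | Q.Below p q}.indicator
    (fun p => oscSq n μ M p.2 (side ρ p.1) * μ (Q.cell p.1 p.2)) p

theorem sum_oscSum_le (M : ℝ) {q : ℕ × Spc d} {ι : Type*} (e : ι → ℕ × Spc d)
    (he : ∀ i, Q.Below (e i) q) (hρ : 0 < ρ)
    (hdisj : Pairwise fun i j => Disjoint (Q.cell (e i).1 (e i).2) (Q.cell (e j).1 (e j).2)) :
    ∑' i, Q.oscSum n M (e i) ≤ Q.oscSum n M q := by
  classical
  simp only [oscSum]
  rw [ENNReal.tsum_comm]
  refine ENNReal.tsum_le_tsum fun p => ?_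
  by_cases h : ∃ i, Q.Below p (e i)
  · obtain ⟨i, hi⟩ := h
    rw [tsum_eq_single i]
    · simp [Set.indicator_of_mem, hi, hi.trans' (he i)]
    · intro j hj
      refine Set.indicator_of_notMem ?_ _
      intro hpj
      exact disjoint_left.1 (hdisj hj) (hpj.mem_cell' hρ) (hi.mem_cell' hρ)
  · push Not at h
    simp [Set.indicator_of_notMem, h]

theorem tree_add_exits_le (M : ℝ) (hρ : 0 < ρ) {T : ℕ × Spc d} {X : Set (ℕ × Spc d)}
    (hX : ∀ e ∈ X, Q.Below e T) (hdisj : X.PairwiseDisjoint fun e => Q.cell e.1 e.2) :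
    (∑' q : ↥(Q.tree T X), oscSq n μ M q.1.2 (side ρ q.1.1) * μ (Q.cell q.1.1 q.1.2)) +
      ∑' e : ↥X, Q.oscSum n M e.1 ≤ Q.oscSum n M T := by
  classical
  have hcell : Pairwise fun i j : ↥X =>
      Disjoint (Q.cell i.1.1 i.1.2) (Q.cell j.1.1 j.1.2) :=
    fun i j hij => hdisj i.2 j.2 fun h => hij (Subtype.ext h)
  simp only [oscSum]
  rw [tsum_subtype (Q.tree T X) (fun q => oscSq n μ M q.2 (side ρ q.1) * μ (Q.cell q.1 q.2)),
    ENNReal.tsum_comm, ← ENNReal.tsum_add]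
  refine ENNReal.tsum_le_tsum fun p => ?_
  by_cases h : ∃ e : ↥X, Q.Below p e.1
  · obtain ⟨e, he⟩ := h
    have hnot : p ∉ Q.tree T X := fun hp => hp.2 e.1 e.2 he
    rw [Set.indicator_of_notMem hnot, zero_add, tsum_eq_single e]
    · simp [Set.indicator_of_mem, he, he.trans' (hX e.1 e.2)]
    · intro j hj
      refine Set.indicator_of_notMem ?_ _
      intro hpj
      exact disjoint_left.1 (hcell hj) (hpj.mem_cell' hρ) (he.mem_cell' hρ)
  · push Not at h
    have h0 : ∀ e : ↥X, {q | Q.Below q e.1}.indicator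
        (fun q => oscSq n μ M q.2 (side ρ q.1) * μ (Q.cell q.1 q.2)) p = 0 :=
      fun e => Set.indicator_of_notMem (show p ∉ {q | Q.Below q e.1} from h e) _
    simp only [h0, tsum_zero, add_zero]
    by_cases hp : p ∈ Q.tree T X
    · simp [Set.indicator_of_mem, hp, hp.1]
    · simp [Set.indicator_of_notMem, hp]

theorem oscSum_le (hρ : 0 < ρ) (hD : ρ ≤ D) (hreg : Reg n C D μ) {M C' : ℝ} (hC' : 0 ≤ C')
    (hpack : ∀ x ∈ μ.support, ∀ r : ℝ, 0 < r → r ≤ D → ∀ S : Finset (ℕ × Spc d),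
      (∀ q ∈ S, q.2 ∈ μ.support ∩ closedBall x (4 * r)) →
      (∀ q ∈ S, ∀ q' ∈ S, q.1 = q'.1 → q ≠ q' → side r q.1 / 8 ≤ dist q.2 q'.2) →
      ∑ q ∈ S, oscSq n μ M q.2 (side r q.1) * ENNReal.ofReal (side r q.1 ^ n)
        ≤ ENNReal.ofReal (C' * r ^ n))
    {q : ℕ × Spc d} (hq : q.2 ∈ Q.X q.1) :
    Q.oscSum n M q ≤ ENNReal.ofReal (C * 3 ^ n * C' * (C * 8 ^ n)) * μ (Q.cell q.1 q.2) := by
  classical
  have hC : 0 < C := lt_of_lt_of_le one_pos hreg.one_le
  have hs := side_pos' hρ q.1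
  rw [oscSum, ENNReal.tsum_eq_iSup_sum]
  refine iSup_le fun S => ?_
  rw [Finset.sum_indicator_eq_sum_filter]
  set S' := S.filter fun p => p ∈ {p | Q.Below p q} with hS'
  have hb : ∀ p ∈ S', Q.Below p q := fun p hp => (Finset.mem_filter.1 hp).2
  set φ : ℕ × Spc d → ℕ × Spc d := fun p => (p.1 - q.1, p.2) with hφ
  have hinj : Set.InjOn φ (S' : Set (ℕ × Spc d)) := by
    intro a ha b hb' hab
    simp only [hφ, Prod.mk.injEq] at hab
    have h1 := (hb a ha).1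
    have h2 := (hb b hb').1
    exact Prod.ext (by omega) hab.2
  have hside : ∀ p ∈ S', side (side ρ q.1) (p.1 - q.1) = side ρ p.1 := fun p hp => by
    rw [side_side, Nat.add_sub_cancel' (hb p hp).1]
  have hp := hpack q.2 (Q.subset _ hq) (side ρ q.1) hs ((side_le_self hρ _).trans hD)
    (S'.image φ) (by
      intro p hp
      obtain ⟨a, ha, rfl⟩ := Finset.mem_image.1 hp
      have hmem := (hb a ha).mem_cell' hρ
      refine ⟨Q.mem_supp hq hmem, mem_closedBall.2 ?_⟩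
      have := Q.cell_ball hq hmem
      simp only [hφ]
      linarith) (by
      intro p hp p' hp' heq hne
      obtain ⟨a, ha, rfl⟩ := Finset.mem_image.1 hp
      obtain ⟨b, hb', rfl⟩ := Finset.mem_image.1 hp'
      simp only [hφ] at heq hne ⊢
      have h1 := (hb a ha).1
      have h2 := (hb b hb').1
      have hlev : a.1 = b.1 := by omega
      rw [hside a ha]
      have hne' : a.2 ≠ b.2 := fun h => hne (by rw [heq, h])
      have := Q.sep a.1 a.2 (hb a ha).2.1 b.2 (hlev ▸ (hb b hb').2.1) hne'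
      have := side_pos' hρ a.1
      linarith)
  rw [Finset.sum_image hinj] at hp
  calc ∑ p ∈ S', oscSq n μ M p.2 (side ρ p.1) * μ (Q.cell p.1 p.2)
      ≤ ∑ p ∈ S', ENNReal.ofReal (C * 3 ^ n) *
          (oscSq n μ M (φ p).2 (side (side ρ q.1) (φ p).1) *
            ENNReal.ofReal (side (side ρ q.1) (φ p).1 ^ n)) := by
        refine Finset.sum_le_sum fun p hp => ?_
        simp only [hφ, hside p hp]
        rw [mul_left_comm]
        refine mul_le_mul_right ?_ _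
        rw [← ENNReal.ofReal_mul (by positivity)]
        exact Q.cell_le hρ hreg (hb p hp).2.1
    _ ≤ ENNReal.ofReal (C * 3 ^ n) * ENNReal.ofReal (C' * side ρ q.1 ^ n) := by
        rw [← Finset.mul_sum]
        exact mul_le_mul_right hp _
    _ = ENNReal.ofReal (C * 3 ^ n * C' * (C * 8 ^ n)) *
          ENNReal.ofReal (C⁻¹ / 8 ^ n * side ρ q.1 ^ n) := by
        rw [← ENNReal.ofReal_mul (by positivity), ← ENNReal.ofReal_mul (by positivity)]
        congr 1
        field_simp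
    _ ≤ _ := mul_le_mul_right (Q.cell_ge hρ hD hreg hq) _

end Cubes

end Vale.Agent.P120
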