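import Mathlib
import Vale.Agent.P120.Core

/-!
Gluing Lipschitz maps defined on separated balls of `ℝ^n` into one map.
-/

noncomputable section

open MeasureTheory Metric Set
open scoped ENNReal NNReal RealInnerProductSpace

namespace Vale.Agent.P120

variable {n d : ℕ}

/-- the constant lost in extending a Lipschitz map -/
def extC (d : ℕ) : ℝ≥0 := lipschitzExtensionConstant (Spc d)

/-- maps that are uniformly compatible on a family of pieces extend -/
theorem exists_glue {ι : Type*} (K : ℝ≥0) (D : ι → Set (Spc n)) (F : ι → Spc n → Spc d)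
    (h : ∀ i j, ∀ u ∈ D i, ∀ v ∈ D j, dist (F i u) (F j v) ≤ K * dist u v) :
    ∃ H : Spc n → Spc d, LipschitzWith (extC d * K) H ∧ ∀ i, EqOn H (F i) (D i) := by
  classical
  set f : Spc n → Spc d := fun u =>
    if hu : ∃ i, u ∈ D i then F hu.choose u else 0 with hf
  have heq : ∀ i, ∀ u ∈ D i, f u = F i u := by
    intro i u hu
    have hex : ∃ i, u ∈ D i := ⟨i, hu⟩
    simp only [hf, dif_pos hex]
    have := h _ i u hex.choose_spec u hu
    rw [dist_self, mul_zero] at this
    exact dist_le_zero.1 this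
  have hl : LipschitzOnWith K f (⋃ i, D i) := by
    refine LipschitzOnWith.of_dist_le_mul fun u hu v hv => ?_
    obtain ⟨i, hi⟩ := mem_iUnion.1 hu
    obtain ⟨j, hj⟩ := mem_iUnion.1 hv
    rw [heq i u hi, heq j v hj]
    exact h i j u hi v hj
  obtain ⟨H, hH, hEq⟩ := hl.extend_finite_dimension
  exact ⟨H, hH, fun i u hu => by rw [← hEq (mem_iUnion.2 ⟨i, hu⟩), heq i u hu]⟩

theorem Plane.coord_lipschitz (L : Plane n d) (y z : Spc d) :
    dist (L.coord y) (L.coord z) ≤ dist y z := by
  rw [dist_eq_norm, dist_eq_norm]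
  refine le_of_pow_le_pow_left₀ two_ne_zero (norm_nonneg _) ?_
  have h := L.orth.sum_inner_products_le (y - z) (s := Finset.univ)
  rw [EuclideanSpace.norm_sq_eq]
  refine le_trans (le_of_eq (Finset.sum_congr rfl fun i _ => ?_)) h
  simp only [Plane.coord, PiLp.sub_apply, ← inner_sub_right, sub_sub_sub_cancel_right]

/-- maps on the exit balls and the identity on the rest of a graph glue to one map -/
theorem glue_graph {ι : Type*} (P : Spc d → Spc n) (S : Set (Spc d)) (z : ι → Spc d)
    (s : ι → ℝ) (g : ι → Spc n → Spc d) (M : ℝ≥0) (hs : ∀ i, 0 < s i)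
    (hg : ∀ i, LipschitzWith M (g i)) (hg0 : ∀ i, g i 0 = z i)
    (hA : ∀ a ∈ S ∪ range z, ∀ b ∈ S ∪ range z, dist a b ≤ 2 * dist (P a) (P b))
    (hzS : ∀ i, ∀ a ∈ S, s i / 8 ≤ dist a (z i))
    (hzz : ∀ i j, i ≠ j → s i / 8 ≤ dist (z i) (z j)) :
    ∃ H : Spc n → Spc d, LipschitzWith (extC d * (128 * M + 4)) H ∧
      (∀ a ∈ S, H (P a) = a) ∧
      ∀ i, ∀ u : Spc n, ‖u‖ ≤ s i → H (P (z i) + (1/128 : ℝ) • u) = g i u := by
  classical
  let D : Option ι → Set (Spc n) := fun o =>
    o.elim (P '' S) fun i => closedBall (P (z i)) (s i / 128)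
  let F : Option ι → Spc n → Spc d := fun o =>
    o.elim (fun u => if hu : u ∈ P '' S then hu.choose else 0)
      fun i u => g i ((128 : ℝ) • (u - P (z i)))
  have hF0 : ∀ a ∈ S, F none (P a) = a := by
    intro a ha
    have hu : P a ∈ P '' S := mem_image_of_mem _ ha
    simp only [F, Option.elim_none, dif_pos hu]
    obtain ⟨h1, h2⟩ := hu.choose_spec
    have := hA _ (Or.inl h1) a (Or.inl ha)
    rw [h2, dist_self, mul_zero] at this
    exact dist_le_zero.1 this
  have hFi : ∀ i, ∀ u ∈ closedBall (P (z i)) (s i / 128),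
      dist (F (some i) u) (z i) ≤ 128 * (M : ℝ) * dist u (P (z i)) := by
    intro i u _
    show dist (g i ((128 : ℝ) • (u - P (z i)))) (z i) ≤ _
    calc dist (g i ((128 : ℝ) • (u - P (z i)))) (z i)
        = dist (g i ((128 : ℝ) • (u - P (z i)))) (g i 0) := by rw [hg0]
      _ ≤ M * dist ((128 : ℝ) • (u - P (z i))) 0 := (hg i).dist_le_mul _ _
      _ = _ := by
          rw [dist_zero_right, norm_smul, ← dist_eq_norm, Real.norm_of_nonneg (by norm_num)]
          ring
  have hsep : ∀ i, ∀ a ∈ S, s i / 16 ≤ dist (P a) (P (z i)) := fun i a ha => by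
    have := hA a (Or.inl ha) (z i) (Or.inr (mem_range_self i))
    have := hzS i a ha
    linarith
  have hsep' : ∀ i j, i ≠ j → s i / 16 ≤ dist (P (z i)) (P (z j)) := fun i j hij => by
    have := hA (z i) (Or.inr (mem_range_self i)) (z j) (Or.inr (mem_range_self j))
    have := hzz i j hij
    linarith
  have hM : (0 : ℝ) ≤ M := M.2
  have mixed : ∀ i, ∀ u ∈ closedBall (P (z i)) (s i / 128), ∀ a ∈ S,
      dist (F (some i) u) a ≤ (128 * (M : ℝ) + 4) * dist u (P a) := by
    intro i u hu a ha
    have h1 := hFi i u hu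
    rw [mem_closedBall] at hu
    have h2 := hA a (Or.inl ha) (z i) (Or.inr (mem_range_self i))
    have h3 := hsep i a ha
    have h4 := dist_triangle (P a) u (P (z i))
    have h5 := dist_triangle (F (some i) u) (z i) a
    rw [dist_comm (z i) a] at h5
    rw [dist_comm (P a) u] at h4
    nlinarith [hs i, dist_nonneg (x := u) (y := P a), dist_nonneg (x := u) (y := P (z i))]
  obtain ⟨H, hH, hEq⟩ := exists_glue (128 * M + 4) D F (by
    rintro (_ | i) (_ | j) u hu v hv
    · obtain ⟨a, ha, rfl⟩ := hu
      obtain ⟨b, hb, rfl⟩ := hv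
      rw [hF0 a ha, hF0 b hb]
      have := hA a (Or.inl ha) b (Or.inl hb)
      push_cast
      nlinarith [dist_nonneg (x := P a) (y := P b)]
    · obtain ⟨a, ha, rfl⟩ := hu
      rw [hF0 a ha, dist_comm, dist_comm (P a) v]
      push_cast
      exact mixed j v hv a ha
    · obtain ⟨a, ha, rfl⟩ := hv
      rw [hF0 a ha]
      push_cast
      exact mixed i u hu a ha
    · by_cases hij : i = j
      · subst hij
        refine le_trans ((hg i).dist_le_mul _ _) ?_
        rw [dist_smul₀, dist_sub_right, Real.norm_of_nonneg (by norm_num)]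
        push_cast
        nlinarith [dist_nonneg (x := u) (y := v)]
      · have h1 := hFi i u hu
        have h2 := hFi j v hv
        simp only [D, Option.elim_some, mem_closedBall] at hu hv
        have h3 := hsep' i j hij
        have h4 := hsep' j i (Ne.symm hij)
        rw [dist_comm (P (z j))] at h4
        have h5 := hA (z i) (Or.inr (mem_range_self i)) (z j) (Or.inr (mem_range_self j))
        have h6 := dist_triangle4 (P (z i)) u v (P (z j))
        rw [dist_comm (P (z i)) u] at h6
        have h7 := dist_triangle4 (F (some i) u) (z i) (z j) (F (some j) v)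
        rw [dist_comm (z j) (F (some j) v)] at h7
        push_cast
        nlinarith [hs i, hs j, dist_nonneg (x := u) (y := v)])
  refine ⟨H, hH, fun a ha => ?_, fun i u hu => ?_⟩
  · rw [hEq none (mem_image_of_mem _ ha), hF0 a ha]
  · have hmem : P (z i) + (1/128 : ℝ) • u ∈ D (some i) := by
      simp only [D, Option.elim_some, mem_closedBall, dist_eq_norm, add_sub_cancel_left, norm_smul]
      rw [Real.norm_of_nonneg (by norm_num)]
      linarith
    rw [hEq (some i) hmem]
    simp only [F, Option.elim_some, add_sub_cancel_left, smul_smul]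
    norm_num

/-- finitely many maps are placed in disjoint balls inside `closedBall 0 s` -/
theorem glue_slots (hn : 0 < n) {ι : Type*} (T : Finset ι) (N : ℕ) (hN : T.card ≤ N) (s : ℝ)
    (hs : 0 < s) (a : ι → ℝ) (ha : ∀ i ∈ T, 0 < a i ∧ a i ≤ 3 * s) (h : ι → Spc n → Spc d)
    (z : Spc d) (M R : ℝ≥0) (hh : ∀ i ∈ T, LipschitzWith M (h i))
    (hR : ∀ i ∈ T, ∀ v, ‖v‖ ≤ a i → dist (h i v) z ≤ R * s) :
    ∃ g : Spc n → Spc d, LipschitzWith (extC d * ((24 * M + 8 * R) * (N + 1))) g ∧ g 0 = z ∧
      ∀ i ∈ T, ∀ v, ‖v‖ ≤ a i → h i v ∈ g '' closedBall 0 s := by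
  classical
  set e : Spc n := EuclideanSpace.single ⟨0, hn⟩ (1 : ℝ) with he
  have hnorm : ‖e‖ = 1 := by simp [he]
  set w : ℝ := s / (8 * ((N : ℝ) + 1)) with hw
  have hwpos : 0 < w := by positivity
  have hwN : 8 * ((N : ℝ) + 1) * w = s := by rw [hw]; field_simp
  let idx : {i // i ∈ T} → ℕ := fun i => (T.equivFin i : ℕ) + 1
  have hidx : ∀ i, 1 ≤ idx i ∧ idx i ≤ N := fun i => by
    have := (T.equivFin i).isLt
    simp only [idx]; omega
  let p : {i // i ∈ T} → Spc n := fun i => (4 * w * idx i) • e
  have hp0 : ∀ i, 4 * w ≤ ‖p i‖ ∧ ‖p i‖ + w ≤ s := fun i => by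
    have h1 : (1 : ℝ) ≤ idx i := by exact_mod_cast (hidx i).1
    have h2 : (idx i : ℝ) ≤ N := by exact_mod_cast (hidx i).2
    simp only [p, norm_smul, hnorm, mul_one, Real.norm_of_nonneg (by positivity : (0:ℝ) ≤ 4 * w * idx i)]
    constructor <;> nlinarith
  have hpp : ∀ i j, i ≠ j → 4 * w ≤ dist (p i) (p j) := fun i j hij => by
    have hne : idx i ≠ idx j := fun h => hij (T.equivFin.injective (Fin.ext (by
      simp only [idx] at h; omega)))
    have h1 : (1 : ℝ) ≤ |(idx i : ℝ) - idx j| := by
      rcases lt_or_gt_of_ne hne with h | h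
      · rw [abs_sub_comm]
        have : (idx i : ℝ) + 1 ≤ idx j := by exact_mod_cast h
        exact le_trans (by linarith) (le_abs_self _)
      · have : (idx j : ℝ) + 1 ≤ idx i := by exact_mod_cast h
        exact le_trans (by linarith) (le_abs_self _)
    simp only [p, dist_eq_norm, ← sub_smul, norm_smul, hnorm, mul_one, Real.norm_eq_abs, ← mul_sub,
      abs_mul, abs_of_pos hwpos]
    norm_num
    nlinarith
  let D : Option {i // i ∈ T} → Set (Spc n) := fun o => o.elim {0} fun i => closedBall (p i) w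
  let F : Option {i // i ∈ T} → Spc n → Spc d := fun o =>
    o.elim (fun _ => z) fun i u => h i.1 ((a i.1 / w) • (u - p i))
  have hscale : ∀ (i : {i // i ∈ T}), ∀ u ∈ closedBall (p i) w,
      ‖(a i.1 / w) • (u - p i)‖ ≤ a i.1 := fun i u hu => by
    rw [mem_closedBall, dist_eq_norm] at hu
    have hai := (ha i.1 i.2).1
    rw [norm_smul, Real.norm_of_nonneg (by positivity), div_mul_eq_mul_div, div_le_iff₀ hwpos]
    exact mul_le_mul_of_nonneg_left hu hai.le
  have hFz : ∀ (i : {i // i ∈ T}), ∀ u ∈ closedBall (p i) w,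
      dist (F (some i) u) z ≤ R * s := fun i u hu => hR i.1 i.2 _ (hscale i u hu)
  have hMr : (0 : ℝ) ≤ M := M.2
  have hRr : (0 : ℝ) ≤ R := R.2
  have hRs : ∀ t : ℝ, 2 * w ≤ t → 2 * ((R : ℝ) * s) ≤ (24 * (M : ℝ) + 8 * R) * ((N : ℝ) + 1) * t := by
    intro t ht
    calc 2 * ((R : ℝ) * s) = 8 * (R : ℝ) * ((N : ℝ) + 1) * (2 * w) := by rw [← hwN]; ring
      _ ≤ _ := by gcongr; linarith
  obtain ⟨g, hg, hEq⟩ := exists_glue ((24 * M + 8 * R) * (N + 1)) D F (by
    push_cast
    rintro (_ | i) (_ | j) u hu v hv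
    · simp only [F, Option.elim_none, dist_self]
      positivity
    · simp only [D, Option.elim_none, mem_singleton_iff] at hu
      simp only [D, Option.elim_some, mem_closedBall] at hv
      subst hu
      have h1 := hFz j v (mem_closedBall.2 hv)
      show dist z (F (some j) v) ≤ _
      rw [dist_comm]
      have h2 := dist_triangle (0 : Spc n) v (p j)
      rw [dist_zero_left (p j)] at h2
      have h3 := hRs (dist 0 v) (by linarith [(hp0 j).1])
      nlinarith [mul_nonneg hRr hs.le]
    · simp only [D, Option.elim_none, mem_singleton_iff] at hv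
      simp only [D, Option.elim_some, mem_closedBall] at hu
      subst hv
      have h1 := hFz i u (mem_closedBall.2 hu)
      show dist (F (some i) u) z ≤ _
      have h2 := dist_triangle (0 : Spc n) u (p i)
      rw [dist_zero_left (p i), dist_comm (0 : Spc n) u] at h2
      have h3 := hRs (dist u 0) (by linarith [(hp0 i).1])
      nlinarith [mul_nonneg hRr hs.le]
    · by_cases hij : i = j
      · subst hij
        refine le_trans ((hh i.1 i.2).dist_le_mul _ _) ?_
        rw [dist_smul₀, dist_sub_right, Real.norm_of_nonneg (by have := (ha i.1 i.2).1; positivity)]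
        have h1 : a i.1 / w ≤ 24 * ((N : ℝ) + 1) := by
          rw [div_le_iff₀ hwpos]
          calc a i.1 ≤ 3 * s := (ha i.1 i.2).2
            _ = _ := by rw [← hwN]; ring
        calc (M : ℝ) * (a i.1 / w * dist u v) ≤ (M : ℝ) * (24 * ((N : ℝ) + 1) * dist u v) := by
              gcongr
          _ ≤ _ := by nlinarith [mul_nonneg (mul_nonneg hRr (by positivity : (0:ℝ) ≤ (N:ℝ) + 1)) (dist_nonneg (x := u) (y := v))]
      · have h1 := hFz i u hu
        have h2 := hFz j v hv
        simp only [D, Option.elim_some, mem_closedBall] at hu hv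
        have h6 := dist_triangle4 (p i) u v (p j)
        rw [dist_comm (p i) u] at h6
        have h3 := hRs (dist u v) (by linarith [hpp i j hij])
        have h7 := dist_triangle (F (some i) u) z (F (some j) v)
        rw [dist_comm z] at h7
        linarith)
  refine ⟨g, hg, ?_, fun i hi v hv => ?_⟩
  · rw [hEq none (show (0 : Spc n) ∈ D none from rfl)]
    rfl
  · set i' : {i // i ∈ T} := ⟨i, hi⟩
    have hai := (ha i hi).1
    have hmem : p i' + (w / a i) • v ∈ D (some i') := by
      simp only [D, Option.elim_some, mem_closedBall, dist_eq_norm, add_sub_cancel_left, norm_smul]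
      rw [Real.norm_of_nonneg (by positivity), div_mul_eq_mul_div, div_le_iff₀ hai]
      exact mul_le_mul_of_nonneg_left hv hwpos.le
    refine ⟨p i' + (w / a i) • v, ?_, ?_⟩
    · have h1 := (hp0 i').2
      simp only [D, Option.elim_some, mem_closedBall] at hmem
      rw [mem_closedBall, dist_zero_right]
      have h2 := dist_triangle (p i' + (w / a i) • v) (p i') 0
      rw [dist_zero_right, dist_zero_right] at h2
      linarith
    · rw [hEq (some i') hmem]
      simp only [F, Option.elim_some, add_sub_cancel_left, smul_smul]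
      have : a i'.1 / w * (w / a i) = 1 := by
        show a i / w * (w / a i) = 1
        field_simp
      rw [this, one_smul]

end Vale.Agent.P120
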