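import Mathlib
import Vale.Agent.P120.Statements
import Vale.Agent.P120.MainCubes
import Vale.Agent.P120.MainGlue

/-!
Gluing of the stopping trees over finitely many generations: the final statement.
-/

noncomputable section

open MeasureTheory Metric Set Filter
open scoped ENNReal NNReal RealInnerProductSpace

namespace Vale.Agent.P120

variable {n d : ℕ} {μ : Measure (Spc d)}

/-- the conclusion of the tree module for one top -/
def TreeData (n : ℕ) (μ : Measure (Spc d)) {ρ : ℝ} (Q : Cubes μ ρ) (γ C' : ℝ≥0∞) (M : ℝ)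
    (T : ℕ × Spc d) : Prop :=
  ∃ (X : Set (ℕ × Spc d)) (L : Plane n d),
    (∀ e ∈ X, T.1 < e.1 ∧ Q.Below e T) ∧
    X.PairwiseDisjoint (fun e => Q.cell e.1 e.2) ∧
    μ (⋃ e ∈ X, Q.cell e.1 e.2) ≤ γ * μ (Q.cell T.1 T.2)
      + C' * ∑' q : ↥(Q.tree T X), oscSq n μ M q.1.2 (side ρ q.1.1) * μ (Q.cell q.1.1 q.1.2) ∧
    ∀ x ∈ Q.stay T X ∪ Prod.snd '' X, ∀ y ∈ Q.stay T X ∪ Prod.snd '' X,
      dist x y ≤ 2 * dist (L.coord x) (L.coord y)

/-- below a cube, some Lipschitz image carries mass or the oscillation is large -/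
def Carries (n : ℕ) (μ : Measure (Spc d)) {ρ : ℝ} (Q : Cubes μ ρ) (M : ℝ) (W C' α : ℝ≥0∞)
    (Mg : ℝ≥0) (q : ℕ × Spc d) : Prop :=
  ∃ g : Spc n → Spc d, LipschitzWith Mg g ∧ g 0 = q.2 ∧
    α * μ (Q.cell q.1 q.2) ≤
      W * μ (Q.cell q.1 q.2 ∩ g '' closedBall 0 (side ρ q.1)) + C' * Q.oscSum n M q

theorem tree_step [IsLocallyFiniteMeasure μ] {ρ C D M : ℝ} (hρ : 0 < ρ)
    (hreg : Reg n C D μ) (Q : Cubes μ ρ) {W C' α γ : ℝ≥0∞} {Mg : ℝ≥0} (hαW : α + 1 ≤ W)
    {T : ℕ × Spc d} (hT : T.2 ∈ Q.X T.1) (hdata : TreeData n μ Q γ C' M T)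
    (hchild : ∀ q : ℕ × Spc d, T.1 < q.1 → q.2 ∈ Q.X q.1 → Carries n μ Q M W C' α Mg q) :
    ∃ h : Spc n → Spc d, LipschitzWith (extC d * (128 * Mg + 4)) h ∧
      (∀ v : Spc n, ‖v‖ ≤ 3 * side ρ T.1 →
        dist (h v) T.2 ≤ ((extC d : ℝ) * (128 * Mg + 4) * 6 + 3) * side ρ T.1) ∧
      (α + 1) * μ (Q.cell T.1 T.2) ≤
        W * μ (Q.cell T.1 T.2 ∩ h '' closedBall 0 (3 * side ρ T.1)) + C' * Q.oscSum n M T
          + γ * μ (Q.cell T.1 T.2) := by
  classical
  obtain ⟨X, L, hX, hXd, hXm, hgraph⟩ := hdata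
  choose g hg hg0 hgm using fun e : ↥X => hchild e.1 (hX e.1 e.2).1 (hX e.1 e.2).2.2.1
  set cell := Q.cell T.1 T.2 with hcell
  have hmemcell : ∀ a ∈ Q.stay T X ∪ Prod.snd '' X, a ∈ cell := by
    rintro a (ha | ⟨e, he, rfl⟩)
    · exact ha.1
    · exact (hX e he).2.mem_cell' hρ
  have hzS : ∀ i : ↥X, ∀ a ∈ Q.stay T X, side ρ i.1.1 / 8 ≤ dist a i.1.2 := by
    intro i a ha
    refine Q.dist_centre (hX i.1 i.2).2.2.1 (Q.mem_supp hT ha.1) fun h => ha.2 ?_
    exact mem_iUnion₂.2 ⟨i.1, i.2, h⟩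
  have hzz : ∀ i j : ↥X, i ≠ j → side ρ i.1.1 / 8 ≤ dist i.1.2 j.1.2 := by
    intro i j hij
    rw [dist_comm]
    refine Q.dist_centre (hX i.1 i.2).2.2.1
      (Q.mem_supp hT ((hX j.1 j.2).2.mem_cell' hρ)) fun h => ?_
    exact disjoint_left.1 (hXd i.2 j.2 fun hh => hij (Subtype.ext hh)) h
      (Q.mem_cell hρ (hX j.1 j.2).2.2.1)
  obtain ⟨H, hH, hHS, hHg⟩ := glue_graph L.coord (Q.stay T X) (fun e : ↥X => e.1.2)
    (fun e => side ρ e.1.1) g Mg (fun e => side_pos' hρ _) hg hg0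
    (fun a ha b hb => by
      have conv : ∀ c ∈ Q.stay T X ∪ range (fun e : ↥X => e.1.2),
          c ∈ Q.stay T X ∪ Prod.snd '' X := by
        rintro c (h | ⟨e, rfl⟩)
        · exact Or.inl h
        · exact Or.inr ⟨e.1, e.2, rfl⟩
      exact hgraph a (conv a ha) b (conv b hb)) hzS hzz
  set K : ℝ≥0 := extC d * (128 * Mg + 4) with hK
  set p := L.coord T.2 with hp
  refine ⟨fun v => H (v + p), LipschitzWith.of_dist_le_mul fun u v => ?_, ?_, ?_⟩
  · refine le_trans (hH.dist_le_mul _ _) ?_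
    rw [dist_add_right]
  · intro v hv
    have hs := side_pos' hρ T.1
    -- a point where `H` is known
    obtain ⟨a, ha, b, hb, hab⟩ : ∃ a ∈ cell, ∃ b : Spc n, dist b p ≤ 3 * side ρ T.1 ∧ H b = a := by
      rcases X.eq_empty_or_nonempty with h | ⟨e, he⟩
      · refine ⟨T.2, Q.mem_cell hρ hT, p, by rw [dist_self]; positivity, hHS T.2 ?_⟩
        exact ⟨Q.mem_cell hρ hT, by simp [h]⟩
      · refine ⟨e.2, (hX e he).2.mem_cell' hρ, L.coord e.2, ?_, ?_⟩
        · have := L.coord_lipschitz e.2 T.2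
          have := Q.cell_ball hT ((hX e he).2.mem_cell' hρ)
          linarith
        · have := hHg ⟨e, he⟩ 0 (by simp [(side_pos' hρ e.1).le])
          rw [smul_zero, add_zero, hg0] at this
          exact this
    have h1 : dist (H (v + p)) a ≤ (K : ℝ) * (6 * side ρ T.1) := by
      rw [← hab]
      refine le_trans (hH.dist_le_mul _ _) (mul_le_mul_of_nonneg_left ?_ K.2)
      have h2 := dist_triangle (v + p) p b
      have h3 : dist (v + p) p = ‖v‖ := by rw [dist_eq_norm, add_sub_cancel_right]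
      rw [dist_comm p b] at h2
      linarith
    have h4 := Q.cell_ball hT ha
    have h5 := dist_triangle (H (v + p)) a T.2
    have hKe : (K : ℝ) = (extC d : ℝ) * (128 * Mg + 4) := by rw [hK]; push_cast; ring
    rw [hKe] at h1
    calc dist (H (v + p)) T.2 ≤ (extC d : ℝ) * (128 * Mg + 4) * (6 * side ρ T.1)
          + 2 * side ρ T.1 := by linarith
      _ ≤ _ := by linarith
  · set h : Spc n → Spc d := fun v => H (v + p) with hh
    have himg : ∀ {b : Spc n}, dist b p ≤ 3 * side ρ T.1 →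
        H b ∈ h '' closedBall 0 (3 * side ρ T.1) := fun {b} hb =>
      ⟨b - p, by rwa [mem_closedBall, dist_zero_right, ← dist_eq_norm], by simp [hh]⟩
    have hcount : X.Countable := by
      have hsub : X ⊆ ⋃ k : ℕ, (fun z => (k, z)) '' Q.X k := fun e he =>
        mem_iUnion.2 ⟨e.1, e.2, (hX e he).2.2.1, rfl⟩
      exact (countable_iUnion fun k => (Q.countable k).image _).mono hsub
    have := hcount.to_subtype
    set part : ↥X → Set (Spc d) := fun e =>
      Q.cell e.1.1 e.1.2 ∩ g e '' closedBall 0 (side ρ e.1.1) with hpart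
    have hpart_meas : ∀ e, MeasurableSet (part e) := fun e =>
      (Q.meas _ _ (hX e.1 e.2).2.2.1).inter
        ((isCompact_closedBall _ _).image (hg e).continuous).measurableSet
    have hsub : Q.stay T X ∪ (⋃ e, part e) ⊆ cell ∩ h '' closedBall 0 (3 * side ρ T.1) := by
      rintro y (hy | hy)
      · refine ⟨hy.1, ?_⟩
        have := L.coord_lipschitz y T.2
        have := Q.cell_ball hT hy.1
        have := side_pos' hρ T.1
        rw [← hHS y hy]
        exact himg (by rw [hp]; linarith)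
      · obtain ⟨e, hye, u, hu, rfl⟩ := mem_iUnion.1 hy
        refine ⟨(hX e.1 e.2).2.2.2 hye, ?_⟩
        rw [mem_closedBall, dist_zero_right] at hu
        rw [← hHg e u hu]
        refine himg ?_
        have h1 := L.coord_lipschitz e.1.2 T.2
        have h2 := Q.cell_ball hT ((hX e.1 e.2).2.mem_cell' hρ)
        have h3 := side_le_of_le hρ (hX e.1 e.2).1.le
        have h4 := dist_triangle (L.coord e.1.2 + (1/128 : ℝ) • u) (L.coord e.1.2) p
        rw [dist_eq_norm (L.coord e.1.2 + (1/128 : ℝ) • u) (L.coord e.1.2), add_sub_cancel_left,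
          norm_smul, Real.norm_of_nonneg (by norm_num)] at h4
        have := side_pos' hρ e.1.1
        rw [hp] at h4 ⊢
        linarith
    have hU : ⋃ e ∈ X, Q.cell e.1 e.2 ⊆ cell := iUnion₂_subset fun e he => (hX e he).2.2.2
    have hUm : MeasurableSet (⋃ e ∈ X, Q.cell e.1 e.2) :=
      MeasurableSet.biUnion hcount fun e he => Q.meas _ _ (hX e he).2.2.1
    have hcellsum : μ cell = μ (Q.stay T X) + μ (⋃ e ∈ X, Q.cell e.1 e.2) := by
      rw [Cubes.stay, ← measure_union disjoint_sdiff_left hUm, sdiff_union_of_subset hU]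
    have hsum : μ (⋃ e ∈ X, Q.cell e.1 e.2) = ∑' e : ↥X, μ (Q.cell e.1.1 e.1.2) := by
      rw [measure_biUnion hcount hXd fun e he => Q.meas _ _ (hX e he).2.2.1]
    have hdisj : Pairwise fun i j : ↥X => Disjoint (part i) (part j) := fun i j hij =>
      (hXd i.2 j.2 fun hh => hij (Subtype.ext hh)).mono inter_subset_left inter_subset_left
    have hcov : μ (Q.stay T X) + ∑' e, μ (part e) ≤
        μ (cell ∩ h '' closedBall 0 (3 * side ρ T.1)) := by
      rw [← measure_iUnion hdisj hpart_meas,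
        ← measure_union ?_ (MeasurableSet.iUnion hpart_meas)]
      · exact measure_mono hsub
      · rw [disjoint_left]
        intro y hy hy'
        obtain ⟨e, hye, -⟩ := mem_iUnion.1 hy'
        exact hy.2 (mem_iUnion₂.2 ⟨e.1, e.2, hye⟩)
    set tr := ∑' q : ↥(Q.tree T X), oscSq n μ M q.1.2 (side ρ q.1.1) * μ (Q.cell q.1.1 q.1.2)
      with htr
    have hosc : C' * tr + C' * ∑' e : ↥X, Q.oscSum n M e.1 ≤ C' * Q.oscSum n M T := by
      rw [← mul_add]
      exact mul_le_mul_right (Q.tree_add_exits_le M hρ (fun e he => (hX e he).2) hXd) _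
    have hkids : α * μ (⋃ e ∈ X, Q.cell e.1 e.2) ≤
        W * ∑' e, μ (part e) + C' * ∑' e : ↥X, Q.oscSum n M e.1 := by
      rw [hsum, ← ENNReal.tsum_mul_left, ← ENNReal.tsum_mul_left, ← ENNReal.tsum_mul_left,
        ← ENNReal.tsum_add]
      exact ENNReal.tsum_le_tsum fun e => hgm e
    calc (α + 1) * μ cell
        = (α + 1) * μ (Q.stay T X) + (α * μ (⋃ e ∈ X, Q.cell e.1 e.2)
            + μ (⋃ e ∈ X, Q.cell e.1 e.2)) := by rw [hcellsum]; ring
      _ ≤ W * μ (Q.stay T X) + ((W * ∑' e, μ (part e) + C' * ∑' e : ↥X, Q.oscSum n M e.1)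
            + (γ * μ cell + C' * tr)) :=
          add_le_add (mul_le_mul_left hαW _) (add_le_add hkids hXm)
      _ = W * (μ (Q.stay T X) + ∑' e, μ (part e))
            + (C' * tr + C' * ∑' e : ↥X, Q.oscSum n M e.1) + γ * μ cell := by ring
      _ ≤ _ := add_le_add_left (add_le_add (mul_le_mul_right hcov _) hosc) _

theorem node_step (hn : 0 < n) {ρ C D M : ℝ} (hρ : 0 < ρ) (hreg : Reg n C D μ)
    (Q : Cubes μ ρ) {W C' : ℝ≥0∞} {α : ℝ} (hα : 0 ≤ α) {J : ℕ} (good : ℕ × Spc d → Prop)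
    {Mh Rh : ℝ≥0} {N₁ : ℕ}
    (htree : ∀ T : ℕ × Spc d, T.2 ∈ Q.X T.1 → good T →
      ∃ h : Spc n → Spc d, LipschitzWith Mh h ∧
        (∀ v : Spc n, ‖v‖ ≤ 3 * side ρ T.1 → dist (h v) T.2 ≤ Rh * side ρ T.1) ∧
        ENNReal.ofReal (α + 3/4) * μ (Q.cell T.1 T.2) ≤
          W * μ (Q.cell T.1 T.2 ∩ h '' closedBall 0 (3 * side ρ T.1)) + C' * Q.oscSum n M T)
    (htops : ∀ q : ℕ × Spc d, J ≤ q.1 → q.2 ∈ Q.X q.1 → ∃ S : Finset (ℕ × Spc d),
      (∀ p ∈ S, Q.Below p q ∧ good p) ∧ S.card ≤ N₁ ∧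
      (S : Set (ℕ × Spc d)).PairwiseDisjoint (fun p => Q.cell p.1 p.2) ∧
      (α + 1/2) * μ.real (Q.cell q.1 q.2) ≤ (α + 3/4) * ∑ p ∈ S, μ.real (Q.cell p.1 p.2))
    {q : ℕ × Spc d} (hJ : J ≤ q.1) (hq : q.2 ∈ Q.X q.1) :
    Carries n μ Q M W C' (ENNReal.ofReal (α + 1/2))
      (extC d * ((24 * Mh + 8 * (Rh + 2)) * (N₁ + 1))) q := by
  classical
  obtain ⟨S, hS, hcard, hSd, hSm⟩ := htops q hJ hq
  choose! h hh hhR hhm using fun (T : ℕ × Spc d) (hT : T ∈ S) =>
    htree T (hS T hT).1.2.1 (hS T hT).2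
  have hsq := side_pos' hρ q.1
  obtain ⟨g, hg, hg0, hgimg⟩ := glue_slots hn S N₁ hcard (side ρ q.1) hsq
    (fun T => 3 * side ρ T.1)
    (fun T hT => ⟨by have := side_pos' hρ T.1; positivity,
      by have := side_le_of_le hρ (hS T hT).1.1; linarith⟩) h q.2 Mh (Rh + 2) hh
    (fun T hT v hv => by
      have h1 := hhR T hT v hv
      have h2 := Q.cell_ball hq ((hS T hT).1.mem_cell' hρ)
      have h3 := side_le_of_le hρ (hS T hT).1.1
      have h4 := dist_triangle (h T v) T.2 q.2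
      have h5 : (Rh : ℝ) * side ρ T.1 ≤ Rh * side ρ q.1 := mul_le_mul_of_nonneg_left h3 Rh.2
      push_cast
      linarith)
  refine ⟨g, hg, hg0, ?_⟩
  set part : ℕ × Spc d → Set (Spc d) := fun T =>
    Q.cell T.1 T.2 ∩ h T '' closedBall 0 (3 * side ρ T.1) with hpart
  have hpm : ∀ T ∈ S, MeasurableSet (part T) := fun T hT =>
    (Q.meas _ _ (hS T hT).1.2.1).inter
      ((isCompact_closedBall _ _).image (hh T hT).continuous).measurableSet
  have hpd : (S : Set (ℕ × Spc d)).PairwiseDisjoint part := fun a ha b hb hab =>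
    (hSd ha hb hab).mono inter_subset_left inter_subset_left
  have hcov : ∑ T ∈ S, μ (part T) ≤ μ (Q.cell q.1 q.2 ∩ g '' closedBall 0 (side ρ q.1)) := by
    rw [← measure_biUnion_finset hpd hpm]
    refine measure_mono (iUnion₂_subset fun T hT => ?_)
    rintro y ⟨hy, v, hv, rfl⟩
    rw [mem_closedBall, dist_zero_right] at hv
    exact ⟨(hS T hT).1.2.2 hy, hgimg T hT v hv⟩
  have hosc : ∑ T ∈ S, Q.oscSum n M T ≤ Q.oscSum n M q := by
    have h1 := Q.sum_oscSum_le (n := n) M (q := q) (fun T : ↥S => T.1)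
      (fun T => (hS T.1 T.2).1) hρ (fun i j hij => hSd i.2 j.2 fun hh => hij (Subtype.ext hh))
    rwa [Finset.tsum_subtype S fun T => Q.oscSum n M T] at h1
  have hmass : ENNReal.ofReal (α + 1/2) * μ (Q.cell q.1 q.2) ≤
      ∑ T ∈ S, ENNReal.ofReal (α + 3/4) * μ (Q.cell T.1 T.2) := by
    rw [← Finset.mul_sum, ← ofReal_measureReal (μ := μ) (Q.cell_ne_top hρ hreg hq),
      ← ENNReal.ofReal_mul (by positivity)]
    refine le_trans (ENNReal.ofReal_le_ofReal hSm) ?_
    rw [ENNReal.ofReal_mul (by positivity),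
      ENNReal.ofReal_sum_of_nonneg fun _ _ => measureReal_nonneg]
    refine le_of_eq (congrArg _ (Finset.sum_congr rfl fun T hT => ?_))
    exact ofReal_measureReal (Q.cell_ne_top hρ hreg (hS T hT).1.2.1)
  calc _ ≤ ∑ T ∈ S, ENNReal.ofReal (α + 3/4) * μ (Q.cell T.1 T.2) := hmass
    _ ≤ ∑ T ∈ S, (W * μ (part T) + C' * Q.oscSum n M T) := Finset.sum_le_sum hhm
    _ = W * ∑ T ∈ S, μ (part T) + C' * ∑ T ∈ S, Q.oscSum n M T := by
        rw [Finset.sum_add_distrib, Finset.mul_sum, Finset.mul_sum]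
    _ ≤ _ := add_le_add (mul_le_mul_right hcov _) (mul_le_mul_right hosc _)

/-- a top is a flat cube below the levels where trees start -/
def IsTop (n : ℕ) (μ : Measure (Spc d)) (ρ : ℝ) (J : ℕ) (K ε : ℝ) (T : ℕ × Spc d) : Prop :=
  J ≤ T.1 ∧ Flat n μ T.2 (K * side ρ T.1) (ε * side ρ T.1)

/-- every cube has a flat descendant a bounded number of levels below -/
theorem flat_descendant {C : ℝ} {K ε δ : ℝ} (hK : 1 ≤ K) (hε : 0 < ε) (hδ : 0 < δ)
    (habund : ∀ D : ℝ, Reg n C D μ → ∀ x ∈ μ.support, ∀ r : ℝ, 0 < r → r ≤ D →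
      ∃ y ∈ μ.support ∩ ball x r, ∃ s ∈ Icc (δ * r) r,
        Flat n μ y s (ε / (8 * (K + 3)) * s)) :
    ∃ N₀ : ℕ, ∀ ρ : ℝ, 0 < ρ → Reg n C ρ μ → ∀ (Q : Cubes μ ρ) (J : ℕ) (q : ℕ × Spc d),
      J ≤ q.1 → q.2 ∈ Q.X q.1 →
      ∃ p, Q.Below p q ∧ p.1 ≤ q.1 + N₀ ∧ IsTop n μ ρ J K ε p := by
  classical
  obtain ⟨N₀, hN₀⟩ := pow_unbounded_of_one_lt (16 * (K + 3) / δ) (show (1 : ℝ) < 8 by norm_num)
  refine ⟨N₀, fun ρ hρ hreg Q J q hJ hq => ?_⟩
  have hsq := side_pos' hρ q.1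
  obtain ⟨y, ⟨hy, hyq⟩, s, ⟨hs1, hs2⟩, L, hL⟩ := habund ρ hreg q.2 (Q.subset _ hq)
    (side ρ q.1 / 16) (by positivity) (by have := side_le_self hρ q.1; linarith)
  rw [mem_ball] at hyq
  have hs0 : 0 < s := lt_of_lt_of_le (by positivity) hs1
  have hex : ∃ j, (K + 3) * side ρ (q.1 + j) ≤ s := by
    refine ⟨N₀, ?_⟩
    have e : side ρ (q.1 + N₀) = side ρ q.1 / 8 ^ N₀ := by simp only [side, pow_add, div_div]
    rw [e, mul_div_assoc', div_le_iff₀ (by positivity)]
    rw [div_lt_iff₀ hδ] at hN₀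
    nlinarith
  set j := Nat.find hex with hj
  have hjs := Nat.find_spec hex
  have hj1 : 1 ≤ j := by
    by_contra h
    have h0 : j = 0 := by omega
    rw [← hj, h0, add_zero] at hjs
    nlinarith
  have hjmin : s < (K + 3) * side ρ (q.1 + (j - 1)) :=
    lt_of_not_ge (Nat.find_min hex (Nat.sub_lt hj1 one_pos))
  have hjN : j ≤ N₀ := Nat.find_min' hex (by
    have e : side ρ (q.1 + N₀) = side ρ q.1 / 8 ^ N₀ := by simp only [side, pow_add, div_div]
    rw [e, mul_div_assoc', div_le_iff₀ (by positivity)]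
    rw [div_lt_iff₀ hδ] at hN₀
    nlinarith)
  set m := q.1 + j with hm
  have hs8 : side ρ (q.1 + (j - 1)) = 8 * side ρ m := by
    rw [hm, show q.1 + j = q.1 + (j - 1) + 1 by omega]
    simp only [side, pow_succ]
    field_simp
  obtain ⟨w, hw, hyw⟩ := Q.exists_cell m hy
  have hycell : y ∈ Q.cell q.1 q.2 :=
    Q.inner _ _ hq ⟨hy, mem_ball.2 (by linarith)⟩
  refine ⟨(m, w), Q.below_of_meet (p := (m, w)) hq hw (by simp only; omega) hyw hycell,
    by simp only; omega, (by simp only; omega : J ≤ (m, w).1), L, fun u hu => ?_⟩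
  have hsm := side_pos' hρ m
  have hjs' : (K + 3) * side ρ m ≤ s := hjs
  have h1 : u ∈ μ.support ∩ closedBall y s := by
    refine ⟨hu.1, mem_closedBall.2 ?_⟩
    have h2 := Q.cell_ball hw hyw
    have h3 : dist u w ≤ K * side ρ m := mem_closedBall.1 hu.2
    have h4 := dist_triangle u w y
    rw [dist_comm w y] at h4
    linarith
  refine le_trans (hL u h1) ?_
  show ε / (8 * (K + 3)) * s ≤ ε * side ρ m
  rw [hs8] at hjmin
  rw [div_mul_eq_mul_div, div_le_iff₀ (by positivity)]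
  nlinarith

theorem main_of (hcubes : CubesStmt) (hpacking : PackingStmt) (habundance : AbundanceStmt)
    (htreeStmt : TreeStmt)
    (hbridge : ∀ (n d : ℕ), 1 ≤ n → n < d → ∀ (μ : Measure (Spc d)) [IsLocallyFiniteMeasure μ],
      IsADRegular n μ → RieszBounded n μ →
        ∃ C : ℝ, RB n C μ ∧ ∀ D : ℝ, 0 < D → ENNReal.ofReal D ≤ ediam μ.support → Reg n C D μ) :
    MainStmt := by
  classical
  intro n d hn hnd μ _ had hriesz
  obtain ⟨C, hRB, hReg⟩ := hbridge n d hn hnd μ had hriesz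
  by_cases hne : ∃ D : ℝ, 0 < D ∧ ENNReal.ofReal D ≤ ediam μ.support
  swap
  · push Not at hne
    exact ⟨1, one_pos, 0, fun x _ r hr hrd => absurd hrd (not_le.2 (hne r hr))⟩
  obtain ⟨D₀, hD₀, hD₀'⟩ := hne
  have hC : 1 ≤ C := (hReg D₀ hD₀ hD₀').one_le
  obtain ⟨K, ε, M, C₁, J₀, hK, hε, htree⟩ := htreeStmt n d hn hnd C (1/4) (by norm_num)
  obtain ⟨δ, hδ, habund⟩ := habundance n d hn hnd C (ε / (8 * (K + 3))) (by positivity)
  obtain ⟨C₂, hpack⟩ := hpacking n d hn hnd C M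
  set Cp : ℝ := C * 3 ^ n * max C₂ 0 * (C * 8 ^ n) with hCp
  have hCp0 : 0 ≤ Cp := by positivity
  set C' : ℝ := max C₁ 0 with hC'
  obtain ⟨N, hN⟩ := exists_nat_ge (2 * (C' * Cp + 1))
  obtain ⟨N₀, hdesc⟩ := flat_descendant (μ := μ) (C := C) hK hε hδ
    (fun D hR => habund μ D hR hRB)
  set β : ℝ := 1 - (Cubes.ratio n C N₀)⁻¹ with hβ
  have hratio := Cubes.ratio_ge_one hC n N₀
  obtain ⟨L, hL⟩ := exists_pow_lt_of_lt_one (show (0 : ℝ) < 1 / (4 * ((N : ℝ) + 1)) by positivity)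
    (show β < 1 by
      have : 0 < (Cubes.ratio n C N₀)⁻¹ := by positivity
      linarith)
  set N₁ : ℕ := ⌈Cubes.ratio n C (L * N₀)⌉₊ with hN₁
  set W : ℝ≥0∞ := ENNReal.ofReal ((N : ℝ) + 1) with hW
  -- induction on the number of generations
  have claim : ∀ j : ℕ, j ≤ N → ∃ Mg : ℝ≥0, ∀ ρ : ℝ, 0 < ρ → Reg n C ρ μ → ∀ Q : Cubes μ ρ,
      ∀ q : ℕ × Spc d, J₀ ≤ q.1 → q.2 ∈ Q.X q.1 →
        Carries n μ Q M W (ENNReal.ofReal C') (ENNReal.ofReal ((j : ℝ) / 2)) Mg q := by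
    intro j
    induction j with
    | zero =>
      intro _
      exact ⟨0, fun ρ _ _ Q q _ _ => ⟨fun _ => q.2, LipschitzWith.const _, rfl, by simp⟩⟩
    | succ j ih =>
      intro hj
      obtain ⟨Mg, hMg⟩ := ih (by omega)
      set Mh : ℝ≥0 := extC d * (128 * Mg + 4) with hMh
      refine ⟨extC d * ((24 * Mh + 8 * (Mh * 6 + 3 + 2)) * (N₁ + 1)), fun ρ hρ hreg Q q hJ hq => ?_⟩
      have hjN : (j : ℝ) + 1 ≤ N := by exact_mod_cast hj
      have e : (((j + 1 : ℕ) : ℝ)) / 2 = (j : ℝ) / 2 + 1 / 2 := by push_cast; ring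
      rw [e]
      refine node_step (J := J₀) (hn := hn) (hρ := hρ) (hreg := hreg) (Q := Q)
        (hα := by positivity) (good := IsTop n μ ρ J₀ K ε) (Mh := Mh) (Rh := Mh * 6 + 3) ?_ ?_
        (hJ := hJ) (hq := hq)
      · intro T hT hgood
        obtain ⟨X, P, hX1, hX2, hX3, hX4⟩ :=
          htree μ ρ ρ hreg hRB hρ le_rfl Q T hgood.1 hT hgood.2
        have hdata : TreeData n μ Q (ENNReal.ofReal (1/4)) (ENNReal.ofReal C') M T :=
          ⟨X, P, hX1, hX2, hX3.trans (add_le_add_right (mul_le_mul_left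
            (ENNReal.ofReal_le_ofReal (le_max_left _ _)) _) _), hX4⟩
        have hαW : ENNReal.ofReal ((j : ℝ) / 2) + 1 ≤ W := by
          rw [← ENNReal.ofReal_one, ← ENNReal.ofReal_add (by positivity) zero_le_one, hW]
          exact ENNReal.ofReal_le_ofReal (by have : (0 : ℝ) ≤ j := by positivity
                                             linarith)
        obtain ⟨h, h1, h2, h3⟩ := tree_step hρ hreg Q hαW hT hdata
          (fun p hp hp' => hMg ρ hρ hreg Q p (by have := hgood.1; omega) hp')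
        refine ⟨h, h1, fun v hv => ?_, ?_⟩
        · refine le_trans (h2 v hv) (le_of_eq ?_)
          rw [hMh]; push_cast; ring
        · refine ENNReal.le_of_add_le_add_right
            (a := ENNReal.ofReal (1/4) * μ (Q.cell T.1 T.2))
            (ENNReal.mul_ne_top ENNReal.ofReal_ne_top (Q.cell_ne_top hρ hreg hT)) ?_
          refine le_trans (le_of_eq ?_) h3
          rw [← add_mul, ← ENNReal.ofReal_add (by positivity) (by norm_num),
            ← ENNReal.ofReal_one, ← ENNReal.ofReal_add (by positivity) zero_le_one]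
          ring_nf
      · intro p hp hp'
        obtain ⟨S, hS, hSd, hSm⟩ := Q.exists_tops hρ le_rfl hreg
          (fun p hp hp' => hdesc ρ hρ hreg Q J₀ p hp hp') L p hp hp'
        refine ⟨S, fun s hs => ⟨(hS s hs).1, (hS s hs).2.2⟩, ?_, hSd, ?_⟩
        · have h5 := Q.card_below_le hρ le_rfl hreg hp' S (N := L * N₀)
            (fun s hs => ⟨(hS s hs).1, (hS s hs).2.1⟩) hSd
          exact_mod_cast h5.trans (Nat.le_ceil _)
        · have hm : 0 ≤ μ.real (Q.cell p.1 p.2) := measureReal_nonneg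
          have hj0 : (0 : ℝ) ≤ (j : ℝ) / 2 + 3 / 4 := by positivity
          have hsmall : ((j : ℝ) / 2 + 3 / 4) * β ^ L ≤ 1 / 4 := by
            calc ((j : ℝ) / 2 + 3 / 4) * β ^ L ≤ ((N : ℝ) + 1) * (1 / (4 * ((N : ℝ) + 1))) := by
                  refine mul_le_mul ?_ hL.le (pow_nonneg ?_ L) (by positivity)
                  · linarith [(by positivity : (0 : ℝ) ≤ j)]
                  · rw [hβ, sub_nonneg]; exact inv_le_one_of_one_le₀ hratio
              _ = 1 / 4 := by field_simp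
          have h6 := mul_le_mul_of_nonneg_left hSm hj0
          have h7 := mul_le_mul_of_nonneg_right hsmall hm
          rw [mul_add, ← mul_assoc] at h6
          rw [← hβ] at h6
          linarith
  obtain ⟨Mg, hMg⟩ := claim N le_rfl
  set k := J₀ + 2 with hk
  refine ⟨C⁻¹ / 8 ^ n / (8 ^ k) ^ n / ((N : ℝ) + 1), by positivity, Mg,
    fun x hx r hr hrd => ?_⟩
  have hreg := hReg r hr hrd
  obtain ⟨Q⟩ := hcubes d μ r hr
  obtain ⟨z, hz, hxz⟩ := Q.exists_cell k hx
  obtain ⟨g, hg, -, hgm⟩ := hMg r hr hreg Q (k, z) (by simp only; omega) hz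
  have hs := side_pos' hr k
  have hside : side r k ≤ r / 64 := by
    have h1 : side r k ≤ side r 2 := side_le_of_le hr (by omega)
    simpa [side, show (8 : ℝ) ^ 2 = 64 by norm_num] using h1
  have hcell : Q.cell k z ⊆ ball x r := fun y hy => by
    have h1 := Q.cell_ball hz hy
    have h2 := Q.cell_ball hz hxz
    have h3 := dist_triangle_right y x z
    rw [mem_ball]
    linarith
  have hball : closedBall (0 : Spc n) (side r k) ⊆ ball 0 r := closedBall_subset_ball (by linarith)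
  refine ⟨g, hg.lipschitzOnWith, ?_⟩
  have hosc : Q.oscSum n M (k, z) ≤ ENNReal.ofReal Cp * μ (Q.cell k z) :=
    Q.oscSum_le hr le_rfl hreg (le_max_right C₂ 0)
      (fun y hy s hs' hsr S h1 h2 => (hpack μ r hreg hRB y hy s hs' hsr S h1 h2).trans
        (ENNReal.ofReal_le_ofReal (mul_le_mul_of_nonneg_right (le_max_left _ _) (by positivity))))
      (q := (k, z)) hz
  have hfin := Q.cell_ne_top hr hreg hz
  have hW1 : μ (Q.cell k z) ≤ W * μ (Q.cell k z ∩ g '' closedBall 0 (side r k)) := by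
    refine ENNReal.le_of_add_le_add_right
      (a := ENNReal.ofReal (C' * Cp) * μ (Q.cell k z))
      (ENNReal.mul_ne_top ENNReal.ofReal_ne_top hfin) ?_
    have hC'0 : 0 ≤ C' := le_max_right _ _
    calc μ (Q.cell k z) + ENNReal.ofReal (C' * Cp) * μ (Q.cell k z)
        = ENNReal.ofReal (1 + C' * Cp) * μ (Q.cell k z) := by
          rw [ENNReal.ofReal_add zero_le_one (by positivity), ENNReal.ofReal_one, add_mul, one_mul]
      _ ≤ ENNReal.ofReal ((N : ℝ) / 2) * μ (Q.cell k z) :=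
          mul_le_mul_left (ENNReal.ofReal_le_ofReal (by linarith)) _
      _ ≤ _ := hgm
      _ ≤ _ := by
          refine add_le_add_right ?_ _
          rw [ENNReal.ofReal_mul hC'0, mul_assoc]
          exact mul_le_mul_right hosc _
  have hlow := Q.cell_ge hr le_rfl hreg hz
  have hfinal : ENNReal.ofReal (C⁻¹ / 8 ^ n / (8 ^ k) ^ n / ((N : ℝ) + 1) * r ^ n) ≤
      μ (Q.cell k z ∩ g '' closedBall 0 (side r k)) := by
    refine (ENNReal.mul_le_mul_iff_right (a := W) (ENNReal.ofReal_pos.2 (by positivity)).ne' ENNReal.ofReal_ne_top).1 ?_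
    refine le_trans (le_of_eq ?_) (hlow.trans hW1)
    rw [hW, ← ENNReal.ofReal_mul (by positivity)]
    congr 1
    simp only [side, div_pow]
    field_simp
  exact hfinal.trans (measure_mono (inter_subset_inter hcell (image_mono hball)))

end Vale.Agent.P120
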