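import Mathlib
import Vale.Agent.P120.Main
import Vale.Agent.P120.Hyp

/-!
The final statement from the module statements.
-/

noncomputable section

open MeasureTheory Metric Set
open scoped ENNReal NNReal

namespace Vale.Agent.P120

theorem RB.mono_const {n d : ℕ} {C C' : ℝ} {μ : Measure (Spc d)} (h : RB n C μ) (hC : C ≤ C') :
    RB n C' μ := fun ε hε f g hf hf' hg hg' =>
  (h ε hε f g hf hf' hg hg').trans (by gcongr)

theorem Reg.mono_const {n d : ℕ} {C C' D : ℝ} {μ : Measure (Spc d)} (h : Reg n C D μ)
    (hC : C ≤ C') : Reg n C' D μ := by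
  have hC0 : 0 < C := lt_of_lt_of_le one_pos h.one_le
  refine ⟨h.one_le.trans hC, fun x r hr => (h.upper x r hr).trans ?_, fun x hx r hr hrD => ?_⟩
  · exact ENNReal.ofReal_le_ofReal (mul_le_mul_of_nonneg_right hC (by positivity))
  · refine le_trans (ENNReal.ofReal_le_ofReal ?_) (h.lower x hx r hr hrD)
    exact mul_le_mul_of_nonneg_right (inv_anti₀ hC0 hC) (by positivity)

/-- the final statement from the four module statements -/
theorem mainStmt_of_modules (hcubes : CubesStmt) (hpacking : PackingStmt)
    (habundance : AbundanceStmt) (htree : TreeStmt) : MainStmt := by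
  refine main_of hcubes hpacking habundance htree fun n d _ _ μ _ had hriesz => ?_
  obtain ⟨C₂, hC₂⟩ := exists_RB_of_rieszBounded hriesz
  by_cases hpos : 0 < ediam μ.support
  · obtain ⟨C₁, hC₁⟩ := exists_reg_of_isADRegular had hpos
    exact ⟨max C₁ C₂, hC₂.mono_const (le_max_right _ _),
      fun D _ hD => (hC₁ D hD).mono_const (le_max_left _ _)⟩
  · refine ⟨C₂, hC₂, fun D hD hD' => absurd ?_ hpos⟩
    exact lt_of_lt_of_le (ENNReal.ofReal_pos.2 hD) hD'

end Vale.Agent.P120
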