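import Vale.Agent.P120.PackingCore
import Vale.Agent.P120.EnergyBasic

/-!
Module Packing: the squared oscillations of `R 1` satisfy a packing condition.
-/

noncomputable section

open MeasureTheory Metric Set Filter Topology
open scoped ENNReal NNReal

namespace Vale.Agent.P120

namespace Pack

variable {d n : ℕ} {μ : Measure (Spc d)} [IsLocallyFiniteMeasure μ] {C D : ℝ}

theorem sqrt_sum_sq_window (h : UpperReg n C μ) (hC : 0 < C) {a : Spc d} {R : ℝ} (hR : 0 < R)
    {f : Spc d → ℝ} (hf : Continuous f) (hb : ∀ x, |f x| ≤ 1)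
    (h0 : ∀ x, x ∉ closedBall a R → f x = 0) :
    ∫ x, f x ^ 2 ∂μ ≤ C * (2 * R) ^ n := by
  have hB : μ.real (closedBall a R) ≤ C * (2 * R) ^ n :=
    ENNReal.toReal_le_of_le_ofReal (by positivity)
      ((measure_mono (closedBall_subset_ball (by linarith))).trans (h a (2 * R) (by positivity)))
  rw [← setIntegral_eq_integral_of_forall_compl_eq_zero (s := closedBall a R)
    (fun x hx => by simp [h0 x hx])]
  refine le_trans ?_ hB
  have hi : IntegrableOn (fun x => f x ^ 2) (closedBall a R) μ :=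
    (hf.pow 2).continuousOn.integrableOn_compact (isCompact_closedBall a R)
  calc ∫ x in closedBall a R, f x ^ 2 ∂μ ≤ ∫ x in closedBall a R, (1 : ℝ) ∂μ :=
        setIntegral_mono_on hi (integrableOn_const measure_closedBall_lt_top.ne)
          measurableSet_closedBall fun x _ => by
            have := hb x; rw [abs_le] at this; nlinarith
    _ = _ := by simp

theorem pairing_bound (h : UpperReg n C μ) (hC : 0 < C) (hn : 1 ≤ n) (hRB : RB n C μ) :
    ∀ (x : Spc d) (R : ℝ) (φ : Spc d → ℝ), 0 < R → Adm μ x R φ →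
      ‖pairing n μ φ‖ ≤ (|tailConst n C| * Real.sqrt (C * 2 ^ n) + C * Real.sqrt (C * 8 ^ n)) *
        Real.sqrt (R ^ n) * Real.sqrt (∫ y, φ y ^ 2 ∂μ) := by
  intro x R φ hR hA
  obtain ⟨K, hK⟩ := hA.lip
  have hφc := hK.continuous
  set w := cut x (2 * R) with hw
  have hwin : IsWindow x (2 * R) w := isWindow_cut (by positivity) (by simp)
  have hout : ∀ y, y ∉ closedBall x R → φ y = 0 := fun y hy =>
    image_eq_zero_of_notMem_tsupport fun hm => hy (hA.supp hm)
  have hw0 : ∀ y, y ∉ closedBall x (4 * R) → w y = 0 := fun y hy => by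
    rw [mem_closedBall, not_le] at hy
    have h2 : 2 ≤ dist y x / (2 * R) := by rw [le_div_iff₀ (by positivity)]; linarith
    simp only [hw, cut, ramp]
    rw [max_eq_right (by linarith), min_eq_left (by linarith), sub_self]
  have h1 := norm_pairing_sub_pairW_le h hn hA (le_refl _) (by positivity) hwin
  have h2 := norm_pairW_le_of_RB h hn hRB hK hwin.cont hwin.cs
  have hwφ : ∀ y, w y * φ y = φ y := fun y => by
    by_cases hy : y ∈ closedBall x R
    · rw [hwin.eq_one y (closedBall_subset_closedBall (by linarith) hy), one_mul]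
    · rw [hout y hy, mul_zero]
  simp only [hwφ] at h2
  have hw2 : ∫ y, w y ^ 2 ∂μ ≤ C * (8 * R) ^ n := by
    have := sqrt_sum_sq_window h hC (a := x) (by positivity : (0 : ℝ) < 4 * R) hwin.cont
      (fun y => abs_le.2 ⟨by linarith [hwin.nonneg y], hwin.le_one y⟩) hw0
    rwa [show 2 * (4 * R) = 8 * R by ring] at this
  have hcomp : HasCompactSupport φ :=
    (isCompact_closedBall x R).of_isClosed_subset (isClosed_tsupport _) hA.supp
  have hL1 : ∫ y, |φ y| ∂μ ≤ Real.sqrt (C * (2 * R) ^ n) * Real.sqrt (∫ y, φ y ^ 2 ∂μ) := by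
    haveI : IsFiniteMeasure (μ.restrict (closedBall x R)) :=
      isFiniteMeasure_restrict.2 measure_closedBall_lt_top.ne
    have h2 := integral_mul_norm_le_Lp_mul_Lq (μ := μ.restrict (closedBall x R))
      (f := fun _ => (1 : ℝ)) (g := φ) Real.HolderConjugate.two_two
      (by simpa using memLp_const (1 : ℝ))
      (by simpa using (hφc.memLp_of_hasCompactSupport hcomp (μ := μ) (p := 2)).restrict _)
    simp only [Real.norm_eq_abs, abs_one, one_mul] at h2
    rw [← setIntegral_eq_integral_of_forall_compl_eq_zero (s := closedBall x R)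
      (fun y hy => by simp [hout y hy])]
    refine h2.trans ?_
    simp only [show ((2 : ℝ)) = ((2 : ℕ) : ℝ) by norm_num, Real.rpow_natCast, sq_abs, one_pow]
    simp only [Nat.cast_ofNat, ← Real.sqrt_eq_rpow]
    rw [setIntegral_eq_integral_of_forall_compl_eq_zero (f := fun y => φ y ^ 2)
      (fun y hy => by simp [hout y hy])]
    refine mul_le_mul_of_nonneg_right (Real.sqrt_le_sqrt ?_) (Real.sqrt_nonneg _)
    simp only [integral_const, smul_eq_mul, mul_one, measureReal_def, Measure.restrict_apply_univ]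
    exact ENNReal.toReal_le_of_le_ofReal (by positivity)
      ((measure_mono (closedBall_subset_ball (by linarith))).trans (h x (2 * R) (by positivity)))
  have hs : ∀ k : ℝ, 0 ≤ k → Real.sqrt (C * (k * R) ^ n) = Real.sqrt (C * k ^ n) * Real.sqrt (R ^ n) :=
    fun k hk => by rw [mul_pow, ← mul_assoc, Real.sqrt_mul' _ (by positivity)]
  set S := Real.sqrt (∫ y, φ y ^ 2 ∂μ)
  calc ‖pairing n μ φ‖ ≤ ‖pairing n μ φ - pairW n μ w φ‖ + ‖pairW n μ w φ‖ := by
        simpa using norm_add_le (pairing n μ φ - pairW n μ w φ) (pairW n μ w φ)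
    _ ≤ |tailConst n C| * (Real.sqrt (C * (2 * R) ^ n) * S) +
        C * S * Real.sqrt (C * (8 * R) ^ n) := by
        refine add_le_add (h1.trans ?_) (h2.trans ?_)
        · have hI : 0 ≤ ∫ y, |φ y| ∂μ := integral_nonneg fun y => abs_nonneg _
          calc tailConst n C / 2 * R * (∫ y, |φ y| ∂μ) / (2 * R)
              = tailConst n C / 4 * (∫ y, |φ y| ∂μ) := by field_simp; ring
            _ ≤ |tailConst n C| * (∫ y, |φ y| ∂μ) := mul_le_mul_of_nonneg_right
                (by linarith [le_abs_self (tailConst n C), abs_nonneg (tailConst n C)]) hI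
            _ ≤ _ := mul_le_mul_of_nonneg_left hL1 (abs_nonneg _)
        · exact mul_le_mul_of_nonneg_left (Real.sqrt_le_sqrt hw2)
            (mul_nonneg hC.le (Real.sqrt_nonneg _))
    _ = _ := by rw [hs 2 (by norm_num), hs 8 (by norm_num)]; ring

theorem adm_sum {ι : Type} (s : Finset ι) (a : ι → ℝ) (φ : ι → Spc d → ℝ) {x : Spc d} {R : ℝ}
    (h : ∀ q ∈ s, Adm μ x R (φ q)) : Adm μ x R (fun y => ∑ q ∈ s, a q * φ q y) where
  lip := by
    classical
    induction s using Finset.induction with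
    | empty => exact ⟨0, by simpa using LipschitzWith.const (0 : ℝ)⟩
    | @insert q s hq ih =>
      obtain ⟨K, hK⟩ := ih fun p hp => h p (Finset.mem_insert_of_mem hp)
      obtain ⟨K', hK'⟩ := (h q (Finset.mem_insert_self _ _)).lip
      have h1 : LipschitzWith (‖a q‖₊ * K') fun y => a q * φ q y := by
        refine LipschitzWith.of_dist_le_mul fun y z => ?_
        rw [Real.dist_eq, ← mul_sub, abs_mul, NNReal.coe_mul, coe_nnnorm, Real.norm_eq_abs,
          mul_assoc]
        exact mul_le_mul_of_nonneg_left (by simpa [Real.dist_eq] using hK'.dist_le_mul y z)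
          (abs_nonneg _)
      exact ⟨_, by simpa [Finset.sum_insert hq] using h1.add hK⟩
  supp := by
    refine closure_minimal (fun y hy => ?_) isClosed_closedBall
    obtain ⟨q, hq, hne⟩ := Finset.exists_ne_zero_of_sum_ne_zero hy
    exact (h q hq).supp (subset_tsupport _ (right_ne_zero_of_mul hne))
  mean := by
    rw [integral_finsetSum _ fun q hq => ?_]
    · exact Finset.sum_eq_zero fun q hq => by rw [integral_const_mul, (h q hq).mean, mul_zero]
    · obtain ⟨K, hK⟩ := (h q hq).lip
      exact (hK.continuous.integrable_of_hasCompactSupport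
        ((isCompact_closedBall x R).of_isClosed_subset (isClosed_tsupport _) (h q hq).supp)).const_mul _

theorem pairing_sum (h : UpperReg n C μ) (hn : 1 ≤ n) {ι : Type} (s : Finset ι) (a : ι → ℝ)
    (φ : ι → Spc d → ℝ) {x : Spc d} {R : ℝ} (hA : ∀ q ∈ s, Adm μ x R (φ q)) :
    pairing n μ (fun y => ∑ q ∈ s, a q * φ q y) = ∑ q ∈ s, a q • pairing n μ (φ q) := by
  refine tendsto_nhds_unique (tendsto_pairL h hn (adm_sum s a φ hA)) ?_
  refine Tendsto.congr' ?_ (tendsto_finsetSum s fun q hq => (tendsto_pairL h hn (hA q hq)).const_smul (a q))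
  filter_upwards [eventually_gt_atTop (0 : ℝ)] with L hL
  obtain ⟨r, hr, hout⟩ := exists_window_radius (0 : Spc d) (hasCompactSupport_cut (0 : Spc d) hL)
  have hint : ∀ q ∈ s, Integrable (fun p : Spc d × Spc d =>
      (cut 0 L p.1 * cut 0 L p.2 * (φ q p.1 - φ q p.2)) • riesz n (p.1 - p.2)) (μ.prod μ) := by
    intro q hq
    obtain ⟨K, hK⟩ := (hA q hq).lip
    refine integrable_pairKernel h hn hK
      (W := fun p : Spc d × Spc d => cut (0 : Spc d) L p.1 * cut (0 : Spc d) L p.2)
      (a := (0 : Spc d)) (R := r) (B := 1)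
      (((continuous_cut _ L).comp continuous_fst).mul ((continuous_cut _ L).comp continuous_snd)) hr
      (fun p hp => ?_) (fun p => ?_)
    · rw [Set.mem_prod, not_and_or] at hp
      rcases hp with hp | hp <;> simp [hout _ hp]
    · rw [abs_mul]
      refine mul_le_one₀ ?_ (abs_nonneg _) ?_ <;>
        exact abs_le.2 ⟨by linarith [cut_nonneg (0 : Spc d) L p.1, cut_nonneg (0 : Spc d) L p.2],
          cut_le_one _ _ _⟩
  simp only [pairL]
  simp only [← integral_smul, ← smul_comm (1 / 2 : ℝ)]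
  rw [← integral_finsetSum s fun q hq => ?_]
  · refine integral_congr_ae (Eventually.of_forall fun p => ?_)
    simp only [smul_smul, ← Finset.sum_smul]
    congr 1
    rw [← Finset.sum_sub_distrib, Finset.mul_sum, Finset.mul_sum]
    refine Finset.sum_congr rfl fun q _ => ?_
    ring
  · exact ((hint q hq).smul (a q)).smul (1 / 2 : ℝ)

theorem component_bound (hn : 1 ≤ n) {ρ M : ℝ} (F : Fam n μ C D ρ M) {K R : ℝ} {x : Spc d}
    (hb : ∀ (z : Spc d) (r : ℝ) (φ : Spc d → ℝ), 0 < r → Adm μ z r φ →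
      ‖pairing n μ φ‖ ≤ K * Real.sqrt (r ^ n) * Real.sqrt (∫ y, φ y ^ 2 ∂μ))
    (hK : 0 ≤ K) (hR : 0 < R) (hAR : ∀ q ∈ F.S, Adm μ x R (F.φ q)) (i : Fin d) :
    ∑ q ∈ F.S, pairing n μ (F.φ q) i ^ 2 / (side ρ q.1 * (En n μ (F.φ q)).toReal) ≤
      K ^ 2 * (poinK n C M * (8 * overlapN n C M)) * R ^ n := by
  set a := fun q => pairing n μ (F.φ q) i / (side ρ q.1 * (En n μ (F.φ q)).toReal) with ha
  set A := ∑ q ∈ F.S, pairing n μ (F.φ q) i ^ 2 / (side ρ q.1 * (En n μ (F.φ q)).toReal) with hA
  have hC : 0 < C := lt_of_lt_of_le one_pos F.reg.one_le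
  have hM : 0 < M := lt_of_lt_of_le one_pos F.hM
  set K2 := poinK n C M * (8 * overlapN n C M) with hK2def
  have hK2 : 0 ≤ K2 := by unfold K2 poinK overlapN; positivity
  have hA1 : ∑ q ∈ F.S, a q ^ 2 * side ρ q.1 * (En n μ (F.φ q)).toReal = A := by
    refine Finset.sum_congr rfl fun q _ => ?_
    by_cases h0 : (En n μ (F.φ q)).toReal = 0
    · simp [ha, h0]
    · have := side_pos F.hρ q.1
      simp only [ha]; field_simp
  have hA0 : 0 ≤ A := Finset.sum_nonneg fun q _ =>
    div_nonneg (sq_nonneg _) (mul_nonneg (side_pos F.hρ _).le ENNReal.toReal_nonneg)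
  have h2 : (∫ y, comb F a y ^ 2 ∂μ) ≤ K2 * A := by
    rw [← hA1]; exact comb_norm_sq F a
  have hadm : Adm μ x R (comb F a) := adm_sum F.S a F.φ hAR
  have h3 : A = pairing n μ (comb F a) i := by
    unfold comb
    rw [pairing_sum F.reg.upper hn F.S a F.φ hAR]
    simp only [WithLp.ofLp_sum, Finset.sum_apply, PiLp.smul_apply, smul_eq_mul]
    refine Finset.sum_congr rfl fun q _ => ?_
    simp only [ha]; ring
  have h4 : A ≤ K * Real.sqrt (R ^ n) * Real.sqrt (K2 * A) := by
    have h6 := PiLp.norm_apply_le (p := 2) (pairing n μ (comb F a)) i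
    rw [Real.norm_eq_abs, ← h3] at h6
    refine ((le_abs_self A).trans h6).trans ((hb x R _ hR hadm).trans ?_)
    exact mul_le_mul_of_nonneg_left (Real.sqrt_le_sqrt h2) (mul_nonneg hK (Real.sqrt_nonneg _))
  clear_value A K2
  rcases hA0.eq_or_lt with h | h
  · rw [← h]; exact mul_nonneg (mul_nonneg (sq_nonneg K) hK2) (pow_nonneg hR.le n)
  · have h5 : A ^ 2 ≤ (K ^ 2 * K2 * R ^ n) * A := by
      refine (pow_le_pow_left₀ hA0 h4 2).trans (le_of_eq ?_)
      rw [mul_pow, mul_pow, Real.sq_sqrt (pow_nonneg hR.le n), Real.sq_sqrt (mul_nonneg hK2 hA0)]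
      ring
    rw [sq] at h5
    exact le_of_mul_le_mul_right h5 h

end Pack

open Pack in
theorem packingStmt_proof : PackingStmt := by
  classical
  intro n d hn _ C M
  set M' := max M 1 with hM'
  set K := |tailConst n C| * Real.sqrt (C * 2 ^ n) + C * Real.sqrt (C * 8 ^ n) with hKdef
  set K2 := poinK n C M' * (8 * overlapN n C M') with hK2def
  refine ⟨d * (K ^ 2 * K2 * (4 + M') ^ n), fun μ _ D hReg hRB x hx ρ hρ hρD S hS hsep => ?_⟩
  have hC : 0 < C := lt_of_lt_of_le one_pos hReg.one_le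
  have hM1 : 1 ≤ M' := le_max_right _ _
  have hK2 : 0 ≤ K2 := by unfold K2 poinK overlapN; positivity
  have hK0 : 0 ≤ K := by positivity
  -- pass from suprema to a choice of test functions
  have hsup : ∀ (S' : Finset (ℕ × Spc d)) (B : ℝ≥0∞) (base : ℝ≥0∞),
      (∀ φ : ℕ × Spc d → Spc d → ℝ, (∀ q ∈ S', Adm μ q.2 (M * side ρ q.1) (φ q)) →
        base + ∑ q ∈ S', ENNReal.ofReal (‖pairing n μ (φ q)‖ ^ 2) /
          (ENNReal.ofReal (side ρ q.1 ^ (n + 1)) * En n μ (φ q)) *
            ENNReal.ofReal (side ρ q.1 ^ n) ≤ B) →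
      base + ∑ q ∈ S', oscSq n μ M q.2 (side ρ q.1) * ENNReal.ofReal (side ρ q.1 ^ n) ≤ B := by
    intro S'
    induction S' using Finset.induction with
    | empty => intro B base h; simpa using h (fun _ _ => 0) (by simp)
    | @insert p T hp ih =>
      intro B base h
      rw [Finset.sum_insert hp, ← add_assoc]
      refine ih B _ fun φ hφ => ?_
      haveI : Nonempty {ψ // Adm μ p.2 (M * side ρ p.1) ψ} := ⟨⟨fun _ => 0, ⟨0, by
        simpa using LipschitzWith.const (0 : ℝ)⟩, by simp, by simp⟩⟩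
      rw [oscSq, iSup_subtype', ENNReal.iSup_mul, ENNReal.add_iSup, ENNReal.iSup_add]
      refine iSup_le fun ψ => ?_
      have hne : ∀ q ∈ T, q ≠ p := fun q hq hqp => hp (hqp ▸ hq)
      have h1 := h (Function.update φ p ψ.1) fun q hq => by
        rcases Finset.mem_insert.1 hq with rfl | hq
        · rw [Function.update_self]; exact ψ.2
        · rw [Function.update_of_ne (hne q hq)]; exact hφ q hq
      rw [Finset.sum_insert hp, Function.update_self, ← add_assoc,
        Finset.sum_congr rfl fun q hq => by rw [Function.update_of_ne (hne q hq)]] at h1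
      exact h1
  refine le_of_eq_of_le (zero_add _).symm (hsup S _ 0 fun φ hφ => ?_)
  rw [zero_add]
  have hφ' : ∀ q ∈ S, Adm μ q.2 (M' * side ρ q.1) (φ q) := fun q hq =>
    (hφ q hq).mono (closedBall_subset_closedBall
      (mul_le_mul_of_nonneg_right (le_max_left _ _) (side_pos hρ _).le))
  have hfin : ∀ q ∈ S, En n μ (φ q) ≠ ∞ := fun q hq => En_ne_top hReg.upper hn (hφ q hq)
  let F : Fam n μ C D ρ M' :=
    { S := S, φ := φ, reg := hReg, hρ := hρ, hρD := hρD, hM := hM1,
      centre := fun q hq => (hS q hq).1, sep := hsep, adm := hφ', fin := hfin }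
  set R := (4 + M') * ρ with hR
  have hR0 : 0 < R := by positivity
  have hAR : ∀ q ∈ S, Adm μ x R (φ q) := fun q hq => (hφ' q hq).mono (closedBall_subset_closedBall' (by
    have := mem_closedBall.1 (hS q hq).2
    have := side_le hρ q.1
    nlinarith))
  have hbound := pairing_bound hReg.upper hC hn hRB
  set E := fun q => (En n μ (φ q)).toReal with hE
  have hE0 : ∀ q ∈ S, E q = 0 → pairing n μ (φ q) = 0 := by
    intro q hq h0
    have h1 : (∫ y, φ q y ^ 2 ∂μ) ≤ poinK n C M' * side ρ q.1 * E q := norm_sq_le F hq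
    rw [h0, mul_zero] at h1
    have h2 := hbound q.2 _ (φ q) (mul_pos (lt_of_lt_of_le one_pos hM1) (side_pos hρ q.1)) (hφ' q hq)
    rw [le_antisymm h1 (integral_nonneg fun y => sq_nonneg _), Real.sqrt_zero, mul_zero] at h2
    exact norm_le_zero_iff.1 h2
  have hterm : ∀ q ∈ S, ENNReal.ofReal (‖pairing n μ (φ q)‖ ^ 2) /
      (ENNReal.ofReal (side ρ q.1 ^ (n + 1)) * En n μ (φ q)) * ENNReal.ofReal (side ρ q.1 ^ n) =
      ENNReal.ofReal (‖pairing n μ (φ q)‖ ^ 2 / (side ρ q.1 * E q)) := by
    intro q hq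
    have ht := side_pos hρ q.1
    by_cases h0 : E q = 0
    · simp [hE0 q hq h0]
    · have hEp : 0 < E q := lt_of_le_of_ne ENNReal.toReal_nonneg (Ne.symm h0)
      rw [← ENNReal.ofReal_toReal (hfin q hq), ← ENNReal.ofReal_mul (by positivity),
        ← ENNReal.ofReal_div_of_pos (mul_pos (by positivity) hEp),
        ← ENNReal.ofReal_mul (by positivity)]
      congr 1
      simp only [hE, pow_succ]
      field_simp
  rw [Finset.sum_congr rfl hterm, ← ENNReal.ofReal_sum_of_nonneg fun q _ =>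
    div_nonneg (sq_nonneg _) (mul_nonneg (side_pos hρ _).le ENNReal.toReal_nonneg)]
  refine ENNReal.ofReal_le_ofReal ?_
  have hcomp : ∀ i : Fin d, ∑ q ∈ S, pairing n μ (φ q) i ^ 2 / (side ρ q.1 * E q) ≤
      K ^ 2 * K2 * R ^ n := fun i => component_bound hn F hbound hK0 hR0 hAR i
  simp only [EuclideanSpace.norm_sq_eq, Real.norm_eq_abs, sq_abs, Finset.sum_div]
  rw [Finset.sum_comm]
  refine (Finset.sum_le_sum fun i _ => hcomp i).trans (le_of_eq ?_)
  simp [hR, mul_pow]
  ring

end Vale.Agent.P120
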