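import Mathlib
import Vale.Agent.P120.PlaneBasic
import Vale.Agent.P120.Statements

/-!
Stability of nearly optimal planes.
-/

noncomputable section

open MeasureTheory Metric Set Filter Topology
open scoped ENNReal NNReal RealInnerProductSpace

namespace Vale.Agent.P120

variable {d n : ℕ} {C D : ℝ} {μ : Measure (Spc d)}

/-- geometric constant of the slab covering -/
def slabConst (n : ℕ) : ℝ := 2 * ((n : ℝ) + 2) ^ 2 + 2

/-- the points near a plane and in a thin slab transversal to it carry little mass -/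
lemma measure_slab_le (h : UpperReg n C μ) (hC : 0 ≤ C) (hn : 1 ≤ n) (L : Plane n d)
    (z : Spc d) {r : ℝ} (hr : 0 < r) (q : Spc n) (hq : ‖q‖ = 1) (c : ℝ) {N : ℕ} (hN : 1 ≤ N) :
    μ {x | x ∈ closedBall z r ∧ |⟪q, L.coord x⟫ - c| ≤ r / N ∧ ‖L.dev x‖ ≤ r / N} ≤
      ENNReal.ofReal (((2 * N + 3 : ℕ) : ℝ) ^ (n - 1) * (C * 2 ^ n * (slabConst n * r / N) ^ n)) := by
  classical
  have hN0 : (0 : ℝ) < N := by exact_mod_cast hN
  set S := {x | x ∈ closedBall z r ∧ |⟪q, L.coord x⟫ - c| ≤ r / N ∧ ‖L.dev x‖ ≤ r / N}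
  -- a coordinate with large coefficient
  obtain ⟨i0, hi0⟩ : ∃ i0 : Fin n, 1 / (n : ℝ) ≤ q i0 ^ 2 := by
    by_contra hne
    push Not at hne
    have h1 : ∑ i, q i ^ 2 = 1 := by
      have := EuclideanSpace.norm_eq q
      rw [hq, eq_comm, Real.sqrt_eq_one] at this
      simpa [sq_abs] using this
    have h2 : ∑ i, q i ^ 2 < ∑ _i : Fin n, 1 / (n : ℝ) := by
      haveI : Nonempty (Fin n) := ⟨⟨0, hn⟩⟩
      exact Finset.sum_lt_sum_of_nonempty Finset.univ_nonempty fun i _ => hne i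
    rw [h1, Finset.sum_const, Finset.card_univ, Fintype.card_fin, nsmul_eq_mul] at h2
    have : (n : ℝ) ≠ 0 := by exact_mod_cast (by omega : n ≠ 0)
    field_simp at h2
    exact lt_irrefl _ h2
  set grid : Finset (Fin n → ℤ) := Fintype.piFinset fun j =>
    if j = i0 then {0} else Finset.Icc (-(N + 1 : ℤ)) (N + 1)
  set cellidx : Spc d → Fin n → ℤ := fun x j =>
    if j = i0 then 0 else ⌊(L.coord x j - L.coord z j) * N / r⌋
  have hcard : grid.card = (2 * N + 3) ^ (n - 1) := by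
    rw [Fintype.card_piFinset, Finset.prod_eq_mul_prod_sdiff_singleton_of_mem (Finset.mem_univ i0)]
    simp only [if_true, Finset.card_singleton, one_mul]
    rw [Finset.prod_eq_pow_card (b := 2 * N + 3)]
    · congr 1
      rw [Finset.card_sdiff_of_subset (by simp)]
      simp
    · intro j hj
      simp only [Finset.mem_sdiff, Finset.mem_univ, Finset.mem_singleton, true_and] at hj
      rw [if_neg hj, Int.card_Icc]
      omega
  have hidx : ∀ x ∈ S, cellidx x ∈ grid := by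
    intro x hx
    rw [Fintype.mem_piFinset]
    intro j
    by_cases hj : j = i0
    · simp [cellidx, hj]
    simp only [cellidx, if_neg hj, Finset.mem_Icc]
    have hb : |L.coord x j - L.coord z j| ≤ r := by
      have h1 := (L.dist_coord_le x z).trans (mem_closedBall.mp hx.1)
      rw [dist_eq_norm] at h1
      exact (PiLp.norm_apply_le (L.coord x - L.coord z) j).trans h1
    obtain ⟨hb1, hb2⟩ := abs_le.mp hb
    have hmul1 : -(N : ℝ) ≤ (L.coord x j - L.coord z j) * N / r := by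
      rw [le_div_iff₀ hr]; nlinarith
    have hmul2 : (L.coord x j - L.coord z j) * N / r ≤ N := by
      rw [div_le_iff₀ hr]; nlinarith
    constructor
    · exact Int.le_floor.mpr (by push_cast; linarith)
    · exact Int.floor_le_iff.mpr (by push_cast; linarith)
  have hdiam : ∀ x ∈ S, ∀ y ∈ S, cellidx x = cellidx y → dist x y ≤ slabConst n * r / N := by
    intro x hx y hy he
    have hj : ∀ j, j ≠ i0 → |L.coord x j - L.coord y j| ≤ r / N := by
      intro j hj
      have := congrFun he j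
      simp only [cellidx, if_neg hj] at this
      have hlt := Int.abs_sub_lt_one_of_floor_eq_floor this
      rw [← sub_div, ← sub_mul, sub_sub_sub_cancel_right, abs_div, abs_mul, abs_of_pos hr,
        abs_of_pos hN0, div_lt_one hr] at hlt
      rw [le_div_iff₀ hN0]; exact hlt.le
    have hsum : |⟪q, L.coord x - L.coord y⟫| ≤ 2 * (r / N) := by
      rw [inner_sub_right]
      have := abs_sub_le (⟪q, L.coord x⟫) c (⟪q, L.coord y⟫)
      rw [abs_sub_comm c] at this
      linarith [hx.2.1, hy.2.1]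
    have hq1 : ∀ j, |q j| ≤ 1 := fun j => (PiLp.norm_apply_le q j).trans hq.le
    have hinner : ⟪q, L.coord x - L.coord y⟫ = ∑ j, q j * (L.coord x j - L.coord y j) := by
      rw [PiLp.inner_apply]
      simp [mul_comm]
    have hmain : |q i0| * |L.coord x i0 - L.coord y i0| ≤ ((n : ℝ) + 2) * (r / N) := by
      rw [hinner, Finset.sum_eq_add_sum_sdiff_singleton_of_mem (Finset.mem_univ i0)] at hsum
      have hrest : |∑ j ∈ Finset.univ \ {i0}, q j * (L.coord x j - L.coord y j)| ≤ (n : ℝ) * (r / N) := by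
        refine (Finset.abs_sum_le_sum_abs _ _).trans ?_
        refine (Finset.sum_le_card_nsmul _ _ (r / N) fun j hj' => ?_).trans ?_
        · simp only [Finset.mem_sdiff, Finset.mem_univ, Finset.mem_singleton, true_and] at hj'
          rw [abs_mul]
          calc |q j| * |L.coord x j - L.coord y j| ≤ 1 * (r / N) :=
                mul_le_mul (hq1 j) (hj j hj') (abs_nonneg _) zero_le_one
            _ = r / N := one_mul _
        · rw [nsmul_eq_mul]
          gcongr
          exact (Finset.card_le_univ _).trans (by simp)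
      rw [← abs_mul]
      have h3 := abs_add_le (q i0 * (L.coord x i0 - L.coord y i0) +
        ∑ j ∈ Finset.univ \ {i0}, q j * (L.coord x j - L.coord y j))
        (-(∑ j ∈ Finset.univ \ {i0}, q j * (L.coord x j - L.coord y j)))
      rw [add_neg_cancel_right, abs_neg] at h3
      linarith
    have hqlow : 1 / ((n : ℝ) + 2) ≤ |q i0| := by
      refine (abs_le_of_sq_le_sq' ?_ (abs_nonneg _)).2
      rw [sq_abs]
      refine le_trans ?_ hi0
      have hn' : (1 : ℝ) ≤ n := by exact_mod_cast hn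
      rw [div_pow, one_pow, div_le_div_iff₀ (by positivity) (by positivity)]
      nlinarith
    have hi : |L.coord x i0 - L.coord y i0| ≤ ((n : ℝ) + 2) ^ 2 * (r / N) := by
      have h0 : 0 ≤ |L.coord x i0 - L.coord y i0| := abs_nonneg _
      calc |L.coord x i0 - L.coord y i0|
          = ((n : ℝ) + 2) * (1 / ((n : ℝ) + 2) * |L.coord x i0 - L.coord y i0|) := by field_simp
        _ ≤ ((n : ℝ) + 2) * (((n : ℝ) + 2) * (r / N)) := by
            refine mul_le_mul_of_nonneg_left (le_trans ?_ hmain) (by positivity)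
            exact mul_le_mul_of_nonneg_right hqlow h0
        _ = _ := by ring
    have hsq : dist (L.coord x) (L.coord y) ≤ 2 * ((n : ℝ) + 2) ^ 2 * (r / N) := by
      rw [dist_eq_norm]
      have hb : ‖L.coord x - L.coord y‖ ≤ ∑ j, |L.coord x j - L.coord y j| := by
        rw [EuclideanSpace.norm_eq, Real.sqrt_le_left (Finset.sum_nonneg fun j _ => abs_nonneg _)]
        refine (le_of_eq ?_).trans
          (Finset.sum_sq_le_sq_sum_of_nonneg fun j _ => abs_nonneg (L.coord x j - L.coord y j))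
        simp [sq_abs]
      refine hb.trans ?_
      rw [Finset.sum_eq_add_sum_sdiff_singleton_of_mem (Finset.mem_univ i0)]
      have hrest : ∑ j ∈ Finset.univ \ {i0}, |L.coord x j - L.coord y j| ≤ (n : ℝ) * (r / N) := by
        refine (Finset.sum_le_card_nsmul _ _ (r / N) fun j hj' => ?_).trans ?_
        · simp only [Finset.mem_sdiff, Finset.mem_univ, Finset.mem_singleton, true_and] at hj'
          exact hj j hj'
        · rw [nsmul_eq_mul]; gcongr; exact (Finset.card_le_univ _).trans (by simp)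
      have : (n : ℝ) ≤ ((n : ℝ) + 2) ^ 2 := by nlinarith
      have hrN : 0 ≤ r / N := by positivity
      nlinarith
    have hdev : ‖L.dev x - L.dev y‖ ≤ 2 * (r / N) :=
      (norm_sub_le _ _).trans (by linarith [hx.2.2, hy.2.2])
    calc dist x y ≤ _ := L.dist_le_coord_add_dev x y
      _ ≤ 2 * ((n : ℝ) + 2) ^ 2 * (r / N) + 2 * (r / N) := add_le_add hsq hdev
      _ = _ := by rw [slabConst]; ring
  have hcover : S ⊆ ⋃ k ∈ grid, {x ∈ S | cellidx x = k} := fun x hx =>
    mem_biUnion (hidx x hx) ⟨hx, rfl⟩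
  refine (measure_mono hcover).trans ((measure_biUnion_finset_le _ _).trans ?_)
  refine (Finset.sum_le_card_nsmul _ _ (ENNReal.ofReal (C * 2 ^ n * (slabConst n * r / N) ^ n))
    fun k _ => ?_).trans ?_
  · by_cases hne : ({x ∈ S | cellidx x = k}).Nonempty
    · obtain ⟨x0, hx0, hk0⟩ := hne
      refine (measure_mono fun y hy => mem_closedBall.mpr
        (hdiam y hy.1 x0 hx0 (hy.2.trans hk0.symm))).trans (h.closedBall_le x0 ?_)
      unfold slabConst; positivity
    · rw [not_nonempty_iff_eq_empty.mp hne, measure_empty]; exact zero_le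
  · rw [hcard, nsmul_eq_mul, ← ENNReal.ofReal_natCast, ← ENNReal.ofReal_mul (by positivity),
      Nat.cast_pow]

lemma integrableOn_dev_sq [IsLocallyFiniteMeasure μ] (L : Plane n d) (z : Spc d) (r : ℝ) :
    IntegrableOn (fun x => ‖L.dev x‖ ^ 2) (closedBall z r) μ :=
  ContinuousOn.integrableOn_compact (isCompact_closedBall z r) (by fun_prop)

lemma devSq_nonneg (L : Plane n d) (z : Spc d) (r : ℝ) : 0 ≤ devSq μ L z r :=
  integral_nonneg fun _ => by positivity

lemma devSq_le_of_subset [IsLocallyFiniteMeasure μ] (L : Plane n d) {z z' : Spc d} {r r' : ℝ}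
    (h : closedBall z r ⊆ closedBall z' r') : devSq μ L z r ≤ devSq μ L z' r' :=
  setIntegral_mono_set (integrableOn_dev_sq L z' r') (Eventually.of_forall fun _ => by positivity)
    (Eventually.of_forall h)

/-- Chebyshev -/
lemma measure_dev_gt_le [IsLocallyFiniteMeasure μ] (L : Plane n d) (z : Spc d) (r : ℝ) {s : ℝ}
    (hs : 0 < s) :
    μ.real {x | x ∈ closedBall z r ∧ s ≤ ‖L.dev x‖} * s ^ 2 ≤ devSq μ L z r := by
  set T := {x | x ∈ closedBall z r ∧ s ≤ ‖L.dev x‖}
  have hT : MeasurableSet T :=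
    measurableSet_closedBall.inter (measurableSet_le measurable_const L.continuous_dev.norm.measurable)
  have hTf : μ T ≠ ⊤ :=
    ne_top_of_le_ne_top measure_closedBall_lt_top.ne (measure_mono fun x hx => hx.1)
  calc μ.real T * s ^ 2 = ∫ _x in T, s ^ 2 ∂μ := by rw [setIntegral_const, smul_eq_mul]
    _ ≤ ∫ x in T, ‖L.dev x‖ ^ 2 ∂μ := by
        refine setIntegral_mono_on (integrableOn_const hTf)
          ((integrableOn_dev_sq L z r).mono_set fun x hx => hx.1) hT fun x hx => ?_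
        exact pow_le_pow_left₀ hs.le hx.2 2
    _ ≤ _ := setIntegral_mono_set (integrableOn_dev_sq L z r)
        (Eventually.of_forall fun _ => by positivity) (Eventually.of_forall fun x hx => hx.1)

lemma exists_slab_N (n : ℕ) {C : ℝ} (hC : 1 ≤ C) : ∃ N : ℕ, 1 ≤ N ∧
    ((2 * N + 3 : ℕ) : ℝ) ^ (n - 1) * (C * 2 ^ n * (slabConst n / N) ^ n) ≤ C⁻¹ / 4 ∨ n = 0 := by
  by_cases hn : n = 0
  · exact ⟨1, Or.inr hn⟩
  obtain ⟨N, hN⟩ := exists_nat_ge (max 1 (4 * C * (5 ^ (n - 1) * (C * 2 ^ n * slabConst n ^ n))))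
  refine ⟨N, Or.inl ⟨by exact_mod_cast (le_max_left _ _).trans hN, ?_⟩⟩
  have hN1 : (1 : ℝ) ≤ N := (le_max_left _ _).trans hN
  obtain ⟨m, rfl⟩ : ∃ m, n = m + 1 := ⟨n - 1, by omega⟩
  simp only [Nat.add_sub_cancel] at hN ⊢
  have hs : 0 ≤ slabConst (m + 1) := by unfold slabConst; positivity
  calc ((2 * N + 3 : ℕ) : ℝ) ^ m * (C * 2 ^ (m + 1) * (slabConst (m + 1) / N) ^ (m + 1))
      ≤ (5 * (N : ℝ)) ^ m * (C * 2 ^ (m + 1) * (slabConst (m + 1) / N) ^ (m + 1)) := by
        gcongr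
        push_cast; linarith
    _ = 5 ^ m * (C * 2 ^ (m + 1) * slabConst (m + 1) ^ (m + 1)) / N := by
        rw [mul_pow, div_pow, pow_succ (N : ℝ)]; field_simp
    _ ≤ C⁻¹ / 4 := by
        rw [div_le_iff₀ (by linarith)]
        have := (le_max_right _ _).trans hN
        have hC0 : 0 < C := by linarith
        field_simp
        linarith

/-- some point of the ball has both deviations small -/
lemma exists_small_dev [IsLocallyFiniteMeasure μ] (hC0 : 0 < C) {z : Spc d} {r : ℝ} (hr : 0 < r)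
    (hball : C⁻¹ * r ^ n ≤ μ.real (closedBall z r)) (L L' : Plane n d) {E T : ℝ} (hE0 : 0 ≤ E)
    (hsum : devSq μ L z r + devSq μ L' z r = E ^ 2 * r ^ n) (hT1 : 1 ≤ T) (hT4 : 4 ≤ T)
    (hCT : 4 * C ≤ T) (e : ℝ) (he : E < e) :
    ∃ x ∈ closedBall z r, ‖L.dev x‖ ≤ T * e ∧ ‖L'.dev x‖ ≤ T * e := by
  have hT0 : 0 < T := by linarith
  have hrn : (0 : ℝ) < r ^ n := by positivity
  by_contra hne
  push Not at hne
  have he0 : 0 < e := lt_of_le_of_lt hE0 he
  have hs : 0 < T * e := mul_pos hT0 he0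
  have hsub : closedBall z r ⊆ {x | x ∈ closedBall z r ∧ T * e ≤ ‖L.dev x‖} ∪
      {x | x ∈ closedBall z r ∧ T * e ≤ ‖L'.dev x‖} := by
    intro x hx
    by_cases hx1 : ‖L.dev x‖ ≤ T * e
    · exact Or.inr ⟨hx, (hne x hx hx1).le⟩
    · exact Or.inl ⟨hx, (not_le.mp hx1).le⟩
  have h1 := (measureReal_mono hsub (measure_union_ne_top
    (ne_top_of_le_ne_top measure_closedBall_lt_top.ne (measure_mono fun x hx => hx.1))
    (ne_top_of_le_ne_top measure_closedBall_lt_top.ne (measure_mono fun x hx => hx.1)))).trans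
    (measureReal_union_le (μ := μ) _ _)
  have h4 : C⁻¹ * r ^ n * (T * e) ^ 2 ≤ E ^ 2 * r ^ n := by
    refine (mul_le_mul_of_nonneg_right (hball.trans h1) (by positivity)).trans ?_
    rw [add_mul, ← hsum]
    exact add_le_add (measure_dev_gt_le (μ := μ) L z r hs) (measure_dev_gt_le (μ := μ) L' z r hs)
  have h5 : C⁻¹ * (T * e) ^ 2 ≤ E ^ 2 := by
    refine le_of_mul_le_mul_right (le_trans (le_of_eq ?_) h4) hrn
    ring
  have h6 : 4 ≤ C⁻¹ * T ^ 2 := by
    rw [inv_mul_eq_div, le_div_iff₀ hC0]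
    nlinarith [mul_le_mul_of_nonneg_left hT1 hT0.le]
  have h7 : C⁻¹ * (T * e) ^ 2 = (C⁻¹ * T ^ 2) * e ^ 2 := by ring
  have h8 : E ^ 2 < e ^ 2 := pow_lt_pow_left₀ he hE0 two_ne_zero
  nlinarith

/-- a normal vector of the second plane is nearly normal to the first -/
lemma tilt_bound [IsLocallyFiniteMeasure μ] (hR : Reg n C D μ) (hn : 1 ≤ n) {N : ℕ} (hN1 : 1 ≤ N)
    (hNle : ((2 * N + 3 : ℕ) : ℝ) ^ (n - 1) * (C * 2 ^ n * (slabConst n / N) ^ n) ≤ C⁻¹ / 4)
    {z : Spc d} {r : ℝ} (hr : 0 < r) (hball : C⁻¹ * r ^ n ≤ μ.real (closedBall z r))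
    {T K e : ℝ} (hT : T = 4 * C * (N : ℝ) ^ 2 + 4) (hK : K = 4 * (N : ℝ) * T) (he0 : 0 < e)
    (hbig : T * e < r) (P P' : Plane n d) (w : Spc d) (hw : ‖w‖ = 1) (hwP' : P'.dirProj w = 0)
    (hdev : devSq μ P z r + devSq μ P' z r ≤ e ^ 2 * r ^ n) :
    r * ‖P.dirProj w‖ ≤ K * e := by
  have hC0 : 0 < C := by linarith [hR.one_le]
  have hNr : (1 : ℝ) ≤ N := by exact_mod_cast hN1
  have hT0 : 0 < T := by rw [hT]; positivity
  have hT1 : 1 ≤ T := by
    rw [hT]; nlinarith [show 0 ≤ 4 * C * (N : ℝ) ^ 2 by positivity]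
  have hCT : 4 * C ≤ T := by
    rw [hT]
    nlinarith [mul_le_mul hNr hNr zero_le_one (by linarith)]
  have hrn : (0 : ℝ) < r ^ n := by positivity
  by_contra hcon
  push Not at hcon
  set q : ℝ := ‖P.dirProj w‖
  have hq0 : 0 < q := by
    by_contra hq
    push Not at hq
    have : r * q ≤ 0 := mul_nonpos_of_nonneg_of_nonpos hr.le hq
    nlinarith [show 0 ≤ K * e by rw [hK]; positivity]
  set v : Spc n := WithLp.toLp 2 fun i => ⟪P.frame i, w⟫ / q
  have hv : ‖v‖ = 1 := by
    have hsq : ∑ i, ⟪P.frame i, w⟫ ^ 2 = q ^ 2 := by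
      rw [← real_inner_self_eq_norm_sq, P.inner_dirProj_left]
      simp only [P.inner_frame_dirProj, sq]
    rw [EuclideanSpace.norm_eq, Real.sqrt_eq_one]
    simp only [v, Real.norm_eq_abs, sq_abs, div_pow]
    rw [← Finset.sum_div, hsq, div_self (by positivity)]
  -- the affine identity
  have hid : ∀ x, ⟪w, x - P'.base⟫
      = q * (⟪v, P.coord x⟫ - (-(⟪w, P.base - P'.base⟫) / q)) + ⟪w, P.dev x⟫ := by
    intro x
    have hvc : q * ⟪v, P.coord x⟫ = ⟪P.dirProj w, x - P.base⟫ := by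
      rw [PiLp.inner_apply, P.inner_dirProj_left, Finset.mul_sum]
      refine Finset.sum_congr rfl fun i _ => ?_
      simp only [v, P.coord_apply, RCLike.inner_apply, conj_trivial]
      field_simp
    rw [mul_sub, hvc, P.dev_eq, ← P.inner_perp_comm, mul_div_cancel₀ _ hq0.ne', sub_neg_eq_add]
    rw [show x - P'.base = (x - P.base) + (P.base - P'.base) by abel, inner_add_right]
    nth_rewrite 1 [← P.dirProj_add_perp w]
    rw [inner_add_left]
    ring
  have habs : ∀ x, |⟪w, x - P'.base⟫| ≤ ‖P'.dev x‖ := by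
    intro x
    have hwp : P'.perp w = w := by rw [P'.perp_apply, hwP', sub_zero]
    have h2 : ⟪w, x - P'.base⟫ = ⟪w, P'.perp (x - P'.base)⟫ := by
      rw [← P'.inner_perp_comm, hwp]
    rw [P'.dev_eq, h2]
    exact (abs_real_inner_le_norm _ _).trans (le_of_eq (by rw [hw, one_mul]))
  have hN0 : (0 : ℝ) < N := by linarith
  set s : ℝ := e * T with hs
  have hs0 : 0 < s := by rw [hs]; positivity
  set S0 := {x | x ∈ closedBall z r ∧ |⟪v, P.coord x⟫ - (-(⟪w, P.base - P'.base⟫) / q)| ≤ r / N ∧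
      ‖P.dev x‖ ≤ r / N}
  have hcover : closedBall z r ⊆ S0 ∪ ({x | x ∈ closedBall z r ∧ r / N ≤ ‖P.dev x‖} ∪
      ({x | x ∈ closedBall z r ∧ s ≤ ‖P.dev x‖} ∪ {x | x ∈ closedBall z r ∧ s ≤ ‖P'.dev x‖})) := by
    intro x hx
    by_cases c1 : ‖P.dev x‖ ≤ r / N
    swap
    · exact Or.inr (Or.inl ⟨hx, (not_le.mp c1).le⟩)
    by_cases c2 : |⟪v, P.coord x⟫ - (-(⟪w, P.base - P'.base⟫) / q)| ≤ r / N
    · exact Or.inl ⟨hx, c2, c1⟩
    refine Or.inr (Or.inr ?_)
    by_contra hc
    simp only [mem_union, mem_ofPred_eq, not_or, not_and, not_le] at hc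
    have g1 := hc.1 hx
    have g2 := hc.2 hx
    have g3 : |q * (⟪v, P.coord x⟫ - (-(⟪w, P.base - P'.base⟫) / q))| ≤ 2 * s := by
      have : q * (⟪v, P.coord x⟫ - (-(⟪w, P.base - P'.base⟫) / q))
          = ⟪w, x - P'.base⟫ - ⟪w, P.dev x⟫ := by rw [hid x]; ring
      rw [this]
      refine (abs_sub _ _).trans ?_
      have := abs_real_inner_le_norm w (P.dev x)
      rw [hw, one_mul] at this
      linarith [habs x]
    rw [abs_mul, abs_of_pos hq0] at g3
    have g4 : q * (r / N) < 2 * s :=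
      lt_of_lt_of_le (mul_lt_mul_of_pos_left (not_le.mp c2) hq0) g3
    rw [mul_div_assoc', div_lt_iff₀ hN0] at g4
    rw [hK] at hcon
    rw [hs] at g4
    nlinarith [mul_pos (mul_pos hN0 hT0) he0]
  have hfin : ∀ A : Set (Spc d), A ⊆ closedBall z r → μ A ≠ ⊤ := fun A hA =>
    ne_top_of_le_ne_top measure_closedBall_lt_top.ne (measure_mono hA)
  have m0 : μ.real S0 ≤ C⁻¹ / 4 * r ^ n := by
    refine ENNReal.toReal_le_of_le_ofReal (by positivity)
      ((measure_slab_le hR.upper hC0.le hn P z hr v hv _ hN1).trans (ENNReal.ofReal_le_ofReal ?_))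
    calc ((2 * N + 3 : ℕ) : ℝ) ^ (n - 1) * (C * 2 ^ n * (slabConst n * r / N) ^ n)
        = (((2 * N + 3 : ℕ) : ℝ) ^ (n - 1) * (C * 2 ^ n * (slabConst n / N) ^ n)) * r ^ n := by
          rw [show slabConst n * r / N = slabConst n / N * r by ring, mul_pow]; ring
      _ ≤ _ := mul_le_mul_of_nonneg_right hNle hrn.le
  have hP0 := devSq_nonneg (μ := μ) P z r
  have hP0' := devSq_nonneg (μ := μ) P' z r
  have mN := measure_dev_gt_le (μ := μ) P z r (show 0 < r / N by positivity)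
  have ms := measure_dev_gt_le (μ := μ) P z r hs0
  have ms' := measure_dev_gt_le (μ := μ) P' z r hs0
  have htot : μ.real (closedBall z r) ≤ μ.real S0 +
      (μ.real {x | x ∈ closedBall z r ∧ r / N ≤ ‖P.dev x‖} +
      (μ.real {x | x ∈ closedBall z r ∧ s ≤ ‖P.dev x‖} +
       μ.real {x | x ∈ closedBall z r ∧ s ≤ ‖P'.dev x‖})) := by
    refine (measureReal_mono hcover (hfin _ ?_)).trans ((measureReal_union_le _ _).trans ?_)
    · exact union_subset (fun x hx => hx.1) (union_subset (fun x hx => hx.1)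
        (union_subset (fun x hx => hx.1) (fun x hx => hx.1)))
    · gcongr
      refine (measureReal_union_le _ _).trans ?_
      gcongr
      exact measureReal_union_le _ _
  have bound : ∀ (A t : ℝ), 0 < t → 0 ≤ A → A * t ^ 2 ≤ e ^ 2 * r ^ n → 4 * C * e ^ 2 ≤ t ^ 2 →
      A ≤ C⁻¹ / 4 * r ^ n := by
    intro A t ht hA0 hA ht2
    have h4C : A * (4 * C) * e ^ 2 ≤ e ^ 2 * r ^ n := by
      calc A * (4 * C) * e ^ 2 = A * (4 * C * e ^ 2) := by ring
        _ ≤ A * t ^ 2 := mul_le_mul_of_nonneg_left ht2 hA0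
        _ ≤ _ := hA
    have h4 : A * (4 * C) ≤ r ^ n := le_of_mul_le_mul_right (by linarith) (by positivity : (0:ℝ) < e ^ 2)
    calc A = A * (4 * C) * (C⁻¹ / 4) := by field_simp
      _ ≤ r ^ n * (C⁻¹ / 4) := mul_le_mul_of_nonneg_right h4 (by positivity)
      _ = _ := mul_comm _ _
  have hs2 : 4 * C * e ^ 2 ≤ s ^ 2 := by
    rw [hs, mul_pow, mul_comm (e ^ 2)]
    gcongr
    nlinarith [mul_le_mul_of_nonneg_left hT1 hT0.le]
  have hrN2 : 4 * C * e ^ 2 ≤ (r / N) ^ 2 := by
    rw [div_pow, le_div_iff₀ (by positivity)]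
    calc 4 * C * e ^ 2 * (N : ℝ) ^ 2 = (4 * C * (N : ℝ) ^ 2) * e ^ 2 := by ring
      _ ≤ T * T * e ^ 2 := by
          refine mul_le_mul_of_nonneg_right ?_ (by positivity)
          have h4 : 4 * C * (N : ℝ) ^ 2 ≤ T := by rw [hT]; linarith
          exact h4.trans (le_mul_of_one_le_left hT0.le hT1)
      _ = (T * e) ^ 2 := by ring
      _ ≤ r ^ 2 := pow_le_pow_left₀ (by positivity) hbig.le 2
  have b1 := bound _ _ (show 0 < r / N by positivity) measureReal_nonneg
    (mN.trans (by linarith)) hrN2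
  have hsum' : μ.real {x | x ∈ closedBall z r ∧ s ≤ ‖P.dev x‖} +
      μ.real {x | x ∈ closedBall z r ∧ s ≤ ‖P'.dev x‖} ≤ C⁻¹ / 4 * r ^ n := by
    refine bound _ _ hs0 (add_nonneg measureReal_nonneg measureReal_nonneg) ?_ hs2
    rw [add_mul]; linarith
  have : 0 < C⁻¹ * r ^ n := by positivity
  linarith [hball.trans htot]

lemma half_bound (P P' : Plane n d) {r Ke : ℝ} (hr : 0 < r) (hKe : 0 ≤ Ke)
    (ht0 : ∀ w : Spc d, ‖w‖ = 1 → P'.dirProj w = 0 → r * ‖P.dirProj w‖ ≤ Ke) (v : Spc d) :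
    r * ‖P'.perp (P.dirProj v)‖ ≤ Ke * ‖v‖ := by
  set b := P'.perp (P.dirProj v)
  rcases eq_or_ne b 0 with hb | hb
  · rw [hb, norm_zero, mul_zero]; positivity
  set w := ‖b‖⁻¹ • b with hw
  have hwn : ‖w‖ = 1 := by
    rw [hw, norm_smul, norm_inv, norm_norm, inv_mul_cancel₀ (norm_ne_zero_iff.mpr hb)]
  have hwd : P'.dirProj w = 0 := by rw [hw, map_smul, P'.dirProj_perp, smul_zero]
  have ht := ht0 w hwn hwd
  have hb0 : 0 < ‖b‖ := norm_pos_iff.mpr hb
  have e1 : ‖b‖ = ⟪w, b⟫ := by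
    rw [hw, real_inner_smul_left, real_inner_self_eq_norm_sq]
    field_simp
  have e2 : ⟪w, b⟫ = ⟪P.dirProj w, v⟫ := by
    have hwp : P'.perp w = w := by rw [P'.perp_apply, hwd, sub_zero]
    rw [P.inner_dirProj_comm, ← P'.inner_perp_comm, hwp]
  calc r * ‖b‖ = r * ⟪P.dirProj w, v⟫ := by rw [e1, e2]
    _ ≤ r * (‖P.dirProj w‖ * ‖v‖) := mul_le_mul_of_nonneg_left (real_inner_le_norm _ _) hr.le
    _ = r * ‖P.dirProj w‖ * ‖v‖ := by ring
    _ ≤ _ := mul_le_mul_of_nonneg_right ht (norm_nonneg _)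

lemma lin_bound (L L' : Plane n d) {r Ke : ℝ} (hr : 0 < r) (hKe : 0 ≤ Ke)
    (h1 : ∀ v, r * ‖L'.perp (L.dirProj v)‖ ≤ Ke * ‖v‖)
    (h2 : ∀ v, r * ‖L.perp (L'.dirProj v)‖ ≤ Ke * ‖v‖) (v : Spc d) :
    r * ‖L.perp v - L'.perp v‖ ≤ 2 * Ke * ‖v‖ := by
  have hsplit : L.perp v - L'.perp v = L'.dirProj (L.perp v) - L'.perp (L.dirProj v) := by
    have h1 : L'.perp v = L'.perp (L.dirProj v) + L'.perp (L.perp v) := by
      rw [← map_add, L.dirProj_add_perp]
    have h2 : L.perp v = L'.dirProj (L.perp v) + L'.perp (L.perp v) :=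
      (L'.dirProj_add_perp _).symm
    rw [h1]; nth_rewrite 1 [h2]; abel
  have h3 : r * ‖L'.dirProj (L.perp v)‖ ≤ Ke * ‖v‖ := by
    set b := L'.dirProj (L.perp v)
    rcases eq_or_ne b 0 with hb | hb
    · rw [hb, norm_zero, mul_zero]; positivity
    have h := h2 b
    have hb0 : 0 < ‖b‖ := norm_pos_iff.mpr hb
    have e1 : ‖b‖ ^ 2 = ⟪L.perp (L'.dirProj b), v⟫ := by
      rw [← real_inner_self_eq_norm_sq, L.inner_perp_comm]
      show ⟪L'.dirProj (L.perp v), b⟫ = _
      rw [L'.inner_dirProj_comm, real_inner_comm]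
    have h5 : r * ‖b‖ * ‖b‖ ≤ Ke * ‖v‖ * ‖b‖ := by
      calc r * ‖b‖ * ‖b‖ = r * ⟪L.perp (L'.dirProj b), v⟫ := by rw [← e1]; ring
        _ ≤ r * (‖L.perp (L'.dirProj b)‖ * ‖v‖) :=
            mul_le_mul_of_nonneg_left (real_inner_le_norm _ _) hr.le
        _ = r * ‖L.perp (L'.dirProj b)‖ * ‖v‖ := by ring
        _ ≤ Ke * ‖b‖ * ‖v‖ := mul_le_mul_of_nonneg_right h (norm_nonneg _)
        _ = _ := by ring
    exact le_of_mul_le_mul_right h5 hb0
  rw [hsplit]
  calc r * ‖L'.dirProj (L.perp v) - L'.perp (L.dirProj v)‖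
      ≤ r * (‖L'.dirProj (L.perp v)‖ + ‖L'.perp (L.dirProj v)‖) :=
        mul_le_mul_of_nonneg_left (norm_sub_le _ _) hr.le
    _ ≤ _ := by rw [mul_add]; linarith [h1 v]


theorem planeStabStmt_proof : PlaneStabStmt := by
  intro n d hn hnd C
  by_cases hC1 : 1 ≤ C
  swap
  · exact ⟨0, fun μ _ D hR => absurd hR.one_le hC1⟩
  obtain ⟨N, hN⟩ := exists_slab_N n hC1
  rcases hN with ⟨hN1, hNle⟩ | h0
  swap
  · omega
  have hNr : (1 : ℝ) ≤ N := by exact_mod_cast hN1
  have hC0 : 0 < C := by linarith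
  set T : ℝ := 4 * C * (N : ℝ) ^ 2 + 4 with hT
  have hT4 : 4 ≤ T := by rw [hT]; nlinarith
  have hT0 : 0 < T := by linarith
  have hT1 : 1 ≤ T := by linarith
  have hCT : 4 * C ≤ T := by rw [hT]; nlinarith [mul_le_mul hNr hNr zero_le_one (by linarith)]
  set K : ℝ := 4 * (N : ℝ) * T with hK
  refine ⟨2 * K + 4 * T ^ 2 + 4 * T, ?_⟩
  intro μ _ D hR z hz r hr hrD L L' y
  set E := Real.sqrt ((devSq μ L z r + devSq μ L' z r) / r ^ n) with hE
  have hE0 : 0 ≤ E := Real.sqrt_nonneg _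
  have hdl := devSq_nonneg (μ := μ) L z r
  have hdl' := devSq_nonneg (μ := μ) L' z r
  have hrn : (0 : ℝ) < r ^ n := by positivity
  have hsum : devSq μ L z r + devSq μ L' z r = E ^ 2 * r ^ n := by
    rw [hE, Real.sq_sqrt (by positivity)]; field_simp
  have hball : C⁻¹ * r ^ n ≤ μ.real (closedBall z r) :=
    (hR.le_ball_real hz hr hrD).trans (measureReal_mono ball_subset_closedBall
      measure_closedBall_lt_top.ne)
  -- a point where both deviations are small
  have key := exists_small_dev hC0 hr hball L L' hE0 hsum hT1 hT4 hCT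
  set B : ℝ := (2 * K + 4 * T ^ 2 + 4 * T) * (1 + dist y z / r) with hB
  suffices hmain : ∀ e : ℝ, E < e → ‖L.dev y - L'.dev y‖ ≤ B * e by
    have hlim : Tendsto (fun e : ℝ => B * e) (𝓝[>] E) (𝓝 (B * E)) :=
      tendsto_nhdsWithin_of_tendsto_nhds ((continuous_const.mul continuous_id).tendsto E)
    exact ge_of_tendsto hlim (Filter.eventually_of_mem self_mem_nhdsWithin hmain)
  intro e he
  have he0 : 0 < e := lt_of_le_of_lt hE0 he
  obtain ⟨x0, hx0, hxL, hxL'⟩ := key e he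
  have hyx : dist y x0 ≤ dist y z + r := by
    have := dist_triangle y z x0
    rw [dist_comm z x0] at this
    linarith [mem_closedBall.mp hx0]
  have hfac : dist y z + r = r * (1 + dist y z / r) := by field_simp; ring
  have hpos1 : (1 : ℝ) ≤ 1 + dist y z / r := by
    have : 0 ≤ dist y z / r := by positivity
    linarith
  by_cases hbig : r ≤ T * e
  · have h1 := L.norm_dev_le_add y x0
    have h2 := L'.norm_dev_le_add y x0
    calc ‖L.dev y - L'.dev y‖ ≤ ‖L.dev y‖ + ‖L'.dev y‖ := norm_sub_le _ _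
      _ ≤ 2 * (T * e) + 2 * (r * (1 + dist y z / r)) := by rw [← hfac]; linarith
      _ ≤ 2 * (T * e) * (1 + dist y z / r) + 2 * ((T * e) * (1 + dist y z / r)) :=
          add_le_add (le_mul_of_one_le_right (mul_nonneg zero_le_two (mul_nonneg hT0.le he0.le)) hpos1)
            (mul_le_mul_of_nonneg_left (mul_le_mul_of_nonneg_right hbig (by linarith)) zero_le_two)
      _ = 4 * T * (1 + dist y z / r) * e := by ring
      _ ≤ B * e := by
          rw [hB]
          gcongr
          nlinarith [sq_nonneg T, show 0 ≤ K by rw [hK]; positivity]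
  push Not at hbig
  -- tilt bound
  have hdev1 : devSq μ L z r + devSq μ L' z r ≤ e ^ 2 * r ^ n := by
    rw [hsum]; exact mul_le_mul_of_nonneg_right (pow_le_pow_left₀ hE0 he.le 2) hrn.le
  have hdev2 : devSq μ L' z r + devSq μ L z r ≤ e ^ 2 * r ^ n := by linarith
  have hKe : 0 ≤ K * e := by rw [hK]; positivity
  have hlin : ∀ v, r * ‖L.perp v - L'.perp v‖ ≤ 2 * K * e * ‖v‖ := fun v => by
    have h := lin_bound L L' hr hKe
      (half_bound L L' hr hKe fun w hw hw' =>
        tilt_bound hR hn hN1 hNle hr hball hT hK he0 hbig L L' w hw hw' hdev1)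
      (half_bound L' L hr hKe fun w hw hw' =>
        tilt_bound hR hn hN1 hNle hr hball hT hK he0 hbig L' L w hw hw' hdev2) v
    linarith
  have hdiff : L.dev y - L'.dev y
      = (L.dev x0 - L'.dev x0) + (L.perp (y - x0) - L'.perp (y - x0)) := by
    simp only [L.dev_eq, L'.dev_eq, map_sub]
    abel
  rw [hdiff]
  refine (norm_add_le _ _).trans ?_
  have h1 : ‖L.dev x0 - L'.dev x0‖ ≤ 2 * T * e * (1 + dist y z / r) :=
    ((norm_sub_le _ _).trans (by linarith)).trans (le_mul_of_one_le_right (by positivity) hpos1)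
  have h2 : ‖L.perp (y - x0) - L'.perp (y - x0)‖ ≤ 2 * K * e * (1 + dist y z / r) := by
    refine le_of_mul_le_mul_left ?_ hr
    calc r * ‖L.perp (y - x0) - L'.perp (y - x0)‖ ≤ 2 * K * e * ‖y - x0‖ := hlin _
      _ ≤ 2 * K * e * (r * (1 + dist y z / r)) := by
          rw [← dist_eq_norm, ← hfac]
          exact mul_le_mul_of_nonneg_left hyx (by positivity)
      _ = _ := by ring
  calc _ ≤ 2 * T * e * (1 + dist y z / r) + 2 * K * e * (1 + dist y z / r) := add_le_add h1 h2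
    _ = (2 * K + 2 * T) * (1 + dist y z / r) * e := by ring
    _ ≤ B * e := by
        rw [hB]
        refine mul_le_mul_of_nonneg_right (mul_le_mul_of_nonneg_right ?_ (by linarith)) he0.le
        nlinarith [sq_nonneg T]

end Vale.Agent.P120
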