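import Vale.Agent.P120.TouchBound

/-!
Reflectionless measures have flat sub-balls, and fill the plane they live in.
-/

noncomputable section

open MeasureTheory Metric Set Filter Topology
open scoped ENNReal NNReal RealInnerProductSpace

namespace Vale.Agent.P120

namespace Touching

variable {d n : ℕ}

theorem dist_le_sum_coord {k : ℕ} {V : Submodule ℝ (Spc d)} (b : OrthonormalBasis (Fin k) ℝ V)
    (c c' : Fin k → ℝ) :
    dist (((∑ i, c i • b i : V) : Spc d)) ((∑ i, c' i • b i : V) : Spc d) ≤ ∑ i, |c i - c' i| := by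
  rw [dist_eq_norm, ← Submodule.coe_sub, Submodule.norm_coe, ← Finset.sum_sub_distrib]
  refine (norm_sum_le _ _).trans (Finset.sum_le_sum fun i _ => ?_)
  rw [← sub_smul, norm_smul, b.norm_eq_one i, mul_one, Real.norm_eq_abs]

/-- A regular measure does not live on a subspace of dimension smaller than `n`. -/
theorem not_support_subset_small {C : ℝ} {ν : Measure (Spc d)} [IsLocallyFiniteMeasure ν]
    (h : RegTop n C ν) (h0 : (0 : Spc d) ∈ ν.support) (V : Submodule ℝ (Spc d))
    (hk : Module.finrank ℝ V < n) (hsub : ν.support ⊆ V) : False := by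
  set k := Module.finrank ℝ V with hkdef
  set b : OrthonormalBasis (Fin k) ℝ V := stdOrthonormalBasis ℝ V with hb
  have hC : 1 ≤ C := (h 1).one_le
  have hC0 : 0 < C := by linarith
  set A : ℝ := C * 3 ^ k * ((k : ℝ) + 1) ^ n with hA
  have hbound : ∀ N : ℕ, 1 ≤ N → C⁻¹ ≤ A / (N : ℝ) := by
    intro N hN
    have hN0 : (1 : ℝ) ≤ N := by exact_mod_cast hN
    set T : Finset (Fin k → ℤ) := Fintype.piFinset fun _ => Finset.Icc (-(N : ℤ)) (N : ℤ) with hT
    set p : (Fin k → ℤ) → Spc d := fun m => ((∑ i, ((m i : ℝ) / N) • b i : V) : Spc d) with hp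
    have hcov : ν.support ∩ ball 0 1 ⊆ ⋃ m ∈ T, ball (p m) (((k : ℝ) + 1) / N) := by
      intro y hy
      set v : V := ⟨y, hsub hy.1⟩ with hv
      set c : Fin k → ℝ := fun i => ⟪b i, v⟫ with hc
      set m : Fin k → ℤ := fun i => ⌊c i * N⌋ with hm
      have hcb : ∀ i, |c i| < 1 := fun i => by
        refine lt_of_le_of_lt (abs_real_inner_le_norm _ _) ?_
        rw [b.norm_eq_one i, one_mul, ← Submodule.norm_coe]
        exact mem_ball_zero_iff.mp hy.2
      refine mem_iUnion₂.mpr ⟨m, ?_, ?_⟩
      · rw [hT, Fintype.mem_piFinset]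
        intro i
        have h1 := abs_lt.mp (hcb i)
        rw [Finset.mem_Icc]
        refine ⟨Int.le_floor.mpr ?_, Int.floor_le_iff.mpr ?_⟩
        · push_cast
          nlinarith
        · push_cast
          nlinarith
      · have he : y = ((∑ i, c i • b i : V) : Spc d) := by
          rw [show (∑ i, c i • b i) = v from b.sum_repr' v]
        rw [mem_ball, he]
        refine (dist_le_sum_coord b _ _).trans_lt ?_
        calc ∑ i, |c i - (m i : ℝ) / N| ≤ ∑ _i : Fin k, 1 / (N : ℝ) := by
              refine Finset.sum_le_sum fun i _ => ?_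
              have h1 := Int.floor_le (c i * N)
              have h2 := Int.lt_floor_add_one (c i * N)
              rw [show c i - (m i : ℝ) / N = (c i * N - (⌊c i * N⌋ : ℝ)) / N by
                simp only [hm]; field_simp, abs_div, abs_of_pos (by linarith : (0 : ℝ) < N)]
              exact div_le_div_of_nonneg_right (abs_le.mpr ⟨by linarith, by linarith⟩) (by linarith)
          _ < ((k : ℝ) + 1) / N := by
              rw [Finset.sum_const, Finset.card_univ, Fintype.card_fin, nsmul_eq_mul, mul_one_div]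
              exact div_lt_div_of_pos_right (by linarith) (by linarith)
    have hmeas : ν (ball 0 1) ≤ ENNReal.ofReal ((T.card : ℝ) * (C * (((k : ℝ) + 1) / N) ^ n)) := by
      calc ν (ball 0 1) ≤ ν (ν.support ∩ ball 0 1) + ν ν.supportᶜ := by
            refine (measure_mono fun y hy => ?_).trans (measure_union_le _ _)
            by_cases hys : y ∈ ν.support
            · exact Or.inl ⟨hys, hy⟩
            · exact Or.inr hys
        _ ≤ ∑ m ∈ T, ν (ball (p m) (((k : ℝ) + 1) / N)) := by
            rw [Measure.measure_compl_support, add_zero]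
            exact (measure_mono hcov).trans (measure_biUnion_finset_le _ _)
        _ ≤ ∑ _m ∈ T, ENNReal.ofReal (C * (((k : ℝ) + 1) / N) ^ n) :=
            Finset.sum_le_sum fun m _ => (h 1).upper _ _ (by positivity)
        _ = _ := by
            rw [Finset.sum_const, nsmul_eq_mul, ← ENNReal.ofReal_natCast,
              ← ENNReal.ofReal_mul (Nat.cast_nonneg _)]
    have hlow := (h 1).lower 0 h0 1 one_pos le_rfl
    rw [one_pow, mul_one] at hlow
    have h1 := (ENNReal.ofReal_le_ofReal_iff (by positivity)).mp (hlow.trans hmeas)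
    refine h1.trans ?_
    have hcard : (T.card : ℝ) ≤ (3 * N) ^ k := by
      have : T.card = (2 * N + 1) ^ k := by
        rw [hT, Fintype.card_piFinset]
        simp only [Int.card_Icc, Finset.prod_const, Finset.card_univ, Fintype.card_fin]
        congr 1
        omega
      rw [this]
      push_cast
      exact pow_le_pow_left₀ (by positivity) (by linarith) _
    calc (T.card : ℝ) * (C * (((k : ℝ) + 1) / N) ^ n)
        ≤ (3 * N) ^ k * (C * (((k : ℝ) + 1) / N) ^ n) :=
          mul_le_mul_of_nonneg_right hcard (by positivity)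
      _ = A * ((N : ℝ) ^ k / (N : ℝ) ^ n) := by
          rw [hA, mul_pow, div_pow]
          ring
      _ ≤ A * (1 / N) := by
          refine mul_le_mul_of_nonneg_left ?_ (by positivity)
          rw [div_le_div_iff₀ (by positivity) (by positivity), one_mul, ← pow_succ]
          exact pow_le_pow_right₀ hN0 hk
      _ = A / N := by ring
  obtain ⟨N, hN1, hN2⟩ : ∃ N : ℕ, 1 ≤ N ∧ A / (N : ℝ) < C⁻¹ := by
    have hlim : Tendsto (fun N : ℕ => A / (N : ℝ)) atTop (𝓝 0) :=
      tendsto_natCast_atTop_atTop.const_div_atTop A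
    exact ((eventually_ge_atTop 1).and
      (hlim.eventually (Iio_mem_nhds (show (0 : ℝ) < C⁻¹ by positivity)))).exists
  linarith [hbound N hN1]

/-- A regular measure does not fill a piece of a subspace of dimension bigger than `n`. -/
theorem not_subspace_subset_big {C : ℝ} {ν : Measure (Spc d)} [IsLocallyFiniteMeasure ν]
    (h : RegTop n C ν) (V : Submodule ℝ (Spc d)) (hk : n < Module.finrank ℝ V) {ρ : ℝ} (hρ : 0 < ρ)
    (hfill : ∀ y ∈ V, ‖y‖ < ρ → y ∈ ν.support) : False := by
  set k := Module.finrank ℝ V with hkdef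
  set b : OrthonormalBasis (Fin k) ℝ V := stdOrthonormalBasis ℝ V with hb
  have hC : 1 ≤ C := (h 1).one_le
  have hC0 : 0 < C := by linarith
  have hk0 : (1 : ℝ) ≤ k := by exact_mod_cast (show 1 ≤ k by omega)
  set B : ℝ := C⁻¹ * (ρ / (4 * k)) ^ n with hB
  have hbound : ∀ N : ℕ, 1 ≤ N → B * (N : ℝ) ≤ C * (2 * ρ) ^ n := by
    intro N hN
    have hN0 : (1 : ℝ) ≤ N := by exact_mod_cast hN
    set hh : ℝ := ρ / (2 * k * N) with hhh
    have hh0 : 0 < hh := by positivity
    set T : Finset (Fin k → ℕ) := Fintype.piFinset fun _ => Finset.range (N + 1) with hT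
    set p : (Fin k → ℕ) → Spc d := fun m => ((∑ i, ((m i : ℝ) * hh) • b i : V) : Spc d) with hp
    have hnorm : ∀ m ∈ T, ‖p m‖ ≤ ρ / 2 := by
      intro m hm
      rw [hT, Fintype.mem_piFinset] at hm
      have h2 := dist_le_sum_coord b (fun i => (m i : ℝ) * hh) (fun _ => 0)
      simp only [zero_smul, Finset.sum_const_zero, ZeroMemClass.coe_zero, dist_zero_right,
        sub_zero] at h2
      refine h2.trans ?_
      calc ∑ i, |(m i : ℝ) * hh| ≤ ∑ _i : Fin k, (N : ℝ) * hh := by
            refine Finset.sum_le_sum fun i _ => ?_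
            rw [abs_of_nonneg (by positivity)]
            have := Finset.mem_range.mp (hm i)
            exact mul_le_mul_of_nonneg_right (by exact_mod_cast (by omega : m i ≤ N)) hh0.le
        _ = ρ / 2 := by
            rw [Finset.sum_const, Finset.card_univ, Fintype.card_fin, nsmul_eq_mul, hhh]
            field_simp
    have hsupp : ∀ m ∈ T, p m ∈ ν.support := fun m hm =>
      hfill _ (SetLike.coe_mem _) (lt_of_le_of_lt (hnorm m hm) (by linarith))
    have hsep : ∀ m m' : Fin k → ℕ, m ≠ m' → hh ≤ dist (p m) (p m') := by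
      intro m m' hmm
      obtain ⟨i, hi⟩ := Function.ne_iff.mp hmm
      have hco : ∀ m : Fin k → ℕ, ⟪b i, ∑ j, ((m j : ℝ) * hh) • b j⟫ = (m i : ℝ) * hh :=
        fun m => b.orthonormal.inner_right_fintype _ i
      simp only [hp]
      rw [dist_eq_norm, ← Submodule.coe_sub, Submodule.norm_coe]
      have key : |⟪b i, (∑ j, ((m j : ℝ) * hh) • b j) - ∑ j, ((m' j : ℝ) * hh) • b j⟫|
          ≤ ‖(∑ j, ((m j : ℝ) * hh) • b j) - ∑ j, ((m' j : ℝ) * hh) • b j‖ := by
        refine (abs_real_inner_le_norm _ _).trans ?_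
        rw [b.norm_eq_one i, one_mul]
      refine le_trans ?_ key
      rw [inner_sub_right, hco, hco, ← sub_mul, abs_mul, abs_of_pos hh0]
      refine le_mul_of_one_le_left hh0.le ?_
      have hz : (1 : ℤ) ≤ |(m i : ℤ) - (m' i : ℤ)| := Int.one_le_abs (by omega)
      have := (Int.cast_le (R := ℝ)).mpr hz
      push_cast at this
      exact this
    have hdisj : (T : Set (Fin k → ℕ)).PairwiseDisjoint fun m => ball (p m) (hh / 2) := by
      intro m _ m' _ hmm
      exact ball_disjoint_ball (by linarith [hsep m m' hmm])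
    have hmeas : ENNReal.ofReal ((T.card : ℝ) * (C⁻¹ * (hh / 2) ^ n))
        ≤ ENNReal.ofReal (C * (2 * ρ) ^ n) := by
      calc ENNReal.ofReal ((T.card : ℝ) * (C⁻¹ * (hh / 2) ^ n))
          = ∑ _m ∈ T, ENNReal.ofReal (C⁻¹ * (hh / 2) ^ n) := by
            rw [Finset.sum_const, nsmul_eq_mul, ← ENNReal.ofReal_natCast,
              ← ENNReal.ofReal_mul (Nat.cast_nonneg _)]
        _ ≤ ∑ m ∈ T, ν (ball (p m) (hh / 2)) :=
            Finset.sum_le_sum fun m hm => (h (hh / 2)).lower _ (hsupp m hm) _ (by positivity) le_rfl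
        _ = ν (⋃ m ∈ T, ball (p m) (hh / 2)) :=
            (measure_biUnion_finset hdisj fun m _ => measurableSet_ball).symm
        _ ≤ ν (ball 0 (2 * ρ)) := by
            refine measure_mono (iUnion₂_subset fun m hm => ball_subset_ball' ?_)
            rw [dist_zero_right]
            have hh2 : hh ≤ ρ := by
              rw [hhh]
              exact div_le_self hρ.le (by nlinarith)
            linarith [hnorm m hm]
        _ ≤ _ := (h 1).upper 0 _ (by linarith)
    have h1 := (ENNReal.ofReal_le_ofReal_iff (by positivity)).mp hmeas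
    refine le_trans ?_ h1
    have hcard : (N : ℝ) ^ k ≤ T.card := by
      have : T.card = (N + 1) ^ k := by
        rw [hT, Fintype.card_piFinset]
        simp only [Finset.card_range, Finset.prod_const, Finset.card_univ, Fintype.card_fin]
      rw [this]
      push_cast
      exact pow_le_pow_left₀ (by positivity) (by linarith) _
    calc B * (N : ℝ) ≤ C⁻¹ * (ρ / (4 * k)) ^ n * ((N : ℝ) ^ k / (N : ℝ) ^ n) := by
          refine mul_le_mul_of_nonneg_left ?_ (by positivity)
          rw [le_div_iff₀ (by positivity), mul_comm, ← pow_succ]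
          exact pow_le_pow_right₀ hN0 hk
      _ = (N : ℝ) ^ k * (C⁻¹ * (hh / 2) ^ n) := by
          rw [show hh / 2 = ρ / (4 * k) / N by rw [hhh]; field_simp; ring, div_pow (ρ / (4 * k))]
          ring
      _ ≤ (T.card : ℝ) * (C⁻¹ * (hh / 2) ^ n) := mul_le_mul_of_nonneg_right hcard (by positivity)
  obtain ⟨N, hN1, hN2⟩ : ∃ N : ℕ, 1 ≤ N ∧ C * (2 * ρ) ^ n < B * (N : ℝ) := by
    have hB0 : 0 < B := by positivity
    exact ((eventually_ge_atTop 1).and
      ((tendsto_natCast_atTop_atTop.const_mul_atTop hB0).eventually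
        (eventually_gt_atTop (C * (2 * ρ) ^ n)))).exists
  linarith [hbound N hN1]

/-- A subspace of dimension at most `n` lies in an `n`-plane through the origin. -/
theorem exists_plane_of_finrank_le (hnd : n ≤ d) (V : Submodule ℝ (Spc d))
    (hk : Module.finrank ℝ V ≤ n) : ∃ L : Plane n d, ∀ y ∈ V, L.dev y = 0 := by
  set k := Module.finrank ℝ V with hkdef
  set bV : OrthonormalBasis (Fin k) ℝ V := stdOrthonormalBasis ℝ V with hbV
  set v : Fin d → Spc d := fun i => if h : (i : ℕ) < k then (bV ⟨i, h⟩ : Spc d) else 0 with hv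
  have horth : Orthonormal ℝ ({i : Fin d | (i : ℕ) < k}.restrict v) := by
    have e : {i : Fin d | (i : ℕ) < k}.restrict v
        = (fun j : Fin k => (bV j : Spc d)) ∘
          fun i : ({i : Fin d | (i : ℕ) < k} : Set (Fin d)) => (⟨((i : Fin d) : ℕ), i.2⟩ : Fin k) := by
      funext i
      simp only [hv, Function.comp_apply]
      exact dif_pos (show ((i : Fin d) : ℕ) < k from i.2)
    rw [e]
    refine (bV.orthonormal.comp_linearIsometry V.subtypeₗᵢ).comp _ fun i j hij => ?_
    exact Subtype.ext (Fin.ext (Fin.mk.inj_iff.mp hij))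
  obtain ⟨b, hb⟩ := horth.exists_orthonormalBasis_extension_of_card_eq (by simp)
  refine ⟨⟨0, fun i => b (Fin.castLE hnd i),
    b.orthonormal.comp _ (Fin.castLE_injective hnd)⟩, fun y hy => ?_⟩
  have hcoef : ∀ i : Fin d, n ≤ (i : ℕ) → ⟪b i, y⟫ = 0 := by
    intro i hi
    have hy' : y = ∑ j, ⟪bV j, (⟨y, hy⟩ : V)⟫ • (bV j : Spc d) := by
      have h1 := congrArg (Subtype.val) (bV.sum_repr' ⟨y, hy⟩)
      simp only [Submodule.coe_sum, Submodule.coe_smul] at h1
      exact h1.symm
    rw [hy', inner_sum]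
    refine Finset.sum_eq_zero fun j _ => ?_
    have hjd : (j : ℕ) < d := by omega
    have hbj : b ⟨j, hjd⟩ = (bV j : Spc d) := by
      rw [hb ⟨j, hjd⟩ j.2, hv]
      exact dif_pos j.2
    rw [real_inner_smul_right, ← hbj, b.orthonormal.2 (show i ≠ ⟨j, hjd⟩ by
      intro hij
      have := congrArg Fin.val hij
      simp only at this
      omega), mul_zero]
  simp only [Plane.dev, sub_zero]
  rw [sub_eq_zero]
  conv_lhs => rw [← b.sum_repr' y]
  symm
  refine Finset.sum_of_injOn (Fin.castLE hnd) (Fin.castLE_injective hnd).injOn (by simp)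
    (fun i _ hi => ?_) fun i _ => rfl
  rw [hcoef i ?_, zero_smul]
  by_contra hlt
  exact hi ⟨⟨i, by omega⟩, by simp, Fin.ext rfl⟩

/-- The blow-up at a point of the support with an exterior tangent ball is reflectionless and
lives in a smaller subspace. -/
theorem exists_tangent (hcompact : CompactStmt) (hn : 1 ≤ n) (hnd : n < d) (C : ℝ) :
    ∃ C' : ℝ, ∀ (ν : Measure (Spc d)) [IsLocallyFiniteMeasure ν], RegTop n C ν → RB n C ν →
      Reflectionless n ν → ∀ (V : Submodule ℝ (Spc d)) (x v : Spc d), x ∈ ν.support → v ≠ x →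
      (∀ y ∈ ν.support, y - x ∈ V) → v - x ∈ V → (∀ y ∈ ν.support, dist v x ≤ dist v y) →
      ∃ (ν' : Measure (Spc d)) (U : Ultrafilter ℕ) (r : ℕ → ℝ) (V' : Submodule ℝ (Spc d)),
        IsLocallyFiniteMeasure ν' ∧ RegTop n C' ν' ∧ RB n C' ν' ∧ Reflectionless n ν' ∧
        (0 : Spc d) ∈ ν'.support ∧ ν'.support ⊆ V' ∧
        Module.finrank ℝ V' < Module.finrank ℝ V ∧
        (∀ j, 0 < r j ∧ r j ≤ dist v x) ∧
        IsLimit n U (fun j => rescale n ν x (r j)) ν' := by
  obtain ⟨C', -, hC'⟩ := hcompact n d hn hnd C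
  refine ⟨C', ?_⟩
  intro ν _ hreg hRB hR V x v hx hvx hV hvV hnear
  set ρ := dist v x with hρdef
  have hρ : 0 < ρ := dist_pos.mpr hvx
  set u : Spc d := ρ⁻¹ • (x - v) with hu_def
  have hu : ‖u‖ = 1 := by
    rw [hu_def, norm_smul, Real.norm_eq_abs, abs_of_pos (inv_pos.mpr hρ), ← dist_eq_norm,
      dist_comm, ← hρdef, inv_mul_cancel₀ hρ.ne']
  have huV : u ∈ V := by
    rw [hu_def, show x - v = -(v - x) by abel]
    exact V.smul_mem _ (V.neg_mem hvV)
  have hball : ∀ y ∈ ν.support, 0 ≤ ⟪y - x, u⟫ + ‖y - x‖ ^ 2 / (2 * ρ) := by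
    intro y hy
    have h1 : ρ ≤ ‖(y - x) + ρ • u‖ := by
      rw [hu_def, smul_smul, mul_inv_cancel₀ hρ.ne', one_smul, sub_add_sub_cancel, ← dist_eq_norm,
        dist_comm]
      exact hnear y hy
    have h2 := pow_le_pow_left₀ hρ.le h1 2
    rw [norm_add_sq_real, norm_smul, hu, real_inner_smul_right, Real.norm_eq_abs,
      abs_of_pos hρ, mul_one] at h2
    rw [show ⟪y - x, u⟫ + ‖y - x‖ ^ 2 / (2 * ρ)
      = (‖y - x‖ ^ 2 + 2 * (ρ * ⟪y - x, u⟫)) / (2 * ρ) by field_simp; ring]
    exact div_nonneg (by linarith) (by linarith)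
  have hfin := lintegral_normal_lt_top hn hreg hRB hR hx hu hρ hball
  set r : ℕ → ℝ := fun j => ρ / (j + 1) with hr
  have hr0 : ∀ j, 0 < r j := fun j => by positivity
  have hrρ : ∀ j, r j ≤ ρ := fun j =>
    div_le_self hρ.le (by linarith [(Nat.cast_nonneg j : (0 : ℝ) ≤ j)])
  have hrlim : Tendsto r atTop (𝓝 0) :=
    (tendsto_atTop_add_const_right _ 1 tendsto_natCast_atTop_atTop).const_div_atTop ρ
  haveI hlfj : ∀ j, IsLocallyFiniteMeasure (rescale n ν x (r j)) := fun j =>
    isLocallyFiniteMeasure_rescale (hr0 j)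
  have hregj : ∀ (j : ℕ) (D : ℝ), Reg n C D (rescale n ν x (r j)) := by
    intro j D
    have h := (hreg (D * r j)).rescale x (hr0 j)
    rwa [mul_div_cancel_right₀ D (hr0 j).ne'] at h
  set U : Ultrafilter ℕ := hyperfilter ℕ with hUdef
  have hU : (U : Filter ℕ) ≤ atTop := by
    rw [hUdef, ← Nat.cofinite_eq_atTop]
    exact hyperfilter_le_cofinite
  have hUr : Tendsto r U (𝓝 0) := hrlim.mono_left hU
  obtain ⟨ν', hν', hreg', hRB', h0', hlim⟩ := hC' (fun j => rescale n ν x (r j)) hlfj
    (fun j => (j : ℝ)) U hU tendsto_natCast_atTop_atTop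
    (fun j => ⟨hregj j j, hRB.rescale x (hr0 j), zero_mem_support_rescale (hr0 j) hx⟩)
  haveI := hν'
  -- the normal component vanishes on the limit
  have hperp : ∀ y ∈ ν'.support, ⟪y, u⟫ = 0 := by
    intro y hy
    by_contra hne
    set R := ‖y‖ + 1 with hRdef
    have hR1 : 0 < R := by positivity
    set f : Spc d → ℝ := fun z => |⟪z, u⟫| * cut 0 R z with hf
    have hfc : Continuous f :=
      (continuous_id.inner continuous_const).abs.mul (continuous_cut 0 R)
    have hfs : HasCompactSupport f := (hasCompactSupport_cut 0 hR1).mul_left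
    have hf0 : ∀ z, 0 ≤ f z := fun z => mul_nonneg (abs_nonneg _) (cut_nonneg 0 R z)
    set F : Spc d → ℝ≥0∞ := fun z => ENNReal.ofReal (|⟪z - x, u⟫| / dist z x ^ (n + 1)) with hF
    set E : ℕ → Set (Spc d) := fun j => ball x (3 * R * r j) ∩ ball x ρ with hE
    have hE0 : Tendsto (fun j => ν (E j)) U (𝓝 0) := by
      have hup : ∀ j, ν (E j) ≤ ENNReal.ofReal (C * (3 * R * r j) ^ n) := fun j =>
        (measure_mono inter_subset_left).trans
          ((hreg 1).upper x _ (mul_pos (by positivity) (hr0 j)))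
      refine tendsto_of_tendsto_of_tendsto_of_le_of_le tendsto_const_nhds ?_ (fun j => zero_le) hup
      have hc : Continuous fun t : ℝ => ENNReal.ofReal (C * (3 * R * t) ^ n) :=
        ENNReal.continuous_ofReal.comp (by fun_prop)
      have h0 : ENNReal.ofReal (C * (3 * R * 0) ^ n) = 0 := by
        simp [zero_pow (show n ≠ 0 by omega)]
      exact (hc.tendsto' 0 0 h0).comp hUr
    have hI0 : Tendsto (fun j => ∫⁻ z in E j, F z ∂(ν.restrict (ball x ρ))) U (𝓝 0) := by
      refine tendsto_setLIntegral_zero hfin.ne ?_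
      refine tendsto_of_tendsto_of_tendsto_of_le_of_le tendsto_const_nhds hE0 (fun j => zero_le)
        fun j => Measure.restrict_le_self _
    have hint : Tendsto (fun j => ∫ z, f z ∂(rescale n ν x (r j))) U (𝓝 0) := by
      have hup : ∀ᶠ j in U, ENNReal.ofReal (∫ z, f z ∂(rescale n ν x (r j)))
          ≤ ENNReal.ofReal ((3 * R) ^ (n + 1)) * ∫⁻ z in E j, F z ∂(ν.restrict (ball x ρ)) := by
        filter_upwards [hUr.eventually (Iio_mem_nhds (show (0 : ℝ) < ρ / (3 * R) by positivity))]
          with j hj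
        rw [lt_div_iff₀ (by positivity)] at hj
        have hrj := hr0 j
        have hsub : ball x (3 * R * r j) ⊆ ball x ρ := ball_subset_ball (by linarith)
        rw [Measure.restrict_restrict (measurableSet_ball.inter measurableSet_ball),
          inter_assoc, inter_self, inter_eq_self_of_subset_left hsub,
          integral_rescale hrj, smul_eq_mul, ← integral_const_mul,
          ← lintegral_const_mul' _ _ ENNReal.ofReal_ne_top]
        have hci : Integrable (fun z => (r j ^ n)⁻¹ * f (zoom x (r j) z)) ν :=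
          (continuous_const.mul (hfc.comp (continuous_zoom x (r j)))).integrable_of_hasCompactSupport
            (hfs.comp_homeomorph (zoomHomeo x hrj.ne')).mul_left
        rw [ofReal_integral_eq_lintegral_ofReal hci
          (Eventually.of_forall fun z => mul_nonneg (by positivity) (hf0 _))]
        refine le_trans (lintegral_mono fun z => ?_) (lintegral_indicator measurableSet_ball _).le
        by_cases hz : z ∈ ball x (3 * R * r j)
        · rw [indicator_of_mem hz, ← ENNReal.ofReal_mul (by positivity)]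
          refine ENNReal.ofReal_le_ofReal ?_
          rw [mem_ball] at hz
          simp only [hf, zoom, real_inner_smul_left, abs_mul, abs_of_pos (inv_pos.mpr hrj)]
          calc (r j ^ n)⁻¹ * ((r j)⁻¹ * |⟪z - x, u⟫| * cut 0 R ((r j)⁻¹ • (z - x)))
              ≤ (r j ^ n)⁻¹ * ((r j)⁻¹ * |⟪z - x, u⟫| * 1) := by
                gcongr
                exact cut_le_one _ _ _
            _ = |⟪z - x, u⟫| * ((r j) ^ (n + 1))⁻¹ := by
                rw [pow_succ, mul_inv]
                ring
            _ ≤ (3 * R) ^ (n + 1) * (|⟪z - x, u⟫| / dist z x ^ (n + 1)) := by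
                rcases eq_or_ne z x with rfl | hzx
                · simp
                have hd : 0 < dist z x := dist_pos.mpr hzx
                rw [div_eq_mul_inv, mul_left_comm]
                refine mul_le_mul_of_nonneg_left ?_ (abs_nonneg _)
                rw [← div_eq_mul_inv, inv_eq_one_div, div_le_div_iff₀ (by positivity) (by positivity),
                  one_mul, ← mul_pow]
                exact pow_le_pow_left₀ hd.le hz.le _
        · rw [indicator_of_notMem hz, nonpos_iff_eq_zero, ENNReal.ofReal_eq_zero]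
          have h2 : 2 * R ≤ dist (zoom x (r j) z) 0 := by
            rw [dist_zero_right, zoom, norm_smul, Real.norm_eq_abs, abs_of_pos (inv_pos.mpr hrj),
              ← dist_eq_norm, le_inv_mul_iff₀ hrj]
            rw [mem_ball, not_lt] at hz
            nlinarith
          simp [hf, cut_eq_zero hR1 h2]
      have h2 : Tendsto (fun j => ENNReal.ofReal ((3 * R) ^ (n + 1))
          * ∫⁻ z in E j, F z ∂(ν.restrict (ball x ρ))) U (𝓝 0) := by
        simpa using ENNReal.Tendsto.const_mul hI0 (Or.inr ENNReal.ofReal_ne_top)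
      have h3 := tendsto_of_tendsto_of_tendsto_of_le_of_le' tendsto_const_nhds h2
        (Eventually.of_forall fun j => zero_le) hup
      have h4 := (ENNReal.tendsto_toReal ENNReal.zero_ne_top).comp h3
      refine h4.congr fun j => ?_
      exact ENNReal.toReal_ofReal (integral_nonneg hf0)
    have hzero : ∫ z, f z ∂ν' = 0 := tendsto_nhds_unique (hlim.integral f hfc hfs) hint
    have hae := (integral_eq_zero_iff_of_nonneg hf0 (hfc.integrable_of_hasCompactSupport hfs)).mp hzero
    have hopen : IsOpen {z | f z ≠ 0} := isOpen_ne_fun hfc continuous_const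
    have hmem : y ∈ {z | f z ≠ 0} := by
      simp only [mem_ofPred_eq, hf, cut_eq_one hR1 (show dist y 0 ≤ R by
        rw [dist_zero_right, hRdef]; linarith), mul_one]
      exact abs_ne_zero.mpr hne
    exact ((Measure.mem_support_iff_forall y).mp hy _ (hopen.mem_nhds hmem)).ne'
      (ae_iff.mp hae)
  -- the limit is in the subspace
  have hinV : ∀ y ∈ ν'.support, y ∈ V := by
    intro y hy
    obtain ⟨z, hz, hzy⟩ := hlim.supp_approx y hy
    refine V.closed_of_finiteDimensional.mem_of_tendsto hzy (hz.mono fun j hj => ?_)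
    rw [mem_support_rescale (hr0 j)] at hj
    have h := V.smul_mem (r j)⁻¹ (hV _ hj)
    rwa [add_sub_cancel_left, inv_smul_smul₀ (hr0 j).ne'] at h
  set V' : Submodule ℝ (Spc d) := V ⊓ (ℝ ∙ u)ᗮ with hV'
  have hfr : Module.finrank ℝ V' < Module.finrank ℝ V := by
    refine Submodule.finrank_lt_finrank_of_lt (lt_of_le_of_ne inf_le_left fun heq => ?_)
    have hmem : u ∈ V' := heq ▸ huV
    have := Submodule.mem_orthogonal_singleton_iff_inner_right.mp (Submodule.mem_inf.mp hmem).2
    rw [real_inner_self_eq_norm_sq, hu] at this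
    norm_num at this
  -- the limit is reflectionless
  have hrefl : Reflectionless n ν' := by
    intro z R φ hφ
    obtain ⟨K, hK⟩ := hφ.lip
    set R' : ℝ := max (‖z‖ + max R 0) 2 with hR'
    have hφsupp : tsupport φ ⊆ closedBall 0 R' := hφ.supp.trans fun w hw => by
      rw [mem_closedBall] at hw ⊢
      calc dist w 0 ≤ dist w z + dist z 0 := dist_triangle _ _ _
        _ ≤ R' := by
            rw [dist_zero_right]
            linarith [le_max_left R 0, le_max_left (‖z‖ + max R 0) 2]
    have hφs : HasCompactSupport φ :=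
      IsCompact.of_isClosed_subset (isCompact_closedBall _ _) (isClosed_tsupport _) hφsupp
    set β : Spc d → ℝ := cut 0 1 with hβ
    have hβs : HasCompactSupport β := hasCompactSupport_cut 0 one_pos
    have hβi : ∀ j, C⁻¹ ≤ ∫ w, β w ∂(rescale n ν x (r j)) := fun j => by
      have := Reg.integral_cut_ge (hregj j 1) (zero_mem_support_rescale (hr0 j) hx) one_pos le_rfl
      simpa using this
    have hC : 1 ≤ C := (hreg 1).one_le
    set c : ℕ → ℝ := fun j =>
      (∫ w, φ w ∂(rescale n ν x (r j))) / ∫ w, β w ∂(rescale n ν x (r j)) with hc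
    have hc0 : Tendsto c U (𝓝 0) := by
      have h1 := hlim.integral φ hK.continuous hφs
      rw [hφ.mean] at h1
      refine squeeze_zero_norm (fun j => ?_) (by simpa using h1.norm.mul_const C)
      simp only [hc, norm_div, Real.norm_eq_abs]
      have hpos : 0 < ∫ w, β w ∂(rescale n ν x (r j)) :=
        lt_of_lt_of_le (inv_pos.mpr (by linarith)) (hβi j)
      rw [abs_of_pos hpos, div_le_iff₀ hpos, mul_assoc]
      refine le_mul_of_one_le_right (abs_nonneg _) ?_
      calc (1 : ℝ) = C * C⁻¹ := (mul_inv_cancel₀ (by linarith)).symm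
        _ ≤ C * _ := mul_le_mul_of_nonneg_left (hβi j) (by linarith)
    set φj : ℕ → Spc d → ℝ := fun j w => φ w - c j * β w with hφj
    have hadm : ∀ᶠ j in U, Adm (rescale n ν x (r j)) 0 R' (φj j) ∧
        LipschitzWith (K + 1) (φj j) := by
      filter_upwards [hc0.eventually (ball_mem_nhds (0 : ℝ) one_pos)] with j hj
      rw [dist_zero_right, Real.norm_eq_abs] at hj
      have hl : LipschitzWith (K + 1) (φj j) := by
        refine (hK.sub ((lipschitzWith_smul (c j)).comp (lipschitz_cut 0 one_pos))).weaken ?_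
        refine add_le_add le_rfl ?_
        rw [inv_one, Real.toNNReal_one, mul_one, ← NNReal.coe_le_coe, coe_nnnorm,
          Real.norm_eq_abs, NNReal.coe_one]
        exact hj.le
      refine ⟨⟨⟨_, hl⟩, (tsupport_sub _ _).trans (union_subset hφsupp ?_), ?_⟩, hl⟩
      · exact (tsupport_mul_subset_right).trans ((tsupport_cut 0 one_pos).trans
          (closedBall_subset_closedBall (by linarith [le_max_right (‖z‖ + max R 0) 2])))
      · simp only [hφj]
        rw [integral_sub (hK.continuous.integrable_of_hasCompactSupport hφs)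
          (((continuous_cut 0 1).integrable_of_hasCompactSupport hβs).const_mul (c j)),
          integral_const_mul, hc, div_mul_cancel₀ _
            (lt_of_lt_of_le (inv_pos.mpr (by linarith : (0 : ℝ) < C)) (hβi j)).ne', sub_self]
    have hconv := hlim.pairing φj φ R' (K + 1) hadm ⟨⟨K, hK⟩, hφsupp, hφ.mean⟩
      (hK.weaken le_self_add) fun w => by
        simpa using (tendsto_const_nhds (x := φ w)).sub (hc0.mul_const (β w))
    refine tendsto_nhds_unique hconv (tendsto_const_nhds.congr' ?_)
    filter_upwards [hadm] with j hj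
    rw [pairing_rescale (hreg 1).upper hn (hr0 j) hj.1,
      hR _ _ _ (hj.1.zoom_pullback (hr0 j)), smul_zero]
  refine ⟨ν', U, r, V', hν', hreg', hRB', hrefl, h0', fun y hy => ?_, hfr,
    fun j => ⟨hr0 j, hrρ j⟩, hlim⟩
  exact Submodule.mem_inf.mpr ⟨hinV y hy,
    Submodule.mem_orthogonal_singleton_iff_inner_right.mpr
      (by rw [real_inner_comm]; exact hperp y hy)⟩

/-- The flatness statement, by induction on the dimension of a subspace carrying the measure. -/
theorem flat_of_subspace (hcompact : CompactStmt) (hn : 1 ≤ n) (hnd : n < d) (m : ℕ) :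
    ∀ (C : ℝ) (ν : Measure (Spc d)) [IsLocallyFiniteMeasure ν], RegTop n C ν → RB n C ν →
      Reflectionless n ν → (0 : Spc d) ∈ ν.support → ∀ V : Submodule ℝ (Spc d),
      Module.finrank ℝ V ≤ m → ν.support ⊆ V → ∀ ε : ℝ, 0 < ε →
      ∃ y ∈ ν.support ∩ ball 0 1, ∃ r ∈ Ioc (0 : ℝ) 1, Flat n ν y r (ε * r) := by
  induction m using Nat.strong_induction_on with
  | h m ih =>
  intro C ν _ hreg hRB hR h0 V hVm hsub ε hε
  by_cases hVn : Module.finrank ℝ V ≤ n
  · obtain ⟨L, hL⟩ := exists_plane_of_finrank_le hnd.le V hVn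
    refine ⟨0, ⟨h0, mem_ball_self one_pos⟩, 1, ⟨one_pos, le_rfl⟩, L, fun y hy => ?_⟩
    rw [hL y (hsub hy.1), norm_zero]
    positivity
  obtain ⟨v, hvV, hv4, hvs⟩ : ∃ v ∈ V, ‖v‖ < 1 / 4 ∧ v ∉ ν.support := by
    by_contra hcon
    push Not at hcon
    exact not_subspace_subset_big hreg V (not_le.mp hVn) (show (0 : ℝ) < 1 / 4 by norm_num) hcon
  obtain ⟨x, hx, hxd⟩ := (Measure.isClosed_support (μ := ν)).exists_infDist_eq_dist ⟨0, h0⟩ v
  have hnear : ∀ y ∈ ν.support, dist v x ≤ dist v y := fun y hy => by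
    rw [← hxd]
    exact infDist_le_dist_of_mem hy
  have hvx : v ≠ x := fun e => hvs (e ▸ hx)
  have hρ : dist v x ≤ ‖v‖ := by simpa using hnear 0 h0
  have hx2 : ‖x‖ < 1 / 2 := by
    calc ‖x‖ ≤ dist v x + ‖v‖ := by
          rw [dist_comm, dist_eq_norm]
          exact norm_le_norm_sub_add x v
      _ < 1 / 2 := by linarith
  obtain ⟨C', hC'⟩ := exists_tangent hcompact hn hnd C
  obtain ⟨ν', U, r, V', hν', hreg', hRB', hrefl', h0', hsub', hfr, hr, hlim⟩ :=
    hC' ν hreg hRB hR V x v hx hvx (fun y hy => V.sub_mem (hsub hy) (hsub hx))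
      (V.sub_mem hvV (hsub hx)) hnear
  haveI := hν'
  obtain ⟨y', ⟨hy', hy'1⟩, t, ⟨ht0, ht1⟩, L, hL⟩ := ih (Module.finrank ℝ V') (by omega) C' ν'
    hreg' hRB' hrefl' h0' V' le_rfl hsub' (ε / 4) (by linarith)
  obtain ⟨z, hz, hzy⟩ := hlim.supp_approx y' hy'
  have hflat : ∀ᶠ j in U, Flat n (rescale n ν x (r j)) (z j) (t / 2) (ε * (t / 2)) := by
    by_contra hnot
    rw [← Ultrafilter.eventually_not] at hnot
    have hw : ∀ j, ∃ w : Spc d, ¬ Flat n (rescale n ν x (r j)) (z j) (t / 2) (ε * (t / 2)) →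
        w ∈ (rescale n ν x (r j)).support ∩ closedBall (z j) (t / 2) ∧ ε * (t / 2) < ‖L.dev w‖ := by
      intro j
      by_cases hj : Flat n (rescale n ν x (r j)) (z j) (t / 2) (ε * (t / 2))
      · exact ⟨0, fun h => absurd hj h⟩
      · simp only [Flat, not_exists, not_forall, not_le] at hj
        obtain ⟨w, hw1, hw2⟩ := hj L
        exact ⟨w, fun _ => ⟨hw1, hw2⟩⟩
    choose w hw using hw
    have hw' : ∀ᶠ j in U, w j ∈ (rescale n ν x (r j)).support ∧ w j ∈ closedBall y' t ∧
        ε * (t / 2) ≤ ‖L.dev (w j)‖ := by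
      filter_upwards [hnot, hzy.eventually (ball_mem_nhds y' (show 0 < t / 2 by linarith))]
        with j hj hjz
      obtain ⟨⟨h1, h2⟩, h3⟩ := hw j hj
      refine ⟨h1, ?_, h3.le⟩
      rw [mem_closedBall] at h2 ⊢
      linarith [dist_triangle (w j) (z j) y']
    obtain ⟨w', hw'mem, hw'lim⟩ := (isCompact_closedBall y' t).ultrafilter_le_nhds (U.map w)
      (le_principal_iff.mpr (mem_map.mpr (hw'.mono fun j hj => hj.2.1)))
    have hdev : Continuous fun y => ‖L.dev y‖ := by
      unfold Plane.dev
      fun_prop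
    have h1 : ε * (t / 2) ≤ ‖L.dev w'‖ :=
      ge_of_tendsto ((hdev.tendsto w').comp hw'lim) (hw'.mono fun j hj => hj.2.2)
    have h2 := hL w' ⟨hlim.supp_limit w w' (hw'.mono fun j hj => hj.1) hw'lim, hw'mem⟩
    have : 0 < ε * t := by positivity
    linarith
  obtain ⟨j, hj, hjs, hjd⟩ :=
    ((hflat.and (hz.and (hzy.eventually (ball_mem_nhds y' one_pos))))).exists
  obtain ⟨hr0, hrρ⟩ := hr j
  refine ⟨x + r j • z j, ⟨(mem_support_rescale hr0 _).mp hjs, ?_⟩, r j * (t / 2),
    ⟨by positivity, ?_⟩, ?_⟩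
  · rw [mem_ball_zero_iff]
    rw [mem_ball, dist_zero_right] at hy'1
    have hzj : ‖z j‖ < 2 := by
      have := norm_le_norm_sub_add (z j) y'
      rw [← dist_eq_norm] at this
      linarith
    calc ‖x + r j • z j‖ ≤ ‖x‖ + r j * ‖z j‖ := by
          refine (norm_add_le _ _).trans ?_
          rw [norm_smul, Real.norm_eq_abs, abs_of_pos hr0]
      _ < 1 := by nlinarith [norm_nonneg (z j)]
  · nlinarith
  · rw [show ε * (r j * (t / 2)) = r j * (ε * (t / 2)) by ring]
    exact (flat_rescale hr0 _ _ _).mp hj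

end Touching

open Touching in
/-- Module Touch, first part. -/
theorem touchStmt_proof (hcompact : CompactStmt) : TouchStmt := by
  intro n d hn hnd C ν _ hreg hRB hR h0 ε hε
  exact flat_of_subspace hcompact hn hnd _ C ν hreg hRB hR h0 ⊤ le_rfl
    (fun y _ => Submodule.mem_top) ε hε

open Touching in
/-- Module Touch, second part. -/
theorem fillStmt_proof (hcompact : CompactStmt) : FillStmt := by
  intro n d hn hnd C ν _ hreg hRB hR hne L hsub
  refine Subset.antisymm hsub fun v hv => ?_
  by_contra hvs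
  obtain ⟨x, hx, hxd⟩ := (Measure.isClosed_support (μ := ν)).exists_infDist_eq_dist hne v
  have hnear : ∀ y ∈ ν.support, dist v x ≤ dist v y := fun y hy => by
    rw [← hxd]
    exact infDist_le_dist_of_mem hy
  set V : Submodule ℝ (Spc d) := Submodule.span ℝ (range L.frame) with hV
  have hcar : ∀ y ∈ L.carrier, ∀ y' ∈ L.carrier, y - y' ∈ V := by
    rintro _ ⟨a, rfl⟩ _ ⟨b, rfl⟩
    simp only [Plane.param, add_sub_add_left_eq_sub]
    exact V.sub_mem (V.sum_mem fun i _ => V.smul_mem _ (Submodule.subset_span (mem_range_self i)))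
      (V.sum_mem fun i _ => V.smul_mem _ (Submodule.subset_span (mem_range_self i)))
  obtain ⟨C', hC'⟩ := exists_tangent hcompact hn hnd C
  obtain ⟨ν', U, r, V', hν', hreg', hRB', hrefl', h0', hsub', hfr, -, -⟩ :=
    hC' ν hreg hRB hR V x v hx (fun e => hvs (e ▸ hx))
      (fun y hy => hcar y (hsub hy) x (hsub hx)) (hcar v hv x (hsub hx)) hnear
  haveI := hν'
  refine not_support_subset_small hreg' h0' V' (hfr.trans_le ?_) hsub'
  refine (finrank_span_le_card _).trans ?_
  rw [Set.toFinset_range]
  exact Finset.card_image_le.trans (by simp)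

end Vale.Agent.P120
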