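import Mathlib
import Vale.Agent.P120.Core

/-!
Smooth lattice partitions of unity on `ℝ^n`, with the bounds needed for blends of affine
functions. Used by module Tree.
-/

noncomputable section

open MeasureTheory Metric Set Filter Topology

namespace Vale.Agent.P120.TreeProof

variable {n : ℕ}

/-- a smooth one-dimensional bump whose integer translates sum to one -/
def hat (x : ℝ) : ℝ := Real.smoothTransition (x + 1) - Real.smoothTransition x

/-- the product bump -/
def bump (u : Spc n) : ℝ := ∏ i, hat (u i)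

/-- the product bump centred at `c`, at scale `s` -/
def bmp (c : Spc n) (s : ℝ) (u : Spc n) : ℝ := bump (s⁻¹ • (u - c))

/-- the lattice node with integer coordinates `m`, at scale `t` -/
def node (t : ℝ) (m : Fin n → ℤ) : Spc n := t • WithLp.toLp 2 (fun i => (m i : ℝ))

/-- the coordinate vector -/
def unit (i : Fin n) : Spc n := EuclideanSpace.single i 1

/-- the directional derivative along a coordinate -/
def pd (i : Fin n) (f : Spc n → ℝ) (u : Spc n) : ℝ := fderiv ℝ f u (unit i)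

/-- the integer points that can be active at `u` -/
def window (t : ℝ) (u : Spc n) : Finset (Fin n → ℤ) :=
  Fintype.piFinset fun i => Finset.Icc (⌊u i / t⌋ - 1) (⌊u i / t⌋ + 1)

theorem card_window (t : ℝ) (u : Spc n) : (window t u).card = 3 ^ n := by
  simp [window, show ∀ k : ℤ, k + 1 + 1 - (k - 1) = 3 from fun k => by ring]

theorem hat_eq_zero {x : ℝ} (h : 1 ≤ |x|) : hat x = 0 := by
  rcases le_abs.1 h with h | h
  · simp [hat, Real.smoothTransition.one_of_one_le h,
      Real.smoothTransition.one_of_one_le (show (1 : ℝ) ≤ x + 1 by linarith)]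
  · simp [hat, Real.smoothTransition.zero_of_nonpos (show x ≤ 0 by linarith),
      Real.smoothTransition.zero_of_nonpos (show x + 1 ≤ 0 by linarith)]

theorem contDiff_hat {k : ℕ∞} : ContDiff ℝ k hat :=
  (Real.smoothTransition.contDiff.comp (contDiff_id.add contDiff_const)).sub
    Real.smoothTransition.contDiff

theorem contDiff_bump {k : ℕ∞} : ContDiff ℝ k (bump (n := n)) := by
  refine contDiff_prod fun i _ => ?_
  exact contDiff_hat.comp ((EuclideanSpace.proj i : Spc n →L[ℝ] ℝ).contDiff)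

theorem abs_le_one_of_bump {u : Spc n} (h : bump u ≠ 0) (i : Fin n) : |u i| ≤ 1 := by
  by_contra hc
  exact h (Finset.prod_eq_zero (Finset.mem_univ i) (hat_eq_zero (le_of_lt (not_le.1 hc))))

theorem norm_le_of_abs {u : Spc n} {r : ℝ} (h : ∀ i, |u i| ≤ r) : ‖u‖ ≤ n * r := by
  have hu : u = ∑ i, u i • unit i := by
    ext j; simp [unit, EuclideanSpace.single_apply, Pi.single_apply]
  rw [hu]
  refine (norm_sum_le _ _).trans ?_
  refine (Finset.sum_le_sum fun i _ => ?_).trans_eq
    (show ∑ _i : Fin n, r = (n : ℝ) * r by simp)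
  simpa [unit, norm_smul] using h i

theorem tsupport_bump : tsupport (bump (n := n)) ⊆ {u | ∀ i, |u i| ≤ 1} := by
  refine closure_minimal (fun u hu i => abs_le_one_of_bump hu i) ?_
  have : {u : Spc n | ∀ i, |u i| ≤ 1} = ⋂ i, {u | |u i| ≤ 1} := by ext; simp
  rw [this]
  exact isClosed_iInter fun i =>
    isClosed_le (EuclideanSpace.proj i : Spc n →L[ℝ] ℝ).continuous.abs continuous_const

theorem hasCompactSupport_bump : HasCompactSupport (bump (n := n)) := by
  refine HasCompactSupport.intro (isCompact_closedBall (0 : Spc n) n) fun u hu => ?_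
  by_contra h
  exact hu (by simpa using norm_le_of_abs (fun i => abs_le_one_of_bump h i))

theorem bump_zero : bump (0 : Spc n) = 1 := by
  simp [bump, hat, Real.smoothTransition.one, Real.smoothTransition.zero]

theorem contDiff_pd {f : Spc n → ℝ} {k : ℕ} (i : Fin n)
    (h : ContDiff ℝ ((k + 1 : ℕ) : WithTop ℕ∞) f) : ContDiff ℝ (k : WithTop ℕ∞) (pd i f) := by
  have := h.fderiv_right (m := (k : WithTop ℕ∞)) (by simp)
  exact this.clm_apply contDiff_const

theorem pd_eq_zero_of_notMem {f : Spc n → ℝ} {u : Spc n} (i : Fin n) (h : u ∉ tsupport f) :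
    pd i f u = 0 := by
  have : fderiv ℝ f u = 0 := by
    by_contra hc
    exact h (support_fderiv_subset ℝ hc)
  simp [pd, this]

theorem tsupport_pd (i : Fin n) (f : Spc n → ℝ) : tsupport (pd i f) ⊆ tsupport f := by
  refine closure_minimal (fun u hu => ?_) (isClosed_tsupport f)
  by_contra h
  exact hu (pd_eq_zero_of_notMem i h)

theorem hasCompactSupport_pd {f : Spc n → ℝ} (i : Fin n) (h : HasCompactSupport f) :
    HasCompactSupport (pd i f) :=
  h.mono' ((subset_tsupport _).trans (tsupport_pd i f))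

theorem pd_congr {f g : Spc n → ℝ} {u : Spc n} (i : Fin n) (h : f =ᶠ[𝓝 u] g) :
    pd i f u = pd i g u := by
  simp [pd, h.fderiv_eq]

theorem pd_eventuallyEq {f g : Spc n → ℝ} {u : Spc n} (i : Fin n) (h : f =ᶠ[𝓝 u] g) :
    pd i f =ᶠ[𝓝 u] pd i g :=
  h.eventuallyEq_nhds.mono fun _ hv => pd_congr i hv

theorem pd_comp_smul (i : Fin n) {f : Spc n → ℝ} (hf : Differentiable ℝ f) (c : Spc n) (s : ℝ)
    (u : Spc n) : pd i (fun v => f (s⁻¹ • (v - c))) u = s⁻¹ * pd i f (s⁻¹ • (u - c)) := by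
  have h : HasFDerivAt (fun v : Spc n => s⁻¹ • (v - c))
      (s⁻¹ • ContinuousLinearMap.id ℝ (Spc n)) u :=
    ((hasFDerivAt_id u).sub_const c).const_smul s⁻¹
  have h2 := (hf _).hasFDerivAt.comp u h
  show fderiv ℝ (f ∘ fun v : Spc n => s⁻¹ • (v - c)) u (unit i) = _
  rw [h2.fderiv]
  simp [pd]

/-- the uniform bound on the bump and its derivatives -/
structure BumpBound (n : ℕ) (C : ℝ) : Prop where
  one_le : 1 ≤ C
  val : ∀ u : Spc n, |bump u| ≤ C
  d1 : ∀ i u, |pd i (bump (n := n)) u| ≤ C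
  d2 : ∀ i u, |pd i (pd i (bump (n := n))) u| ≤ C

theorem exists_bumpBound (n : ℕ) : ∃ C, BumpBound n C := by
  have h2 : ContDiff ℝ ((2 : ℕ) : WithTop ℕ∞) (bump (n := n)) :=
    contDiff_bump (k := ((2 : ℕ) : ℕ∞))
  have bd : ∀ f : Spc n → ℝ, Continuous f → HasCompactSupport f → ∃ C, ∀ u, |f u| ≤ C := by
    intro f hf hc
    obtain ⟨C, hC⟩ := hc.exists_bound_of_continuous hf
    exact ⟨C, fun u => by simpa using hC u⟩
  have hb := hasCompactSupport_bump (n := n)
  obtain ⟨C0, h0⟩ := bd _ h2.continuous hb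
  choose C1 h1 using fun i => bd _ (contDiff_pd (k := 1) i h2).continuous
    (hasCompactSupport_pd i hb)
  choose C2 h2' using fun i : Fin n => bd _ (contDiff_pd (k := 0) i (contDiff_pd (k := 1) i h2)).continuous
    (hasCompactSupport_pd i (hasCompactSupport_pd i hb))
  have hs : ∀ (D : Fin n → ℝ) i, D i ≤ ∑ j, |D j| := fun D i =>
    (le_abs_self _).trans (Finset.single_le_sum (f := fun j => |D j|) (fun j _ => abs_nonneg _)
      (Finset.mem_univ i))
  have p1 : 0 ≤ ∑ j, |C1 j| := Finset.sum_nonneg fun j _ => abs_nonneg _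
  have p2 : 0 ≤ ∑ j, |C2 j| := Finset.sum_nonneg fun j _ => abs_nonneg _
  refine ⟨1 + |C0| + (∑ j, |C1 j|) + ∑ j, |C2 j|, ⟨by have := abs_nonneg C0; linarith,
    fun u => ?_, fun i u => ?_, fun i u => ?_⟩⟩
  · have := h0 u; have := le_abs_self C0; linarith
  · have := h1 i u; have := hs C1 i; have := abs_nonneg C0; linarith
  · have := h2' i u; have := hs C2 i; have := abs_nonneg C0; linarith

section scaled

variable {Cb : ℝ} (hC : BumpBound n Cb) {c : Spc n} {s : ℝ}

theorem contDiff_bmp (c : Spc n) (s : ℝ) {k : ℕ∞} : ContDiff ℝ k (bmp c s) :=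
  contDiff_bump.comp ((contDiff_id.sub contDiff_const).const_smul s⁻¹)

theorem differentiable_bmp (c : Spc n) (s : ℝ) : Differentiable ℝ (bmp c s) :=
  (contDiff_bmp c s (k := 1)).differentiable (by simp)

theorem differentiable_pd_bump (i : Fin n) : Differentiable ℝ (pd i (bump (n := n))) :=
  (contDiff_pd (k := 1) i (contDiff_bump (k := ((2 : ℕ) : ℕ∞)))).differentiable (by simp)

theorem pd_bmp (i : Fin n) (c : Spc n) (s : ℝ) (u : Spc n) :
    pd i (bmp c s) u = s⁻¹ * pd i bump (s⁻¹ • (u - c)) :=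
  pd_comp_smul i ((contDiff_bump (k := 1)).differentiable (by simp)) c s u

theorem pd_pd_bmp (i : Fin n) (c : Spc n) (s : ℝ) (u : Spc n) :
    pd i (pd i (bmp c s)) u = s⁻¹ * (s⁻¹ * pd i (pd i bump) (s⁻¹ • (u - c))) := by
  have h : pd i (bmp c s) = fun v => s⁻¹ * pd i bump (s⁻¹ • (v - c)) :=
    funext (pd_bmp i c s)
  rw [h]
  show fderiv ℝ (fun v => s⁻¹ * pd i bump (s⁻¹ • (v - c))) u (unit i) = _
  rw [fderiv_const_mul]
  · simp only [smul_apply, smul_eq_mul]
    rw [show fderiv ℝ (fun v => pd i bump (s⁻¹ • (v - c))) u (unit i) =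
      s⁻¹ * pd i (pd i bump) (s⁻¹ • (u - c)) from pd_comp_smul i (differentiable_pd_bump i) c s u]
  · exact ((differentiable_pd_bump i).comp
      ((differentiable_id.sub_const c).const_smul s⁻¹)) u

include hC

theorem abs_bmp (u : Spc n) : |bmp c s u| ≤ Cb := hC.val _

theorem abs_pd_bmp (hs : 0 < s) (i : Fin n) (u : Spc n) : |pd i (bmp c s) u| ≤ Cb / s := by
  rw [pd_bmp, abs_mul, abs_inv, abs_of_pos hs, div_eq_inv_mul]
  exact mul_le_mul_of_nonneg_left (hC.d1 i _) (by positivity)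

theorem abs_pd_pd_bmp (hs : 0 < s) (i : Fin n) (u : Spc n) :
    |pd i (pd i (bmp c s)) u| ≤ Cb / s / s := by
  rw [pd_pd_bmp, abs_mul, abs_mul, abs_inv, abs_of_pos hs, div_eq_inv_mul Cb s,
    div_eq_inv_mul (s⁻¹ * Cb) s]
  gcongr
  exact hC.d2 i _

end scaled

theorem abs_sub_le_of_bmp {c u : Spc n} {s : ℝ} (hs : 0 < s) (h : u ∈ tsupport (bmp c s))
    (i : Fin n) : |u i - c i| ≤ s := by
  have hcont : Continuous fun v : Spc n => s⁻¹ • (v - c) := by fun_prop
  have hmem : s⁻¹ • (u - c) ∈ tsupport (bump (n := n)) :=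
    tsupport_comp_subset_preimage bump hcont h
  have := tsupport_bump hmem i
  simp only [PiLp.smul_apply, PiLp.sub_apply, smul_eq_mul, abs_mul, abs_inv, abs_of_pos hs,
    inv_mul_le_iff₀ hs, mul_one] at this
  exact this

theorem dist_le_of_bmp {c u : Spc n} {s : ℝ} (hs : 0 < s) (h : u ∈ tsupport (bmp c s)) :
    dist u c ≤ n * s := by
  rw [dist_eq_norm]
  exact norm_le_of_abs fun i => by simpa using abs_sub_le_of_bmp hs h i

theorem hasCompactSupport_bmp {s : ℝ} (hs : 0 < s) (c : Spc n) :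
    HasCompactSupport (bmp c s) := by
  refine HasCompactSupport.intro (isCompact_closedBall c (n * s)) fun u hu => ?_
  by_contra h
  exact hu (dist_le_of_bmp hs (subset_tsupport _ h))

theorem mem_window {t : ℝ} (ht : 0 < t) {m : Fin n → ℤ} {u : Spc n}
    (h : u ∈ tsupport (bmp (node t m) t)) : m ∈ window t u := by
  simp only [window, Fintype.mem_piFinset, Finset.mem_Icc]
  intro i
  have := abs_le.1 (abs_sub_le_of_bmp ht h i)
  simp only [node, PiLp.smul_apply, smul_eq_mul] at this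
  have h1 : u i / t - 1 ≤ m i := by
    rw [sub_le_iff_le_add, div_le_iff₀ ht]; linarith [this.2]
  have h2 : (m i : ℝ) ≤ u i / t + 1 := by
    rw [← sub_le_iff_le_add, le_div_iff₀ ht]; linarith [this.1]
  constructor
  · have : ((⌊u i / t⌋ - 1 : ℤ) : ℝ) ≤ (m i : ℝ) := by
      push_cast; linarith [Int.floor_le (u i / t)]
    exact_mod_cast this
  · have : ((m i : ℤ) : ℝ) < ((⌊u i / t⌋ + 2 : ℤ) : ℝ) := by
      push_cast; linarith [Int.lt_floor_add_one (u i / t)]
    have : m i < ⌊u i / t⌋ + 2 := by exact_mod_cast this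
    omega

theorem sum_hat (x : ℝ) : ∑ k ∈ Finset.Icc (⌊x⌋ - 1) (⌊x⌋ + 1), hat (x - k) = 1 := by
  have he : Finset.Icc (⌊x⌋ - 1) (⌊x⌋ + 1) = {⌊x⌋ - 1, ⌊x⌋, ⌊x⌋ + 1} := by
    ext a; simp; omega
  rw [he, Finset.sum_insert (by simp; omega), Finset.sum_insert (by simp), Finset.sum_singleton]
  have h0 := Int.floor_le x
  have h1 := Int.lt_floor_add_one x
  simp only [hat]
  push_cast
  rw [Real.smoothTransition.one_of_one_le (show (1 : ℝ) ≤ x - ((⌊x⌋ : ℝ) - 1) + 1 by linarith),
    Real.smoothTransition.zero_of_nonpos (show x - ((⌊x⌋ : ℝ) + 1) ≤ 0 by linarith)]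
  ring_nf

theorem sum_bmp_window {t : ℝ} (ht : 0 < t) (u : Spc n) :
    ∑ m ∈ window t u, bmp (node t m) t u = 1 := by
  have h := Finset.prod_univ_sum (fun i => Finset.Icc (⌊u i / t⌋ - 1) (⌊u i / t⌋ + 1))
    (fun i (k : ℤ) => hat (u i / t - k))
  simp only [sum_hat, Finset.prod_const_one] at h
  rw [h]
  refine Finset.sum_congr rfl fun m _ => ?_
  simp only [bmp, bump, node]
  refine Finset.prod_congr rfl fun i _ => ?_
  congr 1
  simp only [PiLp.smul_apply, PiLp.sub_apply, smul_eq_mul]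
  field_simp

/-- `M` contains every node that can be active at `u` -/
def Covers (t : ℝ) (M : Finset (Fin n → ℤ)) (u : Spc n) : Prop :=
  ∀ m, dist (node t m) u ≤ 2 * n * t → m ∈ M

theorem eventually_sum_bmp {t : ℝ} (ht : 0 < t) (hn : 1 ≤ n) {M : Finset (Fin n → ℤ)} {u : Spc n}
    (h : Covers t M u) : ∀ᶠ v in 𝓝 u, ∑ m ∈ M, bmp (node t m) t v = 1 := by
  have hnt : 0 < (n : ℝ) * t := mul_pos (Nat.cast_pos.2 hn) ht
  filter_upwards [closedBall_mem_nhds u hnt] with v hv
  rw [← sum_bmp_window ht v]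
  symm
  classical
  rw [← Finset.sum_filter_ne_zero (s := window t v), ← Finset.sum_filter_ne_zero (s := M)]
  refine Finset.sum_congr ?_ fun _ _ => rfl
  ext m
  simp only [Finset.mem_filter, and_congr_left_iff]
  intro hm
  refine ⟨fun _ => h m ?_, fun _ => mem_window ht (subset_tsupport _ hm)⟩
  have h1 := dist_le_of_bmp ht (subset_tsupport _ hm)
  rw [mem_closedBall] at hv
  calc dist (node t m) u ≤ dist v (node t m) + dist v u := dist_triangle_left _ _ _
    _ ≤ 2 * n * t := by linarith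

/-- a weighted sum of lattice bumps -/
def blend (t : ℝ) (M : Finset (Fin n → ℤ)) (l : (Fin n → ℤ) → Spc n → ℝ) (u : Spc n) : ℝ :=
  ∑ m ∈ M, bmp (node t m) t u * l m u

/-- an affine function -/
def aff (a : ℝ) (φ : Spc n →L[ℝ] ℝ) (u : Spc n) : ℝ := a + φ u

theorem pd_aff (i : Fin n) (a : ℝ) (φ : Spc n →L[ℝ] ℝ) (u : Spc n) :
    pd i (aff a φ) u = φ (unit i) := by
  show fderiv ℝ (fun v => a + φ v) u (unit i) = _
  rw [fderiv_const_add, φ.fderiv]

theorem contDiff_aff (a : ℝ) (φ : Spc n →L[ℝ] ℝ) {k : WithTop ℕ∞} : ContDiff ℝ k (aff a φ) :=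
  contDiff_const.add φ.contDiff

theorem sum_abs_le {ι : Type*} (W M : Finset ι) (f : ι → ℝ) (B : ℝ) (hB : 0 ≤ B)
    (h0 : ∀ m ∈ M, f m ≠ 0 → m ∈ W) (hb : ∀ m ∈ M, f m ≠ 0 → |f m| ≤ B) :
    |∑ m ∈ M, f m| ≤ W.card * B := by
  classical
  rw [← Finset.sum_filter_ne_zero]
  refine (Finset.abs_sum_le_sum_abs _ _).trans ?_
  refine (Finset.sum_le_card_nsmul _ _ B fun m hm => ?_).trans ?_
  · rw [Finset.mem_filter] at hm
    exact hb m hm.1 hm.2
  · rw [nsmul_eq_mul]
    refine mul_le_mul_of_nonneg_right ?_ hB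
    exact_mod_cast Finset.card_le_card fun m hm => by
      rw [Finset.mem_filter] at hm
      exact h0 m hm.1 hm.2

variable {Cb : ℝ}

theorem abs_sum_bmp (hC : BumpBound n Cb) {t : ℝ} (ht : 0 < t) (M : Finset (Fin n → ℤ))
    (i : Fin n) (u : Spc n) :
    |∑ m ∈ M, bmp (node t m) t u| ≤ 3 ^ n * Cb ∧
      |pd i (fun v => ∑ m ∈ M, bmp (node t m) t v) u| ≤ 3 ^ n * (Cb / t) := by
  have hC0 : 0 ≤ Cb := zero_le_one.trans hC.one_le
  have hcard : ((window t u).card : ℝ) = 3 ^ n := by simp [card_window]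
  refine ⟨?_, ?_⟩
  · rw [← hcard]
    exact sum_abs_le _ _ _ _ hC0 (fun m _ h => mem_window ht (subset_tsupport _ h))
      fun m _ _ => abs_bmp hC u
  · rw [← hcard]
    have : pd i (fun v => ∑ m ∈ M, bmp (node t m) t v) u =
        ∑ m ∈ M, pd i (bmp (node t m) t) u := by
      simp [pd, fderiv_fun_sum fun m _ => differentiable_bmp (node t m) t u]
    rw [this]
    refine sum_abs_le _ _ _ _ (by positivity) (fun m _ h => ?_) fun m _ _ => abs_pd_bmp hC ht i u
    exact mem_window ht (tsupport_pd i _ (subset_tsupport _ h))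

theorem exists_near_of_sum_bmp {t : ℝ} (ht : 0 < t) {M : Finset (Fin n → ℤ)} {u : Spc n}
    (h : u ∈ tsupport fun v => ∑ m ∈ M, bmp (node t m) t v) :
    ∃ m ∈ M, dist u (node t m) ≤ n * t := by
  by_contra hc
  simp only [not_exists, not_and] at hc
  have : (fun v => ∑ m ∈ M, bmp (node t m) t v) =ᶠ[𝓝 u] 0 := by
    have h2 : ∀ᶠ v in 𝓝 u, ∀ m ∈ M, bmp (node t m) t v = 0 := by
      refine (Finset.eventually_all M).2 fun m hm => ?_
      exact notMem_tsupport_iff_eventuallyEq.1 fun hm' => hc m hm (dist_le_of_bmp ht hm')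
    exact h2.mono fun v hv => Finset.sum_eq_zero hv
  exact notMem_tsupport_iff_eventuallyEq.2 this h

/-- bounds on a blend of affine functions that are close to a given one -/
theorem blend_bounds (hC : BumpBound n Cb) {t : ℝ} (ht : 0 < t) (hn : 1 ≤ n)
    {M : Finset (Fin n → ℤ)} {u : Spc n} (hM : Covers t M u)
    (a : (Fin n → ℤ) → ℝ) (φ : (Fin n → ℤ) → Spc n →L[ℝ] ℝ) (a0 : ℝ) (φ0 : Spc n →L[ℝ] ℝ)
    (i : Fin n) (w : ℝ) (hw : 0 ≤ w)
    (hclose : ∀ m ∈ M, dist u (node t m) ≤ n * t →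
      |aff (a m) (φ m) u - aff a0 φ0 u| ≤ t * w ∧ |φ m (unit i) - φ0 (unit i)| ≤ w) :
    |blend t M (fun m => aff (a m) (φ m)) u - aff a0 φ0 u| ≤ 3 * 3 ^ n * Cb * (t * w) ∧
    |pd i (blend t M fun m => aff (a m) (φ m)) u - φ0 (unit i)| ≤ 3 * 3 ^ n * Cb * w ∧
    |pd i (pd i (blend t M fun m => aff (a m) (φ m))) u| ≤ 3 * 3 ^ n * Cb * (w / t) := by
  have hC0 : 0 ≤ Cb := zero_le_one.trans hC.one_le
  have hcard : ((window t u).card : ℝ) = 3 ^ n := by simp [card_window]
  let d : (Fin n → ℤ) → Spc n → ℝ := fun m => aff (a m - a0) (φ m - φ0)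
  have hd : ∀ m v, d m v = aff (a m) (φ m) v - aff a0 φ0 v := fun m v => by
    simp [d, aff]; ring
  let G : Spc n → ℝ := fun v => aff a0 φ0 v + ∑ m ∈ M, bmp (node t m) t v * d m v
  have hev : blend t M (fun m => aff (a m) (φ m)) =ᶠ[𝓝 u] G := by
    filter_upwards [eventually_sum_bmp ht hn hM] with v hv
    simp only [blend, G, hd, mul_sub, Finset.sum_sub_distrib, ← Finset.sum_mul, hv, one_mul]
    ring
  have hdd : ∀ m v, HasFDerivAt (d m) (φ m - φ0) v := fun m v =>
    (φ m - φ0).hasFDerivAt.const_add _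
  have hpd : ∀ v, pd i G v = φ0 (unit i) +
      ∑ m ∈ M, (pd i (bmp (node t m) t) v * d m v +
        bmp (node t m) t v * (φ m - φ0) (unit i)) := by
    intro v
    have h : HasFDerivAt G (φ0 + ∑ m ∈ M, (bmp (node t m) t v • (φ m - φ0) +
        d m v • fderiv ℝ (bmp (node t m) t) v)) v :=
      (φ0.hasFDerivAt.const_add a0).add (HasFDerivAt.fun_sum fun m _ =>
        (differentiable_bmp _ _ v).hasFDerivAt.mul (hdd m v))
    show fderiv ℝ G v (unit i) = _
    rw [h.fderiv]
    simp only [add_apply, sum_apply, smul_apply, smul_eq_mul, pd]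
    exact congrArg _ (Finset.sum_congr rfl fun m _ => by ring)
  have hdiff2 : ∀ m, Differentiable ℝ (pd i (bmp (node t m) t)) := fun m =>
    (contDiff_pd (k := 1) i (contDiff_bmp _ _ (k := ((2 : ℕ) : ℕ∞)))).differentiable (by simp)
  have hpd2 : pd i (pd i G) u = ∑ m ∈ M, (pd i (pd i (bmp (node t m) t)) u * d m u +
      2 * (pd i (bmp (node t m) t) u * (φ m - φ0) (unit i))) := by
    have h : HasFDerivAt (fun v => φ0 (unit i) +
        ∑ m ∈ M, (pd i (bmp (node t m) t) v * d m v + bmp (node t m) t v * (φ m - φ0) (unit i)))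
        (∑ m ∈ M, ((pd i (bmp (node t m) t) u • (φ m - φ0) +
          d m u • fderiv ℝ (pd i (bmp (node t m) t)) u) +
          (φ m - φ0) (unit i) • fderiv ℝ (bmp (node t m) t) u)) u :=
      (HasFDerivAt.fun_sum fun m _ => ((hdiff2 m u).hasFDerivAt.mul (hdd m u)).add
        ((differentiable_bmp _ _ u).hasFDerivAt.mul_const _)).const_add _
    rw [show pd i G = _ from funext hpd]
    show fderiv ℝ _ u (unit i) = _
    rw [h.fderiv]
    simp only [add_apply, sum_apply, smul_apply, smul_eq_mul, pd]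
    exact Finset.sum_congr rfl fun m _ => by ring
  have key : ∀ (f : (Fin n → ℤ) → ℝ) (B : ℝ), 0 ≤ B →
      (∀ m, f m ≠ 0 → u ∈ tsupport (bmp (node t m) t)) →
      (∀ m ∈ M, dist u (node t m) ≤ n * t → |f m| ≤ B) →
      |∑ m ∈ M, f m| ≤ 3 ^ n * B := by
    intro f B hB h1 h2
    rw [← hcard]
    exact sum_abs_le _ _ _ _ hB (fun m _ h => mem_window ht (h1 m h))
      fun m hm h => h2 m hm (dist_le_of_bmp ht (h1 m h))
  have sb : ∀ m, bmp (node t m) t u ≠ 0 → u ∈ tsupport (bmp (node t m) t) :=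
    fun m h => subset_tsupport _ h
  have s1 : ∀ m, pd i (bmp (node t m) t) u ≠ 0 → u ∈ tsupport (bmp (node t m) t) :=
    fun m h => tsupport_pd i _ (subset_tsupport _ h)
  have s2 : ∀ m, pd i (pd i (bmp (node t m) t)) u ≠ 0 → u ∈ tsupport (bmp (node t m) t) :=
    fun m h => tsupport_pd i _ (tsupport_pd i _ (subset_tsupport _ h))
  refine ⟨?_, ?_, ?_⟩
  · rw [hev.eq_of_nhds]
    simp only [G, add_sub_cancel_left]
    refine (key _ (Cb * (t * w)) (by positivity) (fun m h => sb m (left_ne_zero_of_mul h))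
      fun m hm hd' => ?_).trans ?_
    · rw [abs_mul, hd]
      exact mul_le_mul (abs_bmp hC u) (hclose m hm hd').1 (abs_nonneg _) hC0
    · have : 0 ≤ 3 ^ n * (Cb * (t * w)) := by positivity
      linarith
  · rw [pd_congr i hev, hpd]
    simp only [add_sub_cancel_left]
    refine (key _ (2 * (Cb * w)) (by positivity) (fun m h => ?_) fun m hm hd' => ?_).trans ?_
    · by_contra hns
      apply h
      rw [not_imp_comm.1 (s1 m) hns, not_imp_comm.1 (sb m) hns]; simp
    · obtain ⟨c1, c2⟩ := hclose m hm hd'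
      refine (abs_add_le _ _).trans ?_
      rw [abs_mul, abs_mul, hd]
      have e1 := mul_le_mul (abs_pd_bmp hC (c := node t m) ht i u) c1 (abs_nonneg _)
        (by positivity)
      have e2 := mul_le_mul (abs_bmp hC (c := node t m) (s := t) u)
        (show |(φ m - φ0) (unit i)| ≤ w by simpa using c2) (abs_nonneg _) hC0
      have : Cb / t * (t * w) = Cb * w := by field_simp
      linarith
    · have : 0 ≤ 3 ^ n * (Cb * w) := by positivity
      linarith
  · rw [pd_congr i (pd_eventuallyEq i hev), hpd2]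
    refine (key _ (3 * (Cb * (w / t))) (by positivity) (fun m h => ?_) fun m hm hd' => ?_).trans ?_
    · by_contra hns
      apply h
      rw [not_imp_comm.1 (s1 m) hns, not_imp_comm.1 (s2 m) hns]; simp
    · obtain ⟨c1, c2⟩ := hclose m hm hd'
      refine (abs_add_le _ _).trans ?_
      rw [abs_mul, abs_mul, abs_mul, hd, abs_two]
      have e1 := mul_le_mul (abs_pd_pd_bmp hC (c := node t m) ht i u) c1 (abs_nonneg _)
        (by positivity)
      have e2 := mul_le_mul (abs_pd_bmp hC (c := node t m) ht i u)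
        (show |(φ m - φ0) (unit i)| ≤ w by simpa using c2) (abs_nonneg _) (by positivity)
      have h1 : Cb / t / t * (t * w) = Cb * (w / t) := by field_simp
      have h2 : Cb / t * w = Cb * (w / t) := by ring
      linarith
    · exact le_of_eq (by ring)

end Vale.Agent.P120.TreeProof
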