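import Mathlib
import Vale.Agent.P120.TreeLattice

/-!
The Dirichlet energy of a multiscale blend of affine functions is bounded by the sum of the
squared local discrepancies; consequently few stopping balls have a large slope. Used by
module Tree.
-/

noncomputable section

open MeasureTheory Metric Set Filter Topology

namespace Vale.Agent.P120.TreeProof

/-- radius of the cut-off, in units of the scale -/
def rCut (n : ℕ) : ℝ := 3 * n + 3

/-- radius in which nodes are assigned an affine function -/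
def rNode (n : ℕ) : ℝ := 34 * n + 26

/-- radius of interaction -/
def rPair (n : ℕ) : ℝ := 40 * n + 30

/-- multiscale affine data -/
structure AffData (n : ℕ) (Cp : ℝ) (ι : Type*) where
  t₀ : ℝ
  t₀_pos : 0 < t₀
  P : ℕ → Finset ι
  G : ℕ → Finset ι
  c : ℕ → ι → Spc n
  a : ℕ → ι → ℝ
  φ : ℕ → ι → Spc n →L[ℝ] ℝ
  b2 : ℕ → ι → ℝ
  dir : Fin n
  b2_nonneg : ∀ j p, 0 ≤ b2 j p
  G_sub : ∀ j, G j ⊆ P j
  child : ∀ j, ∀ p ∈ G j, ∃ q ∈ P (j + 1), dist (c (j + 1) q) (c j p) ≤ 2 * side t₀ (j + 1)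
  par : ∀ j, ∀ q ∈ P (j + 1), ∃ p ∈ G j, dist (c j p) (c (j + 1) q) ≤ 2 * side t₀ j
  root : ∀ p ∈ P 0, a 0 p = 0 ∧ φ 0 p = 0
  pair : ∀ j k, (k = j ∨ k = j + 1) → ∀ p ∈ P j, ∀ q ∈ P k,
    dist (c j p) (c k q) ≤ rPair n * side t₀ j → ∀ u, dist u (c j p) ≤ rPair n * side t₀ j →
      |aff (a k q) (φ k q) u - aff (a j p) (φ j p) u| ≤
          side t₀ j * (Cp * Real.sqrt (b2 j p + b2 k q)) ∧
        |φ k q (unit dir) - φ j p (unit dir)| ≤ Cp * Real.sqrt (b2 j p + b2 k q)

theorem side_pos {t : ℝ} (ht : 0 < t) (j : ℕ) : 0 < side t j := by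
  unfold side; positivity

theorem side_succ (t : ℝ) (j : ℕ) : side t (j + 1) = side t j / 8 := by
  simp [side, pow_succ, div_div]

variable {n : ℕ}

/-- lattice nodes within `R t` of a finite set -/
def nodesNear (t R : ℝ) (S : Finset (Spc n)) : Finset (Fin n → ℤ) :=
  (S.biUnion fun x => Fintype.piFinset fun i =>
    Finset.Icc (⌊x i / t - R⌋) (⌈x i / t + R⌉)).filter fun m => ∃ x ∈ S, dist (node t m) x ≤ R * t

theorem mem_nodesNear {t R : ℝ} (ht : 0 < t) {S : Finset (Spc n)} {m : Fin n → ℤ} :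
    m ∈ nodesNear t R S ↔ ∃ x ∈ S, dist (node t m) x ≤ R * t := by
  refine ⟨fun h => (Finset.mem_filter.1 h).2, fun ⟨x, hx, h⟩ =>
    Finset.mem_filter.2 ⟨Finset.mem_biUnion.2 ⟨x, hx, ?_⟩, x, hx, h⟩⟩
  simp only [Fintype.mem_piFinset, Finset.mem_Icc]
  intro i
  have h1 : |t * m i - x i| ≤ R * t := by
    refine le_trans ?_ h
    rw [dist_eq_norm]
    simpa [node] using PiLp.norm_apply_le (node t m - x) i
  rw [abs_le] at h1
  constructor
  · rw [← Int.cast_le (R := ℝ)]
    refine (Int.floor_le _).trans ?_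
    rw [sub_le_iff_le_add, div_le_iff₀ ht]; linarith
  · rw [← Int.cast_le (R := ℝ)]
    refine le_trans ?_ (Int.le_ceil _)
    rw [← sub_le_iff_le_add, le_div_iff₀ ht]; linarith

variable {Cp : ℝ} {ι : Type*}

namespace AffData

variable (D : AffData n Cp ι)

/-- the scale at step `j` -/
abbrev t (j : ℕ) : ℝ := side D.t₀ j

/-- nodes used by the blend -/
def nodes (j : ℕ) : Finset (Fin n → ℤ) := nodesNear (D.t j) (rNode n) ((D.P j).image (D.c j))

/-- nodes used by the cut-off -/
def cutNodes (j : ℕ) : Finset (Fin n → ℤ) := nodesNear (D.t j) (rCut n) ((D.G j).image (D.c j))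

open Classical in
/-- the affine function at a node -/
def nodeFun (j : ℕ) (m : Fin n → ℤ) : ℝ × (Spc n →L[ℝ] ℝ) :=
  if h : ∃ p ∈ D.P j, dist (node (D.t j) m) (D.c j p) ≤ rNode n * D.t j then
    (D.a j h.choose, D.φ j h.choose) else 0

/-- the blend at step `j` -/
def bl (j : ℕ) : Spc n → ℝ :=
  blend (D.t j) (D.nodes j) fun m => aff (D.nodeFun j m).1 (D.nodeFun j m).2

/-- the cut-off at step `j` -/
def chi (j : ℕ) (u : Spc n) : ℝ := ∑ m ∈ D.cutNodes j, bmp (node (D.t j) m) (D.t j) u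

/-- the glued function -/
def F : ℕ → Spc n → ℝ
  | 0 => D.bl 0
  | j + 1 => fun u => F j u + D.chi j u * (D.bl (j + 1) u - F j u)

/-- the increment -/
def delta (j : ℕ) (u : Spc n) : ℝ := D.chi j u * (D.bl (j + 1) u - D.bl j u)

/-- local sum of squared discrepancies at step `j` -/
def loc (j : ℕ) (u : Spc n) : ℝ :=
  ∑ p ∈ D.P j, (closedBall (D.c j p) (rPair n * D.t j)).indicator (fun _ => D.b2 j p) u

/-- the squared discrepancy visible at step `j` -/
def om (j : ℕ) (u : Spc n) : ℝ := D.loc j u + D.loc (j + 1) u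

/-- total squared discrepancy at step `j` -/
def S (j : ℕ) : ℝ := ∑ p ∈ D.P j, D.b2 j p * D.t j ^ n

theorem t_pos (j : ℕ) : 0 < D.t j := side_pos D.t₀_pos j

theorem loc_nonneg (j : ℕ) (u : Spc n) : 0 ≤ D.loc j u :=
  Finset.sum_nonneg fun _ _ => Set.indicator_nonneg (fun _ _ => D.b2_nonneg _ _) u

theorem om_nonneg (j : ℕ) (u : Spc n) : 0 ≤ D.om j u := add_nonneg (D.loc_nonneg _ _) (D.loc_nonneg _ _)

theorem le_loc {j : ℕ} {u : Spc n} {p : ι} (hp : p ∈ D.P j)
    (h : dist u (D.c j p) ≤ rPair n * D.t j) : D.b2 j p ≤ D.loc j u := by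
  have h2 := Finset.single_le_sum (s := D.P j)
    (f := fun p => (closedBall (D.c j p) (rPair n * D.t j)).indicator (fun _ => D.b2 j p) u)
    (fun q _ => Set.indicator_nonneg (fun _ _ => D.b2_nonneg _ _) u) hp
  rw [Set.indicator_of_mem (mem_closedBall.2 h)] at h2
  exact h2

theorem bl_zero : D.bl 0 = 0 := by
  funext u
  refine Finset.sum_eq_zero fun m _ => ?_
  have : D.nodeFun 0 m = 0 := by
    rw [nodeFun]
    split_ifs with h
    · exact Prod.ext (D.root _ h.choose_spec.1).1 (D.root _ h.choose_spec.1).2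
    · rfl
  simp [this, aff]

theorem contDiff_bl (j : ℕ) {k : ℕ∞} : ContDiff ℝ k (D.bl j) :=
  ContDiff.sum fun _ _ => (contDiff_bmp _ _).mul (contDiff_aff _ _)

theorem contDiff_chi (j : ℕ) {k : ℕ∞} : ContDiff ℝ k (D.chi j) :=
  ContDiff.sum fun _ _ => contDiff_bmp _ _

theorem contDiff_F (j : ℕ) {k : ℕ∞} : ContDiff ℝ k (D.F j) := by
  induction j with
  | zero => exact D.contDiff_bl 0
  | succ j ih => exact ih.add ((D.contDiff_chi j).mul ((D.contDiff_bl (j + 1)).sub ih))

theorem contDiff_delta (j : ℕ) {k : ℕ∞} : ContDiff ℝ k (D.delta j) :=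
  (D.contDiff_chi j).mul ((D.contDiff_bl (j + 1)).sub (D.contDiff_bl j))

theorem exists_near_of_chi {j : ℕ} {u : Spc n} (h : u ∈ tsupport (D.chi j)) :
    ∃ p ∈ D.G j, dist u (D.c j p) ≤ (rCut n + n) * D.t j := by
  obtain ⟨m, hm, hd⟩ := exists_near_of_sum_bmp (D.t_pos j) h
  obtain ⟨x, hx, hmx⟩ := (mem_nodesNear (D.t_pos j)).1 hm
  obtain ⟨p, hp, rfl⟩ := Finset.mem_image.1 hx
  exact ⟨p, hp, by linarith [dist_triangle u (node (D.t j) m) (D.c j p)]⟩

theorem hasCompactSupport_chi (j : ℕ) : HasCompactSupport (D.chi j) := by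
  refine HasCompactSupport.intro
    ((D.cutNodes j).finite_toSet.isCompact_biUnion fun m _ =>
      isCompact_closedBall (node (D.t j) m) (n * D.t j)) fun u hu => ?_
  by_contra h
  obtain ⟨m, hm, hd⟩ := exists_near_of_sum_bmp (D.t_pos j) (subset_tsupport _ h)
  exact hu (Set.mem_biUnion hm hd)

theorem hasCompactSupport_F (j : ℕ) : HasCompactSupport (D.F j) := by
  induction j with
  | zero => simp [F, D.bl_zero, HasCompactSupport]
  | succ j ih => exact ih.add (D.hasCompactSupport_chi j).mul_right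

theorem tsupport_delta (j : ℕ) : tsupport (D.delta j) ⊆ tsupport (D.chi j) :=
  tsupport_mul_subset_left

theorem hasCompactSupport_delta (j : ℕ) : HasCompactSupport (D.delta j) :=
  (D.hasCompactSupport_chi j).mul_right

theorem eventually_chi_eq_one (hn : 1 ≤ n) {j : ℕ} {u : Spc n} {p : ι} (hp : p ∈ D.G j)
    (h : dist u (D.c j p) ≤ (rCut n - 2 * n) * D.t j) : ∀ᶠ v in 𝓝 u, D.chi j v = 1 := by
  refine eventually_sum_bmp (D.t_pos j) hn fun m hm => ?_
  exact (mem_nodesNear (D.t_pos j)).2 ⟨_, Finset.mem_image_of_mem _ hp,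
    by linarith [dist_triangle (node (D.t j) m) u (D.c j p)]⟩

theorem F_succ_eventuallyEq (hn : 1 ≤ n) {j : ℕ} {u : Spc n} {p : ι} (hp : p ∈ D.G j)
    (h : dist u (D.c j p) ≤ (rCut n - 2 * n) * D.t j) : D.F (j + 1) =ᶠ[𝓝 u] D.bl (j + 1) := by
  filter_upwards [D.eventually_chi_eq_one hn hp h] with v hv
  simp [F, hv]

theorem F_eventuallyEq (hn : 1 ≤ n) {j : ℕ} {u : Spc n} (h : u ∈ tsupport (D.chi j)) :
    D.F j =ᶠ[𝓝 u] D.bl j := by
  cases j with
  | zero => exact EventuallyEq.rfl
  | succ i =>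
    obtain ⟨q, hq, hd⟩ := D.exists_near_of_chi h
    obtain ⟨p, hp, hd'⟩ := D.par i q (D.G_sub _ hq)
    refine D.F_succ_eventuallyEq hn hp ?_
    have htr := dist_triangle u (D.c (i + 1) q) (D.c i p)
    rw [dist_comm (D.c (i + 1) q)] at htr
    have ht : D.t (i + 1) = D.t i / 8 := side_succ _ _
    rw [ht] at hd
    have hpos := D.t_pos i
    have : (rCut n + n) / 8 + 2 ≤ rCut n - 2 * n := by
      have : (1 : ℝ) ≤ n := by exact_mod_cast hn
      unfold rCut; linarith
    have := mul_le_mul_of_nonneg_right this hpos.le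
    linarith

theorem F_succ_eq (hn : 1 ≤ n) (j : ℕ) : D.F (j + 1) = fun u => D.F j u + D.delta j u := by
  funext u
  by_cases h : D.chi j u = 0
  · simp [F, delta, h]
  · simp only [F, delta]
    rw [(D.F_eventuallyEq hn (subset_tsupport _ h)).eq_of_nhds]

/-- comparison of a blend with one of the affine functions -/
theorem bl_bounds {Cb : ℝ} (hC : BumpBound n Cb) (hn : 1 ≤ n) {j k : ℕ} (hk : k = j ∨ k = j + 1)
    {p : ι} (hp : p ∈ D.P j) {u : Spc n} (hu : dist u (D.c j p) ≤ (rCut n + n) * D.t j)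
    (hcov : ∃ q ∈ D.P k, dist u (D.c k q) ≤ (rNode n - 2 * n) * D.t k) (hCp : 0 ≤ Cp) :
    let w := 8 * (Cp * Real.sqrt (2 * D.om j u))
    |D.bl k u - aff (D.a j p) (D.φ j p) u| ≤ 3 * 3 ^ n * Cb * (D.t k * w) ∧
    |pd D.dir (D.bl k) u - D.φ j p (unit D.dir)| ≤ 3 * 3 ^ n * Cb * w ∧
    |pd D.dir (pd D.dir (D.bl k)) u| ≤ 3 * 3 ^ n * Cb * (w / D.t k) := by
  intro w
  have hn' : (1 : ℝ) ≤ n := by exact_mod_cast hn
  have htk : D.t j ≤ 8 * D.t k ∧ D.t k ≤ D.t j := by
    have := D.t_pos j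
    rcases hk with rfl | rfl
    · constructor <;> linarith
    · rw [show D.t (j + 1) = D.t j / 8 from side_succ _ _]; constructor <;> linarith
  refine blend_bounds hC (D.t_pos k) hn (fun m hm => ?_) _ _ _ _ D.dir w (by positivity)
    fun m hm hmu => ?_
  · obtain ⟨q, hq, hd⟩ := hcov
    exact (mem_nodesNear (D.t_pos k)).2 ⟨_, Finset.mem_image_of_mem _ hq,
      by linarith [dist_triangle (node (D.t k) m) u (D.c k q)]⟩
  · obtain ⟨x, hx, hmx⟩ := (mem_nodesNear (D.t_pos k)).1 hm
    obtain ⟨q0, hq0, rfl⟩ := Finset.mem_image.1 hx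
    have hex : ∃ q ∈ D.P k, dist (node (D.t k) m) (D.c k q) ≤ rNode n * D.t k := ⟨q0, hq0, hmx⟩
    simp only [nodeFun, dif_pos hex]
    obtain ⟨hq, hqd⟩ := hex.choose_spec
    generalize hex.choose = q at hq hqd ⊢
    have huq : dist u (D.c k q) ≤ (rNode n + n) * D.t k := by
      linarith [dist_triangle u (node (D.t k) m) (D.c k q)]
    have hpq : dist (D.c j p) (D.c k q) ≤ rPair n * D.t j := by
      have := dist_triangle_left (D.c j p) (D.c k q) u
      have h1 := mul_le_mul_of_nonneg_left htk.2 (show 0 ≤ rNode n + n by unfold rNode; linarith)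
      have h2 : (rCut n + n + (rNode n + n)) * D.t j ≤ rPair n * D.t j := by
        refine mul_le_mul_of_nonneg_right ?_ (D.t_pos j).le
        unfold rCut rNode rPair; linarith
      linarith
    have hup : dist u (D.c j p) ≤ rPair n * D.t j :=
      hu.trans (mul_le_mul_of_nonneg_right (by unfold rCut rPair; linarith) (D.t_pos j).le)
    obtain ⟨h1, h2⟩ := D.pair j k hk p hp q hq hpq u hup
    have hq2 : dist u (D.c k q) ≤ rPair n * D.t k :=
      huq.trans (mul_le_mul_of_nonneg_right (by unfold rNode rPair; linarith) (D.t_pos k).le)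
    have hb : D.b2 j p + D.b2 k q ≤ 2 * D.om j u := by
      have e1 := D.le_loc hp hup
      have e2 := D.le_loc hq hq2
      have e3 := D.loc_nonneg j u
      have e4 := D.loc_nonneg (j + 1) u
      rcases hk with rfl | rfl <;> simp only [om] <;> linarith
    have hs := mul_le_mul_of_nonneg_left (Real.sqrt_le_sqrt hb) hCp
    have hX : 0 ≤ Cp * Real.sqrt (2 * D.om j u) := by positivity
    refine ⟨h1.trans ?_, h2.trans ?_⟩
    · calc side D.t₀ j * (Cp * Real.sqrt (D.b2 j p + D.b2 k q))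
          ≤ 8 * D.t k * (Cp * Real.sqrt (2 * D.om j u)) :=
            mul_le_mul htk.1 hs (by positivity) (by linarith [D.t_pos k])
        _ = D.t k * w := by simp only [w]; ring
    · simp only [w]; linarith

/-- the pointwise size of the increments and of the second derivative -/
theorem step_bounds {Cb : ℝ} (hC : BumpBound n Cb) (hn : 1 ≤ n) (hCp : 0 ≤ Cp) {j : ℕ}
    {u : Spc n} (hu : u ∈ tsupport (D.chi j)) :
    let A := 3 * 3 ^ n * Cb * (8 * (Cp * Real.sqrt (2 * D.om j u)))
    |D.delta j u| ≤ 3 ^ n * Cb * (2 * (D.t j * A)) ∧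
    |pd D.dir (D.delta j) u| ≤ 4 * (3 ^ n * Cb) * A ∧
    |pd D.dir (pd D.dir (D.F j)) u| ≤ A / D.t j := by
  intro A
  have hn' : (1 : ℝ) ≤ n := by exact_mod_cast hn
  have hC0 : 0 ≤ Cb := zero_le_one.trans hC.one_le
  obtain ⟨p, hp, hd⟩ := D.exists_near_of_chi hu
  have hc0 : ∃ q ∈ D.P j, dist u (D.c j q) ≤ (rNode n - 2 * n) * D.t j :=
    ⟨p, D.G_sub _ hp, hd.trans (mul_le_mul_of_nonneg_right
      (by unfold rCut rNode; linarith) (D.t_pos j).le)⟩
  have hc1 : ∃ q ∈ D.P (j + 1), dist u (D.c (j + 1) q) ≤ (rNode n - 2 * n) * D.t (j + 1) := by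
    obtain ⟨q, hq, hdq⟩ := D.child j p hp
    refine ⟨q, hq, ?_⟩
    have htr := dist_triangle u (D.c j p) (D.c (j + 1) q)
    rw [dist_comm (D.c j p) (D.c (j + 1) q)] at htr
    have ht : D.t j = 8 * D.t (j + 1) := by
      rw [show D.t (j + 1) = D.t j / 8 from side_succ _ _]; ring
    rw [ht] at hd
    have : 8 * (rCut n + n) + 2 ≤ rNode n - 2 * n := by unfold rCut rNode; linarith
    have := mul_le_mul_of_nonneg_right this (D.t_pos (j + 1)).le
    linarith
  obtain ⟨a0, a1, a2⟩ := D.bl_bounds hC hn (k := j) (Or.inl rfl) (D.G_sub _ hp) hd hc0 hCp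
  obtain ⟨b0, b1, -⟩ := D.bl_bounds hC hn (k := j + 1) (Or.inr rfl) (D.G_sub _ hp) hd hc1 hCp
  have htt : D.t (j + 1) ≤ D.t j := by
    rw [show D.t (j + 1) = D.t j / 8 from side_succ _ _]; linarith [D.t_pos j]
  have hA : 0 ≤ A := by positivity
  have hdiff : |D.bl (j + 1) u - D.bl j u| ≤ 2 * (D.t j * A) := by
    have := abs_sub_le (D.bl (j + 1) u) (aff (D.a j p) (D.φ j p) u) (D.bl j u)
    rw [abs_sub_comm (aff (D.a j p) (D.φ j p) u) (D.bl j u)] at this
    have e1 : D.t (j + 1) * A ≤ D.t j * A := mul_le_mul_of_nonneg_right htt hA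
    have r0 : 3 * 3 ^ n * Cb * (D.t j * (8 * (Cp * Real.sqrt (2 * D.om j u)))) = D.t j * A := by
      simp only [A]; ring
    have r1 : 3 * 3 ^ n * Cb * (D.t (j + 1) * (8 * (Cp * Real.sqrt (2 * D.om j u)))) =
        D.t (j + 1) * A := by
      simp only [A]; ring
    linarith
  obtain ⟨c0, c1⟩ := abs_sum_bmp hC (D.t_pos j) (D.cutNodes j) D.dir u
  refine ⟨?_, ?_, ?_⟩
  · rw [delta, abs_mul]
    exact mul_le_mul c0 hdiff (abs_nonneg _) (by positivity)
  · have d0 : Differentiable ℝ (D.chi j) := (D.contDiff_chi j (k := 1)).differentiable (by simp)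
    have d1 : Differentiable ℝ (D.bl (j + 1)) :=
      (D.contDiff_bl (j + 1) (k := 1)).differentiable (by simp)
    have d2 : Differentiable ℝ (D.bl j) := (D.contDiff_bl j (k := 1)).differentiable (by simp)
    have hpd : pd D.dir (D.delta j) u = pd D.dir (D.chi j) u * (D.bl (j + 1) u - D.bl j u) +
        D.chi j u * (pd D.dir (D.bl (j + 1)) u - pd D.dir (D.bl j) u) := by
      have h : HasFDerivAt (D.delta j) (D.chi j u •
          (fderiv ℝ (D.bl (j + 1)) u - fderiv ℝ (D.bl j) u) +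
          (D.bl (j + 1) u - D.bl j u) • fderiv ℝ (D.chi j) u) u :=
        (d0 u).hasFDerivAt.mul ((d1 u).hasFDerivAt.sub (d2 u).hasFDerivAt)
      show fderiv ℝ _ u (unit D.dir) = _
      rw [h.fderiv]
      simp [pd]; ring
    rw [hpd]
    refine (abs_add_le _ _).trans ?_
    rw [abs_mul, abs_mul]
    have e1 := mul_le_mul (show |pd D.dir (D.chi j) u| ≤ 3 ^ n * (Cb / D.t j) from c1) hdiff
      (abs_nonneg _) (by have := D.t_pos j; positivity)
    have e2 := mul_le_mul (show |D.chi j u| ≤ 3 ^ n * Cb from c0)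
      (show |pd D.dir (D.bl (j + 1)) u - pd D.dir (D.bl j) u| ≤ 2 * A by
        have := abs_sub_le (pd D.dir (D.bl (j + 1)) u) (D.φ j p (unit D.dir)) (pd D.dir (D.bl j) u)
        rw [abs_sub_comm (D.φ j p (unit D.dir)) (pd D.dir (D.bl j) u)] at this
        simp only [A]; linarith)
      (abs_nonneg _) (by positivity)
    have : 3 ^ n * (Cb / D.t j) * (2 * (D.t j * A)) = 2 * (3 ^ n * Cb) * A := by
      field_simp [(D.t_pos j).ne']
    linarith
  · rw [pd_congr _ (pd_eventuallyEq _ (D.F_eventuallyEq hn hu))]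
    refine a2.trans (le_of_eq ?_)
    simp only [A]; ring

theorem delta_zero_of_notMem {j : ℕ} {u : Spc n} (hu : u ∉ tsupport (D.chi j)) :
    D.delta j u = 0 ∧ pd D.dir (D.delta j) u = 0 := by
  have h : u ∉ tsupport (D.delta j) := fun h => hu (D.tsupport_delta j h)
  exact ⟨image_eq_zero_of_notMem_tsupport h, pd_eq_zero_of_notMem _ h⟩

theorem integrable_loc (j : ℕ) : Integrable (D.loc j) :=
  integrable_finsetSum _ fun _ _ =>
    (integrable_indicator_iff measurableSet_closedBall).2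
      (integrableOn_const (isCompact_closedBall _ _).measure_lt_top.ne)

theorem integral_loc (j : ℕ) :
    ∫ u, D.loc j u = rPair n ^ n * volume.real (closedBall (0 : Spc n) 1) * D.S j := by
  simp only [loc, S]
  rw [integral_finsetSum _ fun p _ => (integrable_indicator_iff measurableSet_closedBall).2
      (integrableOn_const (isCompact_closedBall _ _).measure_lt_top.ne), Finset.mul_sum]
  refine Finset.sum_congr rfl fun p _ => ?_
  have hr : 0 ≤ rPair n * D.t j := by
    have := D.t_pos j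
    have : (0 : ℝ) ≤ n := Nat.cast_nonneg n
    unfold rPair; positivity
  rw [integral_indicator_const _ measurableSet_closedBall, smul_eq_mul, measureReal_def,
    measureReal_def, Measure.addHaar_closedBall' volume (D.c j p) hr, ENNReal.toReal_mul,
    ENNReal.toReal_ofReal (pow_nonneg hr _), finrank_euclideanSpace_fin, mul_pow]
  ring

theorem integrable_om (j : ℕ) : Integrable (D.om j) :=
  (D.integrable_loc j).add (D.integrable_loc (j + 1))

theorem integrable_cc {f : Spc n → ℝ} (hf : Continuous f) (hc : HasCompactSupport f) :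
    Integrable f :=
  hf.integrable_of_hasCompactSupport hc

theorem continuous_pd {f : Spc n → ℝ} (i : Fin n) (hf : ContDiff ℝ ((1 : ℕ) : WithTop ℕ∞) f) :
    Continuous (pd i f) :=
  (contDiff_pd (k := 0) i hf).continuous

/-- the energy bound -/
theorem energy_bound {Cb : ℝ} (hC : BumpBound n Cb) (hn : 1 ≤ n) (hCp : 0 ≤ Cp) (N : ℕ) :
    ∫ u, pd D.dir (D.F N) u ^ 2 ≤
      20 * (3 ^ n * Cb) ^ 2 * (3 * 3 ^ n * Cb * 8 * Cp) ^ 2 * 2 *
        ∑ j ∈ Finset.range N, ∫ u, D.om j u := by
  induction N with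
  | zero =>
    have : pd D.dir (D.F 0) = 0 := by
      funext u; simp [F, D.bl_zero, pd]
    simp [this]
  | succ j ih =>
    rw [Finset.sum_range_succ, mul_add]
    refine le_trans ?_ (add_le_add ih le_rfl)
    have hF : ∀ k : ℕ, ContDiff ℝ (k : WithTop ℕ∞) (D.F j) := fun k => D.contDiff_F j (k := (k : ℕ∞))
    have hdl : ∀ k : ℕ, ContDiff ℝ (k : WithTop ℕ∞) (D.delta j) := fun k =>
      D.contDiff_delta j (k := (k : ℕ∞))
    set g := pd D.dir (D.F j) with hg
    set g2 := pd D.dir g with hg2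
    set e := pd D.dir (D.delta j) with he
    have hgc : Continuous g := continuous_pd _ (hF 1)
    have hg1 : ContDiff ℝ ((1 : ℕ) : WithTop ℕ∞) g := contDiff_pd (k := 1) _ (hF 2)
    have hec : Continuous e := continuous_pd _ (hdl 1)
    have hgs : HasCompactSupport g := hasCompactSupport_pd _ (D.hasCompactSupport_F j)
    have hes : HasCompactSupport e := hasCompactSupport_pd _ (D.hasCompactSupport_delta j)
    have i1 : Integrable fun u => g u ^ 2 :=
      (integrable_cc (hgc.mul hgc) hgs.mul_right).congr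
        (Eventually.of_forall fun u => by simp [pow_two])
    have i2 : Integrable fun u => e u ^ 2 :=
      (integrable_cc (hec.mul hec) hes.mul_right).congr
        (Eventually.of_forall fun u => by simp [pow_two])
    have i3 : Integrable fun u => g u * e u := integrable_cc (hgc.mul hec) hes.mul_left
    have i4 : Integrable fun u => g2 u * D.delta j u :=
      integrable_cc ((continuous_pd _ hg1).mul (hdl 0).continuous)
        (D.hasCompactSupport_delta j).mul_left
    have hexp : (fun u => pd D.dir (D.F (j + 1)) u ^ 2) =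
        fun u => g u ^ 2 + 2 * (g u * e u) + e u ^ 2 := by
      funext u
      rw [D.F_succ_eq hn j]
      show (fderiv ℝ (fun u => D.F j u + D.delta j u) u (unit D.dir)) ^ 2 = _
      rw [fderiv_fun_add ((hF 1).differentiable (by simp) u) ((hdl 1).differentiable (by simp) u)]
      simp [g, e, pd]; ring
    have hparts : ∫ u, g u * e u = -∫ u, g2 u * D.delta j u :=
      integral_mul_fderiv_eq_neg_fderiv_mul_of_integrable i4 i3
        (integrable_cc (hgc.mul (hdl 0).continuous) (D.hasCompactSupport_delta j).mul_left)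
        (fun u _ => hg1.differentiable (by simp) u) (fun u _ => (hdl 1).differentiable (by simp) u)
    rw [hexp, integral_add (f := fun u => g u ^ 2 + 2 * (g u * e u)) (i1.add (i3.const_mul 2)) i2,
      integral_add i1 (i3.const_mul 2), integral_const_mul, hparts]
    have hb : ∫ u, (-(2 * (g2 u * D.delta j u)) + e u ^ 2) ≤
        ∫ u, 20 * (3 ^ n * Cb) ^ 2 * (3 * 3 ^ n * Cb * 8 * Cp) ^ 2 * 2 * D.om j u := by
      refine integral_mono ((i4.const_mul 2).neg.add i2) ((D.integrable_om j).const_mul _) fun u => ?_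
      by_cases hu : u ∈ tsupport (D.chi j)
      · obtain ⟨s0, s1, s2⟩ := D.step_bounds hC hn hCp hu
        set A := 3 * 3 ^ n * Cb * (8 * (Cp * Real.sqrt (2 * D.om j u))) with hA
        have hC0 : 0 ≤ Cb := zero_le_one.trans hC.one_le
        have hA0 : 0 ≤ A := by positivity
        have hA2 : A ^ 2 = (3 * 3 ^ n * Cb * 8 * Cp) ^ 2 * (2 * D.om j u) := by
          rw [hA, mul_pow, mul_pow, mul_pow, mul_pow, mul_pow,
            Real.sq_sqrt (by linarith [D.om_nonneg j u])]
          ring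
        set K : ℝ := 3 ^ n * Cb with hK
        have hK1 : 1 ≤ K := by
          have : (1 : ℝ) ≤ 3 ^ n := one_le_pow₀ (by norm_num)
          have := hC.one_le
          rw [hK]; exact one_le_mul_of_one_le_of_one_le ‹_› ‹_›
        have p1 : |g2 u * D.delta j u| ≤ 2 * K * A ^ 2 := by
          rw [abs_mul]
          refine (mul_le_mul s2 s0 (abs_nonneg _) (by have := D.t_pos j; positivity)).trans ?_
          refine le_of_eq ?_
          field_simp [(D.t_pos j).ne']
        have p2 : e u ^ 2 ≤ 16 * K ^ 2 * A ^ 2 := by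
          have := pow_le_pow_left₀ (abs_nonneg _) s1 2
          rw [sq_abs, mul_pow, mul_pow] at this
          linarith
        have p3 : 2 * K * A ^ 2 ≤ 2 * K ^ 2 * A ^ 2 := by
          have : K ≤ K ^ 2 := by nlinarith
          have := mul_le_mul_of_nonneg_right this (sq_nonneg A)
          linarith
        have p4 := neg_abs_le (g2 u * D.delta j u)
        have p5 : (0 : ℝ) ≤ K ^ 2 * A ^ 2 := by positivity
        calc -(2 * (g2 u * D.delta j u)) + e u ^ 2 ≤ 20 * (K ^ 2 * A ^ 2) := by linarith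
          _ = _ := by rw [hA2]; ring
      · obtain ⟨h1, h2⟩ := D.delta_zero_of_notMem hu
        simp only [e, h1, h2]
        have := D.om_nonneg j u
        simp only [mul_zero, neg_zero, ne_eq, OfNat.ofNat_ne_zero, not_false_eq_true, zero_pow,
          add_zero]
        positivity
    rw [integral_add (f := fun u => -(2 * (g2 u * D.delta j u))) (i4.const_mul 2).neg i2,
      integral_neg, integral_const_mul, integral_const_mul] at hb
    linarith

theorem sum_int_om_le (N : ℕ) :
    ∑ j ∈ Finset.range N, ∫ u, D.om j u ≤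
      2 * (rPair n ^ n * volume.real (closedBall (0 : Spc n) 1)) * ∑ j ∈ Finset.range (N + 1), D.S j := by
  have hS : ∀ j, 0 ≤ D.S j := fun j => Finset.sum_nonneg fun p _ =>
    mul_nonneg (D.b2_nonneg _ _) (pow_nonneg (D.t_pos j).le _)
  have hV : 0 ≤ rPair n ^ n * volume.real (closedBall (0 : Spc n) 1) := by
    have : (0 : ℝ) ≤ n := Nat.cast_nonneg n
    unfold rPair; positivity
  have : ∀ j, ∫ u, D.om j u =
      rPair n ^ n * volume.real (closedBall (0 : Spc n) 1) * (D.S j + D.S (j + 1)) := fun j => by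
    simp only [om]
    rw [integral_add (D.integrable_loc j) (D.integrable_loc (j + 1)), D.integral_loc,
      D.integral_loc, mul_add]
  simp only [this, ← Finset.mul_sum, Finset.sum_add_distrib]
  have h1 : ∑ j ∈ Finset.range N, D.S j ≤ ∑ j ∈ Finset.range (N + 1), D.S j :=
    Finset.sum_le_sum_of_subset_of_nonneg (Finset.range_mono (by omega)) fun j _ _ => hS j
  have h2 : ∑ j ∈ Finset.range N, D.S (j + 1) ≤ ∑ j ∈ Finset.range (N + 1), D.S j := by
    rw [Finset.sum_range_succ' (fun j => D.S j)]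
    linarith [hS 0]
  have := mul_le_mul_of_nonneg_left (add_le_add h1 h2) hV
  linarith

/-- a test square on a stopping ball -/
theorem test_bound {Cb : ℝ} (hC : BumpBound n Cb) (hn : 1 ≤ n) (hCp : 0 ≤ Cp) {N k : ℕ}
    (hk : k + 1 ≤ N) {q : ι} (hq : q ∈ D.P (k + 1)) :
    let s := D.t (k + 1) / (64 * n)
    let A := 3 * 3 ^ n * Cb * 8 * Cp * Real.sqrt 2
    |D.φ (k + 1) q (unit D.dir)| * (s ^ n * ∫ v : Spc n, bump v ^ 2) ≤
      ∫ u in closedBall (D.c (k + 1) q) (D.t (k + 1) / 64), Cb ^ 2 * (|pd D.dir (D.F N) u| +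
        256 * n * (3 ^ n * Cb * A) *
          (∑ i ∈ Finset.Ico (k + 1) N, (1 / 8 : ℝ) ^ (i - (k + 1)) * Real.sqrt (D.om i u)) +
        A * Real.sqrt (D.om (k + 1) u)) := by
  intro s A
  have hn' : (1 : ℝ) ≤ n := by exact_mod_cast hn
  have hC0 : 0 ≤ Cb := zero_le_one.trans hC.one_le
  set c := D.c (k + 1) q
  set T := D.t (k + 1) with hT
  have hTp : 0 < T := D.t_pos _
  have hs : 0 < s := by positivity
  have hsB : ∀ u ∈ tsupport (bmp c s), u ∈ closedBall c (T / 64) := fun u hu => by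
    refine mem_closedBall.2 ((dist_le_of_bmp hs hu).trans (le_of_eq ?_))
    simp only [s, ← hT]; field_simp
  set w : Spc n → ℝ := fun u => bmp c s u * bmp c s u with hw
  have hwd : ContDiff ℝ ((1 : ℕ) : WithTop ℕ∞) w :=
    (contDiff_bmp c s (k := ((1 : ℕ) : ℕ∞))).mul (contDiff_bmp c s (k := ((1 : ℕ) : ℕ∞)))
  have hws : HasCompactSupport w := (hasCompactSupport_bmp hs c).mul_right
  have hwt : tsupport w ⊆ tsupport (bmp c s) := tsupport_mul_subset_left
  have hwint : ∫ u, w u = s ^ n * ∫ v : Spc n, bump v ^ 2 := by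
    have h := Measure.integral_comp_inv_smul (volume : Measure (Spc n)) (fun v => bump v ^ 2) s
    rw [finrank_euclideanSpace_fin, abs_of_pos (pow_pos hs n), smul_eq_mul] at h
    rw [← h, ← integral_sub_right_eq_self (fun u => bump (s⁻¹ • u) ^ 2) c]
    simp [w, bmp, pow_two]
  have hFd : ∀ j, ∀ m : ℕ, ContDiff ℝ (m : WithTop ℕ∞) (D.F j) := fun j m =>
    D.contDiff_F j (k := (m : ℕ∞))
  have hfc : ∀ j, Continuous (pd D.dir (D.F j)) := fun j => continuous_pd _ (hFd j 1)
  set J := ∫ u, w u * pd D.dir (D.F N) u with hJ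
  set J' := ∫ u, w u * (pd D.dir (D.F (k + 1)) u - D.φ (k + 1) q (unit D.dir)) with hJ'
  have hwc := hwd.continuous
  have iw : ∀ f : Spc n → ℝ, Continuous f → Integrable fun u => w u * f u := fun f hf =>
    integrable_cc (hwc.mul hf) hws.mul_right
  have htel : ∀ M, k + 1 ≤ M → ∫ u, w u * pd D.dir (D.F M) u =
      (∫ u, w u * pd D.dir (D.F (k + 1)) u) -
        ∑ i ∈ Finset.Ico (k + 1) M, ∫ u, pd D.dir w u * D.delta i u := by
    intro M hM
    induction M, hM using Nat.le_induction with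
    | base => simp
    | succ M hM ih =>
      have hdl : ∀ m : ℕ, ContDiff ℝ (m : WithTop ℕ∞) (D.delta M) := fun m =>
        D.contDiff_delta M (k := (m : ℕ∞))
      have hpc : Continuous (pd D.dir (D.delta M)) := continuous_pd _ (hdl 1)
      have hadd : (fun u => w u * pd D.dir (D.F (M + 1)) u) =
          fun u => w u * pd D.dir (D.F M) u + w u * pd D.dir (D.delta M) u := by
        funext u
        rw [D.F_succ_eq hn M]
        show w u * fderiv ℝ (fun u => D.F M u + D.delta M u) u (unit D.dir) = _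
        rw [fderiv_fun_add ((hFd M 1).differentiable (by simp) u)
          ((hdl 1).differentiable (by simp) u)]
        simp [pd]; ring
      have hparts : ∫ u, w u * pd D.dir (D.delta M) u = -∫ u, pd D.dir w u * D.delta M u :=
        integral_mul_fderiv_eq_neg_fderiv_mul_of_integrable
          (integrable_cc ((continuous_pd _ hwd).mul (hdl 0).continuous)
            (D.hasCompactSupport_delta M).mul_left)
          (iw _ hpc) (iw _ (hdl 0).continuous)
          (fun u _ => hwd.differentiable (by simp) u)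
          (fun u _ => (hdl 1).differentiable (by simp) u)
      rw [hadd, integral_add (iw _ (hfc M)) (iw _ hpc), hparts, ih,
        Finset.sum_Ico_succ_top hM]
      ring
  have hmain : D.φ (k + 1) q (unit D.dir) * (s ^ n * ∫ v : Spc n, bump v ^ 2) =
      J + (∑ i ∈ Finset.Ico (k + 1) N, ∫ u, pd D.dir w u * D.delta i u) - J' := by
    rw [hJ, htel N hk, hJ', ← hwint]
    simp only [mul_sub]
    rw [integral_sub (iw _ (hfc _)) (iw _ continuous_const), integral_mul_const]
    ring
  have hwB : ∀ u, u ∉ closedBall c (T / 64) → w u = 0 ∧ pd D.dir w u = 0 := fun u hu => by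
    have h : u ∉ tsupport w := fun h => hu (hsB u (hwt h))
    exact ⟨image_eq_zero_of_notMem_tsupport h, pd_eq_zero_of_notMem _ h⟩
  have hw1 : ∀ u, |w u| ≤ Cb ^ 2 := fun u => by
    rw [hw, pow_two, abs_mul]
    exact mul_le_mul (abs_bmp hC u) (abs_bmp hC u) (abs_nonneg _) hC0
  have hw2 : ∀ u, |pd D.dir w u| ≤ 2 * Cb ^ 2 / s := fun u => by
    have h : HasFDerivAt w (bmp c s u • fderiv ℝ (bmp c s) u + bmp c s u • fderiv ℝ (bmp c s) u) u :=
      (differentiable_bmp c s u).hasFDerivAt.mul (differentiable_bmp c s u).hasFDerivAt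
    show |fderiv ℝ w u (unit D.dir)| ≤ _
    rw [h.fderiv]
    simp only [add_apply, smul_apply, smul_eq_mul]
    refine (abs_add_le _ _).trans ?_
    rw [abs_mul]
    have := mul_le_mul (abs_bmp hC (c := c) (s := s) u)
      (abs_pd_bmp hC (c := c) hs D.dir u) (abs_nonneg _) hC0
    have e : 2 * Cb ^ 2 / s = 2 * (Cb * (Cb / s)) := by ring
    rw [e]
    simp only [pd] at this
    linarith
  have hA0 : 0 ≤ A := by positivity
  have hsq : ∀ i u, 3 * 3 ^ n * Cb * (8 * (Cp * Real.sqrt (2 * D.om i u))) =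
      A * Real.sqrt (D.om i u) := fun i u => by
    rw [Real.sqrt_mul (by norm_num : (0 : ℝ) ≤ 2)]; simp only [A]; ring
  have hdelta : ∀ i u, |D.delta i u| ≤ 3 ^ n * Cb * (2 * (D.t i * (A * Real.sqrt (D.om i u)))) := by
    intro i u
    by_cases hu : u ∈ tsupport (D.chi i)
    · have := (D.step_bounds hC hn hCp hu).1
      rwa [hsq] at this
    · rw [(D.delta_zero_of_notMem hu).1]
      have := D.t_pos i
      simp only [abs_zero]; positivity
  have hlast : ∀ u ∈ closedBall c (T / 64),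
      |pd D.dir (D.F (k + 1)) u - D.φ (k + 1) q (unit D.dir)| ≤ A * Real.sqrt (D.om (k + 1) u) := by
    intro u hu
    rw [mem_closedBall] at hu
    obtain ⟨p, hp, hdp⟩ := D.par k q hq
    have hTk : D.t k = 8 * T := by
      rw [hT, show D.t (k + 1) = D.t k / 8 from side_succ _ _]; ring
    have hup : dist u (D.c k p) ≤ (rCut n - 2 * n) * D.t k := by
      have htr := dist_triangle u c (D.c k p)
      rw [dist_comm c (D.c k p)] at htr
      have : (1 / 64 / 8 : ℝ) + 2 ≤ rCut n - 2 * n := by unfold rCut; linarith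
      have := mul_le_mul_of_nonneg_right this (D.t_pos k).le
      have hdp' : dist (D.c k p) c ≤ 2 * D.t k := hdp
      linarith
    rw [pd_congr _ (D.F_succ_eventuallyEq hn hp hup)]
    have := (D.bl_bounds hC hn (j := k + 1) (k := k + 1) (Or.inl rfl) hq (u := u) (hu.trans ?_)
      ⟨q, hq, hu.trans ?_⟩ hCp).2.1
    · rwa [hsq] at this
    · have : (1 / 64 : ℝ) ≤ rCut n + n := by unfold rCut; linarith
      have := mul_le_mul_of_nonneg_right this hTp.le
      linarith
    · have : (1 / 64 : ℝ) ≤ rNode n - 2 * n := by unfold rNode; linarith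
      have := mul_le_mul_of_nonneg_right this hTp.le
      linarith
  have hJb : |J| ≤ ∫ u in closedBall c (T / 64), Cb ^ 2 * |pd D.dir (D.F N) u| := by
    rw [hJ, ← setIntegral_eq_integral_of_forall_compl_eq_zero (s := closedBall c (T / 64))
      (fun u hu => by rw [(hwB u hu).1, zero_mul])]
    refine (abs_integral_le_integral_abs).trans (setIntegral_mono_on
      ((hwc.mul (hfc N)).abs.continuousOn.integrableOn_compact (isCompact_closedBall _ _))
      (((hfc N).abs.const_mul _).continuousOn.integrableOn_compact (isCompact_closedBall _ _))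
      measurableSet_closedBall fun u _ => ?_)
    rw [abs_mul]
    exact mul_le_mul_of_nonneg_right (hw1 u) (abs_nonneg _)
  have hsqrt : ∀ i, IntegrableOn (fun u => Real.sqrt (D.om i u)) (closedBall c (T / 64)) := by
    intro i
    have hfin : IsFiniteMeasure (volume.restrict (closedBall c (T / 64))) :=
      ⟨by simpa using (isCompact_closedBall c (T / 64)).measure_lt_top⟩
    refine Integrable.mono' (((integrable_const 1).add (D.integrable_om i).restrict)) ?_
      (Eventually.of_forall fun u => ?_)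
    · exact (Real.continuous_sqrt.comp_aestronglyMeasurable
        (D.integrable_om i).aestronglyMeasurable).restrict
    · rw [Real.norm_eq_abs, abs_of_nonneg (Real.sqrt_nonneg _)]
      refine Real.sqrt_le_iff.2 ⟨?_, ?_⟩
      · have := D.om_nonneg i u; simp only [Pi.add_apply]; linarith
      · have := D.om_nonneg i u; simp only [Pi.add_apply]; nlinarith
  have hJ'b : |J'| ≤ ∫ u in closedBall c (T / 64), Cb ^ 2 * (A * Real.sqrt (D.om (k + 1) u)) := by
    rw [hJ', ← setIntegral_eq_integral_of_forall_compl_eq_zero (s := closedBall c (T / 64))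
      (fun u hu => by rw [(hwB u hu).1, zero_mul])]
    refine (abs_integral_le_integral_abs).trans (setIntegral_mono_on
      ((hwc.mul ((hfc (k + 1)).sub continuous_const)).abs.continuousOn.integrableOn_compact
        (isCompact_closedBall _ _))
      (((hsqrt (k + 1)).const_mul A).const_mul _) measurableSet_closedBall fun u hu => ?_)
    rw [abs_mul]
    exact mul_le_mul (hw1 u) (hlast u hu) (abs_nonneg _) (sq_nonneg _)
  have hIb : ∀ i ∈ Finset.Ico (k + 1) N, |∫ u, pd D.dir w u * D.delta i u| ≤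
      ∫ u in closedBall c (T / 64), Cb ^ 2 * (256 * n * (3 ^ n * Cb * A) *
        ((1 / 8 : ℝ) ^ (i - (k + 1)) * Real.sqrt (D.om i u))) := by
    intro i hi
    rw [Finset.mem_Ico] at hi
    rw [← setIntegral_eq_integral_of_forall_compl_eq_zero (s := closedBall c (T / 64))
      (fun u hu => by rw [(hwB u hu).2, zero_mul])]
    refine (abs_integral_le_integral_abs).trans (setIntegral_mono_on
      (((continuous_pd _ hwd).mul (D.contDiff_delta i (k := 0)).continuous).abs.continuousOn.integrableOn_compact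
        (isCompact_closedBall _ _))
      ((((hsqrt i).const_mul _).const_mul _).const_mul _) measurableSet_closedBall fun u _ => ?_)
    rw [abs_mul]
    refine (mul_le_mul (hw2 u) (hdelta i u) (abs_nonneg _) (by positivity)).trans (le_of_eq ?_)
    have hti : D.t i = T * (1 / 8 : ℝ) ^ (i - (k + 1)) := by
      obtain ⟨e, rfl⟩ := Nat.exists_eq_add_of_le hi.1
      simp only [hT, side, Nat.add_sub_cancel_left, pow_add, one_div, inv_pow]
      field_simp
    rw [hti]
    simp only [s, ← hT]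
    field_simp
    ring
  have hint1 := ((hfc N).abs.continuousOn.integrableOn_compact (μ := volume) (isCompact_closedBall c (T / 64))).const_mul (Cb ^ 2)
  have hint2 : ∀ i, IntegrableOn (fun u => Cb ^ 2 * (256 * n * (3 ^ n * Cb * A) *
      ((1 / 8 : ℝ) ^ (i - (k + 1)) * Real.sqrt (D.om i u)))) (closedBall c (T / 64)) :=
    fun i => (((hsqrt i).const_mul _).const_mul _).const_mul _
  have hint3 := ((hsqrt (k + 1)).const_mul A).const_mul (Cb ^ 2)
  have hI0 : (0 : ℝ) ≤ s ^ n * ∫ v : Spc n, bump v ^ 2 :=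
    mul_nonneg (by positivity) (integral_nonneg fun v => sq_nonneg _)
  calc |D.φ (k + 1) q (unit D.dir)| * (s ^ n * ∫ v : Spc n, bump v ^ 2)
      = |J + (∑ i ∈ Finset.Ico (k + 1) N, ∫ u, pd D.dir w u * D.delta i u) - J'| := by
        rw [← hmain, abs_mul, abs_of_nonneg hI0]
    _ ≤ |J| + (∑ i ∈ Finset.Ico (k + 1) N, |∫ u, pd D.dir w u * D.delta i u|) + |J'| := by
        refine (abs_sub _ _).trans (add_le_add ((abs_add_le _ _).trans ?_) le_rfl)
        exact add_le_add le_rfl (Finset.abs_sum_le_sum_abs _ _)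
    _ ≤ _ := add_le_add (add_le_add hJb (Finset.sum_le_sum hIb)) hJ'b
    _ = _ := by
        rw [← integral_finsetSum _ fun i _ => hint2 i,
          ← integral_add hint1 (integrable_finsetSum _ fun i _ => hint2 i),
          ← integral_add (f := fun u => Cb ^ 2 * |pd D.dir (D.F N) u| + ∑ i ∈ Finset.Ico (k + 1) N,
            Cb ^ 2 * (256 * n * (3 ^ n * Cb * A) *
              ((1 / 8 : ℝ) ^ (i - (k + 1)) * Real.sqrt (D.om i u))))
            (hint1.add (integrable_finsetSum _ fun i _ => hint2 i)) hint3]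
        refine setIntegral_congr_fun measurableSet_closedBall fun u _ => ?_
        simp only [Finset.mul_sum, mul_add]

/-- the integral of the total squared quantity -/
theorem tot_le {Cb : ℝ} (hC : BumpBound n Cb) (hn : 1 ≤ n) (hCp : 0 ≤ Cp) (N : ℕ) :
    ∫ u, (pd D.dir (D.F N) u ^ 2 + ∑ i ∈ Finset.range (N + 1), D.om i u) ≤
      (20 * (3 ^ n * Cb) ^ 2 * (3 * 3 ^ n * Cb * 8 * Cp) ^ 2 * 2 + 1) *
        (2 * (rPair n ^ n * volume.real (closedBall (0 : Spc n) 1))) *
        ∑ j ∈ Finset.range (N + 2), D.S j := by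
  have i1 : Integrable fun u => pd D.dir (D.F N) u ^ 2 :=
    (integrable_cc ((continuous_pd D.dir (D.contDiff_F N (k := ((1 : ℕ) : ℕ∞)))).mul (continuous_pd D.dir (D.contDiff_F N (k := ((1 : ℕ) : ℕ∞)))))
      (hasCompactSupport_pd _ (D.hasCompactSupport_F N)).mul_right).congr
      (Eventually.of_forall fun u => by simp [pow_two])
  rw [integral_add i1 (integrable_finsetSum _ fun i _ => D.integrable_om i),
    integral_finsetSum _ fun i _ => D.integrable_om i]
  have h1 := D.energy_bound hC hn hCp N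
  set E := 20 * (3 ^ n * Cb) ^ 2 * (3 * 3 ^ n * Cb * 8 * Cp) ^ 2 * 2
  have h2 := D.sum_int_om_le (N + 1)
  set W := rPair n ^ n * volume.real (closedBall (0 : Spc n) 1)
  have h3 : ∑ j ∈ Finset.range N, ∫ u, D.om j u ≤ ∑ j ∈ Finset.range (N + 1), ∫ u, D.om j u :=
    Finset.sum_le_sum_of_subset_of_nonneg (Finset.range_mono (by omega))
      fun j _ _ => integral_nonneg (D.om_nonneg j)
  have hE0 : 0 ≤ E := by positivity
  calc (∫ u, pd D.dir (D.F N) u ^ 2) + ∑ i ∈ Finset.range (N + 1), ∫ u, D.om i u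
      ≤ (E + 1) * ∑ i ∈ Finset.range (N + 1), ∫ u, D.om i u := by
        have := mul_le_mul_of_nonneg_left h3 hE0
        linarith
    _ ≤ (E + 1) * (2 * W * ∑ j ∈ Finset.range (N + 1 + 1), D.S j) :=
        mul_le_mul_of_nonneg_left h2 (by linarith)
    _ = _ := by ring

end AffData

theorem one_ball {ι : Type} (D : AffData n Cp ι) {Cb : ℝ} (hC : BumpBound n Cb) (hn : 1 ≤ n)
    (hCp : 0 ≤ Cp) {N : ℕ} {e : ℕ × ι} (hN : e.1 + 1 ≤ N) (hP : e.2 ∈ D.P (e.1 + 1))
    {α : ℝ} (hα : 0 < α) (hb : α ≤ |D.φ (e.1 + 1) e.2 (unit D.dir)|)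
    {V I A B1 B L κ : ℝ} (hV : V = volume.real (closedBall (0 : Spc n) 1))
    (hI : I = ∫ v : Spc n, bump v ^ 2) (hA : A = 3 * 3 ^ n * Cb * 8 * Cp * Real.sqrt 2)
    (hB1 : B1 = 256 * (n : ℝ) * (3 ^ n * Cb * A)) (hB : B = 1 + 2 * B1 + A)
    (hL : L = Cb ^ 2 * B * ((1 : ℝ) / 64) ^ n * V)
    (hκ : κ = ((1 : ℝ) / (64 * n)) ^ n * I) (hIpos : 0 < I) (hLpos : 0 < L) (hA0 : 0 ≤ A)
    (hB10 : 0 ≤ B1) (hκpos : 0 < κ) :
    let Tot := fun u : Spc n => pd D.dir (D.F N) u ^ 2 + ∑ i ∈ Finset.range (N + 1), D.om i u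
    α ^ 2 * D.t (e.1 + 1) ^ n ≤ (2 * Cb ^ 2 * B * L / κ ^ 2) * 2 *
      ∫ u in closedBall (D.c (e.1 + 1) e.2) (D.t (e.1 + 1) / 64), Tot u := by
  intro Tot
  have hn' : (1 : ℝ) ≤ n := by exact_mod_cast hn
  have hC0 : 0 < Cb := one_pos.trans_le hC.one_le
  have hBpos : 0 < B := by rw [hB]; linarith
  have hom : ∀ u, 0 ≤ ∑ i ∈ Finset.range (N + 1), D.om i u := fun u =>
    Finset.sum_nonneg fun i _ => D.om_nonneg i u
  have hgc : Continuous (pd D.dir (D.F N)) :=
    AffData.continuous_pd _ (D.contDiff_F N (k := ((1 : ℕ) : ℕ∞)))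
  have hTi : Integrable Tot := by
    refine Integrable.add ?_ (integrable_finsetSum _ fun i _ => D.integrable_om i)
    exact (AffData.integrable_cc (hgc.mul hgc)
      (hasCompactSupport_pd _ (D.hasCompactSupport_F N)).mul_right).congr
      (Eventually.of_forall fun u => by simp [pow_two])
  have hT0 : ∀ u, 0 ≤ Tot u := fun u => add_nonneg (sq_nonneg _) (hom u)
  have h := D.test_bound hC hn hCp hN hP
  simp only [← hA, ← hB1] at h
  rw [← hI] at h
  set c := D.c (e.1 + 1) e.2
  set T := D.t (e.1 + 1) with hT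
  have hTp : 0 < T := D.t_pos _
  set S := closedBall c (T / 64)
  have hsT : (T / (64 * n)) ^ n * I = κ * T ^ n := by
    rw [hκ, mul_right_comm ((1 / (64 * (n : ℝ))) ^ n), ← mul_pow]
    congr 2
    ring
  rw [hsT] at h
  have hvol : volume.real S = ((1 : ℝ) / 64) ^ n * T ^ n * V := by
    rw [hV, measureReal_def, measureReal_def,
      Measure.addHaar_closedBall' volume c (by positivity), ENNReal.toReal_mul,
      ENNReal.toReal_ofReal (by positivity), finrank_euclideanSpace_fin, ← mul_pow]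
    congr 2
    ring
  set τ := α * κ / (2 * L) with hτ
  have hτ0 : 0 < τ := by positivity
  have am : ∀ x : ℝ, 0 ≤ x → Real.sqrt x ≤ τ + x / τ := by
    intro x hx
    rw [← sub_nonneg]
    have : τ + x / τ - Real.sqrt x =
        (τ ^ 2 + Real.sqrt x ^ 2 - τ * Real.sqrt x) / τ := by
      rw [Real.sq_sqrt hx]; field_simp
    rw [this]
    exact div_nonneg (by nlinarith [sq_nonneg (τ - Real.sqrt x), Real.sqrt_nonneg x]) hτ0.le
  have hgeom : ∑ i ∈ Finset.Ico (e.1 + 1) N, (1 / 8 : ℝ) ^ (i - (e.1 + 1)) ≤ 2 := by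
    rw [Finset.sum_Ico_eq_sum_range]
    simp only [Nat.add_sub_cancel_left]
    refine ((summable_geometric_of_lt_one (by norm_num) (by norm_num)).sum_le_tsum _
      fun _ _ => by positivity).trans ?_
    rw [tsum_geometric_of_lt_one (by norm_num) (by norm_num)]; norm_num
  have hfin : IsFiniteMeasure (volume.restrict S) :=
    ⟨by simpa using (isCompact_closedBall c (T / 64)).measure_lt_top⟩
  have hup : ∫ u in S, Cb ^ 2 * (|pd D.dir (D.F N) u| + B1 *
      (∑ i ∈ Finset.Ico (e.1 + 1) N, (1 / 8 : ℝ) ^ (i - (e.1 + 1)) * Real.sqrt (D.om i u)) +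
      A * Real.sqrt (D.om (e.1 + 1) u)) ≤ ∫ u in S, Cb ^ 2 * B * (τ + Tot u / τ) := by
    refine integral_mono_of_nonneg (Eventually.of_forall fun u => by positivity)
      (((integrable_const τ).add (hTi.restrict.div_const τ)).const_mul _)
      (Eventually.of_forall fun u => ?_)
    show Cb ^ 2 * _ ≤ Cb ^ 2 * B * _
    rw [mul_assoc (Cb ^ 2)]
    refine mul_le_mul_of_nonneg_left ?_ (sq_nonneg _)
    have hle : ∀ i ≤ N, Real.sqrt (D.om i u) ≤ τ + Tot u / τ := fun i hi =>
      (am _ (D.om_nonneg i u)).trans (add_le_add le_rfl (div_le_div_of_nonneg_right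
        ((Finset.single_le_sum (f := fun i => D.om i u) (fun i _ => D.om_nonneg i u)
          (Finset.mem_range.2 (by omega))).trans (le_add_of_nonneg_left (sq_nonneg _))) hτ0.le))
    have h1 : |pd D.dir (D.F N) u| ≤ τ + Tot u / τ := by
      rw [← Real.sqrt_sq_eq_abs]
      exact (am _ (sq_nonneg _)).trans (add_le_add le_rfl
        (div_le_div_of_nonneg_right (le_add_of_nonneg_right (hom u)) hτ0.le))
    have h0 : 0 ≤ τ + Tot u / τ := by have := hT0 u; positivity
    have h2 : ∑ i ∈ Finset.Ico (e.1 + 1) N, (1 / 8 : ℝ) ^ (i - (e.1 + 1)) *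
        Real.sqrt (D.om i u) ≤ 2 * (τ + Tot u / τ) := by
      refine (Finset.sum_le_sum fun i hi => mul_le_mul_of_nonneg_left
        (hle i (Finset.mem_Ico.1 hi).2.le) (by positivity)).trans ?_
      rw [← Finset.sum_mul]
      exact mul_le_mul_of_nonneg_right hgeom h0
    have h3 := mul_le_mul_of_nonneg_left h2 hB10
    have h4 := mul_le_mul_of_nonneg_left (hle (e.1 + 1) hN) hA0
    rw [hB]
    linarith
  have hR : ∫ u in S, Cb ^ 2 * B * (τ + Tot u / τ) =
      L * τ * T ^ n + Cb ^ 2 * B / τ * ∫ u in S, Tot u := by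
    rw [integral_const_mul, integral_add (integrable_const τ) (hTi.restrict.div_const τ),
      setIntegral_const, integral_div, smul_eq_mul, hvol, hL]
    ring
  have hlow : α * (κ * T ^ n) ≤ L * τ * T ^ n + Cb ^ 2 * B / τ * ∫ u in S, Tot u :=
    (mul_le_mul_of_nonneg_right hb (by positivity)).trans (hR ▸ h.trans hup)
  have hLτ : L * τ = α * κ / 2 := by rw [hτ]; field_simp
  rw [hLτ] at hlow
  have h5 : α * κ * T ^ n / 2 ≤ Cb ^ 2 * B / τ * ∫ u in S, Tot u := by linarith
  have h6 : Cb ^ 2 * B / τ * ∫ u in S, Tot u =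
      (2 * Cb ^ 2 * B * L / κ ^ 2) * (κ / α) * ∫ u in S, Tot u := by
    rw [hτ]; field_simp
  rw [h6] at h5
  calc α ^ 2 * T ^ n = (2 * α / κ) * (α * κ * T ^ n / 2) := by field_simp
    _ ≤ (2 * α / κ) * ((2 * Cb ^ 2 * B * L / κ ^ 2) * (κ / α) * ∫ u in S, Tot u) :=
        mul_le_mul_of_nonneg_left h5 (by positivity)
    _ = _ := by field_simp

theorem arith_finish {a b S : ℝ} (ha : 0 ≤ a) (hb : 0 ≤ b) (hS : 0 ≤ S) :
    a * 2 * (b * S) ≤ a * (2 * 2) * b * S := by
  have : 0 ≤ a * b * S := by positivity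
  linarith

/-- few stopping balls have a large slope -/
theorem slope_count (n : ℕ) (hn : 1 ≤ n) (Cp : ℝ) (hCp : 0 ≤ Cp) :
    ∃ C : ℝ, 0 ≤ C ∧ ∀ {ι : Type} (D : AffData n Cp ι) (N : ℕ) (α : ℝ) (X : Finset (ℕ × ι)),
      0 < α → (∀ e ∈ X, e.1 + 1 ≤ N ∧ e.2 ∈ D.P (e.1 + 1) ∧
        α ≤ |D.φ (e.1 + 1) e.2 (unit D.dir)|) →
      (X : Set (ℕ × ι)).PairwiseDisjoint
        (fun e => closedBall (D.c (e.1 + 1) e.2) (D.t (e.1 + 1) / 64)) →
      α ^ 2 * ∑ e ∈ X, D.t (e.1 + 1) ^ n ≤ C * ∑ j ∈ Finset.range (N + 2), D.S j := by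
  obtain ⟨Cb, hC⟩ := exists_bumpBound n
  set V := volume.real (closedBall (0 : Spc n) 1) with hV
  set I := ∫ v : Spc n, bump v ^ 2 with hI
  have hVpos : 0 < V := ENNReal.toReal_pos (measure_closedBall_pos volume 0 one_pos).ne'
    (isCompact_closedBall _ _).measure_lt_top.ne
  have hC0 : 0 < Cb := one_pos.trans_le hC.one_le
  have hIpos : 0 < I := by
    have hc : Continuous fun v : Spc n => bump v ^ 2 :=
      ((contDiff_bump (k := 0)).continuous).pow 2
    refine hc.integral_pos_of_hasCompactSupport_nonneg_nonzero ?_ (fun v => sq_nonneg _)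
      (x := 0) (by simp [bump_zero])
    have := (hasCompactSupport_bump (n := n)).mul_right (f' := bump (n := n))
    simpa only [pow_two, Pi.mul_def] using this
  set A := 3 * 3 ^ n * Cb * 8 * Cp * Real.sqrt 2 with hA
  set B1 := 256 * (n : ℝ) * (3 ^ n * Cb * A) with hB1
  set B := 1 + 2 * B1 + A with hB
  have hA0 : 0 ≤ A := by positivity
  have hB10 : 0 ≤ B1 := by positivity
  have hBpos : 0 < B := by linarith
  set E := 20 * (3 ^ n * Cb) ^ 2 * (3 * 3 ^ n * Cb * 8 * Cp) ^ 2 * 2 with hE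
  set W := rPair n ^ n * V with hW
  set L := Cb ^ 2 * B * ((1 : ℝ) / 64) ^ n * V with hL
  set κ := ((1 : ℝ) / (64 * n)) ^ n * I with hκ
  have hn' : (1 : ℝ) ≤ n := by exact_mod_cast hn
  have hκpos : 0 < κ := by positivity
  have hLpos : 0 < L := by positivity
  have hW0 : 0 ≤ W := by unfold W rPair; positivity
  refine ⟨(2 * Cb ^ 2 * B * L / κ ^ 2) * (2 * 2) * ((E + 1) * (2 * W)), by positivity, ?_⟩
  intro ι D N α X hα hX hdisj
  set Tot : Spc n → ℝ := fun u => pd D.dir (D.F N) u ^ 2 + ∑ i ∈ Finset.range (N + 1), D.om i u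
    with hTot
  have hom : ∀ u, 0 ≤ ∑ i ∈ Finset.range (N + 1), D.om i u := fun u =>
    Finset.sum_nonneg fun i _ => D.om_nonneg i u
  have hgc : Continuous (pd D.dir (D.F N)) :=
    AffData.continuous_pd _ (D.contDiff_F N (k := ((1 : ℕ) : ℕ∞)))
  have hTi : Integrable Tot := by
    refine Integrable.add ?_ (integrable_finsetSum _ fun i _ => D.integrable_om i)
    exact (AffData.integrable_cc (hgc.mul hgc)
      (hasCompactSupport_pd _ (D.hasCompactSupport_F N)).mul_right).congr
      (Eventually.of_forall fun u => by simp [pow_two])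
  have hT0 : ∀ u, 0 ≤ Tot u := fun u => add_nonneg (sq_nonneg _) (hom u)
  have one : ∀ e ∈ X, α ^ 2 * D.t (e.1 + 1) ^ n ≤ (2 * Cb ^ 2 * B * L / κ ^ 2) * 2 *
      ∫ u in closedBall (D.c (e.1 + 1) e.2) (D.t (e.1 + 1) / 64), Tot u := fun e he =>
    one_ball D hC hn hCp (hX e he).1 (hX e he).2.1 hα (hX e he).2.2 hV hI hA hB1 hB hL hκ
      hIpos hLpos hA0 hB10 hκpos
  have hsum : ∑ e ∈ X, ∫ u in closedBall (D.c (e.1 + 1) e.2) (D.t (e.1 + 1) / 64), Tot u ≤
      ∫ u, Tot u := by
    rw [← integral_biUnion_finset X (fun e _ => measurableSet_closedBall) hdisj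
      fun e _ => hTi.integrableOn]
    exact setIntegral_le_integral hTi (Eventually.of_forall hT0)
  have htot : ∫ u, Tot u ≤ (E + 1) * (2 * W) * ∑ j ∈ Finset.range (N + 2), D.S j := by
    have h := D.tot_le hC hn hCp N
    simp only [← hE, ← hV, ← hW] at h
    exact h
  have hC1 : 0 ≤ (2 * Cb ^ 2 * B * L / κ ^ 2) * 2 := by positivity
  have hS0 : 0 ≤ ∑ j ∈ Finset.range (N + 2), D.S j := Finset.sum_nonneg fun j _ =>
    Finset.sum_nonneg fun p _ => mul_nonneg (D.b2_nonneg _ _) (pow_nonneg (D.t_pos j).le _)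
  rw [Finset.mul_sum]
  refine (Finset.sum_le_sum one).trans ?_
  rw [← Finset.mul_sum]
  refine (mul_le_mul_of_nonneg_left (hsum.trans htot) hC1).trans ?_
  have hE0 : 0 ≤ E := by positivity
  exact arith_finish (by positivity) (by positivity) hS0

end Vale.Agent.P120.TreeProof
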