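import Mathlib
import Vale.Agent.P120.Core

/-!
Elementary geometry of planes in frame form: linear parts, tilt, lifts of a plane over another
one, and mass lower bounds for the squared deviation. Used by module Tree.
-/

noncomputable section

open MeasureTheory Metric Set Filter
open scoped ENNReal NNReal RealInnerProductSpace

namespace Vale.Agent.P120.TreeProof

variable {n d : ℕ}

/-- orthogonal projection onto the direction of a plane -/
def linP (L : Plane n d) : Spc d →L[ℝ] Spc d :=
  ∑ i, (innerSL ℝ (L.frame i)).smulRight (L.frame i)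

/-- the linear part of the parametrisation -/
def emb (L : Plane n d) : Spc n →L[ℝ] Spc d :=
  ∑ i, (EuclideanSpace.proj i : Spc n →L[ℝ] ℝ).smulRight (L.frame i)

/-- the linear part of the coordinates -/
def coo (L : Plane n d) : Spc d →L[ℝ] Spc n :=
  ∑ i, (innerSL ℝ (L.frame i)).smulRight (EuclideanSpace.single i (1 : ℝ))

/-- how much the direction of `L` leaves that of `T` -/
def tilt (T L : Plane n d) : ℝ := ‖linP L - (linP T).comp (linP L)‖

variable (L T : Plane n d)

theorem linP_apply (v : Spc d) : linP L v = ∑ i, ⟪L.frame i, v⟫ • L.frame i := by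
  simp [linP, sum_apply]

theorem emb_apply (u : Spc n) : emb L u = ∑ i, u i • L.frame i := by
  simp [emb, sum_apply]

theorem coo_apply (v : Spc d) (i : Fin n) : coo L v i = ⟪L.frame i, v⟫ := by
  simp [coo, sum_apply, Pi.single_apply]

theorem dev_eq (y : Spc d) : L.dev y = (y - L.base) - linP L (y - L.base) := by
  simp [Plane.dev, linP_apply]

theorem coord_eq (y : Spc d) : L.coord y = coo L (y - L.base) := by
  ext i; simp [Plane.coord, coo_apply, inner_sub_right]

theorem linP_eq (v : Spc d) : linP L v = emb L (coo L v) := by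
  simp [linP_apply, emb_apply, coo_apply]

theorem coo_emb (u : Spc n) : coo L (emb L u) = u := by
  ext i
  rw [coo_apply, emb_apply, L.orth.inner_right_fintype]

theorem norm_emb (u : Spc n) : ‖emb L u‖ = ‖u‖ := by
  have : ‖emb L u‖ ^ 2 = ‖u‖ ^ 2 := by
    rw [← real_inner_self_eq_norm_sq, emb_apply, L.orth.inner_sum, EuclideanSpace.norm_sq_eq]
    simp [pow_two]
  exact (pow_left_inj₀ (norm_nonneg _) (norm_nonneg _) two_ne_zero).1 this

theorem linP_linP (v : Spc d) : linP L (linP L v) = linP L v := by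
  rw [linP_eq L (linP L v), linP_eq L v, coo_emb]

theorem inner_linP (v w : Spc d) : ⟪linP L v, w⟫ = ⟪v, linP L w⟫ := by
  simp only [linP_apply, sum_inner, inner_sum, real_inner_smul_left, real_inner_smul_right,
    real_inner_comm v]
  exact Finset.sum_congr rfl fun i _ => by ring

theorem norm_sq_split (v : Spc d) :
    ‖v‖ ^ 2 = ‖linP L v‖ ^ 2 + ‖v - linP L v‖ ^ 2 := by
  have h : ⟪linP L v, v - linP L v⟫ = 0 := by
    rw [inner_sub_right, inner_linP L v (linP L v), linP_linP, inner_linP L v v, sub_self]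
  have := norm_add_sq_real (linP L v) (v - linP L v)
  rw [add_sub_cancel, h] at this
  linarith

theorem norm_linP_le (v : Spc d) : ‖linP L v‖ ≤ ‖v‖ := by
  refine (sq_le_sq₀ (norm_nonneg _) (norm_nonneg _)).1 ?_
  have := norm_sq_split L v; have := sq_nonneg ‖v - linP L v‖
  linarith

theorem norm_perp_le (v : Spc d) : ‖v - linP L v‖ ≤ ‖v‖ := by
  refine (sq_le_sq₀ (norm_nonneg _) (norm_nonneg _)).1 ?_
  have := norm_sq_split L v; have := sq_nonneg ‖linP L v‖
  linarith

theorem norm_coo (v : Spc d) : ‖coo L v‖ = ‖linP L v‖ := by rw [linP_eq, norm_emb]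

theorem dist_coord_le (x y : Spc d) : dist (L.coord x) (L.coord y) ≤ dist x y := by
  rw [dist_eq_norm, dist_eq_norm, coord_eq, coord_eq, ← map_sub, sub_sub_sub_cancel_right, norm_coo]
  exact norm_linP_le _ _

theorem dev_sub (x y : Spc d) : L.dev x - L.dev y = (x - y) - linP L (x - y) := by
  rw [dev_eq, dev_eq, map_sub, map_sub, map_sub]; abel

theorem norm_dev_sub_le (x y : Spc d) : ‖L.dev x - L.dev y‖ ≤ dist x y := by
  rw [dev_sub, dist_eq_norm]; exact norm_perp_le _ _

theorem continuous_dev : Continuous L.dev := by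
  have : L.dev = fun y => (y - L.base) - linP L (y - L.base) := funext (dev_eq L)
  rw [this]; fun_prop

theorem tilt_self : tilt T T = 0 := by
  have : linP T - (linP T).comp (linP T) = 0 := by
    ext v; simp [linP_linP]
  simp [tilt, this]

theorem tilt_triangle (L' : Plane n d) : tilt T L ≤ tilt T L' + ‖linP L - linP L'‖ := by
  refine ContinuousLinearMap.opNorm_le_bound _
    (add_nonneg (norm_nonneg _) (norm_nonneg _)) fun v => ?_
  have e : (linP L - (linP T).comp (linP L)) v =
      (linP L' - (linP T).comp (linP L')) v +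
        ((linP L - linP L') v - linP T ((linP L - linP L') v)) := by
    simp [map_sub]; abel
  rw [e, add_mul]
  exact (norm_add_le _ _).trans (add_le_add (ContinuousLinearMap.le_opNorm _ _)
    ((norm_perp_le _ _).trans (ContinuousLinearMap.le_opNorm _ _)))

theorem norm_perp_linP (v : Spc d) :
    ‖linP L v - linP T (linP L v)‖ ≤ tilt T L * ‖linP L v‖ := by
  have := (linP L - (linP T).comp (linP L)).le_opNorm (linP L v)
  simpa [linP_linP, tilt] using this

theorem norm_le_two_coo {L T : Plane n d} (h : tilt T L ≤ 1 / 2) (v : Spc d) :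
    ‖linP L v‖ ≤ 2 * ‖coo T (linP L v)‖ := by
  have h1 := norm_perp_linP L T v
  have h2 := mul_le_mul_of_nonneg_right h (norm_nonneg (linP L v))
  have h3 := norm_sub_norm_le (linP L v) (linP T (linP L v))
  rw [norm_coo]
  linarith

/-- the affine lift of a slightly tilted plane over `T` -/
theorem exists_lift {L T : Plane n d} (h : tilt T L ≤ 1 / 2) :
    ∃ (a : Spc d) (B : Spc n →L[ℝ] Spc d), ∀ u,
      L.dev (a + B u) = 0 ∧ T.coord (a + B u) = u ∧ linP L (B u) = B u ∧ coo T (B u) = u := by
  let A : Spc n →ₗ[ℝ] Spc n := ((coo T).comp (emb L)).toLinearMap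
  have hA : Function.Injective A := by
    rw [← LinearMap.ker_eq_bot, Submodule.eq_bot_iff]
    intro u hu
    have h2 := norm_le_two_coo h (emb L u)
    rw [linP_eq L (emb L u), coo_emb] at h2
    have hz : coo T (emb L u) = 0 := hu
    rw [hz, norm_zero, mul_zero, norm_emb] at h2
    exact norm_le_zero_iff.1 h2
  let Ai := (LinearEquiv.ofInjectiveEndo A hA).symm
  let B : Spc n →L[ℝ] Spc d := (emb L).comp (LinearMap.toContinuousLinearMap Ai.toLinearMap)
  have hB1 : ∀ u, coo T (B u) = u := fun u => by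
    show A (Ai u) = u
    exact (LinearEquiv.ofInjectiveEndo A hA).apply_symm_apply u
  have hB2 : ∀ u, linP L (B u) = B u := fun u => by
    show linP L (emb L _) = emb L _
    rw [linP_eq, coo_emb]
  refine ⟨L.base - B (coo T (L.base - T.base)), B, fun u => ⟨?_, ?_, hB2 u, hB1 u⟩⟩
  · rw [dev_eq]
    have : L.base - B (coo T (L.base - T.base)) + B u - L.base =
        B (u - coo T (L.base - T.base)) := by simp only [map_sub]; abel
    rw [this, hB2, sub_self]
  · rw [coord_eq]
    have : L.base - B (coo T (L.base - T.base)) + B u - T.base =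
        (L.base - T.base) + B (u - coo T (L.base - T.base)) := by simp only [map_sub]; abel
    rw [this, map_add, hB1]; abel

/-- vertical vectors are controlled by their deviation from a tilted plane -/
theorem vertical_le {L T : Plane n d} (h : tilt T L ≤ 1 / 2) {w : Spc d} (hw : linP T w = 0) :
    ‖w‖ ≤ 3 * ‖w - linP L w‖ := by
  have h1 := norm_le_two_coo h w
  have h2 : linP T (linP L w) = -(linP T (w - linP L w)) := by rw [map_sub, hw]; abel
  rw [norm_coo, h2, norm_neg] at h1
  have h3 := norm_linP_le T (w - linP L w)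
  have h4 := norm_add_le (linP L w) (w - linP L w)
  rw [add_sub_cancel] at h4
  linarith

theorem integrableOn_devSq (μ : Measure (Spc d)) [IsLocallyFiniteMeasure μ] (x : Spc d) (R : ℝ) :
    IntegrableOn (fun y => ‖L.dev y‖ ^ 2) (closedBall x R) μ :=
  ((continuous_dev L).norm.pow 2).continuousOn.integrableOn_compact (isCompact_closedBall _ _)

theorem devSq_nonneg (μ : Measure (Spc d)) (x : Spc d) (R : ℝ) : 0 ≤ devSq μ L x R :=
  integral_nonneg fun _ => sq_nonneg _

theorem devSq_mono (μ : Measure (Spc d)) [IsLocallyFiniteMeasure μ] {x z : Spc d} {R r : ℝ}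
    (h : closedBall z r ⊆ closedBall x R) : devSq μ L z r ≤ devSq μ L x R :=
  setIntegral_mono_set (integrableOn_devSq L μ x R) (Eventually.of_forall fun _ => sq_nonneg _)
    h.eventuallyLE

theorem bddBelow_devSq (μ : Measure (Spc d)) (x : Spc d) (R : ℝ) :
    BddBelow (Set.range fun L : Plane n d => devSq μ L x R) :=
  ⟨0, by rintro _ ⟨L, rfl⟩; exact devSq_nonneg L μ x R⟩

theorem measureReal_closedBall_le {μ : Measure (Spc d)} {C : ℝ} (hC : 0 ≤ C)
    (hμ : UpperReg n C μ) (x : Spc d) {r : ℝ} (hr : 0 < r) :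
    μ (closedBall x r) ≤ ENNReal.ofReal (C * (2 * r) ^ n) ∧
      μ.real (closedBall x r) ≤ C * (2 * r) ^ n := by
  have h : μ (closedBall x r) ≤ ENNReal.ofReal (C * (2 * r) ^ n) :=
    (measure_mono (closedBall_subset_ball (by linarith))).trans (hμ x _ (by linarith))
  refine ⟨h, ?_⟩
  have := ENNReal.toReal_mono ENNReal.ofReal_ne_top h
  rwa [ENNReal.toReal_ofReal (by positivity)] at this

theorem devSq_le_of_flat {μ : Measure (Spc d)} [IsLocallyFiniteMeasure μ] {C : ℝ} (hC : 0 ≤ C)
    (hμ : UpperReg n C μ) {x : Spc d} {R δ : ℝ} (hR : 0 < R)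
    (h : ∀ y ∈ μ.support ∩ closedBall x R, ‖L.dev y‖ ≤ δ) :
    devSq μ L x R ≤ δ ^ 2 * (C * (2 * R) ^ n) := by
  have hfin : μ (closedBall x R) < ∞ := (isCompact_closedBall _ _).measure_lt_top
  calc devSq μ L x R ≤ ∫ _y in closedBall x R, δ ^ 2 ∂μ := by
        refine integral_mono_ae (integrableOn_devSq L μ x R) (integrableOn_const hfin.ne) ?_
        filter_upwards [ae_restrict_mem measurableSet_closedBall,
          ae_restrict_of_ae (show ∀ᵐ y ∂μ, y ∈ μ.support from Measure.support_mem_ae)] with y hy hys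
        exact pow_le_pow_left₀ (norm_nonneg _) (h y ⟨hys, hy⟩) 2
    _ = μ.real (closedBall x R) * δ ^ 2 := by rw [setIntegral_const, smul_eq_mul]
    _ ≤ δ ^ 2 * (C * (2 * R) ^ n) := by
        rw [mul_comm]
        exact mul_le_mul_of_nonneg_left (measureReal_closedBall_le hC hμ x hR).2 (sq_nonneg _)

theorem dev_mass {μ : Measure (Spc d)} [IsLocallyFiniteMeasure μ] {C D : ℝ} (hμ : Reg n C D μ)
    {y : Spc d} (hy : y ∈ μ.support) {s a : ℝ} (hs : 0 < s) (hsD : s ≤ D) (ha : 0 ≤ a)
    (hay : a + s ≤ ‖L.dev y‖) {x : Spc d} {R : ℝ} (hsub : ball y s ⊆ closedBall x R) :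
    C⁻¹ * s ^ n * a ^ 2 ≤ devSq μ L x R := by
  have hfin : μ (ball y s) < ∞ := measure_ball_lt_top
  have hC : 0 ≤ C := zero_le_one.trans hμ.one_le
  have hlow : C⁻¹ * s ^ n ≤ μ.real (ball y s) := by
    have := ENNReal.toReal_mono hfin.ne (hμ.lower y hy s hs hsD)
    rwa [ENNReal.toReal_ofReal (by positivity)] at this
  calc C⁻¹ * s ^ n * a ^ 2 ≤ μ.real (ball y s) * a ^ 2 :=
        mul_le_mul_of_nonneg_right hlow (sq_nonneg _)
    _ = ∫ _z in ball y s, a ^ 2 ∂μ := by rw [setIntegral_const, smul_eq_mul]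
    _ ≤ ∫ z in ball y s, ‖L.dev z‖ ^ 2 ∂μ := by
        refine setIntegral_mono_on (integrableOn_const hfin.ne)
          ((integrableOn_devSq L μ x R).mono_set hsub) measurableSet_ball fun z hz => ?_
        refine pow_le_pow_left₀ ha ?_ 2
        have h1 := norm_dev_sub_le L y z
        have h2 := norm_sub_norm_le (L.dev y) (L.dev z)
        rw [mem_ball, dist_comm] at hz
        linarith
    _ ≤ devSq μ L x R := setIntegral_mono_set (integrableOn_devSq L μ x R)
        (Eventually.of_forall fun _ => sq_nonneg _) hsub.eventuallyLE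

end Vale.Agent.P120.TreeProof
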