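import Mathlib
import Vale.Agent.P120.TreeGeom
import Vale.Agent.P120.TreeEnergy
import Vale.Agent.P120.Statements

/-!
The stopping tree below a flat cube: definitions, elementary geometry, the graph property and
the comparison of neighbouring planes. Used by module Tree.
-/

noncomputable section

open MeasureTheory Metric Set Filter
open scoped ENNReal NNReal RealInnerProductSpace

namespace Vale.Agent.P120.TreeProof

/-- interaction radius in space -/
def rOne (n : ℕ) : ℝ := 2 * rPair n + 2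

theorem side_add (ρ : ℝ) (k j : ℕ) : side ρ (k + j) = side (side ρ k) j := by
  simp [side, pow_add, div_div]

theorem side_mul_pow {ρ : ℝ} {i k : ℕ} (h : i ≤ k) : side ρ k * 8 ^ i = side ρ (k - i) := by
  obtain ⟨e, rfl⟩ := Nat.exists_eq_add_of_le h
  simp only [side, Nat.add_sub_cancel_left, pow_add]
  field_simp

theorem one_le_rPair (n : ℕ) : 30 ≤ rPair n := by
  unfold rPair; linarith [show (0 : ℝ) ≤ n from Nat.cast_nonneg n]

/-- a flat top cube with all parameters -/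
structure Setup (n d : ℕ) where
  μ : Measure (Spc d)
  lfin : IsLocallyFiniteMeasure μ
  C : ℝ
  Cs : ℝ
  D : ℝ
  ρ : ℝ
  Λ : ℝ
  η : ℝ
  θ : ℝ
  ε : ℝ
  J₀ : ℕ
  Q : Cubes μ ρ
  k₀ : ℕ
  z₀ : Spc d
  L₀ : Plane n d
  hn : 1 ≤ n
  hnd : n < d
  reg : Reg n C D μ
  ρ_pos : 0 < ρ
  ρ_le : ρ ≤ D
  Λ_ge : 4 * rOne n + 4 ≤ Λ
  Λ_le : Λ ≤ 8 ^ J₀
  J_le : J₀ ≤ k₀
  z₀_mem : z₀ ∈ Q.X k₀
  η_pos : 0 < η
  η_le : η ≤ 1 / 1024
  θ_pos : 0 < θ
  ε_pos : 0 < ε
  ε_le : ε ≤ η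
  flat₀ : ∀ y ∈ μ.support ∩ closedBall z₀ ((Λ + 2) * 8 ^ J₀ * side ρ k₀),
    ‖L₀.dev y‖ ≤ ε * side ρ k₀
  Cs_nonneg : 0 ≤ Cs
  stab : ∀ z ∈ μ.support, ∀ r : ℝ, 0 < r → r ≤ D → ∀ (L L' : Plane n d) (y : Spc d),
    ‖L.dev y - L'.dev y‖ ≤
      Cs * (1 + dist y z / r) * Real.sqrt ((devSq μ L z r + devSq μ L' z r) / r ^ n)
  small₁ : 3 * (Cs * 8 ^ n) *
    Real.sqrt (2 * (8 ^ (n + 2) * (C * (2 * Λ) ^ n) * η ^ 2 + θ)) ≤ 1 / 8
  small₂ : C * (8 ^ (n + 2) * (C * (2 * Λ) ^ n) * η ^ 2 + θ) < 1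

attribute [instance] Setup.lfin

namespace Setup

variable {n d : ℕ} (S : Setup n d)

/-- the scale at relative level `j` -/
def t (j : ℕ) : ℝ := side S.ρ (S.k₀ + j)

/-- the flatness constant -/
def Cf : ℝ := S.C * (2 * S.Λ) ^ n

/-- bound for the squared flatness of the children of tree cubes -/
def bmax : ℝ := 8 ^ (n + 2) * S.Cf * S.η ^ 2 + S.θ

/-- stability constant -/
def Kst : ℝ := S.Cs * 8 ^ n

/-- the parent -/
def par (j : ℕ) (z : Spc d) : Spc d := S.Q.parent (S.k₀ + j) z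

/-- the cell -/
def cell (j : ℕ) (z : Spc d) : Set (Spc d) := S.Q.cell (S.k₀ + j) z

/-- the mass of a cell -/
def wt (j : ℕ) (z : Spc d) : ℝ := S.μ.real (S.cell j z)

open Classical in
/-- the chosen plane of a cube -/
def plane (j : ℕ) (z : Spc d) : Plane n d :=
  if j = 0 then S.L₀ else
    if h : ∃ L : Plane n d, devSq S.μ L z (S.Λ * S.t j) <
        (⨅ L : Plane n d, devSq S.μ L z (S.Λ * S.t j)) + S.θ / 2 ^ j * S.t j ^ (n + 2)
    then h.choose else S.L₀

/-- normalised squared deviation from the chosen plane -/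
def b2 (j : ℕ) (z : Spc d) : ℝ :=
  devSq S.μ (S.plane j z) z (S.Λ * S.t j) / S.t j ^ (n + 2)

/-- normalised squared flatness -/
def beta (j : ℕ) (z : Spc d) : ℝ := betaSq n S.μ S.Λ z (S.t j)

/-- the defect between the chosen plane and a best one -/
def slack : ℕ → ℝ
  | 0 => S.Cf * S.ε ^ 2
  | j + 1 => S.θ / 2 ^ (j + 1)

/-- flatness in the dilated ball -/
def FlatAt (j : ℕ) (z : Spc d) : Prop :=
  ∀ y ∈ S.μ.support ∩ closedBall z (S.Λ * S.t j), ‖(S.plane j z).dev y‖ ≤ S.η * S.t j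

/-- the cubes of the stopping tree -/
def InT : ℕ → Spc d → Prop
  | 0, z => z = S.z₀
  | j + 1, z => z ∈ S.Q.X (S.k₀ + (j + 1)) ∧ InT j (S.par j z) ∧
      S.FlatAt (j + 1) z ∧ tilt S.L₀ (S.plane (j + 1) z) ≤ 1 / 8

/-- the children of tree cubes, and the top -/
def Ch : ℕ → Spc d → Prop
  | 0, z => z = S.z₀
  | j + 1, z => z ∈ S.Q.X (S.k₀ + (j + 1)) ∧ S.InT j (S.par j z)

/-- ancestors, indexed by the absolute level -/
def anc : ℕ → ℕ → Spc d → Spc d
  | 0, _, z => z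
  | i + 1, k, z => S.Q.parent (k - (i + 1)) (anc i k z)

theorem t_pos (j : ℕ) : 0 < S.t j := side_pos S.ρ_pos _

theorem t_succ (j : ℕ) : S.t (j + 1) = S.t j / 8 := side_succ _ _

theorem C_pos : 0 < S.C := one_pos.trans_le S.reg.one_le

theorem rOne_ge : 62 ≤ rOne n := by unfold rOne; linarith [one_le_rPair n]

theorem Λ_big : 16 ≤ S.Λ := by linarith [S.Λ_ge, rOne_ge (n := n)]

theorem Λt_le (j : ℕ) : S.Λ * S.t j ≤ S.D := by
  refine le_trans ?_ S.ρ_le
  have h : S.Λ ≤ 8 ^ (S.k₀ + j) :=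
    S.Λ_le.trans (pow_le_pow_right₀ (by norm_num) (S.J_le.trans (Nat.le_add_right _ _)))
  unfold t side
  rw [mul_div, div_le_iff₀ (by positivity), mul_comm]
  exact mul_le_mul_of_nonneg_left h S.ρ_pos.le

theorem t_le (j : ℕ) : S.t j ≤ S.D :=
  le_trans (le_mul_of_one_le_left (S.t_pos j).le (by linarith [S.Λ_big])) (S.Λt_le j)

theorem Cf_nonneg : 0 ≤ S.Cf := by
  have := S.C_pos; have := S.Λ_big; unfold Cf; positivity

theorem bmax_nonneg : 0 ≤ S.bmax := by
  have := S.Cf_nonneg; have := S.θ_pos; unfold bmax; positivity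

theorem Kst_nonneg : 0 ≤ S.Kst := by have := S.Cs_nonneg; unfold Kst; positivity

theorem slack_nonneg (j : ℕ) : 0 ≤ S.slack j := by
  have := S.Cf_nonneg; have := S.θ_pos
  cases j <;> unfold slack <;> positivity

theorem mem_supp {j : ℕ} {z : Spc d} (hz : z ∈ S.Q.X (S.k₀ + j)) : z ∈ S.μ.support :=
  S.Q.subset _ hz

theorem self_mem {j : ℕ} {z : Spc d} (hz : z ∈ S.Q.X (S.k₀ + j)) : z ∈ S.cell j z :=
  S.Q.inner _ z hz ⟨S.mem_supp hz, mem_ball_self (by have := S.t_pos j; unfold t at this; positivity)⟩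

theorem cell_sub {j : ℕ} {z x : Spc d} (hz : z ∈ S.Q.X (S.k₀ + j)) (hx : x ∈ S.cell j z) :
    x ∈ S.μ.support ∧ dist x z ≤ 2 * S.t j :=
  ⟨(S.Q.outer _ z hz hx).1, mem_closedBall.1 (S.Q.outer _ z hz hx).2⟩

theorem cell_unique {k : ℕ} {z z' x : Spc d} (hz : z ∈ S.Q.X k) (hz' : z' ∈ S.Q.X k)
    (hx : x ∈ S.Q.cell k z) (hx' : x ∈ S.Q.cell k z') : z = z' := by
  by_contra h
  exact Set.disjoint_left.1 (S.Q.disj k hz hz' h) hx hx'

theorem par_mem {j : ℕ} {z : Spc d} (hz : z ∈ S.Q.X (S.k₀ + (j + 1))) :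
    S.par j z ∈ S.Q.X (S.k₀ + j) ∧ S.cell (j + 1) z ⊆ S.cell j (S.par j z) :=
  ⟨S.Q.parent_mem _ z hz, S.Q.nested _ z hz⟩

theorem par_dist {j : ℕ} {z : Spc d} (hz : z ∈ S.Q.X (S.k₀ + (j + 1))) :
    dist z (S.par j z) ≤ 2 * S.t j :=
  (S.cell_sub (S.par_mem hz).1 ((S.par_mem hz).2 (S.self_mem hz))).2

theorem ch_of_inT {j : ℕ} {z : Spc d} (h : S.InT j z) : S.Ch j z := by
  cases j with
  | zero => exact h
  | succ j => exact ⟨h.1, h.2.1⟩

theorem ch_mem : ∀ {j : ℕ} {z : Spc d}, S.Ch j z →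
    z ∈ S.Q.X (S.k₀ + j) ∧ S.cell j z ⊆ S.cell 0 S.z₀ := by
  intro j
  induction j with
  | zero => intro z h; subst h; exact ⟨S.z₀_mem, subset_rfl⟩
  | succ j ih =>
    intro z h
    exact ⟨h.1, (S.par_mem h.1).2.trans (ih (S.ch_of_inT h.2)).2⟩

theorem inT_flat : ∀ {j : ℕ} {z : Spc d}, S.InT j z → S.FlatAt j z := by
  intro j z h
  cases j with
  | succ j => exact h.2.2.1
  | zero =>
    subst h
    intro y hy
    have hp : S.plane 0 S.z₀ = S.L₀ := by simp [plane]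
    rw [hp]
    refine (S.flat₀ y ⟨hy.1, closedBall_subset_closedBall ?_ hy.2⟩).trans ?_
    · have h8 : (1 : ℝ) ≤ 8 ^ S.J₀ := one_le_pow₀ (by norm_num)
      have hpos := S.t_pos 0
      have : S.Λ ≤ (S.Λ + 2) * 8 ^ S.J₀ := by
        calc S.Λ ≤ (S.Λ + 2) * 1 := by linarith
          _ ≤ _ := mul_le_mul_of_nonneg_left h8 (by linarith [S.Λ_big])
      exact mul_le_mul_of_nonneg_right this hpos.le
    · exact mul_le_mul_of_nonneg_right S.ε_le (S.t_pos 0).le

theorem inT_tilt {j : ℕ} {z : Spc d} (h : S.InT j z) : tilt S.L₀ (S.plane j z) ≤ 1 / 8 := by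
  cases j with
  | succ j => exact h.2.2.2
  | zero => simp [plane, tilt_self]

theorem anc_spec {k i : ℕ} {z : Spc d} (hi : i ≤ k) (hz : z ∈ S.Q.X k) :
    S.anc i k z ∈ S.Q.X (k - i) ∧ S.Q.cell k z ⊆ S.Q.cell (k - i) (S.anc i k z) := by
  induction i with
  | zero => exact ⟨hz, subset_rfl⟩
  | succ i ih =>
    obtain ⟨h1, h2⟩ := ih (by omega)
    have e : k - i = k - (i + 1) + 1 := by omega
    rw [e] at h1 h2
    exact ⟨S.Q.parent_mem _ _ h1, h2.trans (S.Q.nested _ _ h1)⟩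

theorem inT_anc {j i : ℕ} {z : Spc d} (h : S.InT j z) (hi : i ≤ j) :
    S.InT (j - i) (S.anc i (S.k₀ + j) z) := by
  induction i with
  | zero => exact h
  | succ i ih =>
    have h1 := ih (by omega)
    obtain ⟨m, hm⟩ : ∃ m, j - i = m + 1 := ⟨j - i - 1, by omega⟩
    rw [hm] at h1
    have e : S.k₀ + j - (i + 1) = S.k₀ + m := by omega
    show S.InT (j - (i + 1)) (S.Q.parent (S.k₀ + j - (i + 1)) (S.anc i (S.k₀ + j) z))
    rw [show j - (i + 1) = m by omega, e]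
    exact h1.2.1

/-- a cube meeting a tree cube at a coarser level is in the tree -/
theorem inT_of_meet {i j : ℕ} {z w x : Spc d} (h : S.InT j z) (hij : i ≤ j)
    (hw : w ∈ S.Q.X (S.k₀ + i)) (hx : x ∈ S.cell j z) (hxw : x ∈ S.cell i w) : S.InT i w := by
  have hz := (S.ch_mem (S.ch_of_inT h)).1
  obtain ⟨h1, h2⟩ := S.anc_spec (i := j - i) (k := S.k₀ + j) (by omega) hz
  have e : S.k₀ + j - (j - i) = S.k₀ + i := by omega
  rw [e] at h1 h2
  have := S.cell_unique h1 hw (h2 hx) hxw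
  have h3 := S.inT_anc h (i := j - i) (by omega)
  rwa [show j - (j - i) = i by omega, this] at h3

theorem exists_child {j : ℕ} {p x : Spc d} (hp : S.InT j p) (hx : x ∈ S.cell j p) :
    ∃ q, S.Ch (j + 1) q ∧ x ∈ S.cell (j + 1) q ∧ S.par j q = p := by
  have hp' := (S.ch_mem (S.ch_of_inT hp)).1
  obtain ⟨q, hq, hxq⟩ := Set.mem_iUnion₂.1 (S.Q.cover (S.k₀ + (j + 1)) (S.cell_sub hp' hx).1)
  have := S.cell_unique (S.par_mem hq).1 hp' ((S.par_mem hq).2 hxq) hx
  exact ⟨q, ⟨hq, by rw [this]; exact hp⟩, hxq, this⟩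

theorem b2_nonneg (j : ℕ) (z : Spc d) : 0 ≤ S.b2 j z :=
  div_nonneg (devSq_nonneg _ _ _ _) (pow_nonneg (S.t_pos j).le _)

theorem beta_nonneg (j : ℕ) (z : Spc d) : 0 ≤ S.beta j z := by
  have : Nonempty (Plane n d) := ⟨S.L₀⟩
  exact div_nonneg (le_ciInf fun L => devSq_nonneg _ _ _ _) (pow_nonneg (S.t_pos j).le _)

theorem beta_le_b2 (j : ℕ) (z : Spc d) : S.beta j z ≤ S.b2 j z :=
  div_le_div_of_nonneg_right (ciInf_le (bddBelow_devSq _ _ _) _) (pow_nonneg (S.t_pos j).le _)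

theorem flat_b2 {δ : ℝ} (j : ℕ) (z : Spc d)
    (h : ∀ y ∈ S.μ.support ∩ closedBall z (S.Λ * S.t j), ‖(S.plane j z).dev y‖ ≤ δ * S.t j) :
    S.b2 j z ≤ S.Cf * δ ^ 2 := by
  have hpos := S.t_pos j
  have hΛ := S.Λ_big
  unfold b2
  rw [div_le_iff₀ (by positivity)]
  refine (devSq_le_of_flat _ S.C_pos.le S.reg.upper (by positivity) h).trans (le_of_eq ?_)
  simp only [Cf, pow_add, mul_pow]
  ring

theorem b2_inT {j : ℕ} {z : Spc d} (h : S.InT j z) : S.b2 j z ≤ S.Cf * S.η ^ 2 :=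
  S.flat_b2 j z (S.inT_flat h)

theorem b2_zero : S.b2 0 S.z₀ ≤ S.Cf * S.ε ^ 2 := by
  refine S.flat_b2 0 S.z₀ fun y hy => ?_
  have hp : S.plane 0 S.z₀ = S.L₀ := by simp [plane]
  rw [hp]
  refine S.flat₀ y ⟨hy.1, closedBall_subset_closedBall ?_ hy.2⟩
  have h8 : (1 : ℝ) ≤ 8 ^ S.J₀ := one_le_pow₀ (by norm_num)
  refine mul_le_mul_of_nonneg_right ?_ (S.t_pos 0).le
  calc S.Λ ≤ (S.Λ + 2) * 1 := by linarith
    _ ≤ _ := mul_le_mul_of_nonneg_left h8 (by linarith [S.Λ_big])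

theorem b2_le_beta {j : ℕ} {z : Spc d} (h : S.Ch j z) : S.b2 j z ≤ S.beta j z + S.slack j := by
  cases j with
  | zero =>
    subst h
    have := S.beta_nonneg 0 S.z₀
    have := S.b2_zero
    simp only [slack]; linarith
  | succ j =>
    have hpos := S.t_pos (j + 1)
    have hθ := S.θ_pos
    have : Nonempty (Plane n d) := ⟨S.L₀⟩
    have hex : ∃ L : Plane n d, devSq S.μ L z (S.Λ * S.t (j + 1)) <
        (⨅ L : Plane n d, devSq S.μ L z (S.Λ * S.t (j + 1))) +
          S.θ / 2 ^ (j + 1) * S.t (j + 1) ^ (n + 2) :=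
      exists_lt_of_ciInf_lt (lt_add_of_pos_right _ (by positivity))
    have hs := hex.choose_spec
    have hp : S.plane (j + 1) z = hex.choose := by simp [plane, hex]
    simp only [b2, beta, betaSq, slack, hp]
    rw [div_add' _ _ _ (by positivity), div_le_div_iff_of_pos_right (by positivity)]
    exact hs.le

theorem beta_child {j : ℕ} {z : Spc d} (hz : z ∈ S.Q.X (S.k₀ + (j + 1))) :
    S.beta (j + 1) z ≤ 8 ^ (n + 2) * S.beta j (S.par j z) := by
  have : Nonempty (Plane n d) := ⟨S.L₀⟩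
  have hpos := S.t_pos j
  have hd := S.par_dist hz
  have hsub : closedBall z (S.Λ * S.t (j + 1)) ⊆ closedBall (S.par j z) (S.Λ * S.t j) := by
    refine closedBall_subset_closedBall' ?_
    have hΛ := S.Λ_big
    have := mul_le_mul_of_nonneg_right (show S.Λ / 8 + 2 ≤ S.Λ by linarith) hpos.le
    rw [S.t_succ]; linarith
  have h1 : (⨅ L : Plane n d, devSq S.μ L z (S.Λ * S.t (j + 1))) ≤
      ⨅ L : Plane n d, devSq S.μ L (S.par j z) (S.Λ * S.t j) :=
    le_ciInf fun L => (ciInf_le (bddBelow_devSq _ _ _) L).trans (devSq_mono L S.μ hsub)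
  unfold beta betaSq
  rw [mul_div, div_le_div_iff₀ (by have := S.t_pos (j + 1); positivity) (by positivity)]
  refine (mul_le_mul_of_nonneg_right h1 (by positivity)).trans (le_of_eq ?_)
  rw [S.t_succ, div_pow]
  field_simp

theorem b2_ch {j : ℕ} {z : Spc d} (h : S.Ch j z) : S.b2 j z ≤ S.bmax := by
  have h8 : (1 : ℝ) ≤ 8 ^ (n + 2) := one_le_pow₀ (by norm_num)
  have hθ := S.θ_pos
  have hf := S.Cf_nonneg
  cases j with
  | zero =>
    have := S.b2_inT (j := 0) h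
    have h0 : 1 * (S.Cf * S.η ^ 2) ≤ 8 ^ (n + 2) * (S.Cf * S.η ^ 2) :=
      mul_le_mul_of_nonneg_right h8 (by positivity)
    unfold bmax; linarith
  | succ j =>
    have h1 := S.b2_le_beta h
    have h2 := S.beta_child h.1
    have h3 : 8 ^ (n + 2) * S.beta j (S.par j z) ≤ 8 ^ (n + 2) * (S.Cf * S.η ^ 2) :=
      mul_le_mul_of_nonneg_left ((S.beta_le_b2 _ _).trans (S.b2_inT h.2)) (by positivity)
    have h4 : S.slack (j + 1) ≤ S.θ :=
      div_le_self hθ.le (one_le_pow₀ (by norm_num))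
    unfold bmax; linarith

/-- neighbouring planes are close -/
theorem stab_pair {j k : ℕ} (hk : k = j ∨ k = j + 1) {p q : Spc d} (hq : S.Ch k q)
    (hd : dist p q ≤ rOne n * S.t j) :
    (∀ y, ‖(S.plane k q).dev y - (S.plane j p).dev y‖ ≤
        S.Kst * (1 + dist y q / (S.Λ * S.t k / 2)) * (S.t j * Real.sqrt (S.b2 j p + S.b2 k q))) ∧
      ‖linP (S.plane k q) - linP (S.plane j p)‖ ≤
        3 * S.Kst * Real.sqrt (S.b2 j p + S.b2 k q) := by
  have hΛ := S.Λ_big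
  have hj := S.t_pos j
  have hk0 := S.t_pos k
  have htk : S.t k ≤ S.t j ∧ S.t j ≤ 8 * S.t k := by
    rcases hk with rfl | rfl
    · constructor <;> linarith
    · rw [S.t_succ]; constructor <;> linarith
  set r := S.Λ * S.t k / 2 with hr
  have hr0 : 0 < r := by positivity
  have hjr : S.t j ≤ r := by
    have := mul_le_mul_of_nonneg_right hΛ hk0.le
    rw [hr]; linarith
  have hrD : r ≤ S.D := by have := S.Λt_le k; rw [hr]; linarith
  have hs1 : closedBall q r ⊆ closedBall q (S.Λ * S.t k) :=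
    closedBall_subset_closedBall (by rw [hr]; linarith [mul_pos (by linarith : 0 < S.Λ) hk0])
  have hs2 : closedBall q r ⊆ closedBall p (S.Λ * S.t j) := by
    refine closedBall_subset_closedBall' ?_
    rw [dist_comm q p]
    have := mul_le_mul_of_nonneg_left htk.1 (show 0 ≤ S.Λ by linarith)
    have := mul_le_mul_of_nonneg_right (show rOne n ≤ S.Λ / 2 by linarith [S.Λ_ge, rOne_ge (n := n)]) hj.le
    rw [hr]; linarith
  have hsum : Real.sqrt ((devSq S.μ (S.plane k q) q r + devSq S.μ (S.plane j p) q r) / r ^ n) ≤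
      8 ^ n * (S.t j * Real.sqrt (S.b2 j p + S.b2 k q)) := by
    have h1 : devSq S.μ (S.plane k q) q r ≤ S.b2 k q * S.t j ^ (n + 2) := by
      refine (devSq_mono _ S.μ hs1).trans ?_
      refine le_trans (le_of_eq ?_) (mul_le_mul_of_nonneg_left
        (pow_le_pow_left₀ hk0.le htk.1 (n + 2)) (S.b2_nonneg k q))
      unfold b2; field_simp
    have h2 : devSq S.μ (S.plane j p) q r ≤ S.b2 j p * S.t j ^ (n + 2) := by
      refine (devSq_mono _ S.μ hs2).trans (le_of_eq ?_)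
      unfold b2; field_simp
    have hb : 0 ≤ S.b2 j p + S.b2 k q := add_nonneg (S.b2_nonneg _ _) (S.b2_nonneg _ _)
    rw [Real.sqrt_le_iff]
    refine ⟨by positivity, ?_⟩
    rw [div_le_iff₀ (by positivity), mul_pow, mul_pow, Real.sq_sqrt hb]
    have h3 : S.t j ^ n ≤ r ^ n := pow_le_pow_left₀ hj.le hjr n
    have h4 : (1 : ℝ) ≤ (8 ^ n) ^ 2 := one_le_pow₀ (one_le_pow₀ (by norm_num))
    calc devSq S.μ (S.plane k q) q r + devSq S.μ (S.plane j p) q r
        ≤ (S.b2 j p + S.b2 k q) * S.t j ^ (n + 2) := by linarith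
      _ = 1 * (S.t j ^ 2 * (S.b2 j p + S.b2 k q)) * S.t j ^ n := by ring
      _ ≤ (8 ^ n) ^ 2 * (S.t j ^ 2 * (S.b2 j p + S.b2 k q)) * r ^ n := by gcongr
  have hmain : ∀ y, ‖(S.plane k q).dev y - (S.plane j p).dev y‖ ≤
      S.Kst * (1 + dist y q / r) * (S.t j * Real.sqrt (S.b2 j p + S.b2 k q)) := by
    intro y
    refine (S.stab q (S.mem_supp (S.ch_mem hq).1) r hr0 hrD (S.plane k q) (S.plane j p) y).trans ?_
    refine (mul_le_mul_of_nonneg_left hsum ?_).trans (le_of_eq ?_)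
    · have := S.Cs_nonneg; positivity
    · unfold Kst; ring
  refine ⟨hmain, ?_⟩
  have hK := S.Kst_nonneg
  refine ContinuousLinearMap.opNorm_le_bound _ (by positivity) fun v => ?_
  rcases eq_or_ne v 0 with rfl | hv
  · simp
  have hv0 : 0 < ‖v‖ := norm_pos_iff.2 hv
  set w := (r / ‖v‖) • v with hw
  have hwn : ‖w‖ = r := by
    rw [hw, norm_smul, Real.norm_eq_abs, abs_of_pos (by positivity)]; field_simp
  have h0 := hmain q
  have h1 := hmain (q + w)
  rw [dist_self, zero_div, add_zero, mul_one] at h0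
  rw [dist_eq_norm, add_sub_cancel_left, hwn, div_self hr0.ne'] at h1
  have e : (linP (S.plane k q) - linP (S.plane j p)) w =
      ((S.plane k q).dev q - (S.plane j p).dev q) -
        ((S.plane k q).dev (q + w) - (S.plane j p).dev (q + w)) := by
    rw [sub_sub_sub_comm ((S.plane k q).dev q) ((S.plane j p).dev q), dev_sub, dev_sub]
    simp
  have h2 : ‖(linP (S.plane k q) - linP (S.plane j p)) w‖ ≤
      3 * S.Kst * (S.t j * Real.sqrt (S.b2 j p + S.b2 k q)) := by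
    rw [e]
    refine (norm_sub_le _ _).trans ?_
    linarith
  have h3 : (linP (S.plane k q) - linP (S.plane j p)) v =
      (‖v‖ / r) • (linP (S.plane k q) - linP (S.plane j p)) w := by
    rw [← map_smul, hw, smul_smul]
    field_simp
    simp
  rw [h3, norm_smul, Real.norm_eq_abs, abs_of_pos (by positivity)]
  refine (mul_le_mul_of_nonneg_left h2 (by positivity)).trans ?_
  rw [div_mul_eq_mul_div, div_le_iff₀ hr0]
  have h4 : S.t j * (3 * S.Kst * Real.sqrt (S.b2 j p + S.b2 k q) * ‖v‖) ≤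
      r * (3 * S.Kst * Real.sqrt (S.b2 j p + S.b2 k q) * ‖v‖) :=
    mul_le_mul_of_nonneg_right hjr (by positivity)
  linarith

theorem tilt_ch {j : ℕ} {q : Spc d} (h : S.Ch j q) : tilt S.L₀ (S.plane j q) ≤ 1 / 4 := by
  cases j with
  | zero => exact (S.inT_tilt (j := 0) h).trans (by norm_num)
  | succ j =>
    have hd : dist (S.par j q) q ≤ rOne n * S.t j := by
      rw [dist_comm]
      exact (S.par_dist h.1).trans (mul_le_mul_of_nonneg_right
        (by linarith [rOne_ge (n := n)]) (S.t_pos j).le)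
    have h2 := (S.stab_pair (Or.inr rfl) h hd).2
    have h3 : Real.sqrt (S.b2 j (S.par j q) + S.b2 (j + 1) q) ≤ Real.sqrt (2 * S.bmax) :=
      Real.sqrt_le_sqrt (by linarith [S.b2_ch (S.ch_of_inT h.2), S.b2_ch h])
    have h4 := mul_le_mul_of_nonneg_left h3 (show 0 ≤ 3 * S.Kst by linarith [S.Kst_nonneg])
    have h5 : 3 * S.Kst * Real.sqrt (2 * S.bmax) ≤ 1 / 8 := S.small₁
    have := tilt_triangle (S.plane (j + 1) q) S.L₀ (S.plane j (S.par j q))
    linarith [S.inT_tilt h.2]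

/-- far pairs of points have comparable projections -/
theorem graph {j : ℕ} {z a b : Spc d} (hz : S.InT j z) (ha : a ∈ S.cell j z)
    (hb : b ∈ S.cell 0 S.z₀) (hD : S.t j ≤ 64 * dist a b) :
    dist a b ≤ 2 * dist (S.L₀.coord a) (S.L₀.coord b) := by
  classical
  have hex : ∃ i, S.t i ≤ 64 * dist a b := ⟨j, hD⟩
  set i := Nat.find hex with hi
  have hi1 : S.t i ≤ 64 * dist a b := Nat.find_spec hex
  have hij : i ≤ j := Nat.find_min' hex hD
  have ha0 : a ∈ S.cell 0 S.z₀ := (S.ch_mem (S.ch_of_inT hz)).2 ha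
  have hi2 : dist a b ≤ 8 * S.t i := by
    rcases Nat.eq_zero_or_eq_succ_pred i with h | h
    · rw [h]
      have h1 := (S.cell_sub S.z₀_mem ha0).2
      have h2 := (S.cell_sub S.z₀_mem hb).2
      have := dist_triangle_right a b S.z₀
      linarith [S.t_pos 0]
    · have := Nat.find_min hex (show i.pred < i by omega)
      have e : S.t i = S.t i.pred / 8 := by conv_lhs => rw [h]; exact S.t_succ _
      linarith [S.t_pos i.pred, @dist_nonneg _ _ a b]
  obtain ⟨hz', -⟩ := S.ch_mem (S.ch_of_inT hz)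
  obtain ⟨w, hw, haw⟩ := Set.mem_iUnion₂.1 (S.Q.cover (S.k₀ + i) (S.cell_sub hz' ha).1)
  have hwT : S.InT i w := S.inT_of_meet hz hij hw ha haw
  set A := S.plane i w
  have ht := S.t_pos i
  have hΛ : 10 * S.t i ≤ S.Λ * S.t i :=
    mul_le_mul_of_nonneg_right (by linarith [S.Λ_big]) ht.le
  have haw' := (S.cell_sub hw haw).2
  have hfa : ‖A.dev a‖ ≤ S.η * S.t i :=
    S.inT_flat hwT a ⟨(S.cell_sub hz' ha).1, mem_closedBall.2 (by linarith)⟩
  have hfb : ‖A.dev b‖ ≤ S.η * S.t i := by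
    refine S.inT_flat hwT b ⟨(S.cell_sub S.z₀_mem hb).1, mem_closedBall.2 ?_⟩
    have := dist_triangle_left b w a
    linarith
  set v := a - b with hv
  have hvn : ‖v‖ = dist a b := (dist_eq_norm a b).symm
  have h1 : ‖v - linP A v‖ ≤ 2 * (S.η * S.t i) := by
    rw [← dev_sub A a b]; exact (norm_sub_le _ _).trans (by linarith)
  have h2 : ‖linP A v - linP S.L₀ (linP A v)‖ ≤ 1 / 8 * dist a b :=
    (norm_perp_linP A S.L₀ v).trans (by
      rw [← hvn]
      exact mul_le_mul (S.inT_tilt hwT) (norm_linP_le A v) (norm_nonneg _) (by norm_num))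
  have h3 : ‖v - linP S.L₀ v‖ ≤ 2 * (S.η * S.t i) + 1 / 8 * dist a b := by
    have e : v - linP S.L₀ v = ((v - linP A v) - linP S.L₀ (v - linP A v)) +
        (linP A v - linP S.L₀ (linP A v)) := by rw [map_sub (linP S.L₀) v]; abel
    rw [e]
    exact (norm_add_le _ _).trans (add_le_add ((norm_perp_le _ _).trans h1) h2)
  have h4 : S.η * S.t i ≤ 1 / 1024 * (64 * dist a b) :=
    mul_le_mul S.η_le hi1 ht.le (by norm_num)
  have h5 : dist (S.L₀.coord a) (S.L₀.coord b) = ‖linP S.L₀ v‖ := by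
    rw [dist_eq_norm, coord_eq, coord_eq, ← map_sub, sub_sub_sub_cancel_right, norm_coo]
  have h6 := norm_sub_norm_le v (linP S.L₀ v)
  rw [hvn] at h6
  linarith

theorem pair_dist {j k : ℕ} {p q : Spc d} (hp : S.Ch j p) (hq : S.Ch k q)
    (h : dist (S.L₀.coord p) (S.L₀.coord q) ≤ rPair n * S.t j) :
    dist p q ≤ rOne n * S.t j := by
  have hq0 : q ∈ S.cell 0 S.z₀ := (S.ch_mem hq).2 (S.self_mem (S.ch_mem hq).1)
  have hj := S.t_pos j
  have hR : (0 : ℝ) ≤ rPair n := by linarith [one_le_rPair n]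
  obtain ⟨i, z, hz, hpz, hit⟩ : ∃ i z, S.InT i z ∧ p ∈ S.cell i z ∧ S.t i ≤ 8 * S.t j := by
    cases j with
    | zero => exact ⟨0, p, hp, S.self_mem (S.ch_mem hp).1, by linarith⟩
    | succ m =>
      exact ⟨m, S.par m p, hp.2, (S.par_mem hp.1).2 (S.self_mem hp.1),
        by rw [S.t_succ]; linarith⟩
  have h2 : 2 * rPair n * S.t j ≤ rOne n * S.t j :=
    mul_le_mul_of_nonneg_right (by unfold rOne; linarith) hj.le
  rcases le_or_gt (S.t i) (64 * dist p q) with hc | hc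
  · have := S.graph hz hpz hq0 hc
    linarith
  · have : 1 * S.t j ≤ rOne n * S.t j :=
      mul_le_mul_of_nonneg_right (by linarith [rOne_ge (n := n)]) hj.le
    linarith

end Setup

end Vale.Agent.P120.TreeProof
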