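import Mathlib
import Vale.Agent.P120.TreeSetup

/-!
Counting in the stopping tree: absorption of the improvement inequality and smallness of the
total mass of the exits. Used by module Tree.
-/

noncomputable section

open MeasureTheory Metric Set Filter
open scoped ENNReal NNReal RealInnerProductSpace

namespace Vale.Agent.P120.TreeProof

/-- Lipschitz constant of neighbouring lifts -/
def pairConst (n : ℕ) (Cs : ℝ) : ℝ := 3 * (Cs * 8 ^ n) * (4 * rPair n + 7)

theorem pairConst_nonneg (n : ℕ) {Cs : ℝ} (h : 0 ≤ Cs) : 0 ≤ pairConst n Cs := by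
  have := one_le_rPair n
  unfold pairConst; positivity

/-- the constant in the flatness stop -/
def flatConst (n : ℕ) (C Cs η : ℝ) : ℝ :=
  C * (32 / η) ^ (n + 2) + (48 * (Cs * 8 ^ n) / η) ^ 2

/-- constant of the child sums -/
def kidConst (n : ℕ) : ℝ := 2 * (1 + 8 ^ (n + 2)) + 4

/-- the constant in front of the exit bound -/
def exitConst (n d : ℕ) (C Cs η cs : ℝ) : ℝ :=
  flatConst n C Cs η * kidConst n +
    n * d * (C * 4 ^ n) * ((8 * n * d) ^ 2 * cs * (C * 8 ^ n * (kidConst n + 1)))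

theorem sum_geom_conv (s : ℕ → ℝ) (N : ℕ) :
    (∑ j ∈ Finset.range (N + 1), ∑ i ∈ Finset.range (j + 1), (1 / 2 : ℝ) ^ i * s (j - i)) +
        ∑ i ∈ Finset.range (N + 1), (1 / 2 : ℝ) ^ i * s (N - i) =
      2 * ∑ j ∈ Finset.range (N + 1), s j := by
  induction N with
  | zero => simp; ring
  | succ N ih =>
    have h : ∑ i ∈ Finset.range (N + 1 + 1), (1 / 2 : ℝ) ^ i * s (N + 1 - i) =
        s (N + 1) + 1 / 2 * ∑ i ∈ Finset.range (N + 1), (1 / 2 : ℝ) ^ i * s (N - i) := by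
      rw [Finset.sum_range_succ', Finset.mul_sum, add_comm]
      simp only [pow_zero, one_mul, Nat.sub_zero, Nat.add_sub_add_right, pow_succ]
      congr 1
      exact Finset.sum_congr rfl fun i _ => by ring
    rw [Finset.sum_range_succ (fun j => ∑ i ∈ Finset.range (j + 1), (1 / 2 : ℝ) ^ i * s (j - i)),
      Finset.sum_range_succ (fun j => s j) (N + 1), h]
    linarith

theorem geom_half_le (N : ℕ) : ∑ j ∈ Finset.range N, (1 / 2 : ℝ) ^ j ≤ 2 := by
  refine (summable_geometric_two.sum_le_tsum _ fun _ _ => by positivity).trans ?_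
  rw [tsum_geometric_two]

namespace Setup

variable {n d : ℕ} (S : Setup n d)

open Classical in
/-- the lift of the chosen plane over the top plane -/
def lift (j : ℕ) (z : Spc d) : Spc d × (Spc n →L[ℝ] Spc d) :=
  if h : tilt S.L₀ (S.plane j z) ≤ 1 / 2 then
    ((exists_lift h).choose, (exists_lift h).choose_spec.choose) else 0

/-- height of the lift at the origin, in coordinate `m` -/
def hA (j : ℕ) (z : Spc d) (m : Fin d) : ℝ := (S.L₀.dev (S.lift j z).1) m

/-- slope of the lift, in coordinate `m` -/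
def hφ (j : ℕ) (z : Spc d) (m : Fin d) : Spc n →L[ℝ] ℝ :=
  (EuclideanSpace.proj m : Spc d →L[ℝ] ℝ).comp
    ((S.lift j z).2 - (linP S.L₀).comp (S.lift j z).2)

/-- the lifted point -/
def pt (j : ℕ) (z : Spc d) (u : Spc n) : Spc d := (S.lift j z).1 + (S.lift j z).2 u

theorem lift_spec {j : ℕ} {z : Spc d} (h : S.Ch j z) (u : Spc n) :
    (S.plane j z).dev (S.pt j z u) = 0 ∧ S.L₀.coord (S.pt j z u) = u ∧
      linP (S.plane j z) ((S.lift j z).2 u) = (S.lift j z).2 u ∧
      coo S.L₀ ((S.lift j z).2 u) = u := by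
  have ht : tilt S.L₀ (S.plane j z) ≤ 1 / 2 := (S.tilt_ch h).trans (by norm_num)
  simp only [pt, lift, dif_pos ht]
  exact (exists_lift ht).choose_spec.choose_spec u

theorem aff_eq (j : ℕ) (z : Spc d) (m : Fin d) (u : Spc n) :
    aff (S.hA j z m) (S.hφ j z m) u = (S.L₀.dev (S.pt j z u)) m := by
  have h := dev_sub S.L₀ (S.pt j z u) (S.lift j z).1
  rw [sub_eq_iff_eq_add] at h
  rw [h, pt, add_sub_cancel_left]
  simp [aff, hA, hφ]; ring

theorem lift_dist {j k : ℕ} (hk : k = j ∨ k = j + 1) {p q : Spc d} (hp : S.Ch j p) (hq : S.Ch k q)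
    (hd : dist (S.L₀.coord p) (S.L₀.coord q) ≤ rPair n * S.t j) {u : Spc n}
    (hu : dist u (S.L₀.coord p) ≤ rPair n * S.t j) :
    dist (S.pt k q u) (S.pt j p u) ≤
      pairConst n S.Cs * (S.t j * Real.sqrt (S.b2 j p + S.b2 k q)) := by
  obtain ⟨hsp, -⟩ := S.stab_pair hk hq (S.pair_dist hp hq hd)
  obtain ⟨a0, a1, a2, -⟩ := S.lift_spec hq u
  obtain ⟨b0, b1, -, -⟩ := S.lift_spec hp u
  set a := S.pt k q u
  set b := S.pt j p u
  have hver : linP S.L₀ (a - b) = 0 := by
    rw [linP_eq, show coo S.L₀ (a - b) = 0 from ?_, map_zero]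
    rw [← sub_sub_sub_cancel_right a b S.L₀.base, map_sub, ← coord_eq, ← coord_eq, a1, b1, sub_self]
  have h1 := vertical_le ((S.tilt_ch hp).trans (by norm_num)) hver
  rw [← dev_sub, b0, sub_zero] at h1
  have h2 : ‖(S.plane j p).dev a‖ = ‖(S.plane k q).dev a - (S.plane j p).dev a‖ := by
    rw [a0, zero_sub, norm_neg]
  have htk : S.t k ≤ S.t j ∧ S.t j ≤ 8 * S.t k := by
    have := S.t_pos j
    rcases hk with rfl | rfl
    · constructor <;> linarith
    · rw [S.t_succ]; constructor <;> linarith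
  obtain ⟨hqX, -⟩ := S.ch_mem hq
  have hkp := S.t_pos k
  have hh : ‖(S.plane k q).dev q‖ ≤ 2 * S.t k := by
    by_contra hc
    rw [not_le] at hc
    have hm := dev_mass (S.plane k q) S.reg (S.mem_supp hqX) hkp (S.t_le k) hkp.le
      (by linarith) (x := q) (R := S.Λ * S.t k)
      (ball_subset_closedBall.trans (closedBall_subset_closedBall
        (le_mul_of_one_le_left hkp.le (by linarith [S.Λ_big]))))
    have hb : devSq S.μ (S.plane k q) q (S.Λ * S.t k) ≤ S.bmax * S.t k ^ (n + 2) := by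
      have := S.b2_ch hq
      unfold b2 at this
      rwa [div_le_iff₀ (by positivity)] at this
    have h3 : S.C⁻¹ * S.t k ^ (n + 2) ≤ S.bmax * S.t k ^ (n + 2) := by
      refine le_trans (le_of_eq ?_) (hm.trans hb)
      rw [pow_add]; ring
    have h4 := le_of_mul_le_mul_right h3 (by positivity)
    rw [inv_le_iff_one_le_mul₀ S.C_pos] at h4
    have := S.small₂
    rw [show (8 : ℝ) ^ (n + 2) * (S.C * (2 * S.Λ) ^ n) * S.η ^ 2 + S.θ = S.bmax from rfl] at this
    linarith
  set v := a - q with hv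
  have hvl : v - linP (S.plane k q) v = -((S.plane k q).dev q) := by
    rw [hv, ← dev_sub, a0, zero_sub]
  have h5 := norm_le_two_coo ((S.tilt_ch hq).trans (by norm_num)) v
  have h6 : ‖coo S.L₀ (linP (S.plane k q) v)‖ ≤
      dist u (S.L₀.coord q) + ‖(S.plane k q).dev q‖ := by
    have e : linP (S.plane k q) v = v + (S.plane k q).dev q := by
      rw [eq_comm, ← sub_eq_zero]
      rw [show v + (S.plane k q).dev q - linP (S.plane k q) v =
        (v - linP (S.plane k q) v) + (S.plane k q).dev q by abel, hvl, neg_add_cancel]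
    rw [e, map_add]
    refine (norm_add_le _ _).trans (add_le_add (le_of_eq ?_) ?_)
    · rw [hv, ← sub_sub_sub_cancel_right a q S.L₀.base, map_sub, ← coord_eq, ← coord_eq, a1,
        dist_eq_norm]
    · rw [norm_coo]; exact norm_linP_le _ _
  have h7 : dist u (S.L₀.coord q) ≤ 2 * rPair n * S.t j := by
    linarith [dist_triangle u (S.L₀.coord p) (S.L₀.coord q)]
  have h8 : dist a q ≤ (4 * rPair n + 6) * S.t j := by
    rw [dist_eq_norm, ← hv]
    have e := norm_add_le (linP (S.plane k q) v) (v - linP (S.plane k q) v)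
    rw [add_sub_cancel, hvl, norm_neg] at e
    linarith
  have hjr : S.t j ≤ S.Λ * S.t k / 2 := by
    have := mul_le_mul_of_nonneg_right S.Λ_big hkp.le
    linarith
  have hr : dist a q / (S.Λ * S.t k / 2) ≤ 4 * rPair n + 6 := by
    rw [div_le_iff₀ (by have := S.Λ_big; positivity)]
    exact h8.trans (mul_le_mul_of_nonneg_left hjr (by linarith [one_le_rPair n]))
  rw [dist_eq_norm]
  refine h1.trans ?_
  rw [h2]
  refine (mul_le_mul_of_nonneg_left (hsp a) (by norm_num)).trans ?_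
  have hK := S.Kst_nonneg
  have := mul_le_mul_of_nonneg_right
    (show 3 * S.Kst * (1 + dist a q / (S.Λ * S.t k / 2)) ≤ 3 * S.Kst * (1 + (4 * rPair n + 6)) from
      mul_le_mul_of_nonneg_left (by linarith) (by positivity))
    (show 0 ≤ S.t j * Real.sqrt (S.b2 j p + S.b2 k q) by have := S.t_pos j; positivity)
  refine le_trans (le_of_eq ?_) (this.trans (le_of_eq ?_))
  · ring
  · unfold pairConst Kst; ring

theorem finite_sub (j : ℕ) : {z | S.Ch j z}.Finite := by
  classical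
  have hpos := S.t_pos j
  obtain ⟨c, -, hc, hcov⟩ := (isCompact_closedBall S.z₀ (2 * S.t 0)).finite_cover_balls
    (e := S.t j / 2) (by positivity)
  have hsub : {z | S.Ch j z} ⊆ ⋃ x ∈ c, ({z | S.Ch j z} ∩ ball x (S.t j / 2)) := by
    intro z hz
    obtain ⟨hzX, hzc⟩ := S.ch_mem hz
    have hm : z ∈ closedBall S.z₀ (2 * S.t 0) :=
      mem_closedBall.2 (S.cell_sub S.z₀_mem (hzc (S.self_mem hzX))).2
    obtain ⟨x, hx, hzx⟩ := Set.mem_iUnion₂.1 (hcov hm)
    exact Set.mem_biUnion hx ⟨hz, hzx⟩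
  refine (hc.biUnion fun x _ => Set.Subsingleton.finite ?_).subset hsub
  intro a ha b hb
  by_contra hne
  have h1 := S.Q.sep _ a (S.ch_mem ha.1).1 b (S.ch_mem hb.1).1 hne
  have h2 := mem_ball.1 ha.2
  have h3 := mem_ball.1 hb.2
  have h4 := dist_triangle_right a b x
  unfold t at hpos h2 h3
  linarith

/-- the children, as a finite set -/
def chF (j : ℕ) : Finset (Spc d) := (S.finite_sub j).toFinset

open Classical in
/-- the tree cubes, as a finite set -/
def inF (j : ℕ) : Finset (Spc d) := (S.chF j).filter (S.InT j)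

open Classical in
/-- the exits at relative level `j + 1` -/
def exF (j : ℕ) : Finset (Spc d) := (S.chF (j + 1)).filter fun z => ¬ S.InT (j + 1) z

theorem mem_chF {j : ℕ} {z : Spc d} : z ∈ S.chF j ↔ S.Ch j z := Set.Finite.mem_toFinset _

theorem mem_inF {j : ℕ} {z : Spc d} : z ∈ S.inF j ↔ S.InT j z := by
  simp only [inF, Finset.mem_filter, mem_chF]
  exact ⟨fun h => h.2, fun h => ⟨S.ch_of_inT h, h⟩⟩

theorem mem_exF {j : ℕ} {z : Spc d} : z ∈ S.exF j ↔ S.Ch (j + 1) z ∧ ¬ S.InT (j + 1) z := by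
  simp only [exF, Finset.mem_filter, mem_chF]

/-- the affine data of the lifts -/
def data (m : Fin d) (i : Fin n) : AffData n (pairConst n S.Cs) (Spc d) where
  t₀ := side S.ρ S.k₀
  t₀_pos := side_pos S.ρ_pos _
  P := S.chF
  G := S.inF
  c := fun _ z => S.L₀.coord z
  a := fun j z => S.hA j z m
  φ := fun j z => S.hφ j z m
  b2 := S.b2
  dir := i
  b2_nonneg := S.b2_nonneg
  G_sub := fun j z hz => by
    rw [mem_inF] at hz
    exact S.mem_chF.2 (S.ch_of_inT hz)
  child := fun j p hp => by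
    rw [mem_inF] at hp
    obtain ⟨q, hq, hpq, -⟩ := S.exists_child hp (S.self_mem (S.ch_mem (S.ch_of_inT hp)).1)
    refine ⟨q, S.mem_chF.2 hq, ?_⟩
    rw [← side_add]
    refine (dist_coord_le _ _ _).trans ?_
    rw [dist_comm]
    exact (S.cell_sub hq.1 hpq).2
  par := fun j q hq => by
    rw [mem_chF] at hq
    refine ⟨S.par j q, S.mem_inF.2 hq.2, ?_⟩
    rw [← side_add]
    refine (dist_coord_le _ _ _).trans ?_
    rw [dist_comm]
    exact S.par_dist hq.1
  root := fun p hp => by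
    rw [mem_chF] at hp
    have hp' : S.plane 0 p = S.L₀ := by simp [plane]
    have hdev : ∀ u, S.L₀.dev (S.pt 0 p u) = 0 := fun u => hp' ▸ (S.lift_spec hp u).1
    have hlin : ∀ u, linP S.L₀ ((S.lift 0 p).2 u) = (S.lift 0 p).2 u := fun u =>
      hp' ▸ (S.lift_spec hp u).2.2.1
    refine ⟨?_, ?_⟩
    · have := hdev 0
      simp only [pt, map_zero, add_zero] at this
      simp [hA, this]
    · ext u
      simp [hφ, hlin u]
  pair := fun j k hk p hp q hq hd u hu => by
    rw [mem_chF] at hp hq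
    rw [← side_add] at hd hu ⊢
    have key : ∀ v, dist v (S.L₀.coord p) ≤ rPair n * S.t j →
        |aff (S.hA k q m) (S.hφ k q m) v - aff (S.hA j p m) (S.hφ j p m) v| ≤
          pairConst n S.Cs * (S.t j * Real.sqrt (S.b2 j p + S.b2 k q)) := by
      intro v hv
      rw [S.aff_eq, S.aff_eq]
      exact (PiLp.norm_apply_le (S.L₀.dev (S.pt k q v) - S.L₀.dev (S.pt j p v)) m).trans
        ((norm_dev_sub_le S.L₀ _ _).trans (S.lift_dist hk hp hq hd hv))
    refine ⟨(key u hu).trans (le_of_eq (by unfold t; ring)), ?_⟩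
    have hT := S.t_pos j
    have hR := one_le_rPair n
    set w : Spc n := (rPair n * S.t j) • unit i
    have hw : dist (S.L₀.coord p + w) (S.L₀.coord p) ≤ rPair n * S.t j := by
      simp [w, dist_eq_norm, norm_smul, unit, abs_of_pos (show 0 < rPair n by linarith),
        abs_of_pos hT]
    have h0 := key (S.L₀.coord p) (by rw [dist_self]; positivity)
    have h1 := key _ hw
    simp only [aff, map_add, w, map_smul, smul_eq_mul] at h0 h1
    have h2 : |(rPair n * S.t j) * (S.hφ k q m (unit i) - S.hφ j p m (unit i))| ≤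
        2 * (pairConst n S.Cs * (S.t j * Real.sqrt (S.b2 j p + S.b2 k q))) := by
      rw [abs_le] at h0 h1 ⊢
      constructor <;> linarith
    rw [abs_mul, abs_of_pos (show 0 < rPair n * S.t j by positivity)] at h2
    have h3 : S.t j * (2 * |S.hφ k q m (unit i) - S.hφ j p m (unit i)|) ≤
        (rPair n * S.t j) * |S.hφ k q m (unit i) - S.hφ j p m (unit i)| := by
      have := mul_le_mul_of_nonneg_right (show 2 * S.t j ≤ rPair n * S.t j from
        mul_le_mul_of_nonneg_right (by linarith) hT.le)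
        (abs_nonneg (S.hφ k q m (unit i) - S.hφ j p m (unit i)))
      linarith
    refine le_of_mul_le_mul_left ?_ (show 0 < 2 * S.t j by positivity)
    linarith

theorem data_t (m : Fin d) (i : Fin n) (j : ℕ) : (S.data m i).t j = S.t j := (side_add _ _ _).symm

theorem cell_finite (j : ℕ) {z : Spc d} (hz : z ∈ S.Q.X (S.k₀ + j)) : S.μ (S.cell j z) < ∞ :=
  (measure_mono fun _ hx => mem_closedBall.2 (S.cell_sub hz hx).2).trans_lt
    (isCompact_closedBall _ _).measure_lt_top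

theorem wt_nonneg (j : ℕ) (z : Spc d) : 0 ≤ S.wt j z := measureReal_nonneg

theorem wt_le {j : ℕ} {z : Spc d} (hz : z ∈ S.Q.X (S.k₀ + j)) :
    S.wt j z ≤ S.C * 4 ^ n * S.t j ^ n := by
  have hpos := S.t_pos j
  refine (measureReal_mono (s₂ := closedBall z (2 * S.t j))
    (fun _ hx => mem_closedBall.2 (S.cell_sub hz hx).2)
    (isCompact_closedBall _ _).measure_lt_top.ne).trans ?_
  refine (measureReal_closedBall_le S.C_pos.le S.reg.upper z (by positivity)).2.trans (le_of_eq ?_)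
  rw [mul_assoc, ← mul_pow]; ring

theorem wt_ge {j : ℕ} {z : Spc d} (hz : z ∈ S.Q.X (S.k₀ + j)) :
    S.t j ^ n ≤ S.C * 8 ^ n * S.wt j z := by
  have hpos := S.t_pos j
  have hC := S.C_pos
  have hcn : S.μ (ball z (S.t j / 8)) ≤ S.μ (S.cell j z) := by
    refine measure_mono_ae ?_
    filter_upwards [(Measure.support_mem_ae : S.μ.support ∈ ae S.μ)] with x hs
    exact fun hx => S.Q.inner _ z hz ⟨hs, hx⟩
  have := ENNReal.toReal_mono (S.cell_finite j hz).ne
    ((S.reg.lower z (S.mem_supp hz) (S.t j / 8) (by positivity)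
      (by linarith [S.t_le j])).trans hcn)
  rw [ENNReal.toReal_ofReal (by positivity), div_pow] at this
  calc S.t j ^ n = S.C * 8 ^ n * (S.C⁻¹ * (S.t j ^ n / 8 ^ n)) := by field_simp
    _ ≤ _ := mul_le_mul_of_nonneg_left this (by positivity)

theorem fiber_le {i j : ℕ} (s : Finset (Spc d)) (T : Finset (Spc d)) (g : Spc d → Spc d)
    (f : Spc d → ℝ) (hf : ∀ p, 0 ≤ f p) (hs : ∀ q ∈ s, q ∈ S.Q.X (S.k₀ + j))
    (hT : ∀ p ∈ T, p ∈ S.Q.X (S.k₀ + i)) (hg : ∀ q ∈ s, g q ∈ T)
    (hsub : ∀ q ∈ s, S.cell j q ⊆ S.cell i (g q)) :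
    ∑ q ∈ s, S.wt j q * f (g q) ≤ ∑ p ∈ T, S.wt i p * f p := by
  classical
  rw [← Finset.sum_fiberwise_of_maps_to hg]
  refine Finset.sum_le_sum fun p hp => ?_
  have e : ∑ q ∈ s.filter (fun q => g q = p), S.wt j q * f (g q) =
      (∑ q ∈ s.filter (fun q => g q = p), S.wt j q) * f p := by
    rw [Finset.sum_mul]
    exact Finset.sum_congr rfl fun q hq => by rw [(Finset.mem_filter.1 hq).2]
  rw [e]
  refine mul_le_mul_of_nonneg_right ?_ (hf p)
  unfold wt
  rw [← measureReal_biUnion_finset (s := s.filter fun q => g q = p) (f := S.cell j) ?_ ?_ ?_]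
  · refine measureReal_mono (Set.iUnion₂_subset fun q hq => ?_) (S.cell_finite i (hT p hp)).ne
    rw [Finset.mem_filter] at hq
    exact hq.2 ▸ hsub q hq.1
  · intro a ha b hb hne
    exact S.Q.disj _ (hs a (Finset.mem_filter.1 ha).1) (hs b (Finset.mem_filter.1 hb).1) hne
  · exact fun q hq => S.Q.meas _ q (hs q (Finset.mem_filter.1 hq).1)
  · exact fun q hq => (S.cell_finite j (hs q (Finset.mem_filter.1 hq).1)).ne

theorem sum_wt_le (j : ℕ) (s : Finset (Spc d)) (hs : ∀ q ∈ s, S.Ch j q) :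
    ∑ q ∈ s, S.wt j q ≤ S.wt 0 S.z₀ := by
  have := S.fiber_le (i := 0) (j := j) s {S.z₀} (fun _ => S.z₀) (fun _ => 1) (fun _ => zero_le_one)
    (fun q hq => (S.ch_mem (hs q hq)).1)
    (fun p hp => by rw [Finset.mem_singleton] at hp; exact hp ▸ S.z₀_mem)
    (fun q _ => Finset.mem_singleton_self _) (fun q hq => (S.ch_mem (hs q hq)).2)
  simpa using this

/-- the weighted squared flatness at level `j` -/
def sumBeta (j : ℕ) : ℝ := ∑ z ∈ S.inF j, S.wt j z * S.beta j z

/-- the weighted squared oscillation at level `j` -/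
def sumOsc (M : ℝ) (j : ℕ) : ℝ :=
  ∑ z ∈ S.inF j, S.wt j z * (oscSq n S.μ M z (S.t j)).toReal

/-- child sums -/
def kids (j : ℕ) : ℝ :=
  ∑ q ∈ S.chF (j + 1), S.wt (j + 1) q * (S.b2 j (S.par j q) + S.b2 (j + 1) q)

theorem sumBeta_nonneg (j : ℕ) : 0 ≤ S.sumBeta j :=
  Finset.sum_nonneg fun z _ => mul_nonneg (S.wt_nonneg _ _) (S.beta_nonneg _ _)

theorem anc_above {j i : ℕ} {z : Spc d} (hz : S.InT j z) (hji : j ≤ i) (hi : i ≤ j + S.J₀) :
    S.anc i (S.k₀ + j) z ∈ S.μ.support ∧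
    dist (S.anc i (S.k₀ + j) z) S.z₀ ≤ 2 * side S.ρ (S.k₀ + j - i) ∧
    side S.ρ (S.k₀ + j - i) ≤ 8 ^ S.J₀ * side S.ρ S.k₀ ∧
    side S.ρ S.k₀ ≤ side S.ρ (S.k₀ + j - i) := by
  have hJ := S.J_le
  have hz' := (S.ch_mem (S.ch_of_inT hz)).1
  obtain ⟨h1, h2⟩ := S.anc_spec (i := i) (k := S.k₀ + j) (by omega) hz'
  obtain ⟨g1, g2⟩ := S.anc_spec (i := i - j) (k := S.k₀) (by omega) S.z₀_mem
  have e : S.k₀ - (i - j) = S.k₀ + j - i := by omega
  rw [e] at g1 g2
  have heq : S.anc i (S.k₀ + j) z = S.anc (i - j) S.k₀ S.z₀ :=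
    S.cell_unique h1 g1 (h2 (S.self_mem hz')) (g2 ((S.ch_mem (S.ch_of_inT hz)).2 (S.self_mem hz')))
  refine ⟨S.Q.subset _ h1, ?_, ?_, ?_⟩
  · rw [heq, dist_comm]
    exact mem_closedBall.1 (S.Q.outer _ _ g1 (g2 (S.self_mem (j := 0) S.z₀_mem))).2
  · have he : S.k₀ + j - i = S.k₀ - (i - j) := by omega
    rw [he, ← side_mul_pow (show i - j ≤ S.k₀ by omega), mul_comm]
    exact mul_le_mul_of_nonneg_right (pow_le_pow_right₀ (by norm_num) (by omega))
      (side_pos S.ρ_pos _).le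
  · have he : S.k₀ + j - i = S.k₀ - (i - j) := by omega
    rw [he, ← side_mul_pow (show i - j ≤ S.k₀ by omega)]
    exact le_mul_of_one_le_right (side_pos S.ρ_pos _).le (one_le_pow₀ (by norm_num))

theorem beta_above {j i : ℕ} {z : Spc d} (hz : S.InT j z) (hji : j ≤ i) (hi : i ≤ j + S.J₀) :
    (∀ y ∈ S.μ.support ∩ closedBall (S.anc i (S.k₀ + j) z) (S.Λ * side S.ρ (S.k₀ + j - i)),
      ‖S.L₀.dev y‖ ≤ S.ε * side S.ρ (S.k₀ + j - i)) ∧
    betaSq n S.μ S.Λ (S.anc i (S.k₀ + j) z) (side S.ρ (S.k₀ + j - i)) ≤ S.Cf * S.ε ^ 2 := by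
  obtain ⟨-, hd, hup, hlow⟩ := S.anc_above hz hji hi
  set s := side S.ρ (S.k₀ + j - i)
  have hs : 0 < s := side_pos S.ρ_pos _
  have hΛ := S.Λ_big
  have h1 : ∀ y ∈ S.μ.support ∩ closedBall (S.anc i (S.k₀ + j) z) (S.Λ * s),
      ‖S.L₀.dev y‖ ≤ S.ε * s := by
    intro y hy
    refine (S.flat₀ y ⟨hy.1, mem_closedBall.2 ?_⟩).trans
      (mul_le_mul_of_nonneg_left hlow S.ε_pos.le)
    have := dist_triangle y (S.anc i (S.k₀ + j) z) S.z₀
    have := mem_closedBall.1 hy.2
    have := mul_le_mul_of_nonneg_left hup (show 0 ≤ S.Λ + 2 by linarith)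
    linarith
  refine ⟨h1, ?_⟩
  unfold betaSq
  rw [div_le_iff₀ (by positivity)]
  refine (ciInf_le (bddBelow_devSq _ _ _) S.L₀).trans
    ((devSq_le_of_flat _ S.C_pos.le S.reg.upper (by positivity) h1).trans (le_of_eq ?_))
  simp only [Cf, pow_add, mul_pow]
  ring

theorem absorption {η₀ C₁ M : ℝ} {I₀ : ℕ} (hη₀ : S.η ≤ η₀) (hI : I₀ ≤ S.J₀) (hC₁ : 0 ≤ C₁)
    (himp : ∀ (I : ℕ) (z : ℕ → Spc d) (t δ : ℝ), I₀ ≤ I → 0 < t → t * 8 ^ I ≤ S.D → 0 ≤ δ →
      (∀ i ≤ I, z i ∈ S.μ.support) →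
      (∀ i < I, dist (z i) (z (i + 1)) ≤ 2 * (t * 8 ^ (i + 1))) →
      (∀ i ≤ I, Flat n S.μ (z i) (S.Λ * (t * 8 ^ i)) (η₀ * (t * 8 ^ i))) →
      oscSq n S.μ M (z 0) t ≤ ENNReal.ofReal δ →
      betaSq n S.μ S.Λ (z 0) t ≤
        1 / 4 * ((∑ i ∈ Finset.range (I + 1), (1/2 : ℝ) ^ i * betaSq n S.μ S.Λ (z i) (t * 8 ^ i))
            + (1/2 : ℝ) ^ I) + C₁ * δ)
    (hfin : ∀ j z, S.InT j z → oscSq n S.μ M z (S.t j) ≠ ∞) {O : ℝ}
    (hO : ∀ N, ∑ j ∈ Finset.range N, S.sumOsc M j ≤ O) (N : ℕ) :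
    ∑ j ∈ Finset.range N, S.sumBeta j ≤
      (S.Cf * S.ε ^ 2 + (1 / 2 : ℝ) ^ S.J₀) * S.wt 0 S.z₀ + 2 * (C₁ * O) := by
  set E := S.Cf * S.ε ^ 2 + (1 / 2 : ℝ) ^ S.J₀ with hE
  have hCf := S.Cf_nonneg
  have hE0 : 0 ≤ E := by positivity
  set W := S.wt 0 S.z₀
  have hW : 0 ≤ W := S.wt_nonneg _ _
  have hJ := S.J_le
  have step : ∀ j, S.sumBeta j ≤ 1 / 4 * ((∑ i ∈ Finset.range (j + 1), (1 / 2 : ℝ) ^ i *
      S.sumBeta (j - i)) + (1 / 2 : ℝ) ^ j * (E * W)) + C₁ * S.sumOsc M j := by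
    intro j
    have one : ∀ z ∈ S.inF j, S.wt j z * S.beta j z ≤
        1 / 4 * ((∑ i ∈ Finset.range (j + 1), (1 / 2 : ℝ) ^ i *
          (S.wt j z * S.beta (j - i) (S.anc i (S.k₀ + j) z))) +
          (1 / 2 : ℝ) ^ j * (E * S.wt j z)) +
          C₁ * (S.wt j z * (oscSq n S.μ M z (S.t j)).toReal) := by
      intro z hz
      rw [mem_inF] at hz
      have hz' := (S.ch_mem (S.ch_of_inT hz)).1
      have hside : ∀ i ≤ j + S.J₀, S.t j * 8 ^ i = side S.ρ (S.k₀ + j - i) := fun i hi =>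
        side_mul_pow (by omega)
      have hbeta : ∀ i ≤ j, betaSq n S.μ S.Λ (S.anc i (S.k₀ + j) z) (S.t j * 8 ^ i) =
          S.beta (j - i) (S.anc i (S.k₀ + j) z) := fun i hi => by
        rw [hside i (by omega), show S.k₀ + j - i = S.k₀ + (j - i) by omega]; rfl
      have h := himp (j + S.J₀) (fun i => S.anc i (S.k₀ + j) z) (S.t j)
        (oscSq n S.μ M z (S.t j)).toReal (by omega) (S.t_pos j) ?_ ENNReal.toReal_nonneg ?_ ?_ ?_
        (ENNReal.ofReal_toReal (hfin j z hz)).ge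
      · rw [show S.anc 0 (S.k₀ + j) z = z from rfl] at h
        have hsplit : ∑ i ∈ Finset.range (j + S.J₀ + 1), (1/2 : ℝ) ^ i *
            betaSq n S.μ S.Λ (S.anc i (S.k₀ + j) z) (S.t j * 8 ^ i) ≤
            (∑ i ∈ Finset.range (j + 1), (1/2 : ℝ) ^ i *
              S.beta (j - i) (S.anc i (S.k₀ + j) z)) + (1 / 2 : ℝ) ^ j * (S.Cf * S.ε ^ 2) := by
          rw [← Finset.sum_range_add_sum_Ico _ (show j + 1 ≤ j + S.J₀ + 1 by omega)]
          refine add_le_add (le_of_eq (Finset.sum_congr rfl fun i hi => by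
            rw [hbeta i (Nat.lt_succ_iff.1 (Finset.mem_range.1 hi))])) ?_
          calc _ ≤ ∑ i ∈ Finset.Ico (j + 1) (j + S.J₀ + 1), (1/2 : ℝ) ^ i * (S.Cf * S.ε ^ 2) := by
                refine Finset.sum_le_sum fun i hi => mul_le_mul_of_nonneg_left ?_ (by positivity)
                rw [Finset.mem_Ico] at hi
                rw [hside i (by omega)]
                exact (S.beta_above hz (by omega) (by omega)).2
            _ ≤ _ := by
                rw [← Finset.sum_mul, Finset.sum_Ico_eq_sum_range]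
                refine mul_le_mul_of_nonneg_right ?_ (by positivity)
                simp only [pow_add, ← Finset.mul_sum]
                have := geom_half_le (j + S.J₀ + 1 - (j + 1))
                have hp : (0 : ℝ) ≤ (1 / 2 : ℝ) ^ j := by positivity
                rw [pow_one]
                have := mul_le_mul_of_nonneg_left this (show 0 ≤ (1/2:ℝ) ^ j * (1/2) by positivity)
                linarith
        have hmul := mul_le_mul_of_nonneg_left h (S.wt_nonneg j z)
        have hspl := mul_le_mul_of_nonneg_left hsplit (S.wt_nonneg j z)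
        have e1 : ∑ i ∈ Finset.range (j + 1), (1 / 2 : ℝ) ^ i *
            (S.wt j z * S.beta (j - i) (S.anc i (S.k₀ + j) z)) =
            S.wt j z * ∑ i ∈ Finset.range (j + 1), (1/2 : ℝ) ^ i *
              S.beta (j - i) (S.anc i (S.k₀ + j) z) := by
          rw [Finset.mul_sum]; exact Finset.sum_congr rfl fun i _ => by ring
        rw [pow_add] at hmul
        rw [e1, hE]
        have hb : S.beta j z = betaSq n S.μ S.Λ z (S.t j) := rfl
        rw [hb]
        linarith
      · rw [hside _ le_rfl]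
        refine le_trans ?_ S.ρ_le
        exact div_le_self S.ρ_pos.le (one_le_pow₀ (by norm_num))
      · intro i hi
        exact S.Q.subset _ (S.anc_spec (k := S.k₀ + j) (by omega) hz').1
      · intro i hi
        have hi' : i + 1 ≤ j + S.J₀ := hi
        rw [hside (i + 1) hi']
        obtain ⟨a1, -⟩ := S.anc_spec (i := i) (k := S.k₀ + j) (by omega) hz'
        have e : S.k₀ + j - i = S.k₀ + j - (i + 1) + 1 := by omega
        rw [e] at a1
        have ha := S.Q.inner _ _ a1 ⟨S.Q.subset _ a1,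
          mem_ball_self (by have := side_pos S.ρ_pos (S.k₀ + j - (i + 1) + 1); positivity)⟩
        exact mem_closedBall.1 (S.Q.outer _ _ (S.Q.parent_mem _ _ a1) (S.Q.nested _ _ a1 ha)).2
      · intro i hi
        rw [hside i hi]
        have hs : 0 < side S.ρ (S.k₀ + j - i) := side_pos S.ρ_pos _
        rcases le_or_gt i j with h' | h'
        · refine ⟨S.plane (j - i) (S.anc i (S.k₀ + j) z), fun y hy => ?_⟩
          have e : S.k₀ + j - i = S.k₀ + (j - i) := by omega
          rw [e] at hy ⊢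
          exact (S.inT_flat (S.inT_anc hz h') y hy).trans
            (mul_le_mul_of_nonneg_right hη₀ (S.t_pos (j - i)).le)
        · exact ⟨S.L₀, fun y hy => ((S.beta_above hz h'.le hi).1 y hy).trans
            (mul_le_mul_of_nonneg_right (S.ε_le.trans hη₀) hs.le)⟩
    unfold sumBeta sumOsc
    refine (Finset.sum_le_sum one).trans ?_
    rw [Finset.sum_add_distrib, ← Finset.mul_sum, ← Finset.mul_sum, Finset.sum_add_distrib,
      Finset.sum_comm]
    refine add_le_add (mul_le_mul_of_nonneg_left (add_le_add ?_ ?_) (by norm_num)) le_rfl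
    · refine Finset.sum_le_sum fun i hi => ?_
      rw [← Finset.mul_sum]
      refine mul_le_mul_of_nonneg_left ?_ (by positivity)
      have hi' : i ≤ j := Nat.lt_succ_iff.1 (Finset.mem_range.1 hi)
      refine S.fiber_le (i := j - i) _ _ (fun z => S.anc i (S.k₀ + j) z) _
        (fun p => S.beta_nonneg _ p) (fun q hq => (S.ch_mem (S.ch_of_inT (S.mem_inF.1 hq))).1)
        (fun p hp => (S.ch_mem (S.ch_of_inT (S.mem_inF.1 hp))).1)
        (fun q hq => S.mem_inF.2 (S.inT_anc (S.mem_inF.1 hq) hi')) fun q hq => ?_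
      have h2 := (S.anc_spec (i := i) (k := S.k₀ + j) (by omega)
        (S.ch_mem (S.ch_of_inT (S.mem_inF.1 hq))).1).2
      rw [show S.k₀ + j - i = S.k₀ + (j - i) by omega] at h2
      exact h2
    · rw [← Finset.mul_sum, ← Finset.mul_sum]
      exact mul_le_mul_of_nonneg_left (mul_le_mul_of_nonneg_left
        (S.sum_wt_le j _ fun q hq => S.ch_of_inT (S.mem_inF.1 hq)) hE0) (by positivity)
  cases N with
  | zero =>
    have h0 := hO 0
    simp only [Finset.range_zero, Finset.sum_empty] at h0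
    simp only [Finset.range_zero, Finset.sum_empty]
    have := mul_nonneg hC₁ h0
    have := mul_nonneg hE0 hW
    linarith
  | succ N =>
    have hs := Finset.sum_le_sum (s := Finset.range (N + 1)) fun j _ => step j
    rw [Finset.sum_add_distrib, ← Finset.mul_sum, ← Finset.mul_sum, Finset.sum_add_distrib,
      ← Finset.sum_mul] at hs
    have hc := sum_geom_conv S.sumBeta N
    have hn0 : 0 ≤ ∑ i ∈ Finset.range (N + 1), (1 / 2 : ℝ) ^ i * S.sumBeta (N - i) :=
      Finset.sum_nonneg fun i _ => mul_nonneg (by positivity) (S.sumBeta_nonneg _)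
    have hg := mul_le_mul_of_nonneg_right (geom_half_le (N + 1)) (mul_nonneg hE0 hW)
    have ho := mul_le_mul_of_nonneg_left (hO (N + 1)) hC₁
    linarith

theorem flat_exit {j : ℕ} {q : Spc d} (hq : S.Ch (j + 1) q) (hf : ¬ S.FlatAt (j + 1) q) :
    1 ≤ flatConst n S.C S.Cs S.η * (S.b2 j (S.par j q) + S.b2 (j + 1) q) := by
  simp only [FlatAt, not_forall, not_le] at hf
  obtain ⟨y, hy, hdev⟩ := hf
  have hp := S.ch_of_inT hq.2
  have hd : dist (S.par j q) q ≤ rOne n * S.t j := by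
    rw [dist_comm]
    exact (S.par_dist hq.1).trans (mul_le_mul_of_nonneg_right
      (by linarith [rOne_ge (n := n)]) (S.t_pos j).le)
  obtain ⟨hst, -⟩ := S.stab_pair (Or.inr rfl) hq hd
  set p := S.par j q
  set B := S.b2 j p + S.b2 (j + 1) q
  have hB : 0 ≤ B := add_nonneg (S.b2_nonneg _ _) (S.b2_nonneg _ _)
  have hT := S.t_pos (j + 1)
  have htp : S.t j = 8 * S.t (j + 1) := by rw [S.t_succ]; ring
  have hΛ := S.Λ_big
  have hη := S.η_pos
  have hC := S.C_pos
  have hK := S.Kst_nonneg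
  have hyd := mem_closedBall.1 hy.2
  have n1 : 0 ≤ S.C * (32 / S.η) ^ (n + 2) * B := by positivity
  have n2 : 0 ≤ (48 * (S.Cs * 8 ^ n) / S.η) ^ 2 * B := by positivity
  by_cases hc : S.η * S.t (j + 1) / 2 ≤ ‖(S.plane j p).dev y‖
  · have hs : 0 < S.η * S.t j / 32 := by have := S.t_pos j; positivity
    have hm := dev_mass (S.plane j p) S.reg hy.1 hs ?_ hs.le (a := S.η * S.t j / 32)
      (by rw [htp] at *; linarith) (x := p) (R := S.Λ * S.t j) ?_
    · have h1 : devSq S.μ (S.plane j p) p (S.Λ * S.t j) = S.b2 j p * S.t j ^ (n + 2) := by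
        have := S.t_pos j
        unfold b2; field_simp
      rw [h1] at hm
      have h2 : S.C⁻¹ * (S.η / 32) ^ (n + 2) * S.t j ^ (n + 2) ≤
          S.b2 j p * S.t j ^ (n + 2) := by
        refine le_trans (le_of_eq ?_) hm
        simp only [pow_add, div_pow, mul_pow]
        ring
      have h3 := le_of_mul_le_mul_right h2 (by have := S.t_pos j; positivity)
      have h4 : 1 ≤ S.C * (32 / S.η) ^ (n + 2) * S.b2 j p := by
        refine le_trans (le_of_eq ?_) (mul_le_mul_of_nonneg_left h3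
          (show 0 ≤ S.C * (32 / S.η) ^ (n + 2) by positivity))
        rw [mul_mul_mul_comm, mul_inv_cancel₀ hC.ne', one_mul, ← mul_pow]
        rw [show 32 / S.η * (S.η / 32) = 1 by field_simp, one_pow]
      have h5 : S.C * (32 / S.η) ^ (n + 2) * S.b2 j p ≤ S.C * (32 / S.η) ^ (n + 2) * B :=
        mul_le_mul_of_nonneg_left (le_add_of_nonneg_right (S.b2_nonneg _ _)) (by positivity)
      unfold flatConst; linarith
    · have := S.t_le j
      have := mul_le_mul_of_nonneg_right S.η_le (S.t_pos j).le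
      linarith
    · intro x hx
      rw [mem_ball] at hx
      have h1 := dist_triangle x y p
      have h2 := dist_triangle y q p
      have h3 : dist q p ≤ 2 * S.t j := S.par_dist hq.1
      have h4 := mul_le_mul_of_nonneg_right S.η_le (S.t_pos j).le
      have h5 : (S.Λ / 8 + 3) * S.t j ≤ S.Λ * S.t j :=
        mul_le_mul_of_nonneg_right (by linarith) (S.t_pos j).le
      rw [mem_closedBall]
      rw [htp] at *
      linarith
  · rw [not_le] at hc
    have h1 := hst y
    have h2 := norm_sub_norm_le ((S.plane (j + 1) q).dev y) ((S.plane j p).dev y)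
    have h3 : 1 + dist y q / (S.Λ * S.t (j + 1) / 2) ≤ 3 := by
      have : dist y q / (S.Λ * S.t (j + 1) / 2) ≤ 2 := by
        rw [div_le_iff₀ (by positivity)]; linarith
      linarith
    have h4 := mul_le_mul_of_nonneg_right (mul_le_mul_of_nonneg_left h3 hK)
      (show 0 ≤ S.t j * Real.sqrt B by rw [htp]; positivity)
    rw [htp] at h1 h4
    have h5 : S.η / 2 * S.t (j + 1) < 24 * S.Kst * Real.sqrt B * S.t (j + 1) := by linarith
    have h6 : 1 ≤ 48 * S.Kst / S.η * Real.sqrt B := by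
      have := lt_of_mul_lt_mul_right h5 hT.le
      rw [div_mul_eq_mul_div, one_le_div₀ hη]
      linarith
    have h7 := one_le_pow₀ h6 (n := 2)
    rw [mul_pow, Real.sq_sqrt hB] at h7
    unfold flatConst
    unfold Kst at h7
    linarith

theorem tilt_exit {j : ℕ} {q : Spc d} (hq : S.Ch j q) (ht : 1 / 8 < tilt S.L₀ (S.plane j q)) :
    ∃ (m : Fin d) (i : Fin n), (8 * (n : ℝ) * d)⁻¹ ≤ |S.hφ j q m (unit i)| := by
  by_contra hc
  simp only [not_exists, not_le] at hc
  have hn : (0 : ℝ) < n := Nat.cast_pos.2 S.hn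
  have hd : (0 : ℝ) < d := Nat.cast_pos.2 (lt_trans S.hn S.hnd)
  refine absurd ht (not_lt.2 (ContinuousLinearMap.opNorm_le_bound _ (by norm_num) fun v => ?_))
  set w := linP (S.plane j q) v with hw
  obtain ⟨-, -, hlin, hcoo⟩ := S.lift_spec hq (coo S.L₀ w)
  set B := (S.lift j q).2 with hB
  have hBw : B (coo S.L₀ w) = w := by
    have h0 := norm_le_two_coo ((S.tilt_ch hq).trans (by norm_num)) (B (coo S.L₀ w) - w)
    rw [map_sub, hlin, hw, linP_linP, ← hw, map_sub, hcoo, sub_self, norm_zero, mul_zero] at h0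
    exact sub_eq_zero.1 (norm_le_zero_iff.1 h0)
  have hval : (linP (S.plane j q) - (linP S.L₀).comp (linP (S.plane j q))) v =
      B (coo S.L₀ w) - linP S.L₀ (B (coo S.L₀ w)) := by rw [hBw]; rfl
  rw [hval]
  set h := coo S.L₀ w with hh
  have hh1 : ‖h‖ ≤ ‖v‖ := by
    rw [hh, norm_coo]; exact (norm_linP_le _ _).trans (norm_linP_le _ _)
  have hx : ∀ m, ‖(B h - linP S.L₀ (B h)) m‖ ≤ (n : ℝ) * (8 * (n : ℝ) * d)⁻¹ * ‖v‖ := by
    intro m
    have e : (B h - linP S.L₀ (B h)) m = S.hφ j q m h := by simp [hφ, B]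
    have hsum : h = ∑ i, h i • unit i := by
      ext k; simp [unit, Pi.single_apply]
    rw [e, hsum, map_sum, Real.norm_eq_abs]
    refine (Finset.abs_sum_le_sum_abs _ _).trans ((Finset.sum_le_sum fun i _ => ?_).trans_eq
      (show ∑ _i : Fin n, ‖v‖ * (8 * (n : ℝ) * d)⁻¹ = (n : ℝ) * (8 * (n : ℝ) * d)⁻¹ * ‖v‖ by
        simp; ring))
    rw [map_smul, smul_eq_mul, abs_mul]
    exact mul_le_mul ((PiLp.norm_apply_le h i).trans hh1) (hc m i).le (abs_nonneg _) (norm_nonneg _)
  set x := B h - linP S.L₀ (B h)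
  have hxs : x = ∑ m, x m • EuclideanSpace.single m (1 : ℝ) := by
    ext k; simp [Pi.single_apply]
  rw [hxs]
  refine (norm_sum_le _ _).trans ((Finset.sum_le_sum fun m _ => ?_).trans_eq
    (show ∑ _m : Fin d, (n : ℝ) * (8 * (n : ℝ) * d)⁻¹ * ‖v‖ = 1 / 8 * ‖v‖ by
      simp; field_simp))
  simpa [norm_smul] using hx m

theorem kids_sum_le (N : ℕ) :
    ∑ j ∈ Finset.range N, S.kids j ≤ (1 + 8 ^ (n + 2)) * ∑ j ∈ Finset.range N, S.sumBeta j +
      4 * (S.Cf * S.ε ^ 2 + S.θ) * S.wt 0 S.z₀ := by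
  have h8 : (0 : ℝ) ≤ 1 + 8 ^ (n + 2) := by positivity
  have one : ∀ j, S.kids j ≤ (1 + 8 ^ (n + 2)) * S.sumBeta j +
      (S.slack j + S.slack (j + 1)) * S.wt 0 S.z₀ := by
    intro j
    have h1 : ∀ q ∈ S.chF (j + 1), S.wt (j + 1) q * (S.b2 j (S.par j q) + S.b2 (j + 1) q) ≤
        (1 + 8 ^ (n + 2)) * (S.wt (j + 1) q * S.beta j (S.par j q)) +
          (S.slack j + S.slack (j + 1)) * S.wt (j + 1) q := by
      intro q hq
      rw [mem_chF] at hq
      have a := S.b2_le_beta (S.ch_of_inT hq.2)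
      have b := S.b2_le_beta hq
      have c := S.beta_child hq.1
      have := mul_le_mul_of_nonneg_left
        (show S.b2 j (S.par j q) + S.b2 (j + 1) q ≤
          (1 + 8 ^ (n + 2)) * S.beta j (S.par j q) + (S.slack j + S.slack (j + 1)) by linarith)
        (S.wt_nonneg (j + 1) q)
      linarith
    refine (Finset.sum_le_sum h1).trans ?_
    rw [Finset.sum_add_distrib, ← Finset.mul_sum, ← Finset.mul_sum]
    refine add_le_add (mul_le_mul_of_nonneg_left ?_ h8) (mul_le_mul_of_nonneg_left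
      (S.sum_wt_le _ _ fun q hq => S.mem_chF.1 hq)
      (add_nonneg (S.slack_nonneg _) (S.slack_nonneg _)))
    exact S.fiber_le (i := j) _ (S.inF j) (S.par j) _ (fun p => S.beta_nonneg _ p)
      (fun q hq => (S.mem_chF.1 hq).1) (fun p hp => (S.ch_mem (S.ch_of_inT (S.mem_inF.1 hp))).1)
      (fun q hq => S.mem_inF.2 (S.mem_chF.1 hq).2) fun q hq => (S.par_mem (S.mem_chF.1 hq).1).2
  refine (Finset.sum_le_sum fun j _ => one j).trans ?_
  rw [Finset.sum_add_distrib, ← Finset.mul_sum, ← Finset.sum_mul]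
  refine add_le_add le_rfl (mul_le_mul_of_nonneg_right ?_ (S.wt_nonneg _ _))
  have hsl : ∀ M, ∑ j ∈ Finset.range M, S.slack (j + 1) ≤ S.θ := by
    intro M
    have := geom_half_le M
    calc ∑ j ∈ Finset.range M, S.slack (j + 1)
        = S.θ / 2 * ∑ j ∈ Finset.range M, (1 / 2 : ℝ) ^ j := by
          rw [Finset.mul_sum]
          exact Finset.sum_congr rfl fun j _ => by
            simp only [slack, one_div, inv_pow, pow_succ]; field_simp
      _ ≤ S.θ / 2 * 2 := mul_le_mul_of_nonneg_left this (by linarith [S.θ_pos])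
      _ = S.θ := by ring
  have h1 : ∑ j ∈ Finset.range N, S.slack j ≤ S.Cf * S.ε ^ 2 + S.θ := by
    cases N with
    | zero =>
      have := S.Cf_nonneg; have := S.θ_pos
      simp only [Finset.range_zero, Finset.sum_empty]; positivity
    | succ M =>
      rw [Finset.sum_range_succ', show S.slack 0 = S.Cf * S.ε ^ 2 from rfl]
      linarith [hsl M]
  have h2 := hsl N
  rw [Finset.sum_add_distrib]
  have := S.Cf_nonneg; have := S.θ_pos
  have : 0 ≤ S.Cf * S.ε ^ 2 := by positivity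
  linarith

theorem exit_not_meet {i j : ℕ} {w e x : Spc d} (hw : S.InT i w) (he : e ∈ S.exF j)
    (hij : j + 1 ≤ i) (hxw : x ∈ S.cell i w) (hxe : x ∈ S.cell (j + 1) e) : False := by
  rw [mem_exF] at he
  exact he.2 (S.inT_of_meet hw hij he.1.1 hxw hxe)

theorem exit_eq {j j' : ℕ} {e e' x : Spc d} (he : e ∈ S.exF j) (he' : e' ∈ S.exF j')
    (hx : x ∈ S.cell (j + 1) e) (hx' : x ∈ S.cell (j' + 1) e') : j = j' ∧ e = e' := by
  have h1 := S.mem_exF.1 he
  have h2 := S.mem_exF.1 he'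
  rcases lt_trichotomy j j' with h | h | h
  · exact (S.exit_not_meet h2.1.2 he h ((S.par_mem h2.1.1).2 hx') hx).elim
  · subst h
    exact ⟨rfl, S.cell_unique h1.1.1 h2.1.1 hx hx'⟩
  · exact (S.exit_not_meet h1.1.2 he' h ((S.par_mem h1.1.1).2 hx) hx').elim

theorem exit_far {j : ℕ} {e b : Spc d} (he : e ∈ S.exF j) (hb : b ∈ S.cell 0 S.z₀)
    (hbe : b ∉ S.cell (j + 1) e) :
    S.t (j + 1) ≤ 8 * dist e b ∧ dist e b ≤ 2 * dist (S.L₀.coord e) (S.L₀.coord b) := by
  have h := (S.mem_exF.1 he).1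
  have h1 : S.t (j + 1) / 8 ≤ dist e b := by
    by_contra hc
    exact hbe (S.Q.inner _ e h.1 ⟨(S.cell_sub S.z₀_mem hb).1,
      mem_ball'.2 (not_le.1 hc)⟩)
  have h2 : S.t j ≤ 64 * dist e b := by
    have e8 : S.t (j + 1) = S.t j / 8 := S.t_succ j
    linarith
  exact ⟨by linarith, S.graph h.2 ((S.par_mem h.1).2 (S.self_mem h.1)) hb h2⟩

theorem data_S_le (m : Fin d) (i : Fin n) (N : ℕ) :
    ∑ j ∈ Finset.range (N + 1), (S.data m i).S j ≤
      S.C * 8 ^ n * (S.Cf * S.ε ^ 2 * S.wt 0 S.z₀ + ∑ j ∈ Finset.range N, S.kids j) := by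
  have hC := S.C_pos
  have key : ∀ j, (S.data m i).S j ≤ S.C * 8 ^ n * ∑ q ∈ S.chF j, S.wt j q * S.b2 j q := by
    intro j
    rw [Finset.mul_sum]
    refine Finset.sum_le_sum fun q hq => ?_
    rw [S.data_t m i j]
    have := mul_le_mul_of_nonneg_left (S.wt_ge (S.ch_mem (S.mem_chF.1 hq)).1) (S.b2_nonneg j q)
    refine this.trans (le_of_eq ?_)
    ring
  refine (Finset.sum_le_sum fun j _ => key j).trans ?_
  rw [← Finset.mul_sum, Finset.sum_range_succ', add_comm (S.Cf * S.ε ^ 2 * S.wt 0 S.z₀)]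
  refine mul_le_mul_of_nonneg_left (add_le_add (Finset.sum_le_sum fun j _ =>
    Finset.sum_le_sum fun q _ => mul_le_mul_of_nonneg_left
      (le_add_of_nonneg_left (S.b2_nonneg _ _)) (S.wt_nonneg _ _)) ?_) (by positivity)
  have h : S.chF 0 = {S.z₀} := by
    ext x; rw [mem_chF, Finset.mem_singleton]; rfl
  rw [h, Finset.sum_singleton, mul_comm]
  exact mul_le_mul_of_nonneg_right S.b2_zero (S.wt_nonneg _ _)

theorem exit_sum_le {cs : ℝ} (hcs : 0 ≤ cs)
    (hslope : ∀ (D : AffData n (pairConst n S.Cs) (Spc d)) (N : ℕ) (α : ℝ)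
      (X : Finset (ℕ × Spc d)), 0 < α → (∀ e ∈ X, e.1 + 1 ≤ N ∧ e.2 ∈ D.P (e.1 + 1) ∧
        α ≤ |D.φ (e.1 + 1) e.2 (unit D.dir)|) →
      (X : Set (ℕ × Spc d)).PairwiseDisjoint
        (fun e => closedBall (D.c (e.1 + 1) e.2) (D.t (e.1 + 1) / 64)) →
      α ^ 2 * ∑ e ∈ X, D.t (e.1 + 1) ^ n ≤ cs * ∑ j ∈ Finset.range (N + 2), D.S j)
    {Y : ℝ} (hY : 0 ≤ Y) (hbeta : ∀ N, ∑ j ∈ Finset.range N, S.sumBeta j ≤ 2 * Y)
    (hY' : (S.Cf * S.ε ^ 2 + S.θ) * S.wt 0 S.z₀ ≤ Y) (N : ℕ) :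
    ∑ j ∈ Finset.range N, ∑ q ∈ S.exF j, S.wt (j + 1) q ≤
      exitConst n d S.C S.Cs S.η cs * Y := by
  classical
  have hn : (1 : ℝ) ≤ n := by exact_mod_cast S.hn
  have hd : (1 : ℝ) ≤ d := by exact_mod_cast (lt_trans S.hn S.hnd).nat_succ_le
  have hC := S.C_pos
  have hfc : 0 ≤ flatConst n S.C S.Cs S.η := by
    have := S.η_pos; unfold flatConst; positivity
  have hkids : ∀ M, ∑ j ∈ Finset.range M, S.kids j ≤ kidConst n * Y := by
    intro M
    refine (S.kids_sum_le M).trans ?_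
    have := mul_le_mul_of_nonneg_left (hbeta M) (show (0:ℝ) ≤ 1 + 8 ^ (n + 2) by positivity)
    unfold kidConst; linarith
  set α : ℝ := (8 * (n : ℝ) * d)⁻¹ with hα
  have hα0 : 0 < α := by positivity
  let X : Fin d × Fin n → Finset (ℕ × Spc d) := fun mi =>
    ((Finset.range N).biUnion fun j => (S.exF j).image fun q => (j, q)).filter
      fun e => α ≤ |S.hφ (e.1 + 1) e.2 mi.1 (unit mi.2)|
  have hX : ∀ mi, ∀ e ∈ X mi, e.1 < N ∧ e.2 ∈ S.exF e.1 := by
    intro mi e he
    simp only [X, Finset.mem_filter, Finset.mem_biUnion, Finset.mem_image, Finset.mem_range] at he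
    obtain ⟨⟨j, hj, q, hq, rfl⟩, -⟩ := he
    exact ⟨hj, hq⟩
  have hslopeX : ∀ mi, ∑ e ∈ X mi, S.t (e.1 + 1) ^ n ≤
      (8 * n * d) ^ 2 * cs * (S.C * 8 ^ n * (kidConst n + 1)) * Y := by
    intro mi
    have h := hslope (S.data mi.1 mi.2) N α (X mi) hα0 (fun e he => ⟨(hX mi e he).1,
      S.mem_chF.2 (S.mem_exF.1 (hX mi e he).2).1, (Finset.mem_filter.1 he).2⟩) ?_
    · simp only [S.data_t] at h
      have h2 : ∑ j ∈ Finset.range (N + 2), (S.data mi.1 mi.2).S j ≤
          S.C * 8 ^ n * (kidConst n + 1) * Y := by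
        refine (S.data_S_le mi.1 mi.2 (N + 1)).trans ?_
        rw [mul_assoc (S.C * 8 ^ n)]
        refine mul_le_mul_of_nonneg_left ?_ (by positivity)
        have := hkids (N + 1)
        have : 0 ≤ S.θ * S.wt 0 S.z₀ := mul_nonneg S.θ_pos.le (S.wt_nonneg _ _)
        linarith
      have h3 := h.trans (mul_le_mul_of_nonneg_left h2 hcs)
      rw [hα, inv_pow, inv_mul_le_iff₀ (by positivity)] at h3
      refine h3.trans (le_of_eq ?_)
      ring
    · intro e he e' he' hne
      have h1 := hX mi e he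
      have h2 := hX mi e' he'
      have hc1 := (S.mem_exF.1 h1.2).1
      have hc2 := (S.mem_exF.1 h2.2).1
      show Disjoint _ _
      rw [Set.disjoint_left]
      intro u hu hu'
      rw [mem_closedBall, S.data_t] at hu hu'
      have hb2 : e'.2 ∈ S.cell 0 S.z₀ := (S.ch_mem hc2).2 (S.self_mem hc2.1)
      have hb1 : e.2 ∈ S.cell 0 S.z₀ := (S.ch_mem hc1).2 (S.self_mem hc1.1)
      have n1 : e'.2 ∉ S.cell (e.1 + 1) e.2 := fun hh =>
        hne (Prod.ext (S.exit_eq h1.2 h2.2 hh (S.self_mem hc2.1)).1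
          (S.exit_eq h1.2 h2.2 hh (S.self_mem hc2.1)).2)
      have n2 : e.2 ∉ S.cell (e'.1 + 1) e'.2 := fun hh =>
        hne (Prod.ext (S.exit_eq h1.2 h2.2 (S.self_mem hc1.1) hh).1
          (S.exit_eq h1.2 h2.2 (S.self_mem hc1.1) hh).2)
      obtain ⟨f1, g1⟩ := S.exit_far h1.2 hb2 n1
      obtain ⟨f2, g2⟩ := S.exit_far h2.2 hb1 n2
      rw [dist_comm e'.2 e.2] at f2
      have := dist_triangle_left (S.L₀.coord e.2) (S.L₀.coord e'.2) u
      have := S.t_pos (e.1 + 1)
      have : dist u (S.L₀.coord e.2) ≤ S.t (e.1 + 1) / 64 := hu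
      have : dist u (S.L₀.coord e'.2) ≤ S.t (e'.1 + 1) / 64 := hu'
      linarith
  have hpt : ∀ j ∈ Finset.range N, ∀ q ∈ S.exF j, S.wt (j + 1) q ≤
      flatConst n S.C S.Cs S.η * (S.wt (j + 1) q * (S.b2 j (S.par j q) + S.b2 (j + 1) q)) +
        ∑ mi : Fin d × Fin n, if (j, q) ∈ X mi then S.C * 4 ^ n * S.t (j + 1) ^ n else 0 := by
    intro j hj q hq
    obtain ⟨hc, hni⟩ := S.mem_exF.1 hq
    have hnn : ∀ mi : Fin d × Fin n, 0 ≤ (if (j, q) ∈ X mi then S.C * 4 ^ n * S.t (j + 1) ^ n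
        else 0) := fun mi => by
      have := S.t_pos (j + 1)
      split_ifs <;> positivity
    have hb : 0 ≤ S.b2 j (S.par j q) + S.b2 (j + 1) q :=
      add_nonneg (S.b2_nonneg _ _) (S.b2_nonneg _ _)
    by_cases hf : S.FlatAt (j + 1) q
    · have ht : 1 / 8 < tilt S.L₀ (S.plane (j + 1) q) := by
        by_contra hh
        exact hni ⟨hc.1, hc.2, hf, not_lt.1 hh⟩
      obtain ⟨m, i, hmi⟩ := S.tilt_exit hc ht
      have hmem : (j, q) ∈ X (m, i) := Finset.mem_filter.2
        ⟨Finset.mem_biUnion.2 ⟨j, hj, Finset.mem_image_of_mem _ hq⟩, hmi⟩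
      refine le_trans (S.wt_le hc.1) (le_trans ?_ (le_add_of_nonneg_left
        (mul_nonneg hfc (mul_nonneg (S.wt_nonneg _ _) hb))))
      have := Finset.single_le_sum (fun mi _ => hnn mi) (Finset.mem_univ (m, i))
      rwa [if_pos hmem] at this
    · have h1 := mul_le_mul_of_nonneg_left (S.flat_exit hc hf) (S.wt_nonneg (j + 1) q)
      have := Finset.sum_nonneg (s := Finset.univ) fun mi _ => hnn mi
      linarith
  refine (Finset.sum_le_sum fun j hj => Finset.sum_le_sum (hpt j hj)).trans ?_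
  simp only [Finset.sum_add_distrib, ← Finset.mul_sum]
  unfold exitConst
  rw [add_mul]
  refine add_le_add ?_ ?_
  · rw [mul_assoc]
    refine mul_le_mul_of_nonneg_left (le_trans ?_ (hkids N)) hfc
    refine Finset.sum_le_sum fun j _ => Finset.sum_le_sum_of_subset_of_nonneg
      (Finset.filter_subset _ _) fun q _ _ =>
        mul_nonneg (S.wt_nonneg _ _) (add_nonneg (S.b2_nonneg _ _) (S.b2_nonneg _ _))
  · rw [Finset.sum_congr rfl (fun j _ => Finset.sum_comm), Finset.sum_comm]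
    refine (Finset.sum_le_sum fun mi _ => ?_).trans_eq
      (show ∑ _mi : Fin d × Fin n, (S.C * 4 ^ n) *
          ((8 * n * d) ^ 2 * cs * (S.C * 8 ^ n * (kidConst n + 1)) * Y) = _ by simp; ring)
    have hbig : ∀ e ∈ X mi, e ∈ (Finset.range N).biUnion
        fun j => (S.exF j).image fun q => (j, q) := fun e he => (Finset.mem_filter.1 he).1
    have hdis : ((Finset.range N : Finset ℕ) : Set ℕ).PairwiseDisjoint
        fun j => (S.exF j).image fun q => (j, q) := by
      intro a _ b _ hab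
      show Disjoint _ _
      rw [Finset.disjoint_left]
      intro e he he'
      obtain ⟨q, -, rfl⟩ := Finset.mem_image.1 he
      obtain ⟨q', -, h'⟩ := Finset.mem_image.1 he'
      exact hab (congrArg Prod.fst h').symm
    have hinj : ∀ j, Set.InjOn (fun q : Spc d => (j, q)) (S.exF j : Set (Spc d)) := fun j =>
      (Prod.mk_right_injective j).injOn
    have heq : ∑ j ∈ Finset.range N, ∑ q ∈ S.exF j,
        (if (j, q) ∈ X mi then S.C * 4 ^ n * S.t (j + 1) ^ n else 0) =
        ∑ e ∈ X mi, S.C * 4 ^ n * S.t (e.1 + 1) ^ n := by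
      calc _ = ∑ j ∈ Finset.range N, ∑ e ∈ (S.exF j).image fun q => (j, q),
            (if e ∈ X mi then S.C * 4 ^ n * S.t (e.1 + 1) ^ n else 0) :=
            Finset.sum_congr rfl fun j _ => (Finset.sum_image (f := fun e : ℕ × Spc d =>
              if e ∈ X mi then S.C * 4 ^ n * S.t (e.1 + 1) ^ n else 0) (hinj j)).symm
        _ = _ := by
          rw [← Finset.sum_biUnion hdis, Finset.sum_ite_mem,
            Finset.inter_eq_right.2 hbig]
    rw [heq, ← Finset.mul_sum]
    exact mul_le_mul_of_nonneg_left (hslopeX mi) (by positivity)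

end Setup

end Vale.Agent.P120.TreeProof
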