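import Mathlib
import Vale.Agent.P120.TreeCount

/-!
Module Tree: stopping trees with small exits and a Lipschitz graph through the rest.
-/

noncomputable section

open MeasureTheory Metric Set Filter
open scoped ENNReal NNReal RealInnerProductSpace

namespace Vale.Agent.P120

open TreeProof

theorem tree_params (n : ℕ) (C Cs ηi Λ : ℝ) (I₀ : ℕ) (hC : 1 ≤ C) (hCs : 0 ≤ Cs)
    (hηi : 0 < ηi) (hΛ : 4 ≤ Λ) :
    ∃ η : ℝ, 0 < η ∧ η ≤ ηi ∧ η ≤ 1 / 1024 ∧ ∀ γ' : ℝ, 0 < γ' → ∃ (θ ε : ℝ) (J₀ : ℕ),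
      0 < θ ∧ 0 < ε ∧ ε ≤ η ∧ I₀ ≤ J₀ ∧ Λ ≤ 8 ^ J₀ ∧
      C * (2 * Λ) ^ n * ε ^ 2 + θ + (1 / 2 : ℝ) ^ J₀ ≤ γ' ∧
      3 * (Cs * 8 ^ n) * Real.sqrt (2 * (8 ^ (n + 2) * (C * (2 * Λ) ^ n) * η ^ 2 + θ)) ≤ 1 / 8 ∧
      C * (8 ^ (n + 2) * (C * (2 * Λ) ^ n) * η ^ 2 + θ) < 1 := by
  set F := C * (2 * Λ) ^ n with hF
  have hF0 : 0 < F := by positivity
  set u := 1 / (24 * (Cs * 8 ^ n) + 1) with hu
  set bb := min (1 / (2 * C)) (u ^ 2 / 2) with hbb
  have hu0 : 0 < u := by positivity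
  have hbb0 : 0 < bb := lt_min (by positivity) (by positivity)
  refine ⟨min ηi (min (1 / 1024) (bb / (2 * (8 ^ (n + 2) * F)))), lt_min hηi (lt_min (by norm_num)
    (by positivity)), min_le_left _ _, (min_le_right _ _).trans (min_le_left _ _), fun γ' hγ => ?_⟩
  set η := min ηi (min (1 / 1024) (bb / (2 * (8 ^ (n + 2) * F))))
  have hη0 : 0 < η := lt_min hηi (lt_min (by norm_num) (by positivity))
  have hη1 : η ≤ 1 := ((min_le_right _ _).trans (min_le_left _ _)).trans (by norm_num)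
  have hηb : η ≤ bb / (2 * (8 ^ (n + 2) * F)) := (min_le_right _ _).trans (min_le_right _ _)
  obtain ⟨a, ha⟩ := pow_unbounded_of_one_lt Λ (by norm_num : (1 : ℝ) < 8)
  obtain ⟨b, hb⟩ := exists_pow_lt_of_lt_one (show 0 < γ' / 3 by positivity)
    (by norm_num : (1 / 2 : ℝ) < 1)
  refine ⟨min (bb / 2) (γ' / 3), min η (min 1 (γ' / (3 * F))), max I₀ (max a b),
    lt_min (by positivity) (by positivity), lt_min hη0 (lt_min one_pos (by positivity)),
    min_le_left _ _, le_max_left _ _,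
    ha.le.trans (pow_le_pow_right₀ (by norm_num) ((le_max_left a b).trans (le_max_right _ _))),
    ?_, ?_⟩
  · set ε := min η (min 1 (γ' / (3 * F)))
    have he0 : 0 ≤ ε := (lt_min hη0 (lt_min one_pos (by positivity))).le
    have he1 : ε ≤ 1 := (min_le_right _ _).trans (min_le_left _ _)
    have he2 : F * ε ^ 2 ≤ γ' / 3 := by
      have h1 : ε ^ 2 ≤ γ' / (3 * F) :=
        le_trans (by nlinarith) ((min_le_right η _).trans (min_le_right _ _))
      have := mul_le_mul_of_nonneg_left h1 hF0.le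
      calc F * ε ^ 2 ≤ F * (γ' / (3 * F)) := this
        _ = γ' / 3 := by field_simp
    have h3 : (1 / 2 : ℝ) ^ max I₀ (max a b) ≤ γ' / 3 :=
      le_trans (pow_le_pow_of_le_one (by norm_num) (by norm_num)
        ((le_max_right a b).trans (le_max_right _ _))) hb.le
    have := min_le_right (bb / 2) (γ' / 3)
    linarith
  · set θ := min (bb / 2) (γ' / 3)
    have hb1 : 8 ^ (n + 2) * F * η ^ 2 + θ ≤ bb := by
      have h1 : η ^ 2 ≤ bb / (2 * (8 ^ (n + 2) * F)) := le_trans (by nlinarith) hηb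
      have h2 : 8 ^ (n + 2) * F * η ^ 2 ≤ bb / 2 := by
        calc 8 ^ (n + 2) * F * η ^ 2 ≤ 8 ^ (n + 2) * F * (bb / (2 * (8 ^ (n + 2) * F))) :=
              mul_le_mul_of_nonneg_left h1 (by positivity)
          _ = bb / 2 := by field_simp
      have := min_le_left (bb / 2) (γ' / 3)
      linarith
    refine ⟨?_, ?_⟩
    · have h1 : Real.sqrt (2 * (8 ^ (n + 2) * F * η ^ 2 + θ)) ≤ u := by
        rw [Real.sqrt_le_iff]
        exact ⟨hu0.le, by linarith [min_le_right (1 / (2 * C)) (u ^ 2 / 2)]⟩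
      refine (mul_le_mul_of_nonneg_left h1 (by positivity)).trans ?_
      rw [hu, mul_one_div, div_le_iff₀ (by positivity)]
      linarith
    · calc C * (8 ^ (n + 2) * F * η ^ 2 + θ) ≤ C * (1 / (2 * C)) :=
            mul_le_mul_of_nonneg_left (hb1.trans (min_le_left _ _)) (by linarith)
        _ < 1 := by field_simp; norm_num

theorem TreeProof.Setup.tree_of_setup {n d : ℕ} (S : Setup n d) {ηi C₁ M cs γ C' : ℝ} {I₀ : ℕ}
    (hηi : S.η ≤ ηi) (hI : I₀ ≤ S.J₀) (hC₁ : 0 ≤ C₁)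
    (himp : ∀ (I : ℕ) (z : ℕ → Spc d) (t δ : ℝ), I₀ ≤ I → 0 < t → t * 8 ^ I ≤ S.D → 0 ≤ δ →
      (∀ i ≤ I, z i ∈ S.μ.support) →
      (∀ i < I, dist (z i) (z (i + 1)) ≤ 2 * (t * 8 ^ (i + 1))) →
      (∀ i ≤ I, Flat n S.μ (z i) (S.Λ * (t * 8 ^ i)) (ηi * (t * 8 ^ i))) →
      oscSq n S.μ M (z 0) t ≤ ENNReal.ofReal δ →
      betaSq n S.μ S.Λ (z 0) t ≤
        1 / 4 * ((∑ i ∈ Finset.range (I + 1), (1/2 : ℝ) ^ i * betaSq n S.μ S.Λ (z i) (t * 8 ^ i))
            + (1/2 : ℝ) ^ I) + C₁ * δ)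
    (hcs : 0 ≤ cs)
    (hslope : ∀ (D : AffData n (pairConst n S.Cs) (Spc d)) (N : ℕ) (α : ℝ)
      (X : Finset (ℕ × Spc d)), 0 < α → (∀ e ∈ X, e.1 + 1 ≤ N ∧ e.2 ∈ D.P (e.1 + 1) ∧
        α ≤ |D.φ (e.1 + 1) e.2 (unit D.dir)|) →
      (X : Set (ℕ × Spc d)).PairwiseDisjoint
        (fun e => closedBall (D.c (e.1 + 1) e.2) (D.t (e.1 + 1) / 64)) →
      α ^ 2 * ∑ e ∈ X, D.t (e.1 + 1) ^ n ≤ cs * ∑ j ∈ Finset.range (N + 2), D.S j)
    (hγ : 0 < γ) (hC' : 0 < C')
    (hA : exitConst n d S.C S.Cs S.η cs * (S.Cf * S.ε ^ 2 + S.θ + (1 / 2 : ℝ) ^ S.J₀) ≤ γ)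
    (hA' : exitConst n d S.C S.Cs S.η cs * C₁ ≤ C') :
    ∃ (X : Set (ℕ × Spc d)) (L : Plane n d),
      (∀ e ∈ X, S.k₀ < e.1 ∧ S.Q.Below e (S.k₀, S.z₀)) ∧
      X.PairwiseDisjoint (fun e => S.Q.cell e.1 e.2) ∧
      S.μ (⋃ e ∈ X, S.Q.cell e.1 e.2) ≤ ENNReal.ofReal γ * S.μ (S.Q.cell S.k₀ S.z₀)
        + ENNReal.ofReal C' * ∑' q : ↥(S.Q.tree (S.k₀, S.z₀) X),
            oscSq n S.μ M q.1.2 (side S.ρ q.1.1) * S.μ (S.Q.cell q.1.1 q.1.2) ∧
      ∀ x ∈ S.Q.stay (S.k₀, S.z₀) X ∪ Prod.snd '' X,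
        ∀ y ∈ S.Q.stay (S.k₀, S.z₀) X ∪ Prod.snd '' X,
          dist x y ≤ 2 * dist (L.coord x) (L.coord y) := by
  classical
  set X : Set (ℕ × Spc d) := {e | ∃ j q, q ∈ S.exF j ∧ e = (S.k₀ + (j + 1), q)} with hX
  have hXmem : ∀ j q, q ∈ S.exF j → (S.k₀ + (j + 1), q) ∈ X := fun j q h => ⟨j, q, h, rfl⟩
  refine ⟨X, S.L₀, ?_, ?_, ?_, ?_⟩
  · rintro e ⟨j, q, hq, rfl⟩
    obtain ⟨h1, h2⟩ := S.ch_mem (S.mem_exF.1 hq).1
    exact ⟨by simp, ⟨by simp, h1, h2⟩⟩
  · rintro e ⟨j, q, hq, rfl⟩ e' ⟨j', q', hq', rfl⟩ hne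
    show Disjoint _ _
    rw [Set.disjoint_left]
    intro x hx hx'
    obtain ⟨rfl, rfl⟩ := S.exit_eq hq hq' hx hx'
    exact hne rfl
  · set tr := S.Q.tree (S.k₀, S.z₀) X with htr
    set f : ℕ × Spc d → ℝ≥0∞ := fun q =>
      oscSq n S.μ M q.2 (side S.ρ q.1) * S.μ (S.Q.cell q.1 q.2) with hf
    set Sum := ∑' q : tr, f q with hSum
    have hin : ∀ j z, S.InT j z → (S.k₀ + j, z) ∈ tr := by
      intro j z hz
      obtain ⟨h1, h2⟩ := S.ch_mem (S.ch_of_inT hz)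
      refine ⟨⟨by simp, h1, h2⟩, ?_⟩
      rintro e ⟨j', q', hq', rfl⟩ ⟨hle, -, hsub⟩
      exact S.exit_not_meet hz hq' (by simp at hle; omega) (S.self_mem h1) (hsub (S.self_mem h1))
    by_cases htop : Sum = ∞
    · show _ ≤ _ + _ * Sum
      rw [htop, ENNReal.mul_top (by simp [hC'])]
      simp
    have hcell : ∀ j z, z ∈ S.Q.X (S.k₀ + j) →
        S.μ (S.Q.cell (S.k₀ + j) z) = ENNReal.ofReal (S.wt j z) := fun j z hz =>
      (ENNReal.ofReal_toReal (S.cell_finite j hz).ne).symm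
    have hfin : ∀ j z, S.InT j z → oscSq n S.μ M z (S.t j) ≠ ∞ := by
      intro j z hz ho
      apply htop
      refine le_antisymm le_top ?_
      refine le_trans ?_ (ENNReal.le_tsum (⟨(S.k₀ + j, z), hin j z hz⟩ : tr))
      have hz' := (S.ch_mem (S.ch_of_inT hz)).1
      have hpos : 0 < S.wt j z := by
        have := S.wt_ge hz'
        have := pow_pos (S.t_pos j) n
        have := S.C_pos
        by_contra hc
        have h0 : S.wt j z = 0 := le_antisymm (not_lt.1 hc) (S.wt_nonneg j z)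
        simp only [h0, mul_zero] at *
        linarith
      show ∞ ≤ oscSq n S.μ M z (S.t j) * S.μ (S.Q.cell (S.k₀ + j) z)
      rw [ho, hcell j z hz', ENNReal.top_mul (by simp [hpos])]
    set O := Sum.toReal with hO
    have hOb : ∀ N, ∑ j ∈ Finset.range N, S.sumOsc M j ≤ O := by
      intro N
      set big := (Finset.range N).biUnion fun j => (S.inF j).image fun z => (S.k₀ + j, z)
      have hbig : ∀ e ∈ big, e ∈ tr := by
        intro e he
        simp only [big, Finset.mem_biUnion, Finset.mem_image] at he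
        obtain ⟨j, -, z, hz, rfl⟩ := he
        exact hin j z (S.mem_inF.1 hz)
      have h1 : ∑ e ∈ big, f e ≤ Sum := by
        rw [hSum, tsum_subtype tr f]
        refine le_trans (le_of_eq (Finset.sum_congr rfl fun e he => ?_))
          (ENNReal.sum_le_tsum big)
        exact (Set.indicator_of_mem (hbig e he) f).symm
      have h2 : ∑ e ∈ big, f e =
          ∑ j ∈ Finset.range N, ∑ z ∈ S.inF j, f (S.k₀ + j, z) := by
        rw [Finset.sum_biUnion]
        · exact Finset.sum_congr rfl fun j _ =>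
            Finset.sum_image ((Prod.mk_right_injective _).injOn)
        · intro a _ b _ hab
          show Disjoint _ _
          rw [Finset.disjoint_left]
          intro e he he'
          obtain ⟨q, -, rfl⟩ := Finset.mem_image.1 he
          obtain ⟨q', -, h'⟩ := Finset.mem_image.1 he'
          have := congrArg Prod.fst h'
          simp at this
          exact hab this.symm
      rw [h2] at h1
      have h3 := ENNReal.toReal_mono htop h1
      have hne : ∀ j, ∀ z ∈ S.inF j, f (S.k₀ + j, z) ≠ ∞ := fun j z hz =>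
        ENNReal.mul_ne_top (hfin j z (S.mem_inF.1 hz))
          (S.cell_finite j (S.ch_mem (S.ch_of_inT (S.mem_inF.1 hz))).1).ne
      rw [ENNReal.toReal_sum fun j _ => (ENNReal.sum_ne_top.2 (hne j))] at h3
      refine le_trans (le_of_eq (Finset.sum_congr rfl fun j _ => ?_)) h3
      rw [ENNReal.toReal_sum (hne j)]
      refine Finset.sum_congr rfl fun z _ => ?_
      rw [hf, ENNReal.toReal_mul, mul_comm]
      rfl
    have hO0 : 0 ≤ O := ENNReal.toReal_nonneg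
    set W := S.wt 0 S.z₀
    have hW : 0 ≤ W := S.wt_nonneg _ _
    set E := S.Cf * S.ε ^ 2 + S.θ + (1 / 2 : ℝ) ^ S.J₀
    have hE : 0 ≤ E := by
      have := S.Cf_nonneg; have := S.θ_pos; positivity
    have hE1 : S.Cf * S.ε ^ 2 + S.θ ≤ E := le_add_of_nonneg_right (by positivity)
    set Y := E * W + C₁ * O
    have hY : 0 ≤ Y := by positivity
    have hbeta : ∀ N, ∑ j ∈ Finset.range N, S.sumBeta j ≤ 2 * Y := by
      intro N
      refine (S.absorption hηi hI hC₁ himp hfin hOb N).trans ?_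
      have : (S.Cf * S.ε ^ 2 + (1 / 2 : ℝ) ^ S.J₀) * W ≤ E * W :=
        mul_le_mul_of_nonneg_right (by simp only [E]; linarith [S.θ_pos]) hW
      have := mul_nonneg hE hW
      simp only [Y]; linarith
    have hY' : (S.Cf * S.ε ^ 2 + S.θ) * W ≤ Y :=
      (mul_le_mul_of_nonneg_right hE1 hW).trans (le_add_of_nonneg_right (mul_nonneg hC₁ hO0))
    have hex : ∀ N, ∑ j ∈ Finset.range N, ∑ q ∈ S.exF j, S.wt (j + 1) q ≤ γ * W + C' * O := by
      intro N
      refine (S.exit_sum_le hcs hslope hY hbeta hY' N).trans ?_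
      simp only [Y, mul_add, ← mul_assoc]
      exact add_le_add (mul_le_mul_of_nonneg_right hA hW) (mul_le_mul_of_nonneg_right hA' hO0)
    have hU : (⋃ e ∈ X, S.Q.cell e.1 e.2) =
        ⋃ N, ⋃ j ∈ Finset.range N, ⋃ q ∈ S.exF j, S.Q.cell (S.k₀ + (j + 1)) q := by
      ext x
      simp only [Set.mem_iUnion, Finset.mem_range]
      constructor
      · rintro ⟨e, ⟨j, q, hq, rfl⟩, hx⟩
        exact ⟨j + 1, j, by omega, q, hq, hx⟩
      · rintro ⟨-, j, -, q, hq, hx⟩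
        exact ⟨_, hXmem j q hq, hx⟩
    have hmono : Monotone fun N =>
        ⋃ j ∈ Finset.range N, ⋃ q ∈ S.exF j, S.Q.cell (S.k₀ + (j + 1)) q := fun a b hab =>
      Set.biUnion_subset_biUnion_left fun j hj =>
        Finset.mem_range.2 (lt_of_lt_of_le (Finset.mem_range.1 hj) hab)
    rw [hU, hmono.measure_iUnion]
    refine iSup_le fun N => ?_
    show _ ≤ _ + _ * Sum
    calc S.μ (⋃ j ∈ Finset.range N, ⋃ q ∈ S.exF j, S.Q.cell (S.k₀ + (j + 1)) q)
        ≤ ∑ j ∈ Finset.range N, ∑ q ∈ S.exF j, S.μ (S.Q.cell (S.k₀ + (j + 1)) q) :=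
          (measure_biUnion_finset_le _ _).trans
            (Finset.sum_le_sum fun j _ => measure_biUnion_finset_le _ _)
      _ = ENNReal.ofReal (∑ j ∈ Finset.range N, ∑ q ∈ S.exF j, S.wt (j + 1) q) := by
          rw [ENNReal.ofReal_sum_of_nonneg fun j _ =>
            Finset.sum_nonneg fun q _ => S.wt_nonneg _ _]
          refine Finset.sum_congr rfl fun j _ => ?_
          rw [ENNReal.ofReal_sum_of_nonneg fun q _ => S.wt_nonneg _ _]
          exact Finset.sum_congr rfl fun q hq => hcell (j + 1) q (S.mem_exF.1 hq).1.1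
      _ ≤ ENNReal.ofReal (γ * W + C' * O) := ENNReal.ofReal_le_ofReal (hex N)
      _ = _ := by
          rw [ENNReal.ofReal_add (by positivity) (by positivity), ENNReal.ofReal_mul hγ.le,
            ENNReal.ofReal_mul hC'.le, hO, ENNReal.ofReal_toReal htop, ← hcell 0 S.z₀ S.z₀_mem]
          rfl
  · intro x hx y hy
    rcases eq_or_ne x y with rfl | hne
    · simp
    have hmem : ∀ z ∈ S.Q.stay (S.k₀, S.z₀) X ∪ Prod.snd '' X, z ∈ S.cell 0 S.z₀ := by
      rintro z (hz | ⟨e, ⟨j, q, hq, rfl⟩, rfl⟩)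
      · exact hz.1
      · exact (S.ch_mem (S.mem_exF.1 hq).1).2 (S.self_mem (S.mem_exF.1 hq).1.1)
    rcases hx with hx | ⟨e, ⟨j, q, hq, rfl⟩, rfl⟩
    · have hD : 0 < dist x y := dist_pos.2 hne
      have htree : ∀ i, ∃ w, S.InT i w ∧ x ∈ S.cell i w := by
        intro i
        induction i with
        | zero => exact ⟨S.z₀, rfl, hx.1⟩
        | succ i ih =>
          obtain ⟨w, hw, hxw⟩ := ih
          obtain ⟨q, hq, hxq, -⟩ := S.exists_child hw hxw
          by_cases hqT : S.InT (i + 1) q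
          · exact ⟨q, hqT, hxq⟩
          · exact absurd (Set.mem_biUnion (hXmem i q (S.mem_exF.2 ⟨hq, hqT⟩)) hxq) hx.2
      obtain ⟨i, hi⟩ := exists_pow_lt_of_lt_one (show 0 < 64 * dist x y / S.t 0 by
        have := S.t_pos 0; positivity) (by norm_num : (1 / 8 : ℝ) < 1)
      obtain ⟨w, hw, hxw⟩ := htree i
      refine S.graph hw hxw (hmem y hy) ?_
      rw [lt_div_iff₀ (S.t_pos 0)] at hi
      refine le_trans (le_of_eq ?_) hi.le
      simp only [Setup.t, side, pow_add, one_div, inv_pow, add_zero]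
      field_simp
    · refine (S.exit_far hq (hmem y hy) ?_).2
      intro hc
      rcases hy with hy | ⟨e', ⟨j', q', hq', rfl⟩, rfl⟩
      · exact hy.2 (Set.mem_biUnion (hXmem j q hq) hc)
      · exact hne (S.exit_eq hq hq' hc (S.self_mem (S.mem_exF.1 hq').1.1)).2

theorem treeStmt_proof (hImprove : ImproveStmt) (hStab : PlaneStabStmt) : TreeStmt := by
  intro n d hn hnd C γ hγ
  by_cases hC : 1 ≤ C
  swap
  · exact ⟨1, 1, 0, 0, 0, le_rfl, one_pos, fun μ _ D ρ hreg => absurd hreg.one_le hC⟩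
  obtain ⟨Cs', hs⟩ := hStab n d hn hnd C
  set Cs := max Cs' 0 with hCs
  have hCs0 : 0 ≤ Cs := le_max_right _ _
  set Λ := 4 * rOne n + 4 with hΛ
  have hR := Setup.rOne_ge (n := n)
  have hΛ4 : 4 ≤ Λ := by rw [hΛ]; linarith
  obtain ⟨ηi, I₀, M, C₁', hηi, himp⟩ := hImprove n d hn hnd C Λ (1 / 4) hΛ4 (by norm_num)
  set C₁ := max C₁' 0 with hC1
  obtain ⟨η, hη0, hηle, hη1, hpar⟩ := tree_params n C Cs ηi Λ I₀ hC hCs0 hηi hΛ4
  obtain ⟨cs, hcs, hslope⟩ := slope_count n hn (pairConst n Cs) (pairConst_nonneg n hCs0)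
  set A := exitConst n d C Cs η cs with hA
  obtain ⟨θ, ε, J₀, hθ, hε, hεη, hIJ, hΛJ, hsum, hs1, hs2⟩ :=
    hpar (γ / (|A| + 1)) (by positivity)
  have h8 : (1 : ℝ) ≤ 8 ^ J₀ := one_le_pow₀ (by norm_num)
  refine ⟨(Λ + 2) * 8 ^ J₀, ε, M, |A| * C₁ + 1, J₀,
    one_le_mul_of_one_le_of_one_le (by linarith) h8, hε, ?_⟩
  intro μ _ D ρ hreg hRB hρ hρD Q T hJT hT hflat
  obtain ⟨L, hL⟩ := hflat
  let S : Setup n d :=
    { μ := μ
      lfin := inferInstance
      C := C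
      Cs := Cs
      D := D
      ρ := ρ
      Λ := Λ
      η := η
      θ := θ
      ε := ε
      J₀ := J₀
      Q := Q
      k₀ := T.1
      z₀ := T.2
      L₀ := L
      hn := hn
      hnd := hnd
      reg := hreg
      ρ_pos := hρ
      ρ_le := hρD
      Λ_ge := le_rfl
      Λ_le := hΛJ
      J_le := hJT
      z₀_mem := hT
      η_pos := hη0
      η_le := hη1
      θ_pos := hθ
      ε_pos := hε
      ε_le := hεη
      flat₀ := hL
      Cs_nonneg := hCs0
      stab := fun z hz r hr hrD L L' y => (hs μ D hreg z hz r hr hrD L L' y).trans (by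
        refine mul_le_mul_of_nonneg_right (mul_le_mul_of_nonneg_right (le_max_left _ _) ?_)
          (Real.sqrt_nonneg _)
        positivity)
      small₁ := hs1
      small₂ := hs2 }
  have hC₁0 : 0 ≤ C₁ := le_max_right _ _
  refine S.tree_of_setup (ηi := ηi) (C₁ := C₁) (M := M) (cs := cs) (I₀ := I₀) hηle hIJ hC₁0
    ?_ hcs (fun D N α X => hslope D N α X) hγ (by positivity) ?_ ?_
  · intro I z t δ hI ht htD hδ h1 h2 h3 h4
    exact (himp μ D hreg hRB I z t δ hI ht htD hδ h1 h2 h3 h4).trans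
      (add_le_add le_rfl (mul_le_mul_of_nonneg_right (le_max_left _ _) hδ))
  · have hE : (0 : ℝ) ≤ S.Cf * ε ^ 2 + θ + (1 / 2 : ℝ) ^ J₀ := by
      have := S.Cf_nonneg; positivity
    calc A * (S.Cf * ε ^ 2 + θ + (1 / 2 : ℝ) ^ J₀)
        ≤ (|A| + 1) * (S.Cf * ε ^ 2 + θ + (1 / 2 : ℝ) ^ J₀) :=
          mul_le_mul_of_nonneg_right ((le_abs_self A).trans (le_add_of_nonneg_right zero_le_one)) hE
      _ ≤ (|A| + 1) * (γ / (|A| + 1)) := mul_le_mul_of_nonneg_left hsum (by positivity)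
      _ = γ := by field_simp
  · exact (mul_le_mul_of_nonneg_right (le_abs_self A) hC₁0).trans
      (le_add_of_nonneg_right zero_le_one)

end Vale.Agent.P120
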