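import Mathlib
import Vale.Agent.P120.MainBridge
import Vale.Agent.P120.Cubes
import Vale.Agent.P120.Packing
import Vale.Agent.P120.Compact
import Vale.Agent.P120.Touch
import Vale.Agent.P120.Abundance
import Vale.Agent.P120.Liouville
import Vale.Agent.P120.FlatConst
import Vale.Agent.P120.Energy
import Vale.Agent.P120.PlaneStab
import Vale.Agent.P120.Improve
import Vale.Agent.P120.Tree

/-!
All modules put together.
-/

namespace Vale.Agent.P120

theorem improve_holds : ImproveStmt :=
  improveStmt_proof compactStmt_proof
    (flatConstStmt_of (fillStmt_proof compactStmt_proof) liouvilleStmt_proof)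
    energyStmt_proof liouvilleStmt_proof planeStabStmt_proof

theorem mainStmt_proof : MainStmt :=
  mainStmt_of_modules cubesStmt_proof packingStmt_proof
    (abundanceStmt_of packingStmt_proof compactStmt_proof (touchStmt_proof compactStmt_proof))
    (treeStmt_proof improve_holds planeStabStmt_proof)

end Vale.Agent.P120
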