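import Vale.Agent.P120.Statements

/-!
Quasi-orthogonality of test functions attached to a separated family of balls, and the resulting
packing bound from a bound and linearity of the pairing.
-/

noncomputable section

open MeasureTheory Metric Set Filter
open scoped ENNReal NNReal

namespace Vale.Agent.P120

namespace Pack

variable {d : ℕ} {n : ℕ}

/-- the density of the energy -/
def edens (n : ℕ) (φ : Spc d → ℝ) (p : Spc d × Spc d) : ℝ≥0∞ :=
  ENNReal.ofReal ((φ p.1 - φ p.2) ^ 2 / ‖p.1 - p.2‖ ^ (n + 1))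

theorem En_eq (n : ℕ) (μ : Measure (Spc d)) (φ : Spc d → ℝ) :
    En n μ φ = ∫⁻ p, edens n φ p ∂(μ.prod μ) := rfl

theorem measurable_edens {φ : Spc d → ℝ} (hφ : Measurable φ) : Measurable (edens n φ) :=
  ((((hφ.comp measurable_fst).sub (hφ.comp measurable_snd)).pow_const 2).div
    ((measurable_fst.sub measurable_snd).norm.pow_const _)).ennreal_ofReal

/-- the energy seen inside a closed ball -/
def enOn (n : ℕ) (μ : Measure (Spc d)) (φ : Spc d → ℝ) (z : Spc d) (R : ℝ) : ℝ≥0∞ :=
  ∫⁻ p in closedBall z R ×ˢ closedBall z R, edens n φ p ∂(μ.prod μ)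

theorem enOn_le (μ : Measure (Spc d)) (φ : Spc d → ℝ) (z : Spc d) (R : ℝ) :
    enOn n μ φ z R ≤ En n μ φ := setLIntegral_le_lintegral _ _

/-- variance bound: `m (c - a)^2 ≤ ∫ (c - φ)^2` for the average `a` -/
theorem variance_le {μ : Measure (Spc d)} [IsFiniteMeasure μ] {φ : Spc d → ℝ}
    (h1 : Integrable φ μ) (h2 : Integrable (fun y => φ y ^ 2) μ) (hm : 0 < μ.real univ) (c : ℝ) :
    μ.real univ * (c - (∫ y, φ y ∂μ) / μ.real univ) ^ 2 ≤ ∫ y, (c - φ y) ^ 2 ∂μ := by
  set m := μ.real univ
  set a := (∫ y, φ y ∂μ) / m with ha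
  have h : ∫ y, (a - φ y) ^ 2 ∂μ = ∫ y, (c - φ y) ^ 2 ∂μ - m * (c - a) ^ 2 := by
    have e : ∀ y, (a - φ y) ^ 2 = (c - φ y) ^ 2 - (c - a) * ((c + a) - 2 * φ y) := fun y => by ring
    have i1 : Integrable (fun y => (c - φ y) ^ 2) μ := by
      have : (fun y => (c - φ y) ^ 2) = fun y => c ^ 2 - 2 * c * φ y + φ y ^ 2 := by funext y; ring
      rw [this]; exact ((integrable_const _).sub (h1.const_mul _)).add h2
    have i2 : Integrable (fun y => (c - a) * ((c + a) - 2 * φ y)) μ :=
      ((integrable_const _).sub (h1.const_mul _)).const_mul _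
    simp only [e]
    rw [integral_sub i1 i2, integral_const_mul, integral_sub (integrable_const _) (h1.const_mul _),
      integral_const, integral_const_mul, smul_eq_mul]
    rw [show ∫ y, φ y ∂μ = m * a by rw [ha]; field_simp]
    ring
  linarith [integral_nonneg (μ := μ) (f := fun y => (a - φ y) ^ 2) fun y => sq_nonneg _]

theorem sq_sum_support {ι : Type} (s : Finset ι) (v : ι → ℝ) {N : ℝ}
    (h : ((s.filter fun i => v i ≠ 0).card : ℝ) ≤ N) :
    (∑ i ∈ s, v i) ^ 2 ≤ N * ∑ i ∈ s, v i ^ 2 := by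
  classical
  rw [← Finset.sum_filter_ne_zero (s := s) (f := v)]
  refine (sq_sum_le_card_mul_sum_sq).trans ?_
  exact mul_le_mul h (Finset.sum_le_sum_of_subset_of_nonneg (Finset.filter_subset _ _)
    fun _ _ _ => sq_nonneg _) (Finset.sum_nonneg fun _ _ => sq_nonneg _)
    ((Nat.cast_nonneg _).trans h)

theorem schur (L : Finset ℕ) (k : ℕ) :
    ∑ m ∈ L, (1 / 2 : ℝ) ^ ((k - m) + (m - k)) ≤ 4 := by
  classical
  have hgeo : ∀ T : Finset ℕ, ∑ i ∈ T, (1 / 2 : ℝ) ^ i ≤ 2 := fun T =>
    ((summable_geometric_two).sum_le_tsum T fun _ _ => by positivity).trans tsum_geometric_two.le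
  rw [← Finset.sum_filter_add_sum_filter_not L (fun m => m ≤ k)]
  have h1 : ∑ m ∈ L.filter (fun m => m ≤ k), (1 / 2 : ℝ) ^ ((k - m) + (m - k)) ≤ 2 := by
    refine le_of_eq_of_le ?_ (hgeo ((L.filter fun m => m ≤ k).image fun m => k - m))
    rw [Finset.sum_image fun a ha b hb hab => by
      simp only [Finset.coe_filter, Set.mem_ofPred_eq] at ha hb; omega]
    refine Finset.sum_congr rfl fun m hm => ?_
    rw [Finset.mem_filter] at hm
    rw [show m - k = 0 by omega, add_zero]
  have h2 : ∑ m ∈ L.filter (fun m => ¬ m ≤ k), (1 / 2 : ℝ) ^ ((k - m) + (m - k)) ≤ 2 := by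
    refine le_of_eq_of_le ?_ (hgeo ((L.filter fun m => ¬ m ≤ k).image fun m => m - k))
    rw [Finset.sum_image fun a ha b hb hab => by
      simp only [Finset.coe_filter, Set.mem_ofPred_eq] at ha hb; omega]
    refine Finset.sum_congr rfl fun m hm => ?_
    rw [Finset.mem_filter] at hm
    rw [show k - m = 0 by omega, zero_add]
  linarith

theorem side_pos {ρ : ℝ} (hρ : 0 < ρ) (k : ℕ) : 0 < side ρ k := by unfold side; positivity

theorem side_le {ρ : ℝ} (hρ : 0 < ρ) (k : ℕ) : side ρ k ≤ ρ :=
  div_le_self hρ.le (one_le_pow₀ (by norm_num))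

theorem side_ratio {ρ : ℝ} (hρ : 0 < ρ) {k m : ℕ} (h : m ≤ k) :
    Real.sqrt (side ρ k / side ρ m) ≤ (1 / 2 : ℝ) ^ (k - m) := by
  obtain ⟨j, rfl⟩ : ∃ j, k = m + j := ⟨k - m, by omega⟩
  rw [Nat.add_sub_cancel_left, Real.sqrt_le_iff]
  refine ⟨by positivity, ?_⟩
  rw [show side ρ (m + j) / side ρ m = (1 / 8 : ℝ) ^ j by
    unfold side; rw [pow_add, div_pow, one_pow]; field_simp, ← pow_mul, mul_comm, pow_mul]
  exact pow_le_pow_left₀ (by norm_num) (by norm_num) j

/-- the standing data: a regular measure, a centre set and test functions -/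
structure Fam (n : ℕ) (μ : Measure (Spc d)) (C D ρ M : ℝ) where
  S : Finset (ℕ × Spc d)
  φ : ℕ × Spc d → Spc d → ℝ
  reg : Reg n C D μ
  hρ : 0 < ρ
  hρD : ρ ≤ D
  hM : 1 ≤ M
  centre : ∀ q ∈ S, q.2 ∈ μ.support
  sep : ∀ q ∈ S, ∀ q' ∈ S, q.1 = q'.1 → q ≠ q' → side ρ q.1 / 8 ≤ dist q.2 q'.2
  adm : ∀ q ∈ S, Adm μ q.2 (M * side ρ q.1) (φ q)
  fin : ∀ q ∈ S, En n μ (φ q) ≠ ∞

theorem adm_continuous {μ : Measure (Spc d)} {x : Spc d} {R : ℝ} {φ : Spc d → ℝ}
    (h : Adm μ x R φ) : Continuous φ := let ⟨_, hK⟩ := h.lip; hK.continuous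

theorem adm_compact {μ : Measure (Spc d)} {x : Spc d} {R : ℝ} {φ : Spc d → ℝ}
    (h : Adm μ x R φ) : HasCompactSupport φ :=
  (isCompact_closedBall x R).of_isClosed_subset (isClosed_tsupport _) h.supp

theorem adm_zero_out {μ : Measure (Spc d)} {x : Spc d} {R : ℝ} {φ : Spc d → ℝ}
    (h : Adm μ x R φ) {y : Spc d} (hy : φ y ≠ 0) : dist y x ≤ R :=
  h.supp (subset_tsupport _ hy)

section

variable {μ : Measure (Spc d)} [IsLocallyFiniteMeasure μ] {C D ρ M : ℝ}

/-- overlap bound -/
def overlapN (n : ℕ) (C M : ℝ) : ℝ := C ^ 2 * (48 * M) ^ n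

/-- Poincaré constant -/
def poinK (n : ℕ) (C M : ℝ) : ℝ := C * (2 * M) ^ (n + 1)

theorem ball_mass (F : Fam n μ C D ρ M) {z : Spc d} (hz : z ∈ μ.support) (k : ℕ) :
    side ρ k ^ n / C ≤ μ.real (closedBall z (M * side ρ k)) := by
  have ht := side_pos F.hρ k
  have hC : 0 < C := lt_of_lt_of_le one_pos F.reg.one_le
  have h := (F.reg.lower z hz (side ρ k) ht ((side_le F.hρ k).trans F.hρD)).trans
    (measure_mono (ball_subset_closedBall.trans
      (closedBall_subset_closedBall (le_mul_of_one_le_left ht.le F.hM))))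
  rw [ENNReal.ofReal_le_iff_le_toReal measure_closedBall_lt_top.ne] at h
  rwa [div_eq_inv_mul]

theorem poincare (F : Fam n μ C D ρ M) {z : Spc d} (hz : z ∈ μ.support) (k : ℕ)
    {φ : Spc d → ℝ} (hφ : Continuous φ) :
    let B := closedBall z (M * side ρ k)
    ENNReal.ofReal (∫ y in B, (φ y - (∫ x in B, φ x ∂μ) / μ.real B) ^ 2 ∂μ) ≤
      ENNReal.ofReal (poinK n C M * side ρ k) * enOn n μ φ z (M * side ρ k) := by
  intro B
  set t := side ρ k
  have ht : 0 < t := side_pos F.hρ k
  have hC : 0 < C := lt_of_lt_of_le one_pos F.reg.one_le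
  have hM : 0 < M := lt_of_lt_of_le one_pos F.hM
  have hm : t ^ n / C ≤ μ.real B := ball_mass F hz k
  have hm0 : 0 < μ.real B := lt_of_lt_of_le (by positivity) hm
  haveI : IsFiniteMeasure (μ.restrict B) := isFiniteMeasure_restrict.2 measure_closedBall_lt_top.ne
  have huniv : (μ.restrict B).real univ = μ.real B := by
    rw [measureReal_def, Measure.restrict_apply_univ]; rfl
  set a := (∫ x in B, φ x ∂μ) / μ.real B with ha
  have hcB : IsCompact B := isCompact_closedBall _ _
  have i1 : Integrable φ (μ.restrict B) := hφ.continuousOn.integrableOn_compact hcB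
  have i2 : Integrable (fun y => φ y ^ 2) (μ.restrict B) :=
    (hφ.pow 2).continuousOn.integrableOn_compact hcB
  have i3 : ∀ c, Integrable (fun y => (c - φ y) ^ 2) (μ.restrict B) := fun c =>
    ((continuous_const.sub hφ).pow 2).continuousOn.integrableOn_compact hcB
  have key : ∀ x, ENNReal.ofReal (μ.real B) * ENNReal.ofReal ((φ x - a) ^ 2) ≤
      ∫⁻ y in B, ENNReal.ofReal ((φ x - φ y) ^ 2) ∂μ := by
    intro x
    rw [← ENNReal.ofReal_mul hm0.le, ← ofReal_integral_eq_lintegral_ofReal (i3 _)
      (Eventually.of_forall fun y => sq_nonneg _)]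
    refine ENNReal.ofReal_le_ofReal ?_
    have := variance_le i1 i2 (huniv.symm ▸ hm0) (φ x)
    rwa [huniv] at this
  have i4 : Integrable (fun y => (φ y - a) ^ 2) (μ.restrict B) :=
    ((hφ.sub continuous_const).pow 2).continuousOn.integrableOn_compact hcB
  rw [ofReal_integral_eq_lintegral_ofReal i4 (Eventually.of_forall fun y => sq_nonneg _)]
  have hmeas : Measurable fun p : Spc d × Spc d => ENNReal.ofReal ((φ p.1 - φ p.2) ^ 2) :=
    ((((hφ.measurable.comp measurable_fst).sub (hφ.measurable.comp measurable_snd)).pow_const 2)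
      ).ennreal_ofReal
  have step : ENNReal.ofReal (μ.real B) * ∫⁻ x in B, ENNReal.ofReal ((φ x - a) ^ 2) ∂μ ≤
      ENNReal.ofReal ((2 * (M * t)) ^ (n + 1)) * enOn n μ φ z (M * t) := by
    rw [← lintegral_const_mul' _ _ ENNReal.ofReal_ne_top]
    refine (lintegral_mono fun x => key x).trans ?_
    rw [lintegral_lintegral (f := fun x y => ENNReal.ofReal ((φ x - φ y) ^ 2)) hmeas.aemeasurable,
      Measure.prod_restrict, enOn, ← lintegral_const_mul' _ _ ENNReal.ofReal_ne_top]
    refine setLIntegral_mono' (measurableSet_closedBall.prod measurableSet_closedBall) fun p hp => ?_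
    rw [edens, ← ENNReal.ofReal_mul (by positivity)]
    refine ENNReal.ofReal_le_ofReal ?_
    by_cases hp' : p.1 - p.2 = 0
    · rw [sub_eq_zero.1 hp']; simp
    have hpos : 0 < ‖p.1 - p.2‖ := norm_pos_iff.2 hp'
    have hd : ‖p.1 - p.2‖ ≤ 2 * (M * t) := by
      have h1 := mem_closedBall.1 hp.1
      have h2 := mem_closedBall.1 hp.2
      have h3 := dist_triangle_right p.1 p.2 z
      rw [← dist_eq_norm]
      linarith
    calc (φ p.1 - φ p.2) ^ 2
        = ‖p.1 - p.2‖ ^ (n + 1) * ((φ p.1 - φ p.2) ^ 2 / ‖p.1 - p.2‖ ^ (n + 1)) := by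
          field_simp
      _ ≤ _ := mul_le_mul_of_nonneg_right (pow_le_pow_left₀ hpos.le hd _) (by positivity)
  have hK : (2 * (M * t)) ^ (n + 1) ≤ μ.real B * (poinK n C M * t) := by
    refine le_trans ?_ (mul_le_mul_of_nonneg_right hm (by unfold poinK; positivity))
    rw [poinK, pow_succ t n |> fun h => show (2 * (M * t)) ^ (n + 1) = (2 * M) ^ (n + 1) * (t ^ n * t)
      by rw [← h, ← mul_pow]; ring]
    rw [le_iff_eq_or_lt]
    left
    field_simp
  refine (ENNReal.mul_le_mul_iff_right (ENNReal.ofReal_pos.2 hm0).ne' ENNReal.ofReal_ne_top).1 ?_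
  refine step.trans ?_
  refine (mul_le_mul_left (ENNReal.ofReal_le_ofReal hK) _).trans (le_of_eq ?_)
  rw [ENNReal.ofReal_mul hm0.le, mul_assoc]

theorem norm_sq_le (F : Fam n μ C D ρ M) {q : ℕ × Spc d} (hq : q ∈ F.S) :
    ∫ y, F.φ q y ^ 2 ∂μ ≤ poinK n C M * side ρ q.1 * (En n μ (F.φ q)).toReal := by
  have hA := F.adm q hq
  have hC : 0 < C := lt_of_lt_of_le one_pos F.reg.one_le
  have hM : 0 < M := lt_of_lt_of_le one_pos F.hM
  have h := poincare F (F.centre q hq) q.1 (adm_continuous hA)
  set B := closedBall q.2 (M * side ρ q.1)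
  have h0 : ∀ y, y ∉ B → F.φ q y = 0 := fun y hy => by
    by_contra hne
    exact hy (mem_closedBall.2 (adm_zero_out hA hne))
  have hmean : ∫ x in B, F.φ q x ∂μ = 0 := by
    rw [setIntegral_eq_integral_of_forall_compl_eq_zero h0, hA.mean]
  simp only [hmean, zero_div, sub_zero] at h
  rw [setIntegral_eq_integral_of_forall_compl_eq_zero (fun y hy => by simp [h0 y hy])] at h
  have h2 := h.trans (mul_le_mul_right (enOn_le μ (F.φ q) _ _) _)
  have hnn : 0 ≤ poinK n C M * side ρ q.1 := by
    have := side_pos F.hρ q.1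
    unfold poinK; positivity
  have h3 := ENNReal.toReal_mono (ENNReal.mul_ne_top ENNReal.ofReal_ne_top (F.fin q hq)) h2
  rwa [ENNReal.toReal_ofReal (integral_nonneg fun y => sq_nonneg _), ENNReal.toReal_mul,
    ENNReal.toReal_ofReal hnn] at h3

theorem count_le (F : Fam n μ C D ρ M) (k : ℕ) (w : Spc d) (T : Finset (ℕ × Spc d))
    (hT : ∀ q ∈ T, q ∈ F.S ∧ q.1 = k ∧ dist q.2 w ≤ M * side ρ k) :
    (T.card : ℝ) ≤ overlapN n C M := by
  set t := side ρ k
  have ht : 0 < t := side_pos F.hρ k
  have hC : 0 < C := lt_of_lt_of_le one_pos F.reg.one_le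
  have hM := F.hM
  have hdisj : (T : Set (ℕ × Spc d)).PairwiseDisjoint fun q => ball q.2 (t / 16) := by
    intro q hq q' hq' hne
    obtain ⟨hqS, hqk, -⟩ := hT q hq
    obtain ⟨hqS', hqk', -⟩ := hT q' hq'
    refine ball_disjoint_ball ?_
    have := F.sep q hqS q' hqS' (hqk.trans hqk'.symm) hne
    rw [hqk] at this
    linarith
  have hsum : (T.card : ℝ≥0∞) * ENNReal.ofReal (C⁻¹ * (t / 16) ^ n) ≤
      ENNReal.ofReal (C * (3 * M * t) ^ n) := by
    calc (T.card : ℝ≥0∞) * ENNReal.ofReal (C⁻¹ * (t / 16) ^ n)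
        = ∑ q ∈ T, ENNReal.ofReal (C⁻¹ * (t / 16) ^ n) := by simp
      _ ≤ ∑ q ∈ T, μ (ball q.2 (t / 16)) := Finset.sum_le_sum fun q hq =>
          F.reg.lower q.2 (F.centre q (hT q hq).1) _ (by positivity)
            (by linarith [side_le F.hρ k, F.hρD])
      _ = μ (⋃ q ∈ T, ball q.2 (t / 16)) :=
          (measure_biUnion_finset hdisj fun _ _ => measurableSet_ball).symm
      _ ≤ μ (ball w (3 * M * t)) := by
          refine measure_mono (iUnion₂_subset fun q hq => ball_subset_ball' ?_)
          have := (hT q hq).2.2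
          nlinarith
      _ ≤ _ := F.reg.upper w _ (by positivity)
  rw [← ENNReal.ofReal_natCast, ← ENNReal.ofReal_mul (Nat.cast_nonneg _),
    ENNReal.ofReal_le_ofReal_iff (by positivity)] at hsum
  have e : C * (3 * M * t) ^ n = overlapN n C M * (C⁻¹ * (t / 16) ^ n) := by
    rw [overlapN, show 3 * M * t = 48 * M * (t / 16) by ring, mul_pow]
    field_simp
  rw [e] at hsum
  exact le_of_mul_le_mul_right hsum (by positivity)

theorem near_card (F : Fam n μ C D ρ M) (k : ℕ) (a : ℕ × Spc d → ℝ) (x : Spc d) :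
    (((F.S.filter fun q => q.1 = k).filter fun q => a q * F.φ q x ≠ 0).card : ℝ) ≤
      overlapN n C M := by
  refine count_le F k x _ fun q hq => ?_
  simp only [Finset.mem_filter] at hq
  obtain ⟨⟨hqS, hqk⟩, hne⟩ := hq
  refine ⟨hqS, hqk, ?_⟩
  rw [dist_comm, ← hqk]
  exact adm_zero_out (F.adm q hqS) (right_ne_zero_of_mul hne)

/-- weight of a coefficient family on the cubes of level `k` -/
def weight (F : Fam n μ C D ρ M) (a : ℕ × Spc d → ℝ) (k : ℕ) : ℝ :=
  ∑ q ∈ F.S.filter (fun q => q.1 = k), a q ^ 2 * side ρ q.1 * (En n μ (F.φ q)).toReal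

/-- the combination at level `k` -/
def level (F : Fam n μ C D ρ M) (a : ℕ × Spc d → ℝ) (k : ℕ) (y : Spc d) : ℝ :=
  ∑ q ∈ F.S.filter (fun q => q.1 = k), a q * F.φ q y

theorem overlapN_nonneg (F : Fam n μ C D ρ M) : 0 ≤ overlapN n C M := by
  have := lt_of_lt_of_le one_pos F.hM
  unfold overlapN; positivity

theorem weight_nonneg (F : Fam n μ C D ρ M) (a : ℕ × Spc d → ℝ) (k : ℕ) :
    0 ≤ weight F a k :=
  Finset.sum_nonneg fun q _ => mul_nonneg (mul_nonneg (sq_nonneg _) (side_pos F.hρ _).le)
    ENNReal.toReal_nonneg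

theorem level_continuous (F : Fam n μ C D ρ M) (a : ℕ × Spc d → ℝ) (k : ℕ) :
    Continuous (level F a k) :=
  continuous_finsetSum _ fun q hq =>
    continuous_const.mul (adm_continuous (F.adm q (Finset.mem_filter.1 hq).1))

theorem level_En (F : Fam n μ C D ρ M) (a : ℕ × Spc d → ℝ) (k : ℕ) :
    En n μ (level F a k) ≤
      ENNReal.ofReal (2 * overlapN n C M * (weight F a k / side ρ k)) := by
  classical
  set T := F.S.filter (fun q => q.1 = k) with hTdef
  have hN := overlapN_nonneg F
  have hpt : ∀ p, edens n (level F a k) p ≤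
      ∑ q ∈ T, ENNReal.ofReal (2 * overlapN n C M * a q ^ 2) * edens n (F.φ q) p := by
    intro p
    simp only [edens]
    rw [Finset.sum_congr rfl fun q _ => (ENNReal.ofReal_mul (by positivity)).symm,
      ← ENNReal.ofReal_sum_of_nonneg fun q _ => by positivity]
    refine ENNReal.ofReal_le_ofReal ?_
    simp only [mul_div_assoc']
    rw [← Finset.sum_div]
    refine div_le_div_of_nonneg_right ?_ (by positivity)
    have hdiff : level F a k p.1 - level F a k p.2 = ∑ q ∈ T, a q * (F.φ q p.1 - F.φ q p.2) := by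
      simp only [level, ← Finset.sum_sub_distrib, mul_sub, ← hTdef]
    rw [hdiff]
    refine (sq_sum_support T _ (N := 2 * overlapN n C M) ?_).trans ?_
    · have hsub : (T.filter fun q => a q * (F.φ q p.1 - F.φ q p.2) ≠ 0) ⊆
          (T.filter fun q => a q * F.φ q p.1 ≠ 0) ∪ (T.filter fun q => a q * F.φ q p.2 ≠ 0) := by
        intro q hq
        simp only [Finset.mem_filter, Finset.mem_union] at hq ⊢
        by_contra hcon
        push Not at hcon
        exact hq.2 (by rw [mul_sub, hcon.1 hq.1, hcon.2 hq.1, sub_zero])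
      have h1 := near_card F k a p.1
      have h2 := near_card F k a p.2
      rw [← hTdef] at h1 h2
      have h3 : ((T.filter fun q => a q * (F.φ q p.1 - F.φ q p.2) ≠ 0).card : ℝ) ≤
          (T.filter fun q => a q * F.φ q p.1 ≠ 0).card +
            (T.filter fun q => a q * F.φ q p.2 ≠ 0).card := by
        exact_mod_cast (Finset.card_le_card hsub).trans (Finset.card_union_le _ _)
      linarith
    · rw [Finset.mul_sum]
      exact Finset.sum_le_sum fun q _ => le_of_eq (by ring)
  rw [En_eq]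
  refine (lintegral_mono hpt).trans ?_
  rw [lintegral_finsetSum _ fun q hq => (measurable_edens
    (adm_continuous (F.adm q (Finset.mem_filter.1 hq).1)).measurable).const_mul _]
  refine le_of_eq ?_
  calc ∑ q ∈ T, ∫⁻ p, ENNReal.ofReal (2 * overlapN n C M * a q ^ 2) * edens n (F.φ q) p ∂μ.prod μ
      = ∑ q ∈ T, ENNReal.ofReal (2 * overlapN n C M * a q ^ 2 * (En n μ (F.φ q)).toReal) := by
        refine Finset.sum_congr rfl fun q hq => ?_
        rw [lintegral_const_mul' _ _ ENNReal.ofReal_ne_top, ← En_eq,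
          ENNReal.ofReal_mul (p := 2 * overlapN n C M * a q ^ 2) (by positivity),
          ENNReal.ofReal_toReal (F.fin q (Finset.mem_filter.1 hq).1)]
    _ = ENNReal.ofReal (∑ q ∈ T, 2 * overlapN n C M * a q ^ 2 * (En n μ (F.φ q)).toReal) :=
        (ENNReal.ofReal_sum_of_nonneg fun q _ => by positivity).symm
    _ = _ := by
        congr 1
        rw [weight, ← hTdef, Finset.sum_div, Finset.mul_sum]
        refine Finset.sum_congr rfl fun q hq => ?_
        rw [(Finset.mem_filter.1 hq).2]
        have := side_pos F.hρ k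
        field_simp

theorem sum_enOn_le (F : Fam n μ C D ρ M) (k : ℕ) {f : Spc d → ℝ} (hf : Measurable f) :
    ∑ q ∈ F.S.filter (fun q => q.1 = k), enOn n μ f q.2 (M * side ρ k) ≤
      ENNReal.ofReal (overlapN n C M) * En n μ f := by
  classical
  set T := F.S.filter (fun q => q.1 = k)
  simp only [enOn]
  simp_rw [← lintegral_indicator (measurableSet_closedBall.prod measurableSet_closedBall)]
  rw [← lintegral_finsetSum _ fun q _ => (measurable_edens hf).indicator
    (measurableSet_closedBall.prod measurableSet_closedBall), En_eq,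
    ← lintegral_const_mul' _ _ ENNReal.ofReal_ne_top]
  refine lintegral_mono fun p => ?_
  simp only [indicator_apply]
  rw [← Finset.sum_filter, Finset.sum_const, nsmul_eq_mul, ← ENNReal.ofReal_natCast]
  refine mul_le_mul_left ?_ _
  refine ENNReal.ofReal_le_ofReal (count_le F k p.1 _ fun q hq => ?_)
  simp only [T, Finset.mem_filter, Set.mem_prod, mem_closedBall] at hq
  exact ⟨hq.1.1, hq.1.2, by rw [dist_comm]; exact hq.2.1⟩

theorem cross (F : Fam n μ C D ρ M) (a : ℕ × Spc d → ℝ) {k m : ℕ} (h : m ≤ k) :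
    ∫ y, level F a k y * level F a m y ∂μ ≤
      poinK n C M * (2 * overlapN n C M) * (1 / 2) ^ (k - m) *
        (Real.sqrt (weight F a k) * Real.sqrt (weight F a m)) := by
  classical
  set f := level F a m with hfdef
  have hf : Continuous f := level_continuous F a m
  set T := F.S.filter (fun q => q.1 = k) with hTdef
  set t := side ρ k with htdef
  have ht : 0 < t := side_pos F.hρ k
  have hM : 0 < M := lt_of_lt_of_le one_pos F.hM
  have hC : 0 < C := lt_of_lt_of_le one_pos F.reg.one_le
  have hN := overlapN_nonneg F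
  have hK : 0 ≤ poinK n C M := by unfold poinK; positivity
  set e := fun q : ℕ × Spc d => (enOn n μ f q.2 (M * t)).toReal with hedef
  have htm : 0 < side ρ m := side_pos F.hρ m
  have hwm := weight_nonneg F a m
  have hEf : En n μ f ≤ ENNReal.ofReal (2 * overlapN n C M * (weight F a m / side ρ m)) :=
    level_En F a m
  have hEfin : En n μ f ≠ ∞ := ne_top_of_le_ne_top ENNReal.ofReal_ne_top hEf
  have hesum : ∑ q ∈ T, e q ≤ overlapN n C M * (2 * overlapN n C M * (weight F a m / side ρ m)) := by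
    rw [hedef, ← ENNReal.toReal_sum fun q _ => ne_top_of_le_ne_top hEfin (enOn_le μ f _ _)]
    have h1 := (sum_enOn_le F k hf.measurable).trans
      (mul_le_mul_right hEf (ENNReal.ofReal (overlapN n C M)))
    rw [← ENNReal.ofReal_mul hN] at h1
    exact ENNReal.toReal_le_of_le_ofReal (by positivity) h1
  have hone : ∀ q ∈ T, |∫ y, F.φ q y * f y ∂μ| ≤
      poinK n C M * t * (Real.sqrt ((En n μ (F.φ q)).toReal) * Real.sqrt (e q)) := by
    intro q hq
    obtain ⟨hqS, hqk⟩ := Finset.mem_filter.1 hq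
    have hA := F.adm q hqS
    have hφc := adm_continuous hA
    have hP := poincare F (F.centre q hqS) k hf
    simp only at hP
    rw [← htdef] at hP
    set B := closedBall q.2 (M * t)
    have h0 : ∀ y, y ∉ B → F.φ q y = 0 := fun y hy => by
      by_contra hne
      refine hy (mem_closedBall.2 ?_)
      have := adm_zero_out hA hne
      rwa [hqk] at this
    set c := (∫ x in B, f x ∂μ) / μ.real B
    have hcB : IsCompact B := isCompact_closedBall _ _
    haveI : IsFiniteMeasure (μ.restrict B) :=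
      isFiniteMeasure_restrict.2 measure_closedBall_lt_top.ne
    have hcross : ∫ y, F.φ q y * f y ∂μ = ∫ y in B, F.φ q y * (f y - c) ∂μ := by
      simp only [mul_sub]
      have iA : Integrable (fun y => F.φ q y * f y) (μ.restrict B) :=
        (hφc.mul hf).continuousOn.integrableOn_compact hcB
      have iB : Integrable (fun y => F.φ q y * c) (μ.restrict B) :=
        (hφc.mul continuous_const).continuousOn.integrableOn_compact hcB
      rw [integral_sub iA iB, integral_mul_const,
        setIntegral_eq_integral_of_forall_compl_eq_zero h0, hA.mean, zero_mul, sub_zero,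
        setIntegral_eq_integral_of_forall_compl_eq_zero fun y hy => by rw [h0 y hy, zero_mul]]
    have hmem : ∀ g : Spc d → ℝ, Continuous g → MemLp g 2 (μ.restrict B) := fun g hg =>
      (memLp_two_iff_integrable_sq hg.aestronglyMeasurable).2
        ((hg.pow 2).continuousOn.integrableOn_compact hcB)
    have hcs : |∫ y in B, F.φ q y * (f y - c) ∂μ| ≤
        Real.sqrt (∫ y in B, F.φ q y ^ 2 ∂μ) * Real.sqrt (∫ y in B, (f y - c) ^ 2 ∂μ) := by
      have h2 := integral_mul_norm_le_Lp_mul_Lq (μ := μ.restrict B)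
        (Real.HolderConjugate.two_two)
        (f := F.φ q) (g := fun y => f y - c)
        (by simpa using hmem _ hφc) (by simpa using hmem (fun y => f y - c) (hf.sub continuous_const))
      simp only [Real.norm_eq_abs] at h2
      refine (abs_integral_le_integral_abs).trans ?_
      simp only [abs_mul]
      refine h2.trans (le_of_eq ?_)
      simp only [Real.sqrt_eq_rpow, show ((2 : ℝ)) = ((2 : ℕ) : ℝ) by norm_num, Real.rpow_natCast,
        sq_abs]
    rw [hcross]
    refine hcs.trans ?_
    have b1 : ∫ y in B, F.φ q y ^ 2 ∂μ ≤ poinK n C M * t * (En n μ (F.φ q)).toReal := by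
      rw [setIntegral_eq_integral_of_forall_compl_eq_zero fun y hy => by simp [h0 y hy]]
      have := norm_sq_le F hqS
      rwa [hqk] at this
    have b2 : ∫ y in B, (f y - c) ^ 2 ∂μ ≤ poinK n C M * t * e q := by
      have h3 := ENNReal.toReal_mono (ENNReal.mul_ne_top ENNReal.ofReal_ne_top
        (ne_top_of_le_ne_top hEfin (enOn_le μ f _ _))) hP
      rwa [ENNReal.toReal_ofReal (integral_nonneg fun y => sq_nonneg _), ENNReal.toReal_mul,
        ENNReal.toReal_ofReal (mul_nonneg hK ht.le)] at h3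
    refine (mul_le_mul (Real.sqrt_le_sqrt b1) (Real.sqrt_le_sqrt b2) (Real.sqrt_nonneg _)
      (Real.sqrt_nonneg _)).trans (le_of_eq ?_)
    rw [Real.sqrt_mul (mul_nonneg hK ht.le), Real.sqrt_mul (mul_nonneg hK ht.le)]
    rw [show Real.sqrt (poinK n C M * t) * Real.sqrt ((En n μ (F.φ q)).toReal) *
        (Real.sqrt (poinK n C M * t) * Real.sqrt (e q)) =
      (Real.sqrt (poinK n C M * t) * Real.sqrt (poinK n C M * t)) *
        (Real.sqrt ((En n μ (F.φ q)).toReal) * Real.sqrt (e q)) by ring,
      Real.mul_self_sqrt (mul_nonneg hK ht.le)]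
  have hint : ∀ q ∈ T, Integrable (fun y => a q * F.φ q y * f y) μ := fun q hq => by
    have hA := F.adm q (Finset.mem_filter.1 hq).1
    exact (((continuous_const.mul (adm_continuous hA)).mul hf)).integrable_of_hasCompactSupport
      (((adm_compact hA).mul_left (f := fun _ => a q)).mul_right (f' := f))
  calc ∫ y, level F a k y * f y ∂μ
      = ∑ q ∈ T, a q * ∫ y, F.φ q y * f y ∂μ := by
        simp only [level, ← hTdef, Finset.sum_mul]
        rw [integral_finsetSum _ hint]
        exact Finset.sum_congr rfl fun q _ => by rw [← integral_const_mul]; simp only [mul_assoc]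
    _ ≤ ∑ q ∈ T, |a q| * (poinK n C M * t *
          (Real.sqrt ((En n μ (F.φ q)).toReal) * Real.sqrt (e q))) := by
        refine Finset.sum_le_sum fun q hq => (le_abs_self _).trans ?_
        rw [abs_mul]
        exact mul_le_mul_of_nonneg_left (hone q hq) (abs_nonneg _)
    _ = poinK n C M * Real.sqrt t * ∑ q ∈ T,
          Real.sqrt (a q ^ 2 * side ρ q.1 * (En n μ (F.φ q)).toReal) * Real.sqrt (e q) := by
        rw [Finset.mul_sum]
        refine Finset.sum_congr rfl fun q hq => ?_
        rw [(Finset.mem_filter.1 hq).2, ← htdef, Real.sqrt_mul (by positivity),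
          Real.sqrt_mul (sq_nonneg _), Real.sqrt_sq_eq_abs]
        linear_combination (-(|a q| * poinK n C M * Real.sqrt ((En n μ (F.φ q)).toReal) *
          Real.sqrt (e q))) * Real.mul_self_sqrt ht.le
    _ ≤ poinK n C M * Real.sqrt t * (Real.sqrt (weight F a k) *
          Real.sqrt (overlapN n C M * (2 * overlapN n C M * (weight F a m / side ρ m)))) := by
        refine mul_le_mul_of_nonneg_left ?_ (mul_nonneg hK (Real.sqrt_nonneg _))
        refine (Real.sum_sqrt_mul_sqrt_le _ (fun q => mul_nonneg (mul_nonneg (sq_nonneg _)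
          (side_pos F.hρ _).le) ENNReal.toReal_nonneg) fun q => ENNReal.toReal_nonneg).trans ?_
        exact mul_le_mul_of_nonneg_left (Real.sqrt_le_sqrt hesum) (Real.sqrt_nonneg _)
    _ ≤ _ := by
        have hsr := side_ratio F.hρ h
        rw [← htdef] at hsr
        have hNN : Real.sqrt (overlapN n C M * (2 * overlapN n C M)) ≤ 2 * overlapN n C M := by
          rw [Real.sqrt_le_iff]; exact ⟨by linarith, by nlinarith⟩
        rw [show overlapN n C M * (2 * overlapN n C M * (weight F a m / side ρ m)) =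
          overlapN n C M * (2 * overlapN n C M) * weight F a m / side ρ m by ring,
          Real.sqrt_div' _ htm.le, Real.sqrt_mul' _ hwm]
        rw [Real.sqrt_div ht.le] at hsr
        calc poinK n C M * Real.sqrt t * (Real.sqrt (weight F a k) *
              (Real.sqrt (overlapN n C M * (2 * overlapN n C M)) * Real.sqrt (weight F a m) /
                Real.sqrt (side ρ m)))
            = poinK n C M * Real.sqrt (overlapN n C M * (2 * overlapN n C M)) *
              (Real.sqrt t / Real.sqrt (side ρ m)) *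
              (Real.sqrt (weight F a k) * Real.sqrt (weight F a m)) := by ring
          _ ≤ _ := by gcongr

/-- the sum over all levels -/
def comb (F : Fam n μ C D ρ M) (a : ℕ × Spc d → ℝ) (y : Spc d) : ℝ :=
  ∑ q ∈ F.S, a q * F.φ q y

theorem comb_norm_sq (F : Fam n μ C D ρ M) (a : ℕ × Spc d → ℝ) :
    ∫ y, comb F a y ^ 2 ∂μ ≤ poinK n C M * (8 * overlapN n C M) *
      ∑ q ∈ F.S, a q ^ 2 * side ρ q.1 * (En n μ (F.φ q)).toReal := by
  classical
  set L := F.S.image Prod.fst with hL
  have hmaps : ∀ q ∈ F.S, q.1 ∈ L := fun q hq => Finset.mem_image_of_mem _ hq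
  have hsplit : ∀ y, comb F a y = ∑ k ∈ L, level F a k y := fun y =>
    (Finset.sum_fiberwise_of_maps_to hmaps _).symm
  have hw : ∑ q ∈ F.S, a q ^ 2 * side ρ q.1 * (En n μ (F.φ q)).toReal =
      ∑ k ∈ L, weight F a k := (Finset.sum_fiberwise_of_maps_to hmaps _).symm
  rw [hw]
  have hint : ∀ k m, Integrable (fun y => level F a k y * level F a m y) μ := fun k m => by
    refine ((level_continuous F a k).mul (level_continuous F a m)).integrable_of_hasCompactSupport ?_
    refine HasCompactSupport.mul_right (f' := level F a m) ?_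
    refine HasCompactSupport.intro ((F.S.isCompact_biUnion
      fun q _ => isCompact_closedBall q.2 (M * side ρ q.1))) fun y hy => ?_
    refine Finset.sum_eq_zero fun q hq => ?_
    by_contra hne
    exact hy (mem_biUnion (Finset.mem_filter.1 hq).1
      (mem_closedBall.2 (adm_zero_out (F.adm q (Finset.mem_filter.1 hq).1)
        (right_ne_zero_of_mul hne))))
  set K := poinK n C M * (2 * overlapN n C M) with hKdef
  have hK : 0 ≤ K := by
    have hM : 0 < M := lt_of_lt_of_le one_pos F.hM
    have hC : 0 < C := lt_of_lt_of_le one_pos F.reg.one_le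
    unfold K poinK overlapN; positivity
  set s := fun k => Real.sqrt (weight F a k) with hs
  have hsym : ∀ k m, ∫ y, level F a k y * level F a m y ∂μ ≤
      K * (1 / 2 : ℝ) ^ ((k - m) + (m - k)) * (s k * s m) := by
    intro k m
    rcases le_total m k with h | h
    · rw [show m - k = 0 by omega, add_zero]; exact cross F a h
    · rw [show k - m = 0 by omega, zero_add, mul_comm (s k) (s m)]
      simp_rw [mul_comm (level F a k _)]
      exact cross F a h
  calc ∫ y, comb F a y ^ 2 ∂μ
      = ∑ k ∈ L, ∑ m ∈ L, ∫ y, level F a k y * level F a m y ∂μ := by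
        simp only [hsplit, sq, Finset.sum_mul_sum]
        rw [integral_finsetSum _ fun k _ => integrable_finsetSum _ fun m _ => hint k m]
        exact Finset.sum_congr rfl fun k _ => integral_finsetSum _ fun m _ => hint k m
    _ ≤ ∑ k ∈ L, ∑ m ∈ L, K * (1 / 2 : ℝ) ^ ((k - m) + (m - k)) * (s k * s m) :=
        Finset.sum_le_sum fun k _ => Finset.sum_le_sum fun m _ => hsym k m
    _ ≤ ∑ k ∈ L, ∑ m ∈ L, K * (1 / 2 : ℝ) ^ ((k - m) + (m - k)) *
          ((weight F a k + weight F a m) / 2) := by
        refine Finset.sum_le_sum fun k _ => Finset.sum_le_sum fun m _ =>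
          mul_le_mul_of_nonneg_left ?_ (by positivity)
        have h1 := Real.mul_self_sqrt (weight_nonneg F a k)
        have h2 := Real.mul_self_sqrt (weight_nonneg F a m)
        simp only [hs]
        nlinarith [sq_nonneg (Real.sqrt (weight F a k) - Real.sqrt (weight F a m))]
    _ = ∑ k ∈ L, K * weight F a k * ∑ m ∈ L, (1 / 2 : ℝ) ^ ((k - m) + (m - k)) := by
        simp only [mul_div_assoc', mul_add, add_div, Finset.sum_add_distrib]
        rw [Finset.sum_comm (f := fun k m =>
          K * (1 / 2 : ℝ) ^ ((k - m) + (m - k)) * weight F a m / 2), ← Finset.sum_add_distrib]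
        refine Finset.sum_congr rfl fun k _ => ?_
        rw [Finset.mul_sum, ← Finset.sum_add_distrib]
        refine Finset.sum_congr rfl fun m _ => ?_
        rw [add_comm (m - k)]; ring
    _ ≤ ∑ k ∈ L, K * weight F a k * 4 := Finset.sum_le_sum fun k _ =>
        mul_le_mul_of_nonneg_left (schur L k) (mul_nonneg hK (weight_nonneg F a k))
    _ = _ := by rw [← Finset.sum_mul, ← Finset.mul_sum, hKdef]; ring

end

end Pack

end Vale.Agent.P120
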