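import Vale.Agent.P120.Statements
import Vale.Agent.P120.Scaling

/-!
Smooth annular truncations of a reflectionless measure are bounded, and their consequence at a
point where the support has an exterior tangent ball.
-/

noncomputable section

open MeasureTheory Metric Set Filter Topology
open scoped ENNReal NNReal RealInnerProductSpace

namespace Vale.Agent.P120

namespace Touching

variable {d n : ℕ} {C : ℝ} {ν : Measure (Spc d)}

theorem trBil_swap [IsLocallyFiniteMeasure ν] (ε : ℝ) (f g : Spc d → ℝ) :
    trBil n ν ε f g = -trBil n ν ε g f := by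
  unfold trBil
  rw [← integral_prod_swap (μ := ν) (ν := ν) (f := fun p : Spc d × Spc d =>
    (f p.1 * g p.2 * ramp (‖p.1 - p.2‖ / ε)) • riesz n (p.1 - p.2)), ← integral_neg]
  refine integral_congr_ae (Eventually.of_forall fun p => ?_)
  simp only [Prod.fst_swap, Prod.snd_swap]
  rw [riesz_sub_comm p.1 p.2, norm_sub_rev p.2 p.1]
  module

/-- For a function supported where the window is `1`, the windowed pairing is the limit of the
truncated bilinear forms against the window. -/
theorem tendsto_trBil_window [IsLocallyFiniteMeasure ν] (h : UpperReg n C ν) (hn : 1 ≤ n)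
    {K : ℝ≥0} {φ : Spc d → ℝ} (hφ : LipschitzWith K φ) {a : Spc d} {R : ℝ} {w : Spc d → ℝ}
    (hw : IsWindow a R w) (hsupp : tsupport φ ⊆ closedBall a R) :
    Tendsto (fun ε : ℝ => trBil n ν ε φ w) (𝓝[>] 0) (𝓝 (pairW n ν w φ)) := by
  refine (tendsto_trBil_pairW h hn hφ hw.cont hw.cs).congr' (Eventually.of_forall fun ε => ?_)
  have e : (fun x => w x * φ x) = φ := by
    funext x
    by_cases hx : φ x = 0
    · rw [hx, mul_zero]
    · rw [hw.eq_one x (hsupp (subset_tsupport φ hx)), one_mul]
  dsimp only
  rw [e, trBil_swap ε w φ, sub_neg_eq_add, ← two_smul ℝ, smul_smul]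
  norm_num

theorem Reg.integral_cut_ge [IsLocallyFiniteMeasure ν] {D : ℝ} (h : Reg n C D ν) {x : Spc d}
    (hx : x ∈ ν.support) {t : ℝ} (ht : 0 < t) (htD : t ≤ D) :
    C⁻¹ * t ^ n ≤ ∫ y, cut x t y ∂ν := by
  refine (h.le_ball_real hx ht htD).trans ?_
  rw [← integral_indicator_one measurableSet_ball]
  refine integral_mono_of_nonneg
    (Eventually.of_forall fun y => indicator_nonneg (fun _ _ => zero_le_one) y)
    ((continuous_cut x t).integrable_of_hasCompactSupport (hasCompactSupport_cut x ht))
    (Eventually.of_forall fun y => ?_)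
  by_cases hy : y ∈ ball x t
  · simp [hy, cut_eq_one ht (mem_ball.mp hy).le]
  · simp [hy, cut_nonneg x t y]

theorem integral_cut_sq_le [IsLocallyFiniteMeasure ν] (x : Spc d) {t : ℝ} (ht : 0 < t) :
    ∫ y, cut x t y ^ 2 ∂ν ≤ ∫ y, cut x t y ∂ν := by
  refine integral_mono_of_nonneg (Eventually.of_forall fun y => sq_nonneg _)
    ((continuous_cut x t).integrable_of_hasCompactSupport (hasCompactSupport_cut x ht))
    (Eventually.of_forall fun y => ?_)
  show cut x t y ^ 2 ≤ cut x t y
  rw [sq]
  exact mul_le_of_le_one_left (cut_nonneg x t y) (cut_le_one x t y)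

theorem integral_cut_le [IsLocallyFiniteMeasure ν] (h : UpperReg n C ν) (hC : 0 ≤ C) (x : Spc d)
    {t : ℝ} (ht : 0 < t) : ∫ y, cut x t y ∂ν ≤ C * (3 * t) ^ n := by
  calc ∫ y, cut x t y ∂ν ≤ ∫ y, (ball x (3 * t)).indicator 1 y ∂ν := by
        refine integral_mono_of_nonneg (Eventually.of_forall fun y => cut_nonneg x t y)
          ((integrableOn_const measure_ball_lt_top.ne).integrable_indicator measurableSet_ball)
          (Eventually.of_forall fun y => ?_)
        by_cases hy : y ∈ ball x (3 * t)
        · simp [hy, cut_le_one x t y]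
        · have : 2 * t ≤ dist y x := by
            rw [mem_ball, not_lt] at hy
            linarith
          simp [hy, cut_eq_zero ht this]
    _ = ν.real (ball x (3 * t)) := integral_indicator_one measurableSet_ball
    _ ≤ C * (3 * t) ^ n :=
        ENNReal.toReal_le_of_le_ofReal (by positivity) (h x (3 * t) (by linarith))

/-- the constant of the single-scale comparison -/
def scaleConst (n : ℕ) (C : ℝ) : ℝ :=
  |C| * Real.sqrt (C * (C * 24 ^ n))
    + (2 ^ (n + 1) + (n + 1) * 3 ^ n * 2 ^ (n + 1)) * 2 * (2 ^ (n + 1) * C / 8)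

/-- One scale: the truncated form of the normalised bump is close to the smoothly truncated
integral at the centre. -/
theorem norm_trBil_bump_sub_le [IsLocallyFiniteMeasure ν] (hn : 1 ≤ n) {D : ℝ}
    (h : Reg n C D ν) (hRB : RB n C ν) {x : Spc d} (hx : x ∈ ν.support) {t : ℝ} (ht : 0 < t)
    (htD : t ≤ D) {L : ℝ} (hL : 8 * t ≤ L) {ε : ℝ} (hε : 0 < ε) (hεt : ε ≤ t) :
    ‖trBil n ν ε (fun y => (∫ z, cut x t z ∂ν)⁻¹ * cut x t y) (cut x L)
        - ∫ y, (cut x L y - cut x (8 * t) y) • riesz n (x - y) ∂ν‖ ≤ scaleConst n C := by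
  have hC : 1 ≤ C := h.one_le
  have hC0 : 0 < C := by linarith
  set m := ∫ z, cut x t z ∂ν with hm
  have hm0 : 0 < m := lt_of_lt_of_le (by positivity) (Reg.integral_cut_ge h hx ht htD)
  set f : Spc d → ℝ := fun y => m⁻¹ * cut x t y with hf
  have hfc : Continuous f := continuous_const.mul (continuous_cut x t)
  have hfs : HasCompactSupport f := (hasCompactSupport_cut x ht).mul_left
  have hf0 : ∀ y, 0 ≤ f y := fun y => mul_nonneg (inv_nonneg.mpr hm0.le) (cut_nonneg x t y)
  have hf1 : ∫ y, f y ∂ν = 1 := by
    simp only [hf, integral_const_mul, ← hm]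
    exact inv_mul_cancel₀ hm0.ne'
  set a : Spc d → ℝ := cut x (8 * t) with ha
  set g : Spc d → ℝ := fun y => cut x L y - a y with hg
  have hac : Continuous a := continuous_cut x _
  have has : HasCompactSupport a := hasCompactSupport_cut x (by linarith)
  have hgc : Continuous g := (continuous_cut x L).sub hac
  have hgs : HasCompactSupport g := (hasCompactSupport_cut x (show 0 < L by linarith)).sub has
  -- split the window
  have hsplit : trBil n ν ε f (cut x L) = trBil n ν ε f a + trBil n ν ε f g := by
    simp only [trBil]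
    rw [← integral_add (integrable_trBil hε hfc hfs hac has)
      (integrable_trBil hε hfc hfs hgc hgs)]
    refine integral_congr_ae (Eventually.of_forall fun p => ?_)
    simp only [hg]
    module
  -- the near part
  have hnear : ‖trBil n ν ε f a‖ ≤ |C| * Real.sqrt (C * (C * 24 ^ n)) := by
    refine (hRB ε hε f a hfc hfs hac has).trans ?_
    rw [mul_assoc, abs_of_pos hC0, ← Real.sqrt_mul (integral_nonneg fun y => sq_nonneg _)]
    refine mul_le_mul_of_nonneg_left (Real.sqrt_le_sqrt ?_) hC0.le
    have h1 : ∫ y, f y ^ 2 ∂ν ≤ m⁻¹ := by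
      simp only [hf, mul_pow, integral_const_mul]
      calc m⁻¹ ^ 2 * ∫ y, cut x t y ^ 2 ∂ν ≤ m⁻¹ ^ 2 * m :=
            mul_le_mul_of_nonneg_left (integral_cut_sq_le x ht) (sq_nonneg _)
        _ = m⁻¹ := by field_simp
    have h2 : ∫ y, a y ^ 2 ∂ν ≤ C * (24 * t) ^ n := by
      refine (integral_cut_sq_le x (by linarith)).trans ?_
      refine (integral_cut_le h.upper hC0.le x (by linarith)).trans (le_of_eq ?_)
      ring_nf
    calc (∫ y, f y ^ 2 ∂ν) * ∫ y, a y ^ 2 ∂ν ≤ m⁻¹ * (C * (24 * t) ^ n) :=
          mul_le_mul h1 h2 (integral_nonneg fun y => sq_nonneg _) (inv_nonneg.mpr hm0.le)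
      _ ≤ (C⁻¹ * t ^ n)⁻¹ * (C * (24 * t) ^ n) :=
          mul_le_mul_of_nonneg_right (inv_anti₀ (by positivity) (Reg.integral_cut_ge h hx ht htD))
            (by positivity)
      _ = C * (C * 24 ^ n) := by
          rw [mul_pow]
          field_simp
  -- the far part
  set c : ℝ := 2 ^ (n + 1) + (n + 1) * 3 ^ n * 2 ^ (n + 1) with hc
  set G : Spc d → ℝ := (ball x (8 * t))ᶜ.indicator fun y => c * (2 * t) * (dist y x ^ (n + 1))⁻¹
    with hG
  have hfar := h.upper.lintegral_far x (show 0 < 8 * t by linarith)
  have hbase : IntegrableOn (fun y => (dist y x ^ (n + 1))⁻¹) (ball x (8 * t))ᶜ ν := by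
    refine ⟨(by fun_prop : Measurable fun y => (dist y x ^ (n + 1))⁻¹).aestronglyMeasurable, ?_⟩
    rw [hasFiniteIntegral_iff_ofReal (Eventually.of_forall fun y => by positivity)]
    exact hfar.trans_lt ENNReal.ofReal_lt_top
  have hGi : Integrable G ν :=
    (integrable_indicator_iff measurableSet_ball.compl).mpr (hbase.const_mul _)
  have hGle : ∫ y, G y ∂ν ≤ c * 2 * (2 ^ (n + 1) * C / 8) := by
    rw [hG, integral_indicator measurableSet_ball.compl, integral_const_mul]
    have h1 : ∫ y in (ball x (8 * t))ᶜ, (dist y x ^ (n + 1))⁻¹ ∂ν ≤ 2 ^ (n + 1) * C / (8 * t) := by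
      rw [integral_eq_lintegral_of_nonneg_ae (Eventually.of_forall fun y => by positivity)
        hbase.aestronglyMeasurable]
      exact ENNReal.toReal_le_of_le_ofReal (by positivity) hfar
    refine (mul_le_mul_of_nonneg_left h1 (by positivity)).trans (le_of_eq ?_)
    field_simp
  have hfg : Integrable (fun p : Spc d × Spc d => (f p.1 * g p.2) • riesz n (x - p.2)) (ν.prod ν)
      ∧ (∫ p : Spc d × Spc d, (f p.1 * g p.2) • riesz n (x - p.2) ∂(ν.prod ν))
        = ∫ y, g y • riesz n (x - y) ∂ν := by
    have hgi : Integrable (fun y => g y • riesz n (x - y)) ν := by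
      refine ((hgc.abs.integrable_of_hasCompactSupport hgs.norm).mul_const
        (((8 * t) ^ n)⁻¹)).mono'
        (hgc.measurable.smul (by fun_prop : Measurable fun y => riesz n (x - y))).aestronglyMeasurable
        (Eventually.of_forall fun y => ?_)
      rw [norm_smul, Real.norm_eq_abs]
      by_cases hy : dist y x ≤ 8 * t
      · have : g y = 0 := by
          simp only [hg, ha]
          rw [cut_eq_one (by linarith) hy, cut_eq_one (by linarith) (hy.trans hL), sub_self]
        simp [this]
      · refine mul_le_mul_of_nonneg_left ((norm_riesz_le _).trans (inv_anti₀ (by positivity)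
          (pow_le_pow_left₀ (by positivity) ?_ n))) (abs_nonneg _)
        rw [← dist_eq_norm, dist_comm]
        exact (not_le.mp hy).le
    have hfi : Integrable f ν := hfc.integrable_of_hasCompactSupport hfs
    have e : (fun p : Spc d × Spc d => (f p.1 * g p.2) • riesz n (x - p.2))
        = fun p => f p.1 • (g p.2 • riesz n (x - p.2)) := by
      funext p
      rw [smul_smul]
    rw [e]
    refine ⟨hfi.smul_prod hgi, ?_⟩
    rw [integral_prod_smul f fun y => g y • riesz n (x - y), hf1, one_smul]
  have hdiff : ‖trBil n ν ε f g - ∫ y, g y • riesz n (x - y) ∂ν‖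
      ≤ c * 2 * (2 ^ (n + 1) * C / 8) := by
    rw [← hfg.2, trBil, ← integral_sub (integrable_trBil hε hfc hfs hgc hgs) hfg.1]
    refine (norm_integral_le_of_norm_le ((hfc.integrable_of_hasCompactSupport hfs).mul_prod hGi)
      (Eventually.of_forall fun p => ?_)).trans ?_
    · by_cases hp : f p.1 = 0 ∨ g p.2 = 0
      · have hG0 : 0 ≤ G p.2 := indicator_nonneg (fun y _ => by positivity) _
        have : f p.1 * g p.2 = 0 := mul_eq_zero.mpr hp
        simp only [this, zero_mul, zero_smul, sub_self, norm_zero]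
        exact mul_nonneg (hf0 _) hG0
      push Not at hp
      obtain ⟨hp1, hp2⟩ := hp
      have hd1 : dist p.1 x ≤ 2 * t := by
        by_contra hcon
        exact hp1 (by simp [hf, cut_eq_zero ht (not_le.mp hcon).le])
      have hd2 : 8 * t < dist p.2 x := by
        by_contra hcon
        exact hp2 (by
          simp only [hg, ha]
          rw [cut_eq_one (by linarith) (not_lt.mp hcon),
            cut_eq_one (by linarith) ((not_lt.mp hcon).trans hL), sub_self])
      have hd12 : 2 * t ≤ dist p.1 p.2 := by
        have := dist_triangle p.2 p.1 x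
        rw [dist_comm p.2 p.1] at this
        linarith
      rw [ramp_eq_one ((le_div_iff₀ hε).mpr (by rw [← dist_eq_norm]; linarith)), mul_one,
        ← smul_sub, norm_smul, Real.norm_eq_abs, abs_mul, abs_of_nonneg (hf0 _), mul_assoc]
      refine mul_le_mul_of_nonneg_left ?_ (hf0 _)
      have hgb : |g p.2| ≤ 1 := abs_le.mpr
        ⟨by simp only [hg, ha]; linarith [cut_le_one x (8 * t) p.2, cut_nonneg x L p.2],
          by simp only [hg, ha]; linarith [cut_nonneg x (8 * t) p.2, cut_le_one x L p.2]⟩
      refine (mul_le_of_le_one_left (norm_nonneg _) hgb).trans ?_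
      rw [hG, indicator_of_mem (show p.2 ∈ (ball x (8 * t))ᶜ by
        simp only [mem_compl_iff, mem_ball, not_lt]; exact hd2.le)]
      have hk : ‖(p.1 - p.2) - (x - p.2)‖ ≤ ‖x - p.2‖ / 2 := by
        rw [sub_sub_sub_cancel_right, ← dist_eq_norm, ← dist_eq_norm, dist_comm x p.2]
        linarith
      refine (norm_riesz_sub_le hk).trans ?_
      rw [sub_sub_sub_cancel_right, ← dist_eq_norm, ← dist_eq_norm, dist_comm x p.2, div_eq_mul_inv]
      gcongr
    · rw [integral_prod_mul, hf1, one_mul]
      exact hGle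
  rw [hsplit, add_sub_assoc]
  exact (norm_add_le _ _).trans (add_le_add hnear hdiff)

/-- Smooth annular truncations are bounded on the support of a reflectionless measure. -/
theorem norm_annulus_le [IsLocallyFiniteMeasure ν] (hn : 1 ≤ n) (h : RegTop n C ν)
    (hRB : RB n C ν) (hR : Reflectionless n ν) {x : Spc d} (hx : x ∈ ν.support) {s S : ℝ}
    (hs : 0 < s) (hsS : s ≤ S) :
    ‖∫ y, (cut x S y - cut x s y) • riesz n (x - y) ∂ν‖ ≤ 2 * scaleConst n C := by
  have hS : 0 < S := hs.trans_le hsS
  have hReg := h S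
  have hC : 0 < C := lt_of_lt_of_le zero_lt_one hReg.one_le
  have hup : UpperReg n C ν := hReg.upper
  set f : ℝ → Spc d → ℝ := fun t y => (∫ z, cut x t z ∂ν)⁻¹ * cut x t y with hf
  have hflip : ∀ t, 0 < t → LipschitzWith (‖(∫ z, cut x t z ∂ν)⁻¹‖₊ * Real.toNNReal t⁻¹) (f t) :=
    fun t ht => (lipschitzWith_smul (∫ z, cut x t z ∂ν)⁻¹).comp (lipschitz_cut x ht)
  have hfsupp : ∀ t, 0 < t → t ≤ S → tsupport (f t) ⊆ closedBall x (2 * S) := fun t ht htS =>
    (tsupport_mul_subset_right).trans ((tsupport_cut x ht).trans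
      (closedBall_subset_closedBall (by linarith)))
  have hfint : ∀ t, 0 < t → t ≤ S → ∫ y, f t y ∂ν = 1 := by
    intro t ht htS
    simp only [hf, integral_const_mul]
    exact inv_mul_cancel₀
      (lt_of_lt_of_le (by positivity) (Reg.integral_cut_ge hReg hx ht htS)).ne'
  have hfi : ∀ t, 0 < t → Integrable (f t) ν := fun t ht =>
    (continuous_const.mul (continuous_cut x t)).integrable_of_hasCompactSupport
      (hasCompactSupport_cut x ht).mul_left
  set s₀ := s / 8 with hs₀
  set S₀ := S / 8 with hS₀
  have hs0 : 0 < s₀ := by positivity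
  have hS0 : 0 < S₀ := by positivity
  have hsS0 : s₀ ≤ S₀ := by simp only [hs₀, hS₀]; linarith
  have hS0S : S₀ ≤ S := by simp only [hS₀]; linarith
  set φ : Spc d → ℝ := fun y => f s₀ y - f S₀ y with hφ
  have hφsupp : tsupport φ ⊆ closedBall x (2 * S) :=
    (tsupport_sub _ _).trans (union_subset (hfsupp s₀ hs0 (hsS0.trans hS0S))
      (hfsupp S₀ hS0 hS0S))
  have hadm : Adm ν x (2 * S) φ :=
    ⟨⟨_, (hflip s₀ hs0).sub (hflip S₀ hS0)⟩, hφsupp, by
      rw [hφ, integral_sub (hfi _ hs0) (hfi _ hS0), hfint _ hs0 (hsS0.trans hS0S),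
        hfint _ hS0 hS0S, sub_self]⟩
  set T := ∫ y, (cut x S y - cut x s y) • riesz n (x - y) ∂ν with hT
  set A := tailConst n C / 2 * (2 * S) * ∫ y, |φ y| ∂ν with hA
  have hlimA : Tendsto (fun L : ℝ => 2 * scaleConst n C + A / L) atTop
      (𝓝 (2 * scaleConst n C)) := by
    simpa using (tendsto_const_nhds (x := 2 * scaleConst n C)).add
      ((tendsto_id (α := ℝ) (x := atTop)).const_div_atTop A)
  refine ge_of_tendsto hlimA ?_
  filter_upwards [eventually_ge_atTop (4 * S)] with L hL
  have hL0 : 0 < L := by linarith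
  have hwin : IsWindow x L (cut x L) := isWindow_cut hL0 (by rw [dist_self, zero_add])
  have hpair := norm_pairing_sub_pairW_le hup hn hadm (show 2 * (2 * S) ≤ L by linarith) hL0 hwin
  rw [hR x (2 * S) φ hadm, zero_sub, norm_neg, ← hA] at hpair
  have hint : ∀ r, 0 < r → r ≤ L →
      Integrable (fun y => (cut x L y - cut x r y) • riesz n (x - y)) ν := by
    intro r hr hrL
    have hg : Continuous fun y => cut x L y - cut x r y :=
      (continuous_cut x L).sub (continuous_cut x r)
    refine ((hg.abs.integrable_of_hasCompactSupport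
      ((hasCompactSupport_cut x hL0).sub (hasCompactSupport_cut x hr)).norm).mul_const
      ((r ^ n)⁻¹)).mono'
      (hg.measurable.smul (by fun_prop : Measurable fun y => riesz n (x - y))).aestronglyMeasurable
      (Eventually.of_forall fun y => ?_)
    rw [norm_smul, Real.norm_eq_abs]
    by_cases hy : dist y x ≤ r
    · simp [cut_eq_one hr hy, cut_eq_one hL0 (hy.trans hrL)]
    · refine mul_le_mul_of_nonneg_left ((norm_riesz_le _).trans (inv_anti₀ (by positivity)
        (pow_le_pow_left₀ (by positivity) ?_ n))) (abs_nonneg _)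
      rw [← dist_eq_norm, dist_comm]
      exact (not_le.mp hy).le
  have hkey : ‖pairW n ν (cut x L) φ - T‖ ≤ 2 * scaleConst n C := by
    refine le_of_tendsto ((tendsto_trBil_window hup hn ((hflip s₀ hs0).sub (hflip S₀ hS0)) hwin
      (hφsupp.trans (closedBall_subset_closedBall (by linarith)))).sub_const T).norm ?_
    filter_upwards [Ioo_mem_nhdsGT hs0] with ε hε
    have h1 := norm_trBil_bump_sub_le hn hReg hRB hx hs0 (hsS0.trans hS0S) (L := L)
      (by simp only [hs₀]; linarith) hε.1 hε.2.le
    have h2 := norm_trBil_bump_sub_le hn hReg hRB hx hS0 hS0S (L := L)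
      (by simp only [hS₀]; linarith) hε.1 (hε.2.le.trans hsS0)
    rw [show 8 * s₀ = s by simp only [hs₀]; ring] at h1
    rw [show 8 * S₀ = S by simp only [hS₀]; ring] at h2
    have hlin : trBil n ν ε φ (cut x L) = trBil n ν ε (f s₀) (cut x L)
        - trBil n ν ε (f S₀) (cut x L) := by
      have hc : ∀ t, Continuous (f t) := fun t => continuous_const.mul (continuous_cut x t)
      simp only [trBil]
      rw [← integral_sub
        (integrable_trBil hε.1 (hc s₀) (hasCompactSupport_cut x hs0).mul_left
          (continuous_cut x L) (hasCompactSupport_cut x hL0))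
        (integrable_trBil hε.1 (hc S₀) (hasCompactSupport_cut x hS0).mul_left
          (continuous_cut x L) (hasCompactSupport_cut x hL0))]
      refine integral_congr_ae (Eventually.of_forall fun p => ?_)
      simp only [hφ]
      module
    have hTeq : T = (∫ y, (cut x L y - cut x s y) • riesz n (x - y) ∂ν)
        - ∫ y, (cut x L y - cut x S y) • riesz n (x - y) ∂ν := by
      rw [hT, ← integral_sub (hint s hs (by linarith)) (hint S hS (by linarith))]
      refine integral_congr_ae (Eventually.of_forall fun y => ?_)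
      dsimp only
      rw [← sub_smul]
      congr 1
      ring
    rw [hlin, hTeq, sub_sub_sub_comm]
    exact (norm_sub_le _ _).trans (by simp only [hf]; linarith)
  have h3 := norm_le_insert (pairW n ν (cut x L) φ) T
  linarith

/-- At a point with an exterior tangent ball, the deviation in the normal direction has a finite
singular integral. -/
theorem lintegral_normal_lt_top [IsLocallyFiniteMeasure ν] (hn : 1 ≤ n) (h : RegTop n C ν)
    (hRB : RB n C ν) (hR : Reflectionless n ν) {x : Spc d} (hx : x ∈ ν.support) {u : Spc d}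
    (hu : ‖u‖ = 1) {ρ : ℝ} (hρ : 0 < ρ)
    (hball : ∀ y ∈ ν.support, 0 ≤ ⟪y - x, u⟫ + ‖y - x‖ ^ 2 / (2 * ρ)) :
    ∫⁻ y in ball x ρ, ENNReal.ofReal (|⟪y - x, u⟫| / dist y x ^ (n + 1)) ∂ν < ⊤ := by
  have hup : UpperReg n C ν := (h 1).upper
  set F : Spc d → ℝ≥0∞ := fun y => ENNReal.ofReal (|⟪y - x, u⟫| / dist y x ^ (n + 1)) with hF
  set s : ℕ → ℝ := fun k => ρ / 2 ^ k with hs
  have hs0 : ∀ k, 0 < s k := fun k => by positivity
  have hsρ : ∀ k, s k ≤ ρ := fun k => div_le_self hρ.le (one_le_pow₀ one_le_two)
  set w : ℕ → Spc d → ℝ := fun k y => cut x ρ y - cut x (s k) y with hw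
  set G : ℕ → Spc d → ℝ≥0∞ := fun k y => ENNReal.ofReal (w k y) * F y with hG
  have hw0 : ∀ k y, 0 ≤ w k y := by
    intro k y
    simp only [hw, cut, ramp]
    have h1 : dist y x / ρ ≤ dist y x / s k :=
      div_le_div_of_nonneg_left dist_nonneg (hs0 k) (hsρ k)
    linarith [min_le_min (le_refl (1 : ℝ)) (max_le_max (le_refl (0 : ℝ))
      (show dist y x / ρ - 1 ≤ dist y x / s k - 1 by linarith))]
  have hwle : ∀ k y, w k y ≤ 1 := fun k y => by
    simp only [hw]
    linarith [cut_le_one x ρ y, cut_nonneg x (s k) y]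
  set B : ℝ := 2 * scaleConst n C + 2 ^ n * C * (3 * ρ) / ρ with hB
  have hbound : ∀ k, ∫⁻ y, G k y ∂ν ≤ ENNReal.ofReal B := by
    intro k
    have hwc : Continuous (w k) := (continuous_cut x ρ).sub (continuous_cut x (s k))
    have hws : HasCompactSupport (w k) :=
      (hasCompactSupport_cut x hρ).sub (hasCompactSupport_cut x (hs0 k))
    have hwz : ∀ y, dist y x ≤ s k → w k y = 0 := fun y hy => by
      simp only [hw]
      rw [cut_eq_one hρ (hy.trans (hsρ k)), cut_eq_one (hs0 k) hy, sub_self]
    have hdom : ∀ (q : Spc d → ℝ), Measurable q →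
        (∀ y, |q y| ≤ ((s k) ^ n)⁻¹ + (3 * ρ) ^ 2 * ((s k) ^ (n + 1))⁻¹ ∨ w k y = 0) →
        Integrable (fun y => w k y * q y) ν := by
      intro q hq hqb
      refine ((hwc.abs.integrable_of_hasCompactSupport hws.norm).mul_const
        (((s k) ^ n)⁻¹ + (3 * ρ) ^ 2 * ((s k) ^ (n + 1))⁻¹)).mono'
        (hwc.measurable.mul hq).aestronglyMeasurable (Eventually.of_forall fun y => ?_)
      rw [Real.norm_eq_abs, abs_mul]
      rcases hqb y with hb | hb
      · exact mul_le_mul_of_nonneg_left hb (abs_nonneg _)
      · simp [hb]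
    have hsign : ∀ y, ⟪u, riesz n (x - y)⟫ = -(⟪y - x, u⟫ / dist y x ^ (n + 1)) := by
      intro y
      rw [inner_riesz, ← neg_sub y x, inner_neg_right, norm_neg, dist_eq_norm, real_inner_comm,
        neg_div]
    have hi1 : Integrable (fun y => w k y * (⟪y - x, u⟫ / dist y x ^ (n + 1))) ν := by
      refine hdom _ (by fun_prop) fun y => ?_
      by_cases hy : dist y x ≤ s k
      · exact Or.inr (hwz y hy)
      left
      have hpos : 0 < dist y x := (hs0 k).trans (not_le.mp hy)
      refine le_add_of_le_of_nonneg ?_ (by positivity)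
      rw [abs_div, abs_of_pos (pow_pos hpos _)]
      calc |⟪y - x, u⟫| / dist y x ^ (n + 1) ≤ dist y x / dist y x ^ (n + 1) := by
            refine div_le_div_of_nonneg_right ?_ (by positivity)
            rw [dist_eq_norm]
            exact (abs_real_inner_le_norm _ _).trans (by rw [hu, mul_one])
        _ = (dist y x ^ n)⁻¹ := by
            rw [pow_succ]
            field_simp
        _ ≤ _ := inv_anti₀ (pow_pos (hs0 k) n) (pow_le_pow_left₀ (hs0 k).le (not_le.mp hy).le n)
    have hi2 : Integrable (fun y => w k y * (dist y x ^ 2 / dist y x ^ (n + 1))) ν := by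
      refine hdom _ (by fun_prop) fun y => ?_
      by_cases hy : dist y x ≤ s k
      · exact Or.inr (hwz y hy)
      by_cases hy2 : 2 * ρ ≤ dist y x
      · refine Or.inr ?_
        simp only [hw]
        rw [cut_eq_zero hρ hy2, cut_eq_zero (hs0 k) (by linarith [hsρ k]), sub_self]
      left
      refine le_add_of_nonneg_of_le (inv_nonneg.mpr (by positivity)) ?_
      rw [abs_of_nonneg (by positivity), div_eq_mul_inv]
      exact mul_le_mul (pow_le_pow_left₀ dist_nonneg (by linarith [not_le.mp hy2]) 2)
        (inv_anti₀ (pow_pos (hs0 k) _) (pow_le_pow_left₀ (hs0 k).le (not_le.mp hy).le _))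
        (by positivity) (by positivity)
    have hae : ∀ᵐ y ∂ν, w k y * (|⟪y - x, u⟫| / dist y x ^ (n + 1)) ≤
        w k y * (⟪y - x, u⟫ / dist y x ^ (n + 1))
          + 1 / ρ * (w k y * (dist y x ^ 2 / dist y x ^ (n + 1))) := by
      filter_upwards [Measure.support_mem_ae (μ := ν)] with y hy
      have h1 := hball y hy
      rw [← dist_eq_norm] at h1
      have h2 : |⟪y - x, u⟫| ≤ ⟪y - x, u⟫ + 1 / ρ * dist y x ^ 2 := by
        have hd : 0 ≤ dist y x ^ 2 / (2 * ρ) := by positivity
        have he : 1 / ρ * dist y x ^ 2 = 2 * (dist y x ^ 2 / (2 * ρ)) := by field_simp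
        rw [abs_le, he]
        constructor <;> linarith
      have h3 := mul_le_mul_of_nonneg_left
        (div_le_div_of_nonneg_right h2 (pow_nonneg (dist_nonneg (x := y) (y := x)) (n + 1)))
        (hw0 k y)
      calc _ ≤ w k y * ((⟪y - x, u⟫ + 1 / ρ * dist y x ^ 2) / dist y x ^ (n + 1)) := h3
        _ = _ := by ring
    have hGeq : ∫⁻ y, G k y ∂ν
        = ∫⁻ y, ENNReal.ofReal (w k y * (|⟪y - x, u⟫| / dist y x ^ (n + 1))) ∂ν :=
      lintegral_congr fun y => by simp only [hG, hF]; rw [ENNReal.ofReal_mul (hw0 k y)]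
    rw [hGeq]
    have hi0 : Integrable (fun y => w k y * (|⟪y - x, u⟫| / dist y x ^ (n + 1))) ν := by
      have e : (fun y => w k y * (|⟪y - x, u⟫| / dist y x ^ (n + 1)))
          = fun y => |w k y * (⟪y - x, u⟫ / dist y x ^ (n + 1))| := by
        funext y
        rw [abs_mul, abs_of_nonneg (hw0 k y), abs_div, abs_of_nonneg
          (pow_nonneg (dist_nonneg (x := y) (y := x)) (n + 1))]
      rw [e]
      exact hi1.abs
    rw [← ofReal_integral_eq_lintegral_ofReal hi0
      (Eventually.of_forall fun y => mul_nonneg (hw0 k y) (by positivity))]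
    refine ENNReal.ofReal_le_ofReal ((integral_mono_ae hi0 (hi1.add (hi2.const_mul (1 / ρ))) hae).trans ?_)
    simp only [Pi.add_apply]
    rw [integral_add hi1 (hi2.const_mul (1 / ρ)), integral_const_mul, hB]
    refine add_le_add ?_ ?_
    · have hT := norm_annulus_le hn h hRB hR hx (hs0 k) (hsρ k)
      have hiv : Integrable (fun y => w k y • riesz n (x - y)) ν := by
        refine ((hwc.abs.integrable_of_hasCompactSupport hws.norm).mul_const
          (((s k) ^ n)⁻¹)).mono'
          (hwc.measurable.smul (by fun_prop : Measurable fun y => riesz n (x - y))).aestronglyMeasurable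
          (Eventually.of_forall fun y => ?_)
        rw [norm_smul, Real.norm_eq_abs]
        by_cases hy : dist y x ≤ s k
        · simp [hwz y hy]
        · refine mul_le_mul_of_nonneg_left ((norm_riesz_le _).trans (inv_anti₀ (pow_pos (hs0 k) n)
            (pow_le_pow_left₀ (hs0 k).le ?_ n))) (abs_nonneg _)
          rw [← dist_eq_norm, dist_comm]
          exact (not_le.mp hy).le
      have he : ∫ y, w k y * (⟪y - x, u⟫ / dist y x ^ (n + 1)) ∂ν
          = -⟪u, ∫ y, w k y • riesz n (x - y) ∂ν⟫ := by
        rw [← integral_inner hiv u, ← integral_neg]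
        refine integral_congr_ae (Eventually.of_forall fun y => ?_)
        simp only [real_inner_smul_right, hsign]
        ring
      rw [he]
      refine (neg_le_abs _).trans ((abs_real_inner_le_norm _ _).trans ?_)
      rw [hu, one_mul]
      exact hT
    · rw [show 2 ^ n * C * (3 * ρ) / ρ = 1 / ρ * (2 ^ n * C * (3 * ρ)) by ring]
      refine mul_le_mul_of_nonneg_left ?_ (by positivity)
      rw [integral_eq_lintegral_of_nonneg_ae
        (Eventually.of_forall fun y => mul_nonneg (hw0 k y) (by positivity))
        hi2.aestronglyMeasurable]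
      refine ENNReal.toReal_le_of_le_ofReal (mul_nonneg (mul_nonneg (by positivity) (h 1).nonneg)
        (by positivity)) (le_trans ?_ (hup.lintegral_near hn x (show 0 < 3 * ρ by linarith)))
      rw [← lintegral_indicator measurableSet_ball]
      refine lintegral_mono fun y => ?_
      by_cases hy : y ∈ ball x (3 * ρ)
      · rw [indicator_of_mem hy]
        refine ENNReal.ofReal_le_ofReal ((mul_le_of_le_one_left (by positivity) (hwle k y)).trans ?_)
        rcases eq_or_ne (dist y x) 0 with hd | hd
        · rw [hd, zero_pow two_ne_zero, zero_div]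
          positivity
        · obtain ⟨m, rfl⟩ : ∃ m, n = m + 1 := ⟨n - 1, by omega⟩
          rw [Nat.add_sub_cancel, pow_succ, pow_succ]
          rcases m with _ | m
          · simp only [pow_zero, one_mul, inv_one]
            field_simp
            exact le_rfl
          · field_simp
            exact le_of_eq (by ring)
      · rw [indicator_of_notMem hy, nonpos_iff_eq_zero, ENNReal.ofReal_eq_zero]
        rw [mem_ball, not_lt] at hy
        simp only [hw]
        rw [cut_eq_zero hρ (by linarith), cut_eq_zero (hs0 k) (by linarith [hsρ k]), sub_self,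
          zero_mul]
  have hFm : Measurable F := by simp only [hF]; fun_prop
  calc ∫⁻ y in ball x ρ, F y ∂ν = ∫⁻ y, (ball x ρ).indicator F y ∂ν :=
        (lintegral_indicator measurableSet_ball _).symm
    _ ≤ ∫⁻ y, liminf (fun k => G k y) atTop ∂ν := by
        refine lintegral_mono fun y => ?_
        by_cases hy : y ∈ ball x ρ
        · rw [indicator_of_mem hy]
          rcases eq_or_ne y x with rfl | hyx
          · simp [hF]
          refine le_of_eq (Tendsto.liminf_eq ?_).symm
          refine tendsto_const_nhds.congr' ?_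
          have hd : 0 < dist y x := dist_pos.mpr hyx
          have hlim : Tendsto s atTop (𝓝 0) :=
            Tendsto.const_div_atTop (tendsto_pow_atTop_atTop_of_one_lt one_lt_two) ρ
          filter_upwards [hlim.eventually (Iio_mem_nhds (half_pos hd))] with k hk
          simp only [hG, hw]
          rw [cut_eq_one hρ (mem_ball.mp hy).le, cut_eq_zero (hs0 k) (by linarith), sub_zero,
            ENNReal.ofReal_one, one_mul]
        · simp [hy]
    _ ≤ liminf (fun k => ∫⁻ y, G k y ∂ν) atTop :=
        lintegral_liminf_le fun k =>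
          (((continuous_cut x ρ).sub (continuous_cut x (s k))).measurable.ennreal_ofReal).mul hFm
    _ ≤ ENNReal.ofReal B :=
        (Filter.liminf_le_liminf (Eventually.of_forall hbound)).trans_eq (liminf_const _)
    _ < ⊤ := ENNReal.ofReal_lt_top

end Touching

end Vale.Agent.P120
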